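import Vale.Agent.P237.Petty.Cor.Grid.Tiny.N14.Cert

/-!
# P237: a cell down to zero in dimension 14, subdivisions
-/

namespace Vale.Agent.P237.Petty.Cor.Grid.Tiny.N14

def covers20 : cell.Covers Vale.Agent.P237.Petty.Cor.Grid.N14.table row20.1 :=
  ⟨(.cut .d 0 (.cut .v 16777216 (.cut .d (-8388608) (.void 1 ⟨⟨0, 0, 0, 0, 0, 100000, 0, 0, 0, ⟨0, 0⟩, 0⟩, 0, 0⟩ 0 0) (.cut .d (-4194304) (.void 1 ⟨⟨0, 0, 0, 0, 0, 100000, 0, 0, 0, ⟨0, 0⟩, 0⟩, 0, 0⟩ 0 0) (.cut .d (-2097152) (.void 1 ⟨⟨0, 0, 0, 0, 0, 100000, 0, 0, 0, ⟨0, 0⟩, 0⟩, 0, 0⟩ 0 0) (.cut .d (-1048576) (.void 1 ⟨⟨0, 0, 0, 0, 0, 100000, 0, 0, 0, ⟨0, 0⟩, 0⟩, 0, 0⟩ 0 0) (.cut .d (-524288)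 (.void 1 ⟨⟨0, 0, 0, 0, 0, 100000, 0, 0, 0, ⟨0, 0⟩, 0⟩, 0, 0⟩ 0 0) (.cut .d (-262144) (.void 1 ⟨⟨0, 0, 0, 0, 0, 100000, 0, 0, 0, ⟨0, 0⟩, 0⟩, 0, 0⟩ 0 0) (.cut .d (-131072) (.void 1 ⟨⟨0, 0, 0, 0, 0, 100000, 0, 0, 0, ⟨0, 0⟩, 0⟩, 0, 0⟩ 0 0) (.cut .d (-65536) (.void 1 ⟨⟨0, 0, 0, 0, 0, 100000, 0, 0, 0, ⟨0, 0⟩, 0⟩, 0, 0⟩ 0 0) (.cut .d (-32768) (.void 1 ⟨⟨0, 0, 0, 0, 0, 100000, 0, 0, 0, ⟨0, 0⟩, 0⟩, 0, 0⟩ 0 0) (.cut .d (-16384) (.void 1 ⟨⟨0, 0, 0, 0, 0, 100000, 0, 0, 0, ⟨0, 0⟩, 0⟩, 0, 0⟩ 0 0) (.cut .v 8388608 (.cut .v 4194304 (.void 4 ⟨⟨0, 0, 100000, 0, 0, 0, 0, 0, 0, ⟨0, 0⟩, 0⟩, 0, 0⟩ 0 0) (.pos 5 .mm ⟨⟨0, 0, 9746478, 0, 0, 216366855, 0, 0, 0,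 ⟨0, 0⟩, 0⟩, 0, 0⟩ 0 0)) (.cut .s 12615680 (.pos 3 .mm ⟨⟨0, 0, 0, 0, 0, 583067182, 0, 0, 0, ⟨0, 0⟩, 0⟩, 0, 0⟩ 0 0) (.pos 3 .mm ⟨⟨0, 0, 0, 0, 0, 623540249, 0, 0, 0, ⟨0, 0⟩, 0⟩, 0, 0⟩ 0 0))))))))))))) (.cut .v 268435456 (.cut .v 67108864 (.cut .v 33554432 (.cut .v 25165824 (.cut .d (-8388608) (.void 25 ⟨⟨100217, 0, 0, 0, 0, 0, 0, 0, 0, ⟨0, 0⟩, 0⟩, 0, 0⟩ 0 0) (.cut .d (-4194304) (.void 25 ⟨⟨100000, 0, 0, 0, 0, 0, 0, 0, 0, ⟨0, 0⟩, 0⟩, 0, 0⟩ 0 0) (.cut .v 20971520 (.cut .d (-2097152) (.void 27 ⟨⟨100000, 0, 0, 0, 0, 0, 0, 0, 0, ⟨0, 0⟩, 0⟩, 0, 0⟩ 0 0) (.cut .v 18874368 (.cut .d (-1048576) (.void 29 ⟨⟨100000, 0, 0, 0, 0, 0, 0, 0, 0, ⟨0, 0⟩, 0⟩,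 0, 0⟩ 0 0) (.cut .v 17825792 (.cut .d (-524288) (.void 31 ⟨⟨100000, 0, 0, 0, 0, 0, 0, 0, 0, ⟨0, 0⟩, 0⟩, 0, 0⟩ 0 0) (.cut .v 17301504 (.cut .d (-262144) (.void 33 ⟨⟨100000, 0, 0, 0, 0, 0, 0, 0, 0, ⟨0, 0⟩, 0⟩, 0, 0⟩ 0 0) (.cut .v 17039360 (.cut .d (-131072) (.void 35 ⟨⟨100000, 0, 0, 0, 0, 0, 0, 0, 0, ⟨0, 0⟩, 0⟩, 0, 0⟩ 0 0) (.cut .d (-65536) (.void 35 ⟨⟨100000, 0, 0, 0, 0, 0, 0, 0, 0, ⟨0, 0⟩, 0⟩, 0, 0⟩ 0 0) (.cut .d (-32768) (.void 35 ⟨⟨100000, 0, 0, 0, 0, 0, 0, 0, 0, ⟨0, 0⟩, 0⟩, 0, 0⟩ 0 0) (.cut .d (-16384) (.void 35 ⟨⟨0, 0, 0, 0, 0, 100000, 0, 0, 0, ⟨0, 0⟩, 0⟩, 0, 0⟩ 0 0) (.cut .v 16908288 (.cut .s 12615680 (.cut .v 16842752 (.cut .s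 12566528 (.cut .s 12541952 (.cut .d (-8192) (.cut .s 12529664 (.pos 39 .mp ⟨⟨246211739, 0, 0, 0, 0, 164680255, 0, 0, 0, ⟨0, 0⟩, 0⟩, 0, 0⟩ 0 0) (.pos 39 .mp ⟨⟨248172481, 0, 0, 0, 0, 165777425, 0, 0, 0, ⟨0, 0⟩, 0⟩, 0, 0⟩ 0 0)) (.cut .v 16809984 (.cut .l 131821 (.cut .s 12529664 (.cut .s 12523520 (.pos 51 .mp ⟨⟨252144127, 0, 0, 0, 0, 147931998, 0, 0, 0, ⟨0, 0⟩, 0⟩, 0, 0⟩ 0 0) (.pos 51 .mp ⟨⟨253144909, 0, 0, 0, 0, 148459615, 0, 0, 0, ⟨0, 0⟩, 0⟩, 0, 0⟩ 0 0)) (.cut .s 12535808 (.pos 51 .mp ⟨⟨254149976, 0, 0, 0, 0, 148993566, 0, 0, 0, ⟨0, 0⟩, 0⟩, 0, 0⟩ 0 0) (.pos 51 .mp ⟨⟨255159346, 0, 0, 0, 0, 149533833, 0, 0, 0, ⟨0, 0⟩, 0⟩, 0, 0⟩ 0 0))) (.pos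 51 .mp ⟨⟨252175352, 0, 0, 0, 0, 146530410, 0, 0, 0, ⟨0, 0⟩, 0⟩, 0, 0⟩ 0 0)) (.pos 52 .mp ⟨⟨339228186, 0, 0, 0, 0, 0, 0, 0, 0, ⟨0, 0⟩, 0⟩, 0, 0⟩ 0 0))) (.cut .d (-8192) (.cut .d (-12288) (.pos 39 .mp ⟨⟨252300898, 0, 0, 0, 0, 169058963, 0, 0, 0, ⟨0, 0⟩, 0⟩, 0, 0⟩ 0 0) (.cut .v 16809984 (.cut .s 12554240 (.pos 51 .mp ⟨⟨249198564, 0, 0, 0, 0, 166846298, 0, 0, 0, ⟨0, 0⟩, 0⟩, 0, 0⟩ 0 0) (.pos 51 .mp ⟨⟨251185440, 0, 0, 0, 0, 168022071, 0, 0, 0, ⟨0, 0⟩, 0⟩, 0, 0⟩ 0 0)) (.pos 52 .mp ⟨⟨289995425, 0, 0, 0, 0, 99591013, 0, 0, 0, ⟨0, 0⟩, 0⟩, 0, 0⟩ 0 0))) (.cut .v 16809984 (.cut .l 131821 (.cut .s 12554240 (.cut .d (-4096) (.pos 51 .mp ⟨⟨250321481,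 0, 0, 0, 0, 165276502, 0, 0, 0, ⟨0, 0⟩, 0⟩, 0, 0⟩ 0 0) (.cut .s 12548096 (.pos 51 .mp ⟨⟨254114235, 0, 0, 0, 0, 153472829, 0, 0, 0, ⟨0, 0⟩, 0⟩, 0, 0⟩ 0 0) (.pos 51 .mp ⟨⟨255175105, 0, 0, 0, 0, 153924222, 0, 0, 0, ⟨0, 0⟩, 0⟩, 0, 0⟩ 0 0))) (.cut .d (-4096) (.pos 51 .mp ⟨⟨252308340, 0, 0, 0, 0, 166454715, 0, 0, 0, ⟨0, 0⟩, 0⟩, 0, 0⟩ 0 0) (.cut .s 12560384 (.pos 51 .mp ⟨⟨256236523, 0, 0, 0, 0, 154390302, 0, 0, 0, ⟨0, 0⟩, 0⟩, 0, 0⟩ 0 0) (.pos 51 .mp ⟨⟨257298427, 0, 0, 0, 0, 154871229, 0, 0, 0, ⟨0, 0⟩, 0⟩, 0, 0⟩ 0 0)))) (.pos 51 .mp ⟨⟨256211002, 0, 0, 0, 0, 148811684, 0, 0, 0, ⟨0, 0⟩, 0⟩, 0, 0⟩ 0 0)) (.pos 52 .mp ⟨⟨344296060, 0, 0, 0, 0, 0,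 0, 0, 0, ⟨0, 0⟩, 0⟩, 0, 0⟩ 0 0)))) (.cut .s 12591104 (.cut .d (-8192) (.cut .d (-12288) (.pos 39 .mp ⟨⟨256267011, 0, 0, 0, 0, 171720133, 0, 0, 0, ⟨0, 0⟩, 0⟩, 0, 0⟩ 0 0) (.cut .v 16809984 (.cut .s 12578816 (.pos 51 .mp ⟨⟨253189102, 0, 0, 0, 0, 169238180, 0, 0, 0, ⟨0, 0⟩, 0⟩, 0, 0⟩ 0 0) (.pos 51 .mp ⟨⟨255209691, 0, 0, 0, 0, 170495016, 0, 0, 0, ⟨0, 0⟩, 0⟩, 0, 0⟩ 0 0)) (.pos 52 .mp ⟨⟨293910803, 0, 0, 0, 0, 102157971, 0, 0, 0, ⟨0, 0⟩, 0⟩, 0, 0⟩ 0 0))) (.cut .v 16809984 (.cut .l 131821 (.cut .s 12578816 (.cut .d (-4096) (.pos 51 .mp ⟨⟨254312008, 0, 0, 0, 0, 167673259, 0, 0, 0, ⟨0, 0⟩, 0⟩, 0, 0⟩ 0 0) (.cut .s 12572672 (.pos 51 .mp ⟨⟨258358600,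 0, 0, 0, 0, 155371374, 0, 0, 0, ⟨0, 0⟩, 0⟩, 0, 0⟩ 0 0) (.pos 51 .mp ⟨⟨259382612, 0, 0, 0, 0, 155958036, 0, 0, 0, ⟨0, 0⟩, 0⟩, 0, 0⟩ 0 0))) (.cut .d (-4096) (.pos 51 .mp ⟨⟨256332628, 0, 0, 0, 0, 168932524, 0, 0, 0, ⟨0, 0⟩, 0⟩, 0, 0⟩ 0 0) (.cut .s 12584960 (.pos 51 .mp ⟨⟨260410979, 0, 0, 0, 0, 156552143, 0, 0, 0, ⟨0, 0⟩, 0⟩, 0, 0⟩ 0 0) (.pos 51 .mp ⟨⟨261443719, 0, 0, 0, 0, 157153694, 0, 0, 0, ⟨0, 0⟩, 0⟩, 0, 0⟩ 0 0)))) (.pos 51 .mp ⟨⟨260315655, 0, 0, 0, 0, 151147409, 0, 0, 0, ⟨0, 0⟩, 0⟩, 0, 0⟩ 0 0)) (.pos 52 .mp ⟨⟨349516560, 0, 0, 0, 0, 0, 0, 0, 0, ⟨0, 0⟩, 0⟩, 0, 0⟩ 0 0))) (.cut .d (-8192) (.cut .d (-12288) (.pos 39 .mp ⟨⟨260296042, 0, 0,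 0, 0, 174558355, 0, 0, 0, ⟨0, 0⟩, 0⟩, 0, 0⟩ 0 0) (.cut .l 131821 (.void 39 ⟨⟨0, 0, 0, 0, 0, 100000, 0, 0, 0, ⟨0, 0⟩, 0⟩, 0, 0⟩ 0 0) (.cut .s 12603392 (.pos 39 .mp ⟨⟨258592344, 0, 0, 0, 0, 169565738, 0, 0, 0, ⟨0, 0⟩, 0⟩, 0, 0⟩ 0 0) (.pos 39 .mp ⟨⟨260597644, 0, 0, 0, 0, 171029236, 0, 0, 0, ⟨0, 0⟩, 0⟩, 0, 0⟩ 0 0)))) (.cut .v 16809984 (.cut .l 131821 (.cut .s 12603392 (.cut .d (-4096) (.pos 51 .mp ⟨⟨258370341, 0, 0, 0, 0, 170232905, 0, 0, 0, ⟨0, 0⟩, 0⟩, 0, 0⟩ 0 0) (.cut .s 12597248 (.pos 51 .mp ⟨⟨262480851, 0, 0, 0, 0, 157762689, 0, 0, 0, ⟨0, 0⟩, 0⟩, 0, 0⟩ 0 0) (.pos 51 .mp ⟨⟨263522393, 0, 0, 0, 0, 158379126, 0, 0, 0, ⟨0, 0⟩, 0⟩, 0, 0⟩ 0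 0))) (.cut .d (-4096) (.pos 51 .mp ⟨⟨260425291, 0, 0, 0, 0, 171574802, 0, 0, 0, ⟨0, 0⟩, 0⟩, 0, 0⟩ 0 0) (.cut .s 12609536 (.pos 51 .mp ⟨⟨264568364, 0, 0, 0, 0, 159003004, 0, 0, 0, ⟨0, 0⟩, 0⟩, 0, 0⟩ 0 0) (.pos 51 .mp ⟨⟨265618783, 0, 0, 0, 0, 159634322, 0, 0, 0, ⟨0, 0⟩, 0⟩, 0, 0⟩ 0 0)))) (.pos 51 .mp ⟨⟨264490477, 0, 0, 0, 0, 153534171, 0, 0, 0, ⟨0, 0⟩, 0⟩, 0, 0⟩ 0 0)) (.pos 52 .mp ⟨⟨354892131, 0, 0, 0, 0, 0, 0, 0, 0, ⟨0, 0⟩, 0⟩, 0, 0⟩ 0 0))))) (.pos 40 .mp ⟨⟨358215248, 0, 0, 0, 0, 0, 0, 0, 0, ⟨0, 0⟩, 0⟩, 0, 0⟩ 0 0)) (.cut .v 16842752 (.cut .s 12664832 (.cut .s 12640256 (.cut .d (-8192) (.cut .d (-12288) (.pos 39 .mp ⟨⟨264388970, 0, 0, 0,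 0, 177577290, 0, 0, 0, ⟨0, 0⟩, 0⟩, 0, 0⟩ 0 0) (.cut .l 131821 (.void 39 ⟨⟨0, 0, 0, 0, 0, 100000, 0, 0, 0, ⟨0, 0⟩, 0⟩, 0, 0⟩ 0 0) (.cut .s 12627968 (.pos 39 .mp ⟨⟨262644683, 0, 0, 0, 0, 172469350, 0, 0, 0, ⟨0, 0⟩, 0⟩, 0, 0⟩ 0 0) (.pos 39 .mp ⟨⟨264734277, 0, 0, 0, 0, 173884536, 0, 0, 0, ⟨0, 0⟩, 0⟩, 0, 0⟩ 0 0)))) (.cut .v 16809984 (.cut .l 131821 (.cut .s 12627968 (.cut .d (-4096) (.pos 51 .mp ⟨⟨262497626, 0, 0, 0, 0, 172958620, 0, 0, 0, ⟨0, 0⟩, 0⟩, 0, 0⟩ 0 0) (.cut .s 12621824 (.pos 51 .mp ⟨⟨266673668, 0, 0, 0, 0, 160273078, 0, 0, 0, ⟨0, 0⟩, 0⟩, 0, 0⟩ 0 0) (.pos 51 .mp ⟨⟨267733039, 0, 0, 0, 0, 160919271, 0, 0, 0, ⟨0, 0⟩, 0⟩, 0, 0⟩ 0 0)))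 (.cut .d (-4096) (.pos 51 .mp ⟨⟨264587492, 0, 0, 0, 0, 174384769, 0, 0, 0, ⟨0, 0⟩, 0⟩, 0, 0⟩ 0 0) (.cut .s 12634112 (.pos 51 .mp ⟨⟨268796914, 0, 0, 0, 0, 161572900, 0, 0, 0, ⟨0, 0⟩, 0⟩, 0, 0⟩ 0 0) (.pos 51 .mp ⟨⟨269865313, 0, 0, 0, 0, 162233961, 0, 0, 0, ⟨0, 0⟩, 0⟩, 0, 0⟩ 0 0)))) (.pos 51 .mp ⟨⟨268736667, 0, 0, 0, 0, 155968507, 0, 0, 0, ⟨0, 0⟩, 0⟩, 0, 0⟩ 0 0)) (.pos 52 .mp ⟨⟨360425281, 0, 0, 0, 0, 0, 0, 0, 0, ⟨0, 0⟩, 0⟩, 0, 0⟩ 0 0))) (.cut .d (-8192) (.cut .d (-12288) (.pos 39 .mp ⟨⟨268625387, 0, 0, 0, 0, 180604407, 0, 0, 0, ⟨0, 0⟩, 0⟩, 0, 0⟩ 0 0) (.cut .l 131821 (.void 39 ⟨⟨0, 0, 0, 0, 0, 100000, 0, 0, 0, ⟨0, 0⟩, 0⟩, 0, 0⟩ 0 0) (.cut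 .s 12652544 (.pos 39 .mp ⟨⟨266867249, 0, 0, 0, 0, 175273233, 0, 0, 0, ⟨0, 0⟩, 0⟩, 0, 0⟩ 0 0) (.pos 39 .mp ⟨⟨269044430, 0, 0, 0, 0, 176633868, 0, 0, 0, ⟨0, 0⟩, 0⟩, 0, 0⟩ 0 0)))) (.cut .v 16809984 (.cut .l 131821 (.cut .s 12652544 (.cut .d (-4096) (.pos 51 .mp ⟨⟨266695040, 0, 0, 0, 0, 175853661, 0, 0, 0, ⟨0, 0⟩, 0⟩, 0, 0⟩ 0 0) (.cut .s 12646400 (.pos 51 .mp ⟨⟨270938255, 0, 0, 0, 0, 162902453, 0, 0, 0, ⟨0, 0⟩, 0⟩, 0, 0⟩ 0 0) (.pos 51 .mp ⟨⟨272015760, 0, 0, 0, 0, 163578375, 0, 0, 0, ⟨0, 0⟩, 0⟩, 0, 0⟩ 0 0))) (.cut .d (-4096) (.pos 51 .mp ⟨⟨268820420, 0, 0, 0, 0, 177365717, 0, 0, 0, ⟨0, 0⟩, 0⟩, 0, 0⟩ 0 0) (.cut .s 12658688 (.pos 51 .mp ⟨⟨273097847,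 0, 0, 0, 0, 164261723, 0, 0, 0, ⟨0, 0⟩, 0⟩, 0, 0⟩ 0 0) (.pos 51 .mp ⟨⟨274184536, 0, 0, 0, 0, 164952495, 0, 0, 0, ⟨0, 0⟩, 0⟩, 0, 0⟩ 0 0)))) (.pos 51 .mp ⟨⟨273055447, 0, 0, 0, 0, 158446902, 0, 0, 0, ⟨0, 0⟩, 0⟩, 0, 0⟩ 0 0)) (.pos 52 .mp ⟨⟨366118574, 0, 0, 0, 0, 0, 0, 0, 0, ⟨0, 0⟩, 0⟩, 0, 0⟩ 0 0)))) (.cut .s 12689408 (.cut .d (-8192) (.cut .d (-12288) (.pos 39 .mp ⟨⟨272959171, 0, 0, 0, 0, 183748625, 0, 0, 0, ⟨0, 0⟩, 0⟩, 0, 0⟩ 0 0) (.cut .d (-10240) (.pos 39 .mp ⟨⟨271912061, 0, 0, 0, 0, 184136257, 0, 0, 0, ⟨0, 0⟩, 0⟩, 0, 0⟩ 0 0) (.cut .v 16809984 (.cut .s 12677120 (.pos 51 .mp ⟨⟨269839949, 0, 0, 0, 0, 180467008, 0, 0, 0, ⟨0, 0⟩, 0⟩, 0, 0⟩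 0 0) (.pos 51 .mp ⟨⟨272001228, 0, 0, 0, 0, 182064283, 0, 0, 0, ⟨0, 0⟩, 0⟩, 0, 0⟩ 0 0)) (.pos 52 .mp ⟨⟨309585866, 0, 0, 0, 0, 113844197, 0, 0, 0, ⟨0, 0⟩, 0⟩, 0, 0⟩ 0 0)))) (.cut .v 16809984 (.cut .l 131821 (.cut .s 12677120 (.cut .d (-4096) (.pos 51 .mp ⟨⟨270963787, 0, 0, 0, 0, 178921360, 0, 0, 0, ⟨0, 0⟩, 0⟩, 0, 0⟩ 0 0) (.cut .s 12670976 (.pos 51 .mp ⟨⟨275275847, 0, 0, 0, 0, 165650689, 0, 0, 0, ⟨0, 0⟩, 0⟩, 0, 0⟩ 0 0) (.pos 51 .mp ⟨⟨276371799, 0, 0, 0, 0, 166356301, 0, 0, 0, ⟨0, 0⟩, 0⟩, 0, 0⟩ 0 0))) (.cut .d (-4096) (.pos 51 .mp ⟨⟨273125294, 0, 0, 0, 0, 180521019, 0, 0, 0, ⟨0, 0⟩, 0⟩, 0, 0⟩ 0 0) (.cut .s 12683264 (.pos 51 .mp ⟨⟨277472413,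 0, 0, 0, 0, 167069330, 0, 0, 0, ⟨0, 0⟩, 0⟩, 0, 0⟩ 0 0) (.pos 51 .mp ⟨⟨278538570, 0, 0, 0, 0, 167866545, 0, 0, 0, ⟨0, 0⟩, 0⟩, 0, 0⟩ 0 0)))) (.pos 51 .mp ⟨⟨277448073, 0, 0, 0, 0, 160965794, 0, 0, 0, ⟨0, 0⟩, 0⟩, 0, 0⟩ 0 0)) (.pos 52 .mp ⟨⟨371974640, 0, 0, 0, 0, 0, 0, 0, 0, ⟨0, 0⟩, 0⟩, 0, 0⟩ 0 0))) (.cut .d (-8192) (.cut .s 12701696 (.pos 39 .mp ⟨⟨275221700, 0, 0, 0, 0, 183791333, 0, 0, 0, ⟨0, 0⟩, 0⟩, 0, 0⟩ 0 0) (.pos 39 .mp ⟨⟨277427567, 0, 0, 0, 0, 185479899, 0, 0, 0, ⟨0, 0⟩, 0⟩, 0, 0⟩ 0 0)) (.cut .v 16809984 (.cut .l 131821 (.cut .s 12701696 (.cut .d (-4096) (.pos 51 .mp ⟨⟨275305100, 0, 0, 0, 0, 182165128, 0, 0, 0, ⟨0, 0⟩, 0⟩, 0, 0⟩ 0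 0) (.cut .s 12695552 (.pos 51 .mp ⟨⟨279595381, 0, 0, 0, 0, 168698772, 0, 0, 0, ⟨0, 0⟩, 0⟩, 0, 0⟩ 0 0) (.pos 51 .mp ⟨⟨280651162, 0, 0, 0, 0, 169549740, 0, 0, 0, ⟨0, 0⟩, 0⟩, 0, 0⟩ 0 0))) (.cut .s 12707840 (.cut .s 12704768 (.pos 51 .mp ⟨⟨283539898, 0, 0, 0, 0, 166698422, 0, 0, 0, ⟨0, 0⟩, 0⟩, 0, 0⟩ 0 0) (.pos 51 .mp ⟨⟨284106839, 0, 0, 0, 0, 167052656, 0, 0, 0, ⟨0, 0⟩, 0⟩, 0, 0⟩ 0 0)) (.pos 51 .mp ⟨⟨285244359, 0, 0, 0, 0, 167147397, 0, 0, 0, ⟨0, 0⟩, 0⟩, 0, 0⟩ 0 0))) (.pos 51 .mp ⟨⟨281915828, 0, 0, 0, 0, 163521565, 0, 0, 0, ⟨0, 0⟩, 0⟩, 0, 0⟩ 0 0)) (.pos 52 .mp ⟨⟨377996171, 0, 0, 0, 0, 0, 0, 0, 0, ⟨0, 0⟩, 0⟩, 0, 0⟩ 0 0))))) (.pos 40 .mp ⟨⟨380748853,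 0, 0, 0, 0, 0, 0, 0, 0, ⟨0, 0⟩, 0⟩, 0, 0⟩ 0 0))) (.pos 38 .mp ⟨⟨378851319, 0, 0, 0, 0, 0, 0, 0, 0, ⟨0, 0⟩, 0⟩, 0, 0⟩ 0 0)))))) (.pos 36 .mp ⟨⟨418547875, 0, 0, 0, 0, 0, 0, 0, 0, ⟨0, 0⟩, 0⟩, 0, 0⟩ 0 0))) (.void 34 ⟨⟨100000, 0, 0, 0, 0, 0, 0, 0, 0, ⟨0, 0⟩, 0⟩, 0, 0⟩ 0 0))) (.void 32 ⟨⟨100000, 0, 0, 0, 0, 0, 0, 0, 0, ⟨0, 0⟩, 0⟩, 0, 0⟩ 0 0))) (.void 30 ⟨⟨100000, 0, 0, 0, 0, 0, 0, 0, 0, ⟨0, 0⟩, 0⟩, 0, 0⟩ 0 0))) (.void 28 ⟨⟨100000, 0, 0, 0, 0, 0, 0, 0, 0, ⟨0, 0⟩, 0⟩, 0, 0⟩ 0 0)))) (.void 26 ⟨⟨100000, 0, 0, 0, 0, 0, 0, 0, 0, ⟨0, 0⟩, 0⟩, 0, 0⟩ 0 0)) (.void 127 ⟨⟨100000, 0, 0, 0, 0, 0, 0, 0, 0, ⟨0, 0⟩, 0⟩, 0, 0⟩ 0 0)) (.void 134 ⟨⟨100000, 0, 0,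 0, 0, 0, 0, 0, 0, ⟨0, 0⟩, 0⟩, 0, 0⟩ 0 0)) (.void 141 ⟨⟨95191, 0, 0, 4809, 0, 0, 0, 0, 0, ⟨0, 0⟩, 0⟩, 0, 0⟩ 0 0))) (.cut .v 16777216 (.cut .v 8388608 (.cut .v 4194304 (.cut .v 2097152 (.cut .v 1048576 (.pos 137 .pm ⟨⟨0, 0, 24086166, 0, 0, 0, 0, 0, 0, ⟨0, 0⟩, 0⟩, 0, 11655⟩ 0 0) (.pos 138 .pm ⟨⟨0, 0, 28304009, 0, 0, 0, 0, 0, 0, ⟨0, 0⟩, 0⟩, 0, 22414⟩ 0 0)) (.pos 7 .pm ⟨⟨0, 0, 35558519, 0, 0, 0, 0, 0, 0, ⟨0, 0⟩, 0⟩, 0, 32376⟩ 0 0)) (.pos 5 .pm ⟨⟨0, 0, 9630686, 0, 0, 0, 0, 0, 0, ⟨0, 0⟩, 0⟩, 0, 0⟩ 0 0)) (.pos 3 .pm ⟨⟨0, 0, 0, 0, 0, 0, 0, 0, 0, ⟨0, 0⟩, 0⟩, 0, 0⟩ 0 0)) (.cut .v 268435456 (.cut .v 67108864 (.cut .d 2854763 (.cut .v 33554432 (.cut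 .d 1427381 (.cut .v 25165824 (.cut .d 713690 (.cut .d 356845 (.cut .v 20971520 (.cut .d 178422 (.cut .v 18874368 (.cut .v 17825792 (.pos 31 .pp ⟨⟨226133695, 0, 0, 0, 0, 0, 0, 0, 0, ⟨0, 0⟩, 0⟩, 13604618, 0⟩ 0 0) (.pos 32 .pp ⟨⟨383631047, 0, 0, 0, 0, 0, 0, 0, 0, ⟨0, 0⟩, 0⟩, 0, 0⟩ 0 0)) (.pos 30 .pp ⟨⟨457936420, 0, 0, 0, 0, 0, 0, 0, 0, ⟨0, 0⟩, 0⟩, 0, 0⟩ 0 0)) (.pos 27 .pp ⟨⟨292654691, 0, 0, 0, 0, 0, 0, 0, 0, ⟨0, 0⟩, 0⟩, 0, 22139⟩ 0 0)) (.pos 28 .pp ⟨⟨0, 0, 0, 0, 0, 0, 0, 0, 0, ⟨0, 0⟩, 0⟩, 62146627, 0⟩ 0 0)) (.pos 25 .pp ⟨⟨0, 0, 0, 0, 0, 0, 0, 0, 0, ⟨0, 0⟩, 0⟩, 35015932, 56154⟩ 0 0)) (.pos 25 .pp ⟨⟨0, 0, 0, 0, 0, 0, 0, 0, 0, ⟨0, 0⟩, 0⟩,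 0, 209430⟩ 0 0)) (.cut .d 713690 (.pos 26 .pp ⟨⟨0, 0, 0, 0, 0, 0, 0, 0, 0, ⟨0, 0⟩, 0⟩, 81130594, 0⟩ 0 0) (.pos 26 .pp ⟨⟨0, 0, 0, 0, 0, 0, 124164, 0, 0, ⟨0, 0⟩, 0⟩, 39376786, 0⟩ 0 0))) (.pos 24 .pp ⟨⟨0, 0, 0, 0, 0, 0, 0, 0, 0, ⟨0, 0⟩, 0⟩, 0, 182659⟩ 0 0)) (.cut .d 1427381 (.cut .v 50331648 (.pos 128 .pp ⟨⟨0, 0, 0, 0, 0, 0, 0, 0, 0, ⟨0, 0⟩, 0⟩, 120493677, 0⟩ 0 0) (.void 129 ⟨⟨0, 0, 0, 0, 0, 0, 0, 0, 0, ⟨0, 0⟩, 0⟩, 100000, 0⟩ 0 0)) (.pos 127 .pp ⟨⟨0, 0, 0, 0, 0, 0, 0, 0, 0, ⟨0, 0⟩, 0⟩, 53791292, 0⟩ 0 0))) (.pos 126 .pp ⟨⟨0, 0, 0, 0, 0, 0, 0, 0, 0, ⟨0, 0⟩, 0⟩, 0, 174525⟩ 0 0)) (.void 134 ⟨⟨0, 0, 0, 45788, 0, 0, 0, 0, 0, ⟨0, 0⟩, 0⟩, 54212,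 0⟩ 0 0)) (.void 141 ⟨⟨0, 0, 0, 0, 0, 0, 0, 0, 0, ⟨0, 0⟩, 0⟩, 100000, 0⟩ 0 0)))),
    by decide +kernel⟩

def covers21 : cell.Covers Vale.Agent.P237.Petty.Cor.Grid.N14.table row21.1 :=
  ⟨(.cut .d 0 (.cut .v 16777216 (.cut .d (-8388608) (.void 1 ⟨⟨0, 0, 0, 0, 0, 100000, 0, 0, 0, ⟨0, 0⟩, 0⟩, 0, 0⟩ 0 0) (.cut .d (-4194304) (.void 1 ⟨⟨0, 0, 0, 0, 0, 100000, 0, 0, 0, ⟨0, 0⟩, 0⟩, 0, 0⟩ 0 0) (.cut .d (-2097152) (.void 1 ⟨⟨0, 0, 0, 0, 0, 100000, 0, 0, 0, ⟨0, 0⟩, 0⟩, 0, 0⟩ 0 0) (.cut .d (-1048576) (.void 1 ⟨⟨0, 0, 0, 0, 0, 100000, 0, 0, 0, ⟨0, 0⟩, 0⟩, 0, 0⟩ 0 0) (.cut .d (-524288) (.void 1 ⟨⟨0, 0, 0, 0, 0, 100000, 0, 0, 0, ⟨0, 0⟩, 0⟩, 0, 0⟩ 0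 0) (.cut .d (-262144) (.void 1 ⟨⟨0, 0, 0, 0, 0, 100000, 0, 0, 0, ⟨0, 0⟩, 0⟩, 0, 0⟩ 0 0) (.cut .d (-131072) (.void 1 ⟨⟨0, 0, 0, 0, 0, 100000, 0, 0, 0, ⟨0, 0⟩, 0⟩, 0, 0⟩ 0 0) (.cut .d (-65536) (.void 1 ⟨⟨0, 0, 0, 0, 0, 100000, 0, 0, 0, ⟨0, 0⟩, 0⟩, 0, 0⟩ 0 0) (.cut .d (-32768) (.void 1 ⟨⟨0, 0, 0, 0, 0, 100000, 0, 0, 0, ⟨0, 0⟩, 0⟩, 0, 0⟩ 0 0) (.cut .d (-16384) (.void 1 ⟨⟨0, 0, 0, 0, 0, 100000, 0, 0, 0, ⟨0, 0⟩, 0⟩, 0, 0⟩ 0 0) (.cut .v 8388608 (.cut .v 4194304 (.void 4 ⟨⟨0, 0, 100000, 0, 0, 0, 0, 0, 0, ⟨0, 0⟩, 0⟩, 0, 0⟩ 0 0) (.pos 5 .mm ⟨⟨0, 0, 11223844, 0, 0, 248284695, 0, 0, 0, ⟨0, 0⟩, 0⟩, 0, 0⟩ 0 0)) (.cut .s 12845056 (.pos 3 .mm ⟨⟨0, 0,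 0, 0, 0, 674279695, 0, 0, 0, ⟨0, 0⟩, 0⟩, 0, 0⟩ 0 0) (.pos 3 .mm ⟨⟨0, 0, 0, 0, 0, 738828242, 0, 0, 0, ⟨0, 0⟩, 0⟩, 0, 0⟩ 0 0))))))))))))) (.cut .v 268435456 (.cut .v 67108864 (.cut .v 33554432 (.cut .v 25165824 (.cut .d (-8388608) (.void 25 ⟨⟨100000, 0, 0, 0, 0, 0, 0, 0, 0, ⟨0, 0⟩, 0⟩, 0, 0⟩ 0 0) (.cut .d (-4194304) (.void 25 ⟨⟨100000, 0, 0, 0, 0, 0, 0, 0, 0, ⟨0, 0⟩, 0⟩, 0, 0⟩ 0 0) (.cut .v 20971520 (.cut .d (-2097152) (.void 27 ⟨⟨100000, 0, 0, 0, 0, 0, 0, 0, 0, ⟨0, 0⟩, 0⟩, 0, 0⟩ 0 0) (.cut .v 18874368 (.cut .d (-1048576) (.void 29 ⟨⟨100000, 0, 0, 0, 0, 0, 0, 0, 0, ⟨0, 0⟩, 0⟩, 0, 0⟩ 0 0) (.cut .v 17825792 (.cut .d (-524288) (.void 31 ⟨⟨100000,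 0, 0, 0, 0, 0, 0, 0, 0, ⟨0, 0⟩, 0⟩, 0, 0⟩ 0 0) (.cut .v 17301504 (.cut .d (-262144) (.void 33 ⟨⟨100000, 0, 0, 0, 0, 0, 0, 0, 0, ⟨0, 0⟩, 0⟩, 0, 0⟩ 0 0) (.cut .v 17039360 (.cut .d (-131072) (.void 35 ⟨⟨100000, 0, 0, 0, 0, 0, 0, 0, 0, ⟨0, 0⟩, 0⟩, 0, 0⟩ 0 0) (.cut .d (-65536) (.void 35 ⟨⟨100000, 0, 0, 0, 0, 0, 0, 0, 0, ⟨0, 0⟩, 0⟩, 0, 0⟩ 0 0) (.cut .d (-32768) (.void 35 ⟨⟨100000, 0, 0, 0, 0, 0, 0, 0, 0, ⟨0, 0⟩, 0⟩, 0, 0⟩ 0 0) (.cut .d (-16384) (.void 35 ⟨⟨0, 0, 0, 0, 0, 100000, 0, 0, 0, ⟨0, 0⟩, 0⟩, 0, 0⟩ 0 0) (.cut .v 16908288 (.cut .s 12845056 (.cut .v 16842752 (.cut .s 12779520 (.cut .s 12746752 (.cut .d (-8192) (.cut .l 131821 (.void 39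 ⟨⟨0, 0, 0, 0, 0, 100000, 0, 0, 0, ⟨0, 0⟩, 0⟩, 0, 0⟩ 0 0) (.cut .s 12730368 (.pos 39 .mp ⟨⟨280213334, 0, 0, 0, 0, 185555686, 0, 0, 0, ⟨0, 0⟩, 0⟩, 0, 0⟩ 0 0) (.pos 39 .mp ⟨⟨282914062, 0, 0, 0, 0, 188026947, 0, 0, 0, ⟨0, 0⟩, 0⟩, 0, 0⟩ 0 0))) (.cut .v 16809984 (.cut .l 131821 (.cut .s 12730368 (.cut .d (-4096) (.pos 51 .mp ⟨⟨279723471, 0, 0, 0, 0, 186932971, 0, 0, 0, ⟨0, 0⟩, 0⟩, 0, 0⟩ 0 0) (.cut .s 12722176 (.pos 51 .mp ⟨⟨284555342, 0, 0, 0, 0, 171173576, 0, 0, 0, ⟨0, 0⟩, 0⟩, 0, 0⟩ 0 0) (.cut .s 12726272 (.pos 51 .mp ⟨⟨285582075, 0, 0, 0, 0, 172346241, 0, 0, 0, ⟨0, 0⟩, 0⟩, 0, 0⟩ 0 0) (.pos 51 .mp ⟨⟨286251294, 0, 0, 0, 0, 172901276, 0, 0,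 0, ⟨0, 0⟩, 0⟩, 0, 0⟩ 0 0)))) (.cut .d (-4096) (.pos 51 .mp ⟨⟨282711232, 0, 0, 0, 0, 188654488, 0, 0, 0, ⟨0, 0⟩, 0⟩, 0, 0⟩ 0 0) (.cut .v 16793600 (.cut .l 65910 (.cut .d (-2048) (.pos 57 .mp ⟨⟨282740406, 0, 0, 0, 0, 187840025, 0, 0, 0, ⟨0, 0⟩, 0⟩, 0, 0⟩ 0 0) (.cut .s 12738560 (.pos 57 .mp ⟨⟨285841750, 0, 0, 0, 0, 175737834, 0, 0, 0, ⟨0, 0⟩, 0⟩, 0, 0⟩ 0 0) (.pos 57 .mp ⟨⟨287452037, 0, 0, 0, 0, 176424412, 0, 0, 0, ⟨0, 0⟩, 0⟩, 0, 0⟩ 0 0))) (.pos 57 .mp ⟨⟨286889557, 0, 0, 0, 0, 171845208, 0, 0, 0, ⟨0, 0⟩, 0⟩, 0, 0⟩ 0 0)) (.pos 58 .mp ⟨⟨386211127, 0, 0, 0, 0, 0, 0, 0, 0, ⟨0, 0⟩, 0⟩, 0, 0⟩ 0 0)))) (.cut .s 12730368 (.pos 51 .mp ⟨⟨284942736,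 0, 0, 0, 0, 168701552, 0, 0, 0, ⟨0, 0⟩, 0⟩, 0, 0⟩ 0 0) (.pos 51 .mp ⟨⟨288001814, 0, 0, 0, 0, 170473490, 0, 0, 0, ⟨0, 0⟩, 0⟩, 0, 0⟩ 0 0))) (.pos 52 .mp ⟨⟨385526308, 0, 0, 0, 0, 0, 0, 0, 0, ⟨0, 0⟩, 0⟩, 0, 0⟩ 0 0))) (.cut .d (-8192) (.cut .d (-12288) (.pos 39 .mp ⟨⟨290340061, 0, 0, 0, 0, 192792869, 0, 0, 0, ⟨0, 0⟩, 0⟩, 0, 0⟩ 0 0) (.cut .l 131821 (.void 39 ⟨⟨0, 0, 0, 0, 0, 100000, 0, 0, 0, ⟨0, 0⟩, 0⟩, 0, 0⟩ 0 0) (.cut .s 12763136 (.pos 39 .mp ⟨⟨285968124, 0, 0, 0, 0, 189727003, 0, 0, 0, ⟨0, 0⟩, 0⟩, 0, 0⟩ 0 0) (.cut .s 12771328 (.pos 39 .mp ⟨⟨289929950, 0, 0, 0, 0, 187065195, 0, 0, 0, ⟨0, 0⟩, 0⟩, 0, 0⟩ 0 0) (.pos 39 .mp ⟨⟨291402156, 0, 0,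 0, 0, 188211243, 0, 0, 0, ⟨0, 0⟩, 0⟩, 0, 0⟩ 0 0))))) (.cut .v 16809984 (.cut .l 131821 (.cut .s 12763136 (.cut .d (-4096) (.pos 51 .mp ⟨⟨285733860, 0, 0, 0, 0, 190463959, 0, 0, 0, ⟨0, 0⟩, 0⟩, 0, 0⟩ 0 0) (.cut .v 16793600 (.cut .l 65910 (.cut .d (-2048) (.pos 57 .mp ⟨⟨285756384, 0, 0, 0, 0, 189652882, 0, 0, 0, ⟨0, 0⟩, 0⟩, 0, 0⟩ 0 0) (.cut .s 12754944 (.pos 57 .mp ⟨⟨288981823, 0, 0, 0, 0, 177303290, 0, 0, 0, ⟨0, 0⟩, 0⟩, 0, 0⟩ 0 0) (.cut .s 12759040 (.pos 57 .mp ⟨⟨290992496, 0, 0, 0, 0, 176927265, 0, 0, 0, ⟨0, 0⟩, 0⟩, 0, 0⟩ 0 0) (.pos 57 .mp ⟨⟨291707805, 0, 0, 0, 0, 177470698, 0, 0, 0, ⟨0, 0⟩, 0⟩, 0, 0⟩ 0 0)))) (.pos 57 .mp ⟨⟨289959302,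 0, 0, 0, 0, 173685654, 0, 0, 0, ⟨0, 0⟩, 0⟩, 0, 0⟩ 0 0)) (.pos 58 .mp ⟨⟨390113550, 0, 0, 0, 0, 0, 0, 0, 0, ⟨0, 0⟩, 0⟩, 0, 0⟩ 0 0))) (.cut .d (-4096) (.pos 51 .mp ⟨⟨288791765, 0, 0, 0, 0, 192362567, 0, 0, 0, ⟨0, 0⟩, 0⟩, 0, 0⟩ 0 0) (.cut .v 16793600 (.cut .l 65910 (.cut .d (-2048) (.pos 57 .mp ⟨⟨288807585, 0, 0, 0, 0, 191554831, 0, 0, 0, ⟨0, 0⟩, 0⟩, 0, 0⟩ 0 0) (.cut .v 16785408 (.cut .l 32955 (.cut .d (-1024) (.pos 75 .mp ⟨⟨288815898, 0, 0, 0, 0, 191150175, 0, 0, 0, ⟨0, 0⟩, 0⟩, 0, 0⟩ 0 0) (.cut .s 12771328 (.pos 75 .mp ⟨⟨291155725, 0, 0, 0, 0, 180642885, 0, 0, 0, ⟨0, 0⟩, 0⟩, 0, 0⟩ 0 0) (.pos 75 .mp ⟨⟨292764459, 0, 0, 0, 0, 181468041, 0,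 0, 0, ⟨0, 0⟩, 0⟩, 0, 0⟩ 0 0))) (.pos 75 .mp ⟨⟨292484453, 0, 0, 0, 0, 176278666, 0, 0, 0, ⟨0, 0⟩, 0⟩, 0, 0⟩ 0 0)) (.pos 76 .mp ⟨⟨393874495, 0, 0, 0, 0, 0, 0, 0, 0, ⟨0, 0⟩, 0⟩, 0, 0⟩ 0 0))) (.pos 57 .mp ⟨⟨293065025, 0, 0, 0, 0, 175559008, 0, 0, 0, ⟨0, 0⟩, 0⟩, 0, 0⟩ 0 0)) (.pos 58 .mp ⟨⟨394098373, 0, 0, 0, 0, 0, 0, 0, 0, ⟨0, 0⟩, 0⟩, 0, 0⟩ 0 0)))) (.cut .s 12763136 (.pos 51 .mp ⟨⟨291096843, 0, 0, 0, 0, 172278989, 0, 0, 0, ⟨0, 0⟩, 0⟩, 0, 0⟩ 0 0) (.pos 51 .mp ⟨⟨294228248, 0, 0, 0, 0, 174116808, 0, 0, 0, ⟨0, 0⟩, 0⟩, 0, 0⟩ 0 0))) (.pos 52 .mp ⟨⟨393358006, 0, 0, 0, 0, 0, 0, 0, 0, ⟨0, 0⟩, 0⟩, 0, 0⟩ 0 0)))) (.cut .s 12812288 (.cut .d (-8192) (.cut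 .d (-12288) (.pos 39 .mp ⟨⟨294216541, 0, 0, 0, 0, 287244311, 0, 0, 0, ⟨0, 0⟩, 0⟩, 0, 0⟩ 0 0) (.cut .l 131821 (.void 39 ⟨⟨0, 0, 0, 0, 0, 100000, 0, 0, 0, ⟨0, 0⟩, 0⟩, 0, 0⟩ 0 0) (.cut .l 197731 (.pos 39 .mp ⟨⟨294296797, 0, 0, 0, 0, 201125658, 0, 0, 0, ⟨0, 0⟩, 0⟩, 0, 0⟩ 0 0) (.cut .s 12795904 (.pos 39 .mp ⟨⟨299148081, 0, 0, 0, 0, 175263670, 0, 0, 0, ⟨0, 0⟩, 0⟩, 0, 0⟩ 0 0) (.pos 39 .mp ⟨⟨302385797, 0, 0, 0, 0, 177086073, 0, 0, 0, ⟨0, 0⟩, 0⟩, 0, 0⟩ 0 0))))) (.cut .v 16809984 (.cut .l 131821 (.cut .s 12795904 (.cut .d (-4096) (.pos 51 .mp ⟨⟨291885362, 0, 0, 0, 0, 194351515, 0, 0, 0, ⟨0, 0⟩, 0⟩, 0, 0⟩ 0 0) (.cut .v 16793600 (.cut .l 65910 (.cut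 .d (-2048) (.pos 57 .mp ⟨⟨291894422, 0, 0, 0, 0, 193547071, 0, 0, 0, ⟨0, 0⟩, 0⟩, 0, 0⟩ 0 0) (.cut .v 16785408 (.cut .l 32955 (.cut .d (-1024) (.pos 75 .mp ⟨⟨291899361, 0, 0, 0, 0, 193144051, 0, 0, 0, ⟨0, 0⟩, 0⟩, 0, 0⟩ 0 0) (.cut .s 12787712 (.pos 75 .mp ⟨⟨294324155, 0, 0, 0, 0, 182424209, 0, 0, 0, ⟨0, 0⟩, 0⟩, 0, 0⟩ 0 0) (.cut .s 12791808 (.pos 75 .mp ⟨⟨296834482, 0, 0, 0, 0, 181309277, 0, 0, 0, ⟨0, 0⟩, 0⟩, 0, 0⟩ 0 0) (.pos 75 .mp ⟨⟨297599511, 0, 0, 0, 0, 181835619, 0, 0, 0, ⟨0, 0⟩, 0⟩, 0, 0⟩ 0 0)))) (.pos 75 .mp ⟨⟨295613558, 0, 0, 0, 0, 178201722, 0, 0, 0, ⟨0, 0⟩, 0⟩, 0, 0⟩ 0 0)) (.pos 76 .mp ⟨⟨397940313, 0, 0, 0, 0, 0, 0, 0, 0, ⟨0,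 0⟩, 0⟩, 0, 0⟩ 0 0))) (.pos 57 .mp ⟨⟨296207152, 0, 0, 0, 0, 177464028, 0, 0, 0, ⟨0, 0⟩, 0⟩, 0, 0⟩ 0 0)) (.pos 58 .mp ⟨⟨398166523, 0, 0, 0, 0, 0, 0, 0, 0, ⟨0, 0⟩, 0⟩, 0, 0⟩ 0 0))) (.cut .d (-4096) (.pos 51 .mp ⟨⟨295015076, 0, 0, 0, 0, 196432028, 0, 0, 0, ⟨0, 0⟩, 0⟩, 0, 0⟩ 0 0) (.cut .v 16793600 (.cut .l 65910 (.cut .d (-2048) (.pos 57 .mp ⟨⟨295017318, 0, 0, 0, 0, 195630827, 0, 0, 0, ⟨0, 0⟩, 0⟩, 0, 0⟩ 0 0) (.cut .v 16785408 (.cut .l 32955 (.cut .d (-1024) (.pos 75 .mp ⟨⟨295018856, 0, 0, 0, 0, 195229416, 0, 0, 0, ⟨0, 0⟩, 0⟩, 0, 0⟩ 0 0) (.cut .v 16781312 (.cut .l 16477 (.cut .d (-512) (.pos 77 .mp ⟨⟨295019659, 0, 0, 0, 0, 195028822, 0, 0,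 0, ⟨0, 0⟩, 0⟩, 0, 0⟩ 0 0) (.cut .s 12804096 (.pos 77 .mp ⟨⟨296996269, 0, 0, 0, 0, 185186229, 0, 0, 0, ⟨0, 0⟩, 0⟩, 0, 0⟩ 0 0) (.pos 77 .mp ⟨⟨298599983, 0, 0, 0, 0, 186159243, 0, 0, 0, ⟨0, 0⟩, 0⟩, 0, 0⟩ 0 0))) (.pos 77 .mp ⟨⟨298476088, 0, 0, 0, 0, 180533422, 0, 0, 0, ⟨0, 0⟩, 0⟩, 0, 0⟩ 0 0)) (.pos 78 .mp ⟨⟨401975120, 0, 0, 0, 0, 0, 0, 0, 0, ⟨0, 0⟩, 0⟩, 0, 0⟩ 0 0))) (.pos 75 .mp ⟨⟨298779297, 0, 0, 0, 0, 180155493, 0, 0, 0, ⟨0, 0⟩, 0⟩, 0, 0⟩ 0 0)) (.pos 76 .mp ⟨⟨402090353, 0, 0, 0, 0, 0, 0, 0, 0, ⟨0, 0⟩, 0⟩, 0, 0⟩ 0 0))) (.pos 57 .mp ⟨⟨299386116, 0, 0, 0, 0, 179399459, 0, 0, 0, ⟨0, 0⟩, 0⟩, 0, 0⟩ 0 0)) (.pos 58 .mp ⟨⟨402318941, 0, 0, 0, 0,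 0, 0, 0, 0, ⟨0, 0⟩, 0⟩, 0, 0⟩ 0 0)))) (.cut .s 12795904 (.pos 51 .mp ⟨⟨297396458, 0, 0, 0, 0, 175985696, 0, 0, 0, ⟨0, 0⟩, 0⟩, 0, 0⟩ 0 0) (.pos 51 .mp ⟨⟨300601912, 0, 0, 0, 0, 177884389, 0, 0, 0, ⟨0, 0⟩, 0⟩, 0, 0⟩ 0 0))) (.pos 52 .mp ⟨⟨401520777, 0, 0, 0, 0, 0, 0, 0, 0, ⟨0, 0⟩, 0⟩, 0, 0⟩ 0 0))) (.cut .d (-8192) (.cut .d (-12288) (.void 39 ⟨⟨0, 0, 0, 0, 0, 100000, 0, 0, 0, ⟨0, 0⟩, 0⟩, 0, 0⟩ 0 0) (.cut .l 131821 (.void 39 ⟨⟨0, 0, 0, 0, 0, 100000, 0, 0, 0, ⟨0, 0⟩, 0⟩, 0, 0⟩ 0 0) (.cut .l 197731 (.pos 39 .mp ⟨⟨300497744, 0, 0, 0, 0, 206032894, 0, 0, 0, ⟨0, 0⟩, 0⟩, 0, 0⟩ 0 0) (.cut .s 12828672 (.pos 39 .mp ⟨⟨298194578, 0, 0, 0, 0, 196985437,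 0, 0, 0, ⟨0, 0⟩, 0⟩, 0, 0⟩ 0 0) (.pos 39 .mp ⟨⟨301411743, 0, 0, 0, 0, 199146858, 0, 0, 0, ⟨0, 0⟩, 0⟩, 0, 0⟩ 0 0))))) (.cut .v 16809984 (.cut .l 131821 (.cut .s 12828672 (.cut .d (-4096) (.pos 51 .mp ⟨⟨298181334, 0, 0, 0, 0, 198605346, 0, 0, 0, ⟨0, 0⟩, 0⟩, 0, 0⟩ 0 0) (.cut .v 16793600 (.cut .l 65910 (.cut .d (-2048) (.pos 57 .mp ⟨⟨298176702, 0, 0, 0, 0, 197807340, 0, 0, 0, ⟨0, 0⟩, 0⟩, 0, 0⟩ 0 0) (.cut .v 16785408 (.cut .l 32955 (.cut .d (-1024) (.pos 75 .mp ⟨⟨298174810, 0, 0, 0, 0, 197407514, 0, 0, 0, ⟨0, 0⟩, 0⟩, 0, 0⟩ 0 0) (.cut .v 16781312 (.cut .l 16477 (.cut .d (-512) (.pos 77 .mp ⟨⟨298173899, 0, 0, 0, 0, 197207713, 0, 0, 0, ⟨0, 0⟩,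 0⟩, 0, 0⟩ 0 0) (.cut .s 12820480 (.pos 77 .mp ⟨⟨300202670, 0, 0, 0, 0, 187169225, 0, 0, 0, ⟨0, 0⟩, 0⟩, 0, 0⟩ 0 0) (.pos 77 .mp ⟨⟨301804114, 0, 0, 0, 0, 188216726, 0, 0, 0, ⟨0, 0⟩, 0⟩, 0, 0⟩ 0 0))) (.pos 77 .mp ⟨⟨301672189, 0, 0, 0, 0, 182525964, 0, 0, 0, ⟨0, 0⟩, 0⟩, 0, 0⟩ 0 0)) (.pos 78 .mp ⟨⟨406209111, 0, 0, 0, 0, 0, 0, 0, 0, ⟨0, 0⟩, 0⟩, 0, 0⟩ 0 0))) (.pos 75 .mp ⟨⟨301982109, 0, 0, 0, 0, 182138715, 0, 0, 0, ⟨0, 0⟩, 0⟩, 0, 0⟩ 0 0)) (.pos 76 .mp ⟨⟨406325572, 0, 0, 0, 0, 0, 0, 0, 0, ⟨0, 0⟩, 0⟩, 0, 0⟩ 0 0))) (.pos 57 .mp ⟨⟨302602357, 0, 0, 0, 0, 181364035, 0, 0, 0, ⟨0, 0⟩, 0⟩, 0, 0⟩ 0 0)) (.pos 58 .mp ⟨⟨406556588, 0, 0, 0, 0, 0, 0, 0, 0,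 ⟨0, 0⟩, 0⟩, 0, 0⟩ 0 0))) (.cut .d (-4096) (.pos 51 .mp ⟨⟨301384575, 0, 0, 0, 0, 200872733, 0, 0, 0, ⟨0, 0⟩, 0⟩, 0, 0⟩ 0 0) (.cut .v 16793600 (.cut .l 65910 (.cut .d (-2048) (.pos 57 .mp ⟨⟨301373012, 0, 0, 0, 0, 200077871, 0, 0, 0, ⟨0, 0⟩, 0⟩, 0, 0⟩ 0 0) (.cut .v 16785408 (.cut .l 32955 (.cut .d (-1024) (.pos 75 .mp ⟨⟨301367660, 0, 0, 0, 0, 199679605, 0, 0, 0, ⟨0, 0⟩, 0⟩, 0, 0⟩ 0 0) (.cut .v 16781312 (.cut .s 12836864 (.cut .s 12832768 (.pos 77 .mp ⟨⟨306047617, 0, 0, 0, 0, 184239065, 0, 0, 0, ⟨0, 0⟩, 0⟩, 0, 0⟩ 0 0) (.pos 77 .mp ⟨⟨306893119, 0, 0, 0, 0, 184712696, 0, 0, 0, ⟨0, 0⟩, 0⟩, 0, 0⟩ 0 0)) (.pos 77 .mp ⟨⟨305356774, 0, 0, 0, 0, 189829199,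 0, 0, 0, ⟨0, 0⟩, 0⟩, 0, 0⟩ 0 0)) (.pos 78 .mp ⟨⟨410529230, 0, 0, 0, 0, 0, 0, 0, 0, ⟨0, 0⟩, 0⟩, 0, 0⟩ 0 0))) (.pos 75 .mp ⟨⟨305222437, 0, 0, 0, 0, 184150116, 0, 0, 0, ⟨0, 0⟩, 0⟩, 0, 0⟩ 0 0)) (.pos 76 .mp ⟨⟨410646945, 0, 0, 0, 0, 0, 0, 0, 0, ⟨0, 0⟩, 0⟩, 0, 0⟩ 0 0))) (.pos 57 .mp ⟨⟨305856323, 0, 0, 0, 0, 183356477, 0, 0, 0, ⟨0, 0⟩, 0⟩, 0, 0⟩ 0 0)) (.pos 58 .mp ⟨⟨410880438, 0, 0, 0, 0, 0, 0, 0, 0, ⟨0, 0⟩, 0⟩, 0, 0⟩ 0 0)))) (.cut .s 12828672 (.pos 51 .mp ⟨⟨303845054, 0, 0, 0, 0, 179811611, 0, 0, 0, ⟨0, 0⟩, 0⟩, 0, 0⟩ 0 0) (.pos 51 .mp ⟨⟨307126338, 0, 0, 0, 0, 181766073, 0, 0, 0, ⟨0, 0⟩, 0⟩, 0, 0⟩ 0 0))) (.pos 52 .mp ⟨⟨410022130, 0, 0, 0, 0,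 0, 0, 0, 0, ⟨0, 0⟩, 0⟩, 0, 0⟩ 0 0))))) (.pos 40 .mp ⟨⟨411350104, 0, 0, 0, 0, 0, 0, 0, 0, ⟨0, 0⟩, 0⟩, 0, 0⟩ 0 0)) (.cut .v 16842752 (.cut .s 12910592 (.cut .s 12877824 (.cut .d (-8192) (.cut .d (-12288) (.void 39 ⟨⟨0, 0, 0, 0, 0, 100000, 0, 0, 0, ⟨0, 0⟩, 0⟩, 0, 0⟩ 0 0) (.cut .l 131821 (.void 39 ⟨⟨0, 0, 0, 0, 0, 100000, 0, 0, 0, ⟨0, 0⟩, 0⟩, 0, 0⟩ 0 0) (.cut .s 12861440 (.pos 39 .mp ⟨⟨304666454, 0, 0, 0, 0, 202963274, 0, 0, 0, ⟨0, 0⟩, 0⟩, 0, 0⟩ 0 0) (.pos 39 .mp ⟨⟨307959164, 0, 0, 0, 0, 205303699, 0, 0, 0, ⟨0, 0⟩, 0⟩, 0, 0⟩ 0 0)))) (.cut .v 16809984 (.cut .l 131821 (.cut .s 12861440 (.cut .d (-4096) (.pos 51 .mp ⟨⟨304625244, 0, 0, 0, 0,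 203235473, 0, 0, 0, ⟨0, 0⟩, 0⟩, 0, 0⟩ 0 0) (.cut .v 16793600 (.cut .l 65910 (.cut .d (-2048) (.pos 57 .mp ⟨⟨304606689, 0, 0, 0, 0, 202443705, 0, 0, 0, ⟨0, 0⟩, 0⟩, 0, 0⟩ 0 0) (.cut .v 16785408 (.cut .l 32955 (.cut .d (-1024) (.pos 75 .mp ⟨⟨304597849, 0, 0, 0, 0, 202046972, 0, 0, 0, ⟨0, 0⟩, 0⟩, 0, 0⟩ 0 0) (.cut .s 12853248 (.pos 75 .mp ⟨⟨307134117, 0, 0, 0, 0, 190674802, 0, 0, 0, ⟨0, 0⟩, 0⟩, 0, 0⟩ 0 0) (.pos 75 .mp ⟨⟨308777746, 0, 0, 0, 0, 191781214, 0, 0, 0, ⟨0, 0⟩, 0⟩, 0, 0⟩ 0 0))) (.pos 75 .mp ⟨⟨308500737, 0, 0, 0, 0, 186188408, 0, 0, 0, ⟨0, 0⟩, 0⟩, 0, 0⟩ 0 0)) (.pos 76 .mp ⟨⟨415055463, 0, 0, 0, 0, 0, 0, 0, 0, ⟨0, 0⟩, 0⟩, 0, 0⟩ 0 0)))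 (.pos 57 .mp ⟨⟨309148470, 0, 0, 0, 0, 185375492, 0, 0, 0, ⟨0, 0⟩, 0⟩, 0, 0⟩ 0 0)) (.pos 58 .mp ⟨⟨415291482, 0, 0, 0, 0, 0, 0, 0, 0, ⟨0, 0⟩, 0⟩, 0, 0⟩ 0 0))) (.cut .d (-4096) (.pos 51 .mp ⟨⟨307903791, 0, 0, 0, 0, 205694871, 0, 0, 0, ⟨0, 0⟩, 0⟩, 0, 0⟩ 0 0) (.cut .v 16793600 (.cut .l 65910 (.cut .d (-2048) (.pos 57 .mp ⟨⟨307878186, 0, 0, 0, 0, 204906145, 0, 0, 0, ⟨0, 0⟩, 0⟩, 0, 0⟩ 0 0) (.cut .v 16785408 (.cut .l 32955 (.cut .d (-1024) (.pos 75 .mp ⟨⟨307865828, 0, 0, 0, 0, 204510920, 0, 0, 0, ⟨0, 0⟩, 0⟩, 0, 0⟩ 0 0) (.cut .s 12869632 (.pos 75 .mp ⟨⟨310423945, 0, 0, 0, 0, 192918189, 0, 0, 0, ⟨0, 0⟩, 0⟩, 0, 0⟩ 0 0) (.pos 75 .mp ⟨⟨312018377,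 0, 0, 0, 0, 194193181, 0, 0, 0, ⟨0, 0⟩, 0⟩, 0, 0⟩ 0 0))) (.pos 75 .mp ⟨⟨311817467, 0, 0, 0, 0, 188252291, 0, 0, 0, ⟨0, 0⟩, 0⟩, 0, 0⟩ 0 0)) (.pos 76 .mp ⟨⟨419552132, 0, 0, 0, 0, 0, 0, 0, 0, ⟨0, 0⟩, 0⟩, 0, 0⟩ 0 0))) (.pos 57 .mp ⟨⟨312479261, 0, 0, 0, 0, 187419775, 0, 0, 0, ⟨0, 0⟩, 0⟩, 0, 0⟩ 0 0)) (.pos 58 .mp ⟨⟨419790728, 0, 0, 0, 0, 0, 0, 0, 0, ⟨0, 0⟩, 0⟩, 0, 0⟩ 0 0)))) (.cut .s 12861440 (.pos 51 .mp ⟨⟨310446224, 0, 0, 0, 0, 183746472, 0, 0, 0, ⟨0, 0⟩, 0⟩, 0, 0⟩ 0 0) (.pos 51 .mp ⟨⟨313805179, 0, 0, 0, 0, 185751491, 0, 0, 0, ⟨0, 0⟩, 0⟩, 0, 0⟩ 0 0))) (.pos 52 .mp ⟨⟨418869827, 0, 0, 0, 0, 0, 0, 0, 0, ⟨0, 0⟩, 0⟩, 0, 0⟩ 0 0))) (.cut .d (-8192)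 (.cut .l 131821 (.void 39 ⟨⟨0, 0, 0, 0, 0, 100000, 0, 0, 0, ⟨0, 0⟩, 0⟩, 0, 0⟩ 0 0) (.cut .s 12894208 (.pos 39 .mp ⟨⟨311290334, 0, 0, 0, 0, 207917720, 0, 0, 0, ⟨0, 0⟩, 0⟩, 0, 0⟩ 0 0) (.pos 39 .mp ⟨⟨314660432, 0, 0, 0, 0, 210351577, 0, 0, 0, ⟨0, 0⟩, 0⟩, 0, 0⟩ 0 0))) (.cut .v 16809984 (.cut .l 131821 (.cut .s 12894208 (.cut .d (-4096) (.pos 51 .mp ⟨⟨311220676, 0, 0, 0, 0, 208252253, 0, 0, 0, ⟨0, 0⟩, 0⟩, 0, 0⟩ 0 0) (.cut .v 16793600 (.cut .l 65910 (.cut .d (-2048) (.pos 57 .mp ⟨⟨311187962, 0, 0, 0, 0, 207466516, 0, 0, 0, ⟨0, 0⟩, 0⟩, 0, 0⟩ 0 0) (.cut .s 12886016 (.pos 57 .mp ⟨⟨314711549, 0, 0, 0, 0, 193624212, 0, 0, 0, ⟨0, 0⟩, 0⟩, 0, 0⟩ 0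 0) (.pos 57 .mp ⟨⟨316400836, 0, 0, 0, 0, 194785185, 0, 0, 0, ⟨0, 0⟩, 0⟩, 0, 0⟩ 0 0))) (.pos 57 .mp ⟨⟨315849166, 0, 0, 0, 0, 189488005, 0, 0, 0, ⟨0, 0⟩, 0⟩, 0, 0⟩ 0 0)) (.pos 58 .mp ⟨⟨424379201, 0, 0, 0, 0, 0, 0, 0, 0, ⟨0, 0⟩, 0⟩, 0, 0⟩ 0 0))) (.cut .d (-4096) (.pos 51 .mp ⟨⟨314576368, 0, 0, 0, 0, 210908968, 0, 0, 0, ⟨0, 0⟩, 0⟩, 0, 0⟩ 0 0) (.cut .v 16793600 (.cut .l 65910 (.cut .d (-2048) (.pos 57 .mp ⟨⟨314536483, 0, 0, 0, 0, 210126168, 0, 0, 0, ⟨0, 0⟩, 0⟩, 0, 0⟩ 0 0) (.cut .s 12902400 (.pos 57 .mp ⟨⟨318100023, 0, 0, 0, 0, 195962688, 0, 0, 0, ⟨0, 0⟩, 0⟩, 0, 0⟩ 0 0) (.pos 57 .mp ⟨⟨319697356, 0, 0, 0, 0, 197377819, 0, 0, 0, ⟨0, 0⟩, 0⟩,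 0, 0⟩ 0 0))) (.pos 57 .mp ⟨⟨319258665, 0, 0, 0, 0, 191578849, 0, 0, 0, ⟨0, 0⟩, 0⟩, 0, 0⟩ 0 0)) (.pos 58 .mp ⟨⟨429057943, 0, 0, 0, 0, 0, 0, 0, 0, ⟨0, 0⟩, 0⟩, 0, 0⟩ 0 0)))) (.cut .s 12894208 (.pos 51 .mp ⟨⟨317203681, 0, 0, 0, 0, 187779800, 0, 0, 0, ⟨0, 0⟩, 0⟩, 0, 0⟩ 0 0) (.pos 51 .mp ⟨⟨320642212, 0, 0, 0, 0, 189830054, 0, 0, 0, ⟨0, 0⟩, 0⟩, 0, 0⟩ 0 0))) (.pos 52 .mp ⟨⟨428071893, 0, 0, 0, 0, 0, 0, 0, 0, ⟨0, 0⟩, 0⟩, 0, 0⟩ 0 0)))) (.cut .d (-8192) (.cut .l 131821 (.void 39 ⟨⟨0, 0, 0, 0, 0, 100000, 0, 0, 0, ⟨0, 0⟩, 0⟩, 0, 0⟩ 0 0) (.cut .s 12943360 (.cut .s 12926976 (.pos 39 .mp ⟨⟨318311297, 0, 0, 0, 0, 212348013, 0, 0, 0, ⟨0, 0⟩, 0⟩, 0, 0⟩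 0 0) (.pos 39 .mp ⟨⟨322110600, 0, 0, 0, 0, 214176837, 0, 0, 0, ⟨0, 0⟩, 0⟩, 0, 0⟩ 0 0)) (.pos 39 .mp ⟨⟨325009110, 0, 0, 0, 0, 224528278, 0, 0, 0, ⟨0, 0⟩, 0⟩, 0, 0⟩ 0 0))) (.cut .s 12943360 (.cut .v 16809984 (.cut .l 131821 (.cut .s 12926976 (.cut .d (-4096) (.pos 51 .mp ⟨⟨317971341, 0, 0, 0, 0, 213666387, 0, 0, 0, ⟨0, 0⟩, 0⟩, 0, 0⟩ 0 0) (.cut .s 12918784 (.cut .s 12914688 (.pos 51 .mp ⟨⟨323018901, 0, 0, 0, 0, 195321246, 0, 0, 0, ⟨0, 0⟩, 0⟩, 0, 0⟩ 0 0) (.pos 51 .mp ⟨⟨324005276, 0, 0, 0, 0, 195729848, 0, 0, 0, ⟨0, 0⟩, 0⟩, 0, 0⟩ 0 0)) (.pos 51 .mp ⟨⟨325219957, 0, 0, 0, 0, 196315210, 0, 0, 0, ⟨0, 0⟩, 0⟩, 0, 0⟩ 0 0))) (.cut .d (-4096) (.pos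 51 .mp ⟨⟨321406078, 0, 0, 0, 0, 216525903, 0, 0, 0, ⟨0, 0⟩, 0⟩, 0, 0⟩ 0 0) (.cut .s 12935168 (.pos 51 .mp ⟨⟨326973680, 0, 0, 0, 0, 197533559, 0, 0, 0, ⟨0, 0⟩, 0⟩, 0, 0⟩ 0 0) (.pos 51 .mp ⟨⟨328737725, 0, 0, 0, 0, 198768167, 0, 0, 0, ⟨0, 0⟩, 0⟩, 0, 0⟩ 0 0)))) (.cut .s 12926976 (.pos 51 .mp ⟨⟨324121265, 0, 0, 0, 0, 191900895, 0, 0, 0, ⟨0, 0⟩, 0⟩, 0, 0⟩ 0 0) (.pos 51 .mp ⟨⟨327641341, 0, 0, 0, 0, 193990946, 0, 0, 0, ⟨0, 0⟩, 0⟩, 0, 0⟩ 0 0))) (.pos 52 .mp ⟨⟨437636628, 0, 0, 0, 0, 0, 0, 0, 0, ⟨0, 0⟩, 0⟩, 0, 0⟩ 0 0)) (.cut .v 16809984 (.cut .l 131821 (.cut .s 12959744 (.cut .d (-4096) (.pos 51 .mp ⟨⟨324881072, 0, 0, 0, 0, 219488935, 0, 0, 0,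 ⟨0, 0⟩, 0⟩, 0, 0⟩ 0 0) (.cut .s 12951552 (.pos 51 .mp ⟨⟨330377208, 0, 0, 0, 0, 200286229, 0, 0, 0, ⟨0, 0⟩, 0⟩, 0, 0⟩ 0 0) (.pos 51 .mp ⟨⟨331966216, 0, 0, 0, 0, 201941342, 0, 0, 0, ⟨0, 0⟩, 0⟩, 0, 0⟩ 0 0))) (.cut .s 12967936 (.pos 51 .mp ⟨⟨336925217, 0, 0, 0, 0, 197835991, 0, 0, 0, ⟨0, 0⟩, 0⟩, 0, 0⟩ 0 0) (.pos 51 .mp ⟨⟨338754648, 0, 0, 0, 0, 199039487, 0, 0, 0, ⟨0, 0⟩, 0⟩, 0, 0⟩ 0 0))) (.pos 51 .mp ⟨⟨334806609, 0, 0, 0, 0, 191654430, 0, 0, 0, ⟨0, 0⟩, 0⟩, 0, 0⟩ 0 0)) (.pos 52 .mp ⟨⟨447572618, 0, 0, 0, 0, 0, 0, 0, 0, ⟨0, 0⟩, 0⟩, 0, 0⟩ 0 0))))) (.pos 40 .mp ⟨⟨447612499, 0, 0, 0, 0, 0, 0, 0, 0, ⟨0, 0⟩, 0⟩, 0, 0⟩ 0 0))) (.pos 38 .mp ⟨⟨444120963,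 0, 0, 0, 0, 0, 0, 0, 0, ⟨0, 0⟩, 0⟩, 0, 0⟩ 0 0)))))) (.pos 36 .mp ⟨⟨496500222, 0, 0, 0, 0, 0, 0, 0, 0, ⟨0, 0⟩, 0⟩, 0, 0⟩ 0 0))) (.void 34 ⟨⟨100000, 0, 0, 0, 0, 0, 0, 0, 0, ⟨0, 0⟩, 0⟩, 0, 0⟩ 0 0))) (.void 32 ⟨⟨100000, 0, 0, 0, 0, 0, 0, 0, 0, ⟨0, 0⟩, 0⟩, 0, 0⟩ 0 0))) (.void 30 ⟨⟨100000, 0, 0, 0, 0, 0, 0, 0, 0, ⟨0, 0⟩, 0⟩, 0, 0⟩ 0 0))) (.void 28 ⟨⟨100000, 0, 0, 0, 0, 0, 0, 0, 0, ⟨0, 0⟩, 0⟩, 0, 0⟩ 0 0)))) (.void 26 ⟨⟨100000, 0, 0, 0, 0, 0, 0, 0, 0, ⟨0, 0⟩, 0⟩, 0, 0⟩ 0 0)) (.void 127 ⟨⟨100000, 0, 0, 0, 0, 0, 0, 0, 0, ⟨0, 0⟩, 0⟩, 0, 0⟩ 0 0)) (.void 134 ⟨⟨100000, 0, 0, 0, 0, 0, 0, 0, 0, ⟨0, 0⟩, 0⟩, 0, 0⟩ 0 0)) (.void 141 ⟨⟨95097, 0, 0, 4903,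 0, 0, 0, 0, 0, ⟨0, 0⟩, 0⟩, 0, 0⟩ 0 0))) (.cut .v 16777216 (.cut .v 8388608 (.cut .v 4194304 (.cut .v 2097152 (.cut .v 1048576 (.pos 137 .pm ⟨⟨0, 0, 23847781, 0, 0, 0, 0, 0, 0, ⟨0, 0⟩, 0⟩, 0, 8953⟩ 0 0) (.pos 138 .pm ⟨⟨0, 0, 27483659, 0, 0, 0, 0, 0, 0, ⟨0, 0⟩, 0⟩, 0, 17216⟩ 0 0)) (.pos 7 .pm ⟨⟨0, 0, 33574459, 0, 0, 0, 0, 0, 0, ⟨0, 0⟩, 0⟩, 0, 24868⟩ 0 0)) (.pos 5 .pm ⟨⟨0, 0, 11089321, 0, 0, 0, 0, 0, 0, ⟨0, 0⟩, 0⟩, 0, 0⟩ 0 0)) (.pos 3 .pm ⟨⟨0, 0, 0, 0, 0, 0, 0, 0, 0, ⟨0, 0⟩, 0⟩, 0, 0⟩ 0 0)) (.cut .v 268435456 (.cut .v 67108864 (.cut .d 2680896 (.cut .v 33554432 (.cut .d 1340448 (.cut .d 670224 (.cut .v 25165824 (.cut .d 335112 (.cut .v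 20971520 (.cut .d 167556 (.cut .v 18874368 (.cut .v 17825792 (.pos 31 .pp ⟨⟨323160009, 0, 0, 0, 0, 0, 0, 0, 0, ⟨0, 0⟩, 0⟩, 7489900, 0⟩ 0 0) (.pos 32 .pp ⟨⟨442161744, 0, 0, 0, 0, 0, 0, 0, 0, ⟨0, 0⟩, 0⟩, 0, 0⟩ 0 0)) (.pos 30 .pp ⟨⟨533561191, 0, 0, 0, 0, 0, 0, 0, 0, ⟨0, 0⟩, 0⟩, 0, 0⟩ 0 0)) (.pos 27 .pp ⟨⟨330069167, 0, 0, 0, 0, 0, 0, 0, 0, ⟨0, 0⟩, 0⟩, 0, 18898⟩ 0 0)) (.pos 28 .pp ⟨⟨0, 0, 0, 0, 0, 0, 0, 0, 0, ⟨0, 0⟩, 0⟩, 72443160, 0⟩ 0 0)) (.pos 25 .pp ⟨⟨0, 0, 0, 0, 0, 0, 0, 0, 0, ⟨0, 0⟩, 0⟩, 39154070, 48020⟩ 0 0)) (.pos 26 .pp ⟨⟨0, 0, 0, 0, 0, 0, 0, 0, 0, ⟨0, 0⟩, 0⟩, 94429250, 0⟩ 0 0)) (.pos 24 .pp ⟨⟨0, 0, 0, 0, 0, 0, 0, 0, 0, ⟨0, 0⟩, 0⟩,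 40233059, 45332⟩ 0 0)) (.pos 24 .pp ⟨⟨0, 0, 0, 0, 0, 0, 0, 0, 0, ⟨0, 0⟩, 0⟩, 0, 145585⟩ 0 0)) (.cut .d 1340448 (.cut .d 670224 (.void 127 ⟨⟨0, 0, 0, 0, 0, 0, 0, 0, 0, ⟨0, 0⟩, 0⟩, 100000, 0⟩ 0 0) (.pos 127 .pp ⟨⟨0, 0, 0, 0, 0, 0, 0, 0, 0, ⟨0, 0⟩, 0⟩, 119277096, 0⟩ 0 0)) (.pos 127 .pp ⟨⟨0, 0, 0, 0, 0, 0, 0, 0, 0, ⟨0, 0⟩, 0⟩, 58857679, 0⟩ 0 0))) (.pos 126 .pp ⟨⟨0, 0, 0, 0, 0, 0, 0, 0, 0, ⟨0, 0⟩, 0⟩, 0, 145585⟩ 0 0)) (.void 134 ⟨⟨0, 0, 0, 46190, 0, 0, 0, 0, 0, ⟨0, 0⟩, 0⟩, 53810, 0⟩ 0 0)) (.void 141 ⟨⟨0, 0, 0, 0, 0, 0, 0, 0, 0, ⟨0, 0⟩, 0⟩, 100000, 0⟩ 0 0)))),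
    by decide +kernel⟩

def covers22 : cell.Covers Vale.Agent.P237.Petty.Cor.Grid.N14.table row22.1 :=
  ⟨(.cut .d 0 (.cut .v 16777216 (.cut .d (-8388608) (.void 1 ⟨⟨0, 0, 0, 0, 0, 100000, 0, 0, 0, ⟨0, 0⟩, 0⟩, 0, 0⟩ 0 0) (.cut .d (-4194304) (.void 1 ⟨⟨0, 0, 0, 0, 0, 100000, 0, 0, 0, ⟨0, 0⟩, 0⟩, 0, 0⟩ 0 0) (.cut .d (-2097152) (.void 1 ⟨⟨0, 0, 0, 0, 0, 100000, 0, 0, 0, ⟨0, 0⟩, 0⟩, 0, 0⟩ 0 0) (.cut .d (-1048576) (.void 1 ⟨⟨0, 0, 0, 0, 0, 100000, 0, 0, 0, ⟨0, 0⟩, 0⟩, 0, 0⟩ 0 0) (.cut .d (-524288) (.void 1 ⟨⟨0, 0, 0, 0, 0, 100000, 0, 0, 0, ⟨0, 0⟩, 0⟩, 0, 0⟩ 0 0) (.cut .d (-262144) (.void 1 ⟨⟨0, 0, 0, 0, 0, 100000, 0, 0, 0, ⟨0, 0⟩, 0⟩, 0,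 0⟩ 0 0) (.cut .d (-131072) (.void 1 ⟨⟨0, 0, 0, 0, 0, 100000, 0, 0, 0, ⟨0, 0⟩, 0⟩, 0, 0⟩ 0 0) (.cut .d (-65536) (.void 1 ⟨⟨0, 0, 0, 0, 0, 100000, 0, 0, 0, ⟨0, 0⟩, 0⟩, 0, 0⟩ 0 0) (.cut .d (-32768) (.void 1 ⟨⟨0, 0, 0, 0, 0, 100000, 0, 0, 0, ⟨0, 0⟩, 0⟩, 0, 0⟩ 0 0) (.cut .d (-16384) (.void 1 ⟨⟨0, 0, 0, 0, 0, 100000, 0, 0, 0, ⟨0, 0⟩, 0⟩, 0, 0⟩ 0 0) (.cut .v 8388608 (.cut .v 4194304 (.void 4 ⟨⟨0, 0, 100000, 0, 0, 0, 0, 0, 0, ⟨0, 0⟩, 0⟩, 0, 0⟩ 0 0) (.pos 5 .mm ⟨⟨0, 0, 13541030, 0, 0, 299496797, 0, 0, 0, ⟨0, 0⟩, 0⟩, 0, 0⟩ 0 0)) (.cut .s 13107200 (.pos 3 .mm ⟨⟨0, 0, 0, 0, 0, 812914795, 0, 0, 0, ⟨0, 0⟩, 0⟩, 0, 0⟩ 0 0) (.pos 3 .mm ⟨⟨0, 0, 0, 0,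 0, 890954772, 0, 0, 0, ⟨0, 0⟩, 0⟩, 0, 0⟩ 0 0))))))))))))) (.cut .v 268435456 (.cut .v 67108864 (.cut .v 33554432 (.cut .d (-8388608) (.void 24 ⟨⟨100452, 0, 0, 0, 0, 0, 0, 0, 0, ⟨0, 0⟩, 0⟩, 0, 0⟩ 0 0) (.cut .v 25165824 (.cut .d (-4194304) (.void 25 ⟨⟨100000, 0, 0, 0, 0, 0, 0, 0, 0, ⟨0, 0⟩, 0⟩, 0, 0⟩ 0 0) (.cut .v 20971520 (.cut .d (-2097152) (.void 27 ⟨⟨100000, 0, 0, 0, 0, 0, 0, 0, 0, ⟨0, 0⟩, 0⟩, 0, 0⟩ 0 0) (.cut .v 18874368 (.cut .d (-1048576) (.void 29 ⟨⟨100000, 0, 0, 0, 0, 0, 0, 0, 0, ⟨0, 0⟩, 0⟩, 0, 0⟩ 0 0) (.cut .v 17825792 (.cut .d (-524288) (.void 31 ⟨⟨100000, 0, 0, 0, 0, 0, 0, 0, 0, ⟨0, 0⟩, 0⟩, 0, 0⟩ 0 0) (.cut .v 17301504 (.cut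 .d (-262144) (.void 33 ⟨⟨100000, 0, 0, 0, 0, 0, 0, 0, 0, ⟨0, 0⟩, 0⟩, 0, 0⟩ 0 0) (.cut .v 17039360 (.cut .d (-131072) (.void 35 ⟨⟨100000, 0, 0, 0, 0, 0, 0, 0, 0, ⟨0, 0⟩, 0⟩, 0, 0⟩ 0 0) (.cut .d (-65536) (.void 35 ⟨⟨100000, 0, 0, 0, 0, 0, 0, 0, 0, ⟨0, 0⟩, 0⟩, 0, 0⟩ 0 0) (.cut .d (-32768) (.void 35 ⟨⟨100000, 0, 0, 0, 0, 0, 0, 0, 0, ⟨0, 0⟩, 0⟩, 0, 0⟩ 0 0) (.cut .d (-16384) (.void 35 ⟨⟨0, 0, 0, 0, 0, 100000, 0, 0, 0, ⟨0, 0⟩, 0⟩, 0, 0⟩ 0 0) (.cut .v 16908288 (.cut .s 13107200 (.cut .v 16842752 (.cut .s 13041664 (.cut .d (-8192) (.cut .d (-12288) (.void 39 ⟨⟨0, 0, 0, 0, 0, 100000, 0, 0, 0, ⟨0, 0⟩, 0⟩, 0, 0⟩ 0 0) (.cut .d (-10240) (.pos 39 .mp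 ⟨⟨335681107, 0, 0, 0, 0, 247970985, 0, 0, 0, ⟨0, 0⟩, 0⟩, 0, 0⟩ 0 0) (.cut .l 131821 (.void 39 ⟨⟨0, 0, 0, 0, 0, 100000, 0, 0, 0, ⟨0, 0⟩, 0⟩, 0, 0⟩ 0 0) (.cut .s 13008896 (.pos 39 .mp ⟨⟨334395069, 0, 0, 0, 0, 226254302, 0, 0, 0, ⟨0, 0⟩, 0⟩, 0, 0⟩ 0 0) (.cut .s 13025280 (.pos 39 .mp ⟨⟨342062404, 0, 0, 0, 0, 222554927, 0, 0, 0, ⟨0, 0⟩, 0⟩, 0, 0⟩ 0 0) (.pos 39 .mp ⟨⟨345302474, 0, 0, 0, 0, 225833468, 0, 0, 0, ⟨0, 0⟩, 0⟩, 0, 0⟩ 0 0)))))) (.cut .s 13008896 (.cut .v 16809984 (.cut .l 131821 (.cut .d (-4096) (.pos 51 .mp ⟨⟨331955360, 0, 0, 0, 0, 233085847, 0, 0, 0, ⟨0, 0⟩, 0⟩, 0, 0⟩ 0 0) (.cut .l 65910 (.cut .d (-2048) (.pos 51 .mp ⟨⟨340292798,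 0, 0, 0, 0, 213970472, 0, 0, 0, ⟨0, 0⟩, 0⟩, 0, 0⟩ 0 0) (.cut .v 16793600 (.cut .v 16785408 (.cut .l 32955 (.cut .d (-1024) (.pos 75 .mp ⟨⟨331840749, 0, 0, 0, 0, 231914885, 0, 0, 0, ⟨0, 0⟩, 0⟩, 0, 0⟩ 0 0) (.cut .v 16781312 (.cut .l 16477 (.cut .d (-512) (.pos 77 .mp ⟨⟨331821859, 0, 0, 0, 0, 231719749, 0, 0, 0, ⟨0, 0⟩, 0⟩, 0, 0⟩ 0 0) (.cut .v 16779264 (.cut .l 8238 (.cut .s 12992512 (.cut .s 12984320 (.pos 79 .mp ⟨⟨339321110, 0, 0, 0, 0, 202256881, 0, 0, 0, ⟨0, 0⟩, 0⟩, 0, 0⟩ 0 0) (.pos 79 .mp ⟨⟨340586560, 0, 0, 0, 0, 204126638, 0, 0, 0, ⟨0, 0⟩, 0⟩, 0, 0⟩ 0 0)) (.cut .s 13000704 (.pos 79 .mp ⟨⟨341886698, 0, 0, 0, 0, 205977843, 0, 0, 0,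 ⟨0, 0⟩, 0⟩, 0, 0⟩ 0 0) (.pos 79 .mp ⟨⟨343222254, 0, 0, 0, 0, 207809306, 0, 0, 0, ⟨0, 0⟩, 0⟩, 0, 0⟩ 0 0))) (.pos 79 .mp ⟨⟨339211196, 0, 0, 0, 0, 201602065, 0, 0, 0, ⟨0, 0⟩, 0⟩, 0, 0⟩ 0 0)) (.pos 80 .mp ⟨⟨456907365, 0, 0, 0, 0, 0, 0, 0, 0, ⟨0, 0⟩, 0⟩, 0, 0⟩ 0 0))) (.pos 77 .mp ⟨⟨339407345, 0, 0, 0, 0, 201349925, 0, 0, 0, ⟨0, 0⟩, 0⟩, 0, 0⟩ 0 0)) (.pos 78 .mp ⟨⟨456981639, 0, 0, 0, 0, 0, 0, 0, 0, ⟨0, 0⟩, 0⟩, 0, 0⟩ 0 0))) (.pos 75 .mp ⟨⟨339799832, 0, 0, 0, 0, 200846428, 0, 0, 0, ⟨0, 0⟩, 0⟩, 0, 0⟩ 0 0)) (.pos 76 .mp ⟨⟨457115306, 0, 0, 0, 0, 0, 0, 0, 0, ⟨0, 0⟩, 0⟩, 0, 0⟩ 0 0)) (.pos 58 .mp ⟨⟨458378885, 0, 0, 0, 0, 0, 0, 0, 0, ⟨0, 0⟩, 0⟩, 0,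 0⟩ 0 0))) (.pos 51 .mp ⟨⟨341220765, 0, 0, 0, 0, 198854598, 0, 0, 0, ⟨0, 0⟩, 0⟩, 0, 0⟩ 0 0))) (.pos 51 .mp ⟨⟨342159038, 0, 0, 0, 0, 197821592, 0, 0, 0, ⟨0, 0⟩, 0⟩, 0, 0⟩ 0 0)) (.pos 52 .mp ⟨⟨457901174, 0, 0, 0, 0, 0, 0, 0, 0, ⟨0, 0⟩, 0⟩, 0, 0⟩ 0 0)) (.cut .v 16809984 (.cut .s 13025280 (.cut .l 131821 (.cut .d (-4096) (.pos 51 .mp ⟨⟨339210352, 0, 0, 0, 0, 229491444, 0, 0, 0, ⟨0, 0⟩, 0⟩, 0, 0⟩ 0 0) (.cut .s 13017088 (.pos 51 .mp ⟨⟨345067172, 0, 0, 0, 0, 208992944, 0, 0, 0, ⟨0, 0⟩, 0⟩, 0, 0⟩ 0 0) (.pos 51 .mp ⟨⟨346968170, 0, 0, 0, 0, 209928157, 0, 0, 0, ⟨0, 0⟩, 0⟩, 0, 0⟩ 0 0))) (.pos 51 .mp ⟨⟨345902291, 0, 0, 0, 0, 205767102, 0, 0, 0, ⟨0,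 0⟩, 0⟩, 0, 0⟩ 0 0)) (.cut .l 131821 (.cut .d (-4096) (.pos 51 .mp ⟨⟨342904291, 0, 0, 0, 0, 231547721, 0, 0, 0, ⟨0, 0⟩, 0⟩, 0, 0⟩ 0 0) (.cut .s 13033472 (.pos 51 .mp ⟨⟨348852652, 0, 0, 0, 0, 210939897, 0, 0, 0, ⟨0, 0⟩, 0⟩, 0, 0⟩ 0 0) (.cut .s 13037568 (.pos 51 .mp ⟨⟨350335118, 0, 0, 0, 0, 212024176, 0, 0, 0, ⟨0, 0⟩, 0⟩, 0, 0⟩ 0 0) (.pos 51 .mp ⟨⟨351145056, 0, 0, 0, 0, 212777824, 0, 0, 0, ⟨0, 0⟩, 0⟩, 0, 0⟩ 0 0)))) (.pos 51 .mp ⟨⟨349691530, 0, 0, 0, 0, 208016024, 0, 0, 0, ⟨0, 0⟩, 0⟩, 0, 0⟩ 0 0))) (.pos 52 .mp ⟨⟨467072977, 0, 0, 0, 0, 0, 0, 0, 0, ⟨0, 0⟩, 0⟩, 0, 0⟩ 0 0)))) (.cut .d (-8192) (.cut .d (-12288) (.void 39 ⟨⟨0, 0, 0, 0, 0, 100000,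 0, 0, 0, ⟨0, 0⟩, 0⟩, 0, 0⟩ 0 0) (.cut .d (-10240) (.pos 39 .mp ⟨⟨349424765, 0, 0, 0, 0, 260531737, 0, 0, 0, ⟨0, 0⟩, 0⟩, 0, 0⟩ 0 0) (.cut .l 131821 (.void 39 ⟨⟨0, 0, 0, 0, 0, 100000, 0, 0, 0, ⟨0, 0⟩, 0⟩, 0, 0⟩ 0 0) (.cut .l 197731 (.pos 39 .mp ⟨⟨357033235, 0, 0, 0, 0, 246440096, 0, 0, 0, ⟨0, 0⟩, 0⟩, 0, 0⟩ 0 0) (.cut .s 13074432 (.pos 39 .mp ⟨⟨358221249, 0, 0, 0, 0, 206305059, 0, 0, 0, ⟨0, 0⟩, 0⟩, 0, 0⟩ 0 0) (.cut .s 13090816 (.pos 39 .mp ⟨⟨362170384, 0, 0, 0, 0, 215214361, 0, 0, 0, ⟨0, 0⟩, 0⟩, 0, 0⟩ 0 0) (.pos 39 .mp ⟨⟨366168114, 0, 0, 0, 0, 217431899, 0, 0, 0, ⟨0, 0⟩, 0⟩, 0, 0⟩ 0 0))))))) (.cut .s 13074432 (.cut .v 16809984 (.cut .s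 13058048 (.cut .l 131821 (.cut .d (-4096) (.pos 51 .mp ⟨⟨346643275, 0, 0, 0, 0, 233720456, 0, 0, 0, ⟨0, 0⟩, 0⟩, 0, 0⟩ 0 0) (.cut .v 16793600 (.cut .l 65910 (.cut .d (-2048) (.pos 57 .mp ⟨⟨346523109, 0, 0, 0, 0, 232990808, 0, 0, 0, ⟨0, 0⟩, 0⟩, 0, 0⟩ 0 0) (.cut .s 13049856 (.pos 57 .mp ⟨⟨350346781, 0, 0, 0, 0, 216943376, 0, 0, 0, ⟨0, 0⟩, 0⟩, 0, 0⟩ 0 0) (.pos 57 .mp ⟨⟨352369364, 0, 0, 0, 0, 217809219, 0, 0, 0, ⟨0, 0⟩, 0⟩, 0, 0⟩ 0 0))) (.pos 57 .mp ⟨⟨351845113, 0, 0, 0, 0, 212476471, 0, 0, 0, ⟨0, 0⟩, 0⟩, 0, 0⟩ 0 0)) (.pos 58 .mp ⟨⟨472306145, 0, 0, 0, 0, 0, 0, 0, 0, ⟨0, 0⟩, 0⟩, 0, 0⟩ 0 0))) (.pos 51 .mp ⟨⟨353527342, 0, 0, 0, 0, 210304729,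 0, 0, 0, ⟨0, 0⟩, 0⟩, 0, 0⟩ 0 0)) (.cut .l 131821 (.cut .d (-4096) (.pos 51 .mp ⟨⟨350427878, 0, 0, 0, 0, 236011329, 0, 0, 0, ⟨0, 0⟩, 0⟩, 0, 0⟩ 0 0) (.cut .v 16793600 (.cut .l 65910 (.cut .d (-2048) (.pos 57 .mp ⟨⟨350296585, 0, 0, 0, 0, 235291520, 0, 0, 0, ⟨0, 0⟩, 0⟩, 0, 0⟩ 0 0) (.cut .s 13066240 (.pos 57 .mp ⟨⟨354284118, 0, 0, 0, 0, 218933605, 0, 0, 0, ⟨0, 0⟩, 0⟩, 0, 0⟩ 0 0) (.cut .s 13070336 (.pos 57 .mp ⟨⟨356922273, 0, 0, 0, 0, 218177777, 0, 0, 0, ⟨0, 0⟩, 0⟩, 0, 0⟩ 0 0) (.pos 57 .mp ⟨⟨357799061, 0, 0, 0, 0, 218903348, 0, 0, 0, ⟨0, 0⟩, 0⟩, 0, 0⟩ 0 0)))) (.pos 57 .mp ⟨⟨355690743, 0, 0, 0, 0, 214856677, 0, 0, 0, ⟨0, 0⟩, 0⟩, 0, 0⟩ 0 0))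 (.pos 58 .mp ⟨⟨477187441, 0, 0, 0, 0, 0, 0, 0, 0, ⟨0, 0⟩, 0⟩, 0, 0⟩ 0 0))) (.pos 51 .mp ⟨⟨357410324, 0, 0, 0, 0, 212631540, 0, 0, 0, ⟨0, 0⟩, 0⟩, 0, 0⟩ 0 0))) (.pos 52 .mp ⟨⟨476665401, 0, 0, 0, 0, 0, 0, 0, 0, ⟨0, 0⟩, 0⟩, 0, 0⟩ 0 0)) (.cut .v 16809984 (.cut .s 13090816 (.cut .l 131821 (.cut .d (-4096) (.pos 51 .mp ⟨⟨354258686, 0, 0, 0, 0, 238422047, 0, 0, 0, ⟨0, 0⟩, 0⟩, 0, 0⟩ 0 0) (.cut .v 16793600 (.cut .l 65910 (.cut .d (-2048) (.pos 57 .mp ⟨⟨354116154, 0, 0, 0, 0, 237712094, 0, 0, 0, ⟨0, 0⟩, 0⟩, 0, 0⟩ 0 0) (.cut .v 16785408 (.cut .l 32955 (.cut .d (-1024) (.pos 75 .mp ⟨⟨354045438, 0, 0, 0, 0, 237356063, 0, 0, 0, ⟨0, 0⟩, 0⟩, 0, 0⟩ 0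 0) (.cut .s 13082624 (.pos 75 .mp ⟨⟨356993679, 0, 0, 0, 0, 223198311, 0, 0, 0, ⟨0, 0⟩, 0⟩, 0, 0⟩ 0 0) (.pos 75 .mp ⟨⟨358964005, 0, 0, 0, 0, 224344054, 0, 0, 0, ⟨0, 0⟩, 0⟩, 0, 0⟩ 0 0))) (.pos 75 .mp ⟨⟨358706282, 0, 0, 0, 0, 218411834, 0, 0, 0, ⟨0, 0⟩, 0⟩, 0, 0⟩ 0 0)) (.pos 76 .mp ⟨⟨481902840, 0, 0, 0, 0, 0, 0, 0, 0, ⟨0, 0⟩, 0⟩, 0, 0⟩ 0 0))) (.pos 57 .mp ⟨⟨359583548, 0, 0, 0, 0, 217274220, 0, 0, 0, ⟨0, 0⟩, 0⟩, 0, 0⟩ 0 0)) (.pos 58 .mp ⟨⟨482177220, 0, 0, 0, 0, 0, 0, 0, 0, ⟨0, 0⟩, 0⟩, 0, 0⟩ 0 0))) (.pos 51 .mp ⟨⟨361341083, 0, 0, 0, 0, 214994759, 0, 0, 0, ⟨0, 0⟩, 0⟩, 0, 0⟩ 0 0)) (.cut .l 131821 (.cut .d (-4096) (.pos 51 .mp ⟨⟨358136292, 0,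 0, 0, 0, 240954347, 0, 0, 0, ⟨0, 0⟩, 0⟩, 0, 0⟩ 0 0) (.cut .v 16793600 (.cut .l 65910 (.cut .d (-2048) (.pos 57 .mp ⟨⟨357982410, 0, 0, 0, 0, 240254269, 0, 0, 0, ⟨0, 0⟩, 0⟩, 0, 0⟩ 0 0) (.cut .v 16785408 (.cut .l 32955 (.cut .d (-1024) (.pos 75 .mp ⟨⟨357906028, 0, 0, 0, 0, 239903159, 0, 0, 0, ⟨0, 0⟩, 0⟩, 0, 0⟩ 0 0) (.cut .v 16781312 (.cut .s 13099008 (.pos 77 .mp ⟨⟨360749612, 0, 0, 0, 0, 225858145, 0, 0, 0, ⟨0, 0⟩, 0⟩, 0, 0⟩ 0 0) (.cut .s 13103104 (.pos 77 .mp ⟨⟨365711946, 0, 0, 0, 0, 221153858, 0, 0, 0, ⟨0, 0⟩, 0⟩, 0, 0⟩ 0 0) (.pos 77 .mp ⟨⟨366644759, 0, 0, 0, 0, 221871053, 0, 0, 0, ⟨0, 0⟩, 0⟩, 0, 0⟩ 0 0))) (.pos 78 .mp ⟨⟨486859602, 0,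 0, 0, 0, 0, 0, 0, 0, ⟨0, 0⟩, 0⟩, 0, 0⟩ 0 0))) (.pos 75 .mp ⟨⟨362627620, 0, 0, 0, 0, 220892606, 0, 0, 0, ⟨0, 0⟩, 0⟩, 0, 0⟩ 0 0)) (.pos 76 .mp ⟨⟨486999509, 0, 0, 0, 0, 0, 0, 0, 0, ⟨0, 0⟩, 0⟩, 0, 0⟩ 0 0))) (.pos 57 .mp ⟨⟨363524138, 0, 0, 0, 0, 219727402, 0, 0, 0, ⟨0, 0⟩, 0⟩, 0, 0⟩ 0 0)) (.pos 58 .mp ⟨⟨487276819, 0, 0, 0, 0, 0, 0, 0, 0, ⟨0, 0⟩, 0⟩, 0, 0⟩ 0 0))) (.pos 51 .mp ⟨⟨365320236, 0, 0, 0, 0, 217392671, 0, 0, 0, ⟨0, 0⟩, 0⟩, 0, 0⟩ 0 0))) (.pos 52 .mp ⟨⟨486688721, 0, 0, 0, 0, 0, 0, 0, 0, ⟨0, 0⟩, 0⟩, 0, 0⟩ 0 0))))) (.pos 40 .mp ⟨⟨488678411, 0, 0, 0, 0, 0, 0, 0, 0, ⟨0, 0⟩, 0⟩, 0, 0⟩ 0 0)) (.cut .v 16842752 (.cut .d (-8192) (.cut .d (-12288)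 (.void 39 ⟨⟨0, 0, 0, 0, 0, 100000, 0, 0, 0, ⟨0, 0⟩, 0⟩, 0, 0⟩ 0 0) (.cut .l 131821 (.void 39 ⟨⟨0, 0, 0, 0, 0, 100000, 0, 0, 0, ⟨0, 0⟩, 0⟩, 0, 0⟩ 0 0) (.cut .l 197731 (.pos 39 .mp ⟨⟨364536065, 0, 0, 0, 0, 466762027, 0, 0, 0, ⟨0, 0⟩, 0⟩, 0, 0⟩ 0 0) (.cut .s 13172736 (.cut .d (-10240) (.pos 39 .mp ⟨⟨364028326, 0, 0, 0, 0, 274381084, 0, 0, 0, ⟨0, 0⟩, 0⟩, 0, 0⟩ 0 0) (.cut .v 16809984 (.pos 51 .mp ⟨⟨245079259, 0, 0, 0, 0, 451887982, 0, 0, 0, ⟨0, 0⟩, 0⟩, 0, 0⟩ 0 0) (.cut .s 13139968 (.pos 52 .mp ⟨⟨375696697, 0, 0, 0, 0, 218344825, 0, 0, 0, ⟨0, 0⟩, 0⟩, 0, 0⟩ 0 0) (.pos 52 .mp ⟨⟨384071973, 0, 0, 0, 0, 223040842, 0, 0, 0, ⟨0, 0⟩, 0⟩, 0, 0⟩ 0 0))))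 (.cut .s 13205504 (.cut .s 13189120 (.pos 39 .mp ⟨⟨378678265, 0, 0, 0, 0, 253045241, 0, 0, 0, ⟨0, 0⟩, 0⟩, 0, 0⟩ 0 0) (.pos 39 .mp ⟨⟨382873984, 0, 0, 0, 0, 256012901, 0, 0, 0, ⟨0, 0⟩, 0⟩, 0, 0⟩ 0 0)) (.pos 39 .mp ⟨⟨387121229, 0, 0, 0, 0, 266301450, 0, 0, 0, ⟨0, 0⟩, 0⟩, 0, 0⟩ 0 0)))))) (.cut .s 13172736 (.cut .s 13139968 (.cut .v 16809984 (.cut .s 13123584 (.cut .l 131821 (.cut .d (-4096) (.pos 51 .mp ⟨⟨362061303, 0, 0, 0, 0, 243609997, 0, 0, 0, ⟨0, 0⟩, 0⟩, 0, 0⟩ 0 0) (.cut .v 16793600 (.cut .l 65910 (.cut .d (-2048) (.pos 57 .mp ⟨⟨361895956, 0, 0, 0, 0, 242919812, 0, 0, 0, ⟨0, 0⟩, 0⟩, 0, 0⟩ 0 0) (.cut .v 16785408 (.cut .l 32955 (.cut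 .d (-1024) (.pos 75 .mp ⟨⟨361813851, 0, 0, 0, 0, 242573632, 0, 0, 0, ⟨0, 0⟩, 0⟩, 0, 0⟩ 0 0) (.cut .v 16781312 (.cut .l 16477 (.cut .d (-512) (.pos 77 .mp ⟨⟨361772856, 0, 0, 0, 0, 242400690, 0, 0, 0, ⟨0, 0⟩, 0⟩, 0, 0⟩ 0 0) (.cut .s 13115392 (.pos 77 .mp ⟨⟨364280634, 0, 0, 0, 0, 229056865, 0, 0, 0, ⟨0, 0⟩, 0⟩, 0, 0⟩ 0 0) (.pos 77 .mp ⟨⟨366265935, 0, 0, 0, 0, 230352129, 0, 0, 0, ⟨0, 0⟩, 0⟩, 0, 0⟩ 0 0))) (.pos 77 .mp ⟨⟨366139323, 0, 0, 0, 0, 224004200, 0, 0, 0, ⟨0, 0⟩, 0⟩, 0, 0⟩ 0 0)) (.pos 78 .mp ⟨⟨492065872, 0, 0, 0, 0, 0, 0, 0, 0, ⟨0, 0⟩, 0⟩, 0, 0⟩ 0 0))) (.pos 75 .mp ⟨⟨366597057, 0, 0, 0, 0, 223407775, 0, 0, 0, ⟨0, 0⟩, 0⟩, 0, 0⟩ 0 0))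 (.pos 76 .mp ⟨⟨492207295, 0, 0, 0, 0, 0, 0, 0, 0, ⟨0, 0⟩, 0⟩, 0, 0⟩ 0 0))) (.pos 57 .mp ⟨⟨367513134, 0, 0, 0, 0, 222214502, 0, 0, 0, ⟨0, 0⟩, 0⟩, 0, 0⟩ 0 0)) (.pos 58 .mp ⟨⟨492487599, 0, 0, 0, 0, 0, 0, 0, 0, ⟨0, 0⟩, 0⟩, 0, 0⟩ 0 0))) (.cut .s 13115392 (.pos 51 .mp ⟨⟨367328157, 0, 0, 0, 0, 221863014, 0, 0, 0, ⟨0, 0⟩, 0⟩, 0, 0⟩ 0 0) (.pos 51 .mp ⟨⟨369348413, 0, 0, 0, 0, 223108932, 0, 0, 0, ⟨0, 0⟩, 0⟩, 0, 0⟩ 0 0))) (.cut .l 131821 (.cut .d (-4096) (.pos 51 .mp ⟨⟨366034335, 0, 0, 0, 0, 246390798, 0, 0, 0, ⟨0, 0⟩, 0⟩, 0, 0⟩ 0 0) (.cut .v 16793600 (.cut .l 65910 (.cut .d (-2048) (.pos 57 .mp ⟨⟨365857408, 0, 0, 0, 0, 245710525, 0, 0, 0, ⟨0, 0⟩,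 0⟩, 0, 0⟩ 0 0) (.cut .v 16785408 (.cut .l 32955 (.cut .d (-1024) (.pos 75 .mp ⟨⟨365769523, 0, 0, 0, 0, 245369282, 0, 0, 0, ⟨0, 0⟩, 0⟩, 0, 0⟩ 0 0) (.cut .v 16781312 (.cut .l 16477 (.cut .d (-512) (.pos 77 .mp ⟨⟨365725639, 0, 0, 0, 0, 245198811, 0, 0, 0, ⟨0, 0⟩, 0⟩, 0, 0⟩ 0 0) (.cut .l 8238 (.cut .v 16779264 (.cut .s 13131776 (.pos 79 .mp ⟨⟨368177689, 0, 0, 0, 0, 231815392, 0, 0, 0, ⟨0, 0⟩, 0⟩, 0, 0⟩ 0 0) (.pos 79 .mp ⟨⟨370186903, 0, 0, 0, 0, 233154149, 0, 0, 0, ⟨0, 0⟩, 0⟩, 0, 0⟩ 0 0)) (.pos 80 .mp ⟨⟨515735533, 0, 0, 0, 0, 0, 0, 0, 0, ⟨0, 0⟩, 0⟩, 0, 0⟩ 0 0)) (.pos 77 .mp ⟨⟨369999948, 0, 0, 0, 0, 226736950, 0, 0, 0, ⟨0, 0⟩, 0⟩, 0, 0⟩ 0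 0))) (.pos 77 .mp ⟨⟨370147558, 0, 0, 0, 0, 226566307, 0, 0, 0, ⟨0, 0⟩, 0⟩, 0, 0⟩ 0 0)) (.pos 78 .mp ⟨⟨497384610, 0, 0, 0, 0, 0, 0, 0, 0, ⟨0, 0⟩, 0⟩, 0, 0⟩ 0 0))) (.pos 75 .mp ⟨⟨370615220, 0, 0, 0, 0, 225955611, 0, 0, 0, ⟨0, 0⟩, 0⟩, 0, 0⟩ 0 0)) (.pos 76 .mp ⟨⟨497527583, 0, 0, 0, 0, 0, 0, 0, 0, ⟨0, 0⟩, 0⟩, 0, 0⟩ 0 0))) (.pos 57 .mp ⟨⟨371551169, 0, 0, 0, 0, 224733780, 0, 0, 0, ⟨0, 0⟩, 0⟩, 0, 0⟩ 0 0)) (.pos 58 .mp ⟨⟨497810946, 0, 0, 0, 0, 0, 0, 0, 0, ⟨0, 0⟩, 0⟩, 0, 0⟩ 0 0))) (.cut .s 13131776 (.pos 51 .mp ⟨⟨371381085, 0, 0, 0, 0, 224362663, 0, 0, 0, ⟨0, 0⟩, 0⟩, 0, 0⟩ 0 0) (.pos 51 .mp ⟨⟨373426254, 0, 0, 0, 0, 225623988, 0, 0, 0, ⟨0, 0⟩,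 0⟩, 0, 0⟩ 0 0)))) (.pos 52 .mp ⟨⟨497153581, 0, 0, 0, 0, 0, 0, 0, 0, ⟨0, 0⟩, 0⟩, 0, 0⟩ 0 0)) (.cut .v 16809984 (.cut .s 13156352 (.cut .l 131821 (.cut .d (-4096) (.pos 51 .mp ⟨⟨370056016, 0, 0, 0, 0, 249298582, 0, 0, 0, ⟨0, 0⟩, 0⟩, 0, 0⟩ 0 0) (.cut .v 16793600 (.cut .l 65910 (.cut .d (-2048) (.pos 57 .mp ⟨⟨369867392, 0, 0, 0, 0, 248628238, 0, 0, 0, ⟨0, 0⟩, 0⟩, 0, 0⟩ 0 0) (.cut .v 16785408 (.cut .l 32955 (.cut .d (-1024) (.pos 75 .mp ⟨⟨369773668, 0, 0, 0, 0, 248291941, 0, 0, 0, ⟨0, 0⟩, 0⟩, 0, 0⟩ 0 0) (.cut .v 16781312 (.cut .l 16477 (.cut .d (-512) (.pos 77 .mp ⟨⟨369726866, 0, 0, 0, 0, 248123946, 0, 0, 0, ⟨0, 0⟩, 0⟩, 0, 0⟩ 0 0) (.cut .s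 13148160 (.pos 77 .mp ⟨⟨372294999, 0, 0, 0, 0, 234365422, 0, 0, 0, ⟨0, 0⟩, 0⟩, 0, 0⟩ 0 0) (.pos 77 .mp ⟨⟨374329342, 0, 0, 0, 0, 235745628, 0, 0, 0, ⟨0, 0⟩, 0⟩, 0, 0⟩ 0 0))) (.pos 77 .mp ⟨⟨374205002, 0, 0, 0, 0, 229159576, 0, 0, 0, ⟨0, 0⟩, 0⟩, 0, 0⟩ 0 0)) (.pos 78 .mp ⟨⟨502817228, 0, 0, 0, 0, 0, 0, 0, 0, ⟨0, 0⟩, 0⟩, 0, 0⟩ 0 0))) (.pos 75 .mp ⟨⟨374682751, 0, 0, 0, 0, 228534359, 0, 0, 0, ⟨0, 0⟩, 0⟩, 0, 0⟩ 0 0)) (.pos 76 .mp ⟨⟨502961783, 0, 0, 0, 0, 0, 0, 0, 0, ⟨0, 0⟩, 0⟩, 0, 0⟩ 0 0))) (.pos 57 .mp ⟨⟨375638887, 0, 0, 0, 0, 227283475, 0, 0, 0, ⟨0, 0⟩, 0⟩, 0, 0⟩ 0 0)) (.pos 58 .mp ⟨⟨503248269, 0, 0, 0, 0, 0, 0, 0, 0, ⟨0, 0⟩, 0⟩, 0, 0⟩ 0 0)))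 (.cut .s 13148160 (.pos 51 .mp ⟨⟨375484002, 0, 0, 0, 0, 226892682, 0, 0, 0, ⟨0, 0⟩, 0⟩, 0, 0⟩ 0 0) (.pos 51 .mp ⟨⟨377554412, 0, 0, 0, 0, 228168522, 0, 0, 0, ⟨0, 0⟩, 0⟩, 0, 0⟩ 0 0))) (.cut .l 131821 (.cut .d (-4096) (.pos 51 .mp ⟨⟨374126985, 0, 0, 0, 0, 252335211, 0, 0, 0, ⟨0, 0⟩, 0⟩, 0, 0⟩ 0 0) (.cut .v 16793600 (.cut .l 65910 (.cut .d (-2048) (.pos 57 .mp ⟨⟨373926545, 0, 0, 0, 0, 251674815, 0, 0, 0, ⟨0, 0⟩, 0⟩, 0, 0⟩ 0 0) (.cut .v 16785408 (.cut .l 32955 (.cut .d (-1024) (.pos 75 .mp ⟨⟨373826924, 0, 0, 0, 0, 251343474, 0, 0, 0, ⟨0, 0⟩, 0⟩, 0, 0⟩ 0 0) (.cut .v 16781312 (.cut .s 13164544 (.cut .s 13160448 (.pos 77 .mp ⟨⟨379960518, 0,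 0, 0, 0, 230140430, 0, 0, 0, ⟨0, 0⟩, 0⟩, 0, 0⟩ 0 0) (.pos 77 .mp ⟨⟨381080551, 0, 0, 0, 0, 230688334, 0, 0, 0, ⟨0, 0⟩, 0⟩, 0, 0⟩ 0 0)) (.pos 77 .mp ⟨⟨378870656, 0, 0, 0, 0, 237842407, 0, 0, 0, ⟨0, 0⟩, 0⟩, 0, 0⟩ 0 0)) (.pos 78 .mp ⟨⟨508365159, 0, 0, 0, 0, 0, 0, 0, 0, ⟨0, 0⟩, 0⟩, 0, 0⟩ 0 0))) (.pos 75 .mp ⟨⟨378800301, 0, 0, 0, 0, 231142248, 0, 0, 0, ⟨0, 0⟩, 0⟩, 0, 0⟩ 0 0)) (.pos 76 .mp ⟨⟨508511331, 0, 0, 0, 0, 0, 0, 0, 0, ⟨0, 0⟩, 0⟩, 0, 0⟩ 0 0))) (.pos 57 .mp ⟨⟨379776944, 0, 0, 0, 0, 229861807, 0, 0, 0, ⟨0, 0⟩, 0⟩, 0, 0⟩ 0 0)) (.pos 58 .mp ⟨⟨508801004, 0, 0, 0, 0, 0, 0, 0, 0, ⟨0, 0⟩, 0⟩, 0, 0⟩ 0 0))) (.cut .s 13164544 (.pos 51 .mp ⟨⟨379637566,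 0, 0, 0, 0, 229451282, 0, 0, 0, ⟨0, 0⟩, 0⟩, 0, 0⟩ 0 0) (.pos 51 .mp ⟨⟨381733549, 0, 0, 0, 0, 230740734, 0, 0, 0, ⟨0, 0⟩, 0⟩, 0, 0⟩ 0 0)))) (.pos 52 .mp ⟨⟨508071012, 0, 0, 0, 0, 0, 0, 0, 0, ⟨0, 0⟩, 0⟩, 0, 0⟩ 0 0))) (.cut .s 13205504 (.cut .v 16809984 (.cut .s 13189120 (.cut .l 131821 (.cut .d (-4096) (.pos 51 .mp ⟨⟨378247894, 0, 0, 0, 0, 255502584, 0, 0, 0, ⟨0, 0⟩, 0⟩, 0, 0⟩ 0 0) (.cut .v 16793600 (.cut .l 65910 (.cut .d (-2048) (.pos 57 .mp ⟨⟨378035518, 0, 0, 0, 0, 254852155, 0, 0, 0, ⟨0, 0⟩, 0⟩, 0, 0⟩ 0 0) (.cut .v 16785408 (.cut .l 32955 (.cut .d (-1024) (.pos 75 .mp ⟨⟨377929938, 0, 0, 0, 0, 254525779, 0, 0, 0, ⟨0, 0⟩, 0⟩, 0, 0⟩ 0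 0) (.cut .s 13180928 (.pos 75 .mp ⟨⟨381123285, 0, 0, 0, 0, 238972657, 0, 0, 0, ⟨0, 0⟩, 0⟩, 0, 0⟩ 0 0) (.pos 75 .mp ⟨⟨383201106, 0, 0, 0, 0, 240452247, 0, 0, 0, ⟨0, 0⟩, 0⟩, 0, 0⟩ 0 0))) (.pos 75 .mp ⟨⟨382968532, 0, 0, 0, 0, 233777483, 0, 0, 0, ⟨0, 0⟩, 0⟩, 0, 0⟩ 0 0)) (.pos 76 .mp ⟨⟨514177687, 0, 0, 0, 0, 0, 0, 0, 0, ⟨0, 0⟩, 0⟩, 0, 0⟩ 0 0))) (.pos 57 .mp ⟨⟨383966007, 0, 0, 0, 0, 232466970, 0, 0, 0, ⟨0, 0⟩, 0⟩, 0, 0⟩ 0 0)) (.pos 58 .mp ⟨⟨514470616, 0, 0, 0, 0, 0, 0, 0, 0, ⟨0, 0⟩, 0⟩, 0, 0⟩ 0 0))) (.pos 51 .mp ⟨⟨385964344, 0, 0, 0, 0, 229841142, 0, 0, 0, ⟨0, 0⟩, 0⟩, 0, 0⟩ 0 0)) (.cut .l 131821 (.cut .d (-4096) (.pos 51 .mp ⟨⟨382419404, 0,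 0, 0, 0, 258802634, 0, 0, 0, ⟨0, 0⟩, 0⟩, 0, 0⟩ 0 0) (.cut .v 16793600 (.cut .l 65910 (.cut .d (-2048) (.pos 57 .mp ⟨⟨382194970, 0, 0, 0, 0, 258162190, 0, 0, 0, ⟨0, 0⟩, 0⟩, 0, 0⟩ 0 0) (.cut .s 13197312 (.cut .s 13193216 (.pos 57 .mp ⟨⟨387376272, 0, 0, 0, 0, 237608183, 0, 0, 0, ⟨0, 0⟩, 0⟩, 0, 0⟩ 0 0) (.pos 57 .mp ⟨⟨388552950, 0, 0, 0, 0, 238151033, 0, 0, 0, ⟨0, 0⟩, 0⟩, 0, 0⟩ 0 0)) (.pos 57 .mp ⟨⟨388690190, 0, 0, 0, 0, 241273529, 0, 0, 0, ⟨0, 0⟩, 0⟩, 0, 0⟩ 0 0))) (.pos 57 .mp ⟨⟨388206758, 0, 0, 0, 0, 235097140, 0, 0, 0, ⟨0, 0⟩, 0⟩, 0, 0⟩ 0 0)) (.pos 58 .mp ⟨⟨520258592, 0, 0, 0, 0, 0, 0, 0, 0, ⟨0, 0⟩, 0⟩, 0, 0⟩ 0 0))) (.pos 51 .mp ⟨⟨390247483,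 0, 0, 0, 0, 232410024, 0, 0, 0, ⟨0, 0⟩, 0⟩, 0, 0⟩ 0 0))) (.pos 52 .mp ⟨⟨519452451, 0, 0, 0, 0, 0, 0, 0, 0, ⟨0, 0⟩, 0⟩, 0, 0⟩ 0 0)) (.cut .v 16809984 (.cut .s 13221888 (.cut .l 131821 (.cut .d (-4096) (.pos 51 .mp ⟨⟨386642191, 0, 0, 0, 0, 262237325, 0, 0, 0, ⟨0, 0⟩, 0⟩, 0, 0⟩ 0 0) (.cut .v 16793600 (.cut .l 65910 (.cut .d (-2048) (.pos 57 .mp ⟨⟨386405576, 0, 0, 0, 0, 261606886, 0, 0, 0, ⟨0, 0⟩, 0⟩, 0, 0⟩ 0 0) (.cut .s 13213696 (.pos 57 .mp ⟨⟨390827820, 0, 0, 0, 0, 242776251, 0, 0, 0, ⟨0, 0⟩, 0⟩, 0, 0⟩ 0 0) (.pos 57 .mp ⟨⟨392895121, 0, 0, 0, 0, 244466619, 0, 0, 0, ⟨0, 0⟩, 0⟩, 0, 0⟩ 0 0))) (.pos 57 .mp ⟨⟨392499888, 0, 0, 0, 0, 237750468,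 0, 0, 0, ⟨0, 0⟩, 0⟩, 0, 0⟩ 0 0)) (.pos 58 .mp ⟨⟨526166450, 0, 0, 0, 0, 0, 0, 0, 0, ⟨0, 0⟩, 0⟩, 0, 0⟩ 0 0))) (.pos 51 .mp ⟨⟨394583669, 0, 0, 0, 0, 235001000, 0, 0, 0, ⟨0, 0⟩, 0⟩, 0, 0⟩ 0 0)) (.cut .l 131821 (.cut .d (-4096) (.pos 51 .mp ⟨⟨390916943, 0, 0, 0, 0, 265808662, 0, 0, 0, ⟨0, 0⟩, 0⟩, 0, 0⟩ 0 0) (.cut .s 13230080 (.cut .s 13225984 (.pos 51 .mp ⟨⟨397250675, 0, 0, 0, 0, 241465933, 0, 0, 0, ⟨0, 0⟩, 0⟩, 0, 0⟩ 0 0) (.pos 51 .mp ⟨⟨398521669, 0, 0, 0, 0, 241937097, 0, 0, 0, ⟨0, 0⟩, 0⟩, 0, 0⟩ 0 0)) (.pos 51 .mp ⟨⟨399921279, 0, 0, 0, 0, 243002614, 0, 0, 0, ⟨0, 0⟩, 0⟩, 0, 0⟩ 0 0))) (.pos 51 .mp ⟨⟨398973616, 0, 0, 0, 0, 237612180, 0, 0,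 0, ⟨0, 0⟩, 0⟩, 0, 0⟩ 0 0))) (.pos 52 .mp ⟨⟨531309753, 0, 0, 0, 0, 0, 0, 0, 0, ⟨0, 0⟩, 0⟩, 0, 0⟩ 0 0))))) (.cut .s 13172736 (.pos 40 .mp ⟨⟨520695078, 0, 0, 0, 0, 0, 0, 0, 0, ⟨0, 0⟩, 0⟩, 0, 0⟩ 0 0) (.pos 40 .mp ⟨⟨543254904, 0, 0, 0, 0, 0, 0, 0, 0, ⟨0, 0⟩, 0⟩, 0, 0⟩ 0 0)))) (.pos 38 .mp ⟨⟨528914170, 0, 0, 0, 0, 0, 0, 0, 0, ⟨0, 0⟩, 0⟩, 0, 0⟩ 0 0)))))) (.pos 36 .mp ⟨⟨591707816, 0, 0, 0, 0, 0, 0, 0, 0, ⟨0, 0⟩, 0⟩, 0, 0⟩ 0 0))) (.void 34 ⟨⟨100000, 0, 0, 0, 0, 0, 0, 0, 0, ⟨0, 0⟩, 0⟩, 0, 0⟩ 0 0))) (.void 32 ⟨⟨100000, 0, 0, 0, 0, 0, 0, 0, 0, ⟨0, 0⟩, 0⟩, 0, 0⟩ 0 0))) (.void 30 ⟨⟨100000, 0, 0, 0, 0, 0, 0, 0, 0, ⟨0, 0⟩, 0⟩, 0, 0⟩ 0 0))) (.void 28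 ⟨⟨100000, 0, 0, 0, 0, 0, 0, 0, 0, ⟨0, 0⟩, 0⟩, 0, 0⟩ 0 0))) (.void 26 ⟨⟨100000, 0, 0, 0, 0, 0, 0, 0, 0, ⟨0, 0⟩, 0⟩, 0, 0⟩ 0 0))) (.void 127 ⟨⟨100000, 0, 0, 0, 0, 0, 0, 0, 0, ⟨0, 0⟩, 0⟩, 0, 0⟩ 0 0)) (.void 134 ⟨⟨100000, 0, 0, 0, 0, 0, 0, 0, 0, ⟨0, 0⟩, 0⟩, 0, 0⟩ 0 0)) (.void 141 ⟨⟨95002, 0, 0, 4998, 0, 0, 0, 0, 0, ⟨0, 0⟩, 0⟩, 0, 0⟩ 0 0))) (.cut .v 16777216 (.cut .v 8388608 (.cut .v 4194304 (.cut .v 2097152 (.cut .v 1048576 (.pos 137 .pm ⟨⟨0, 0, 23932906, 0, 0, 0, 0, 0, 0, ⟨0, 0⟩, 0⟩, 0, 6628⟩ 0 0) (.pos 138 .pm ⟨⟨0, 0, 27514502, 0, 0, 0, 0, 0, 0, ⟨0, 0⟩, 0⟩, 0, 12747⟩ 0 0)) (.pos 7 .pm ⟨⟨0, 0, 33318514, 0, 0, 0, 0, 0, 0, ⟨0, 0⟩, 0⟩, 0,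 18412⟩ 0 0)) (.pos 5 .pm ⟨⟨0, 0, 13378649, 0, 0, 0, 0, 0, 0, ⟨0, 0⟩, 0⟩, 0, 0⟩ 0 0)) (.pos 3 .pm ⟨⟨0, 0, 0, 0, 0, 0, 0, 0, 0, ⟨0, 0⟩, 0⟩, 0, 0⟩ 0 0)) (.cut .v 268435456 (.cut .v 67108864 (.cut .d 2457270 (.cut .d 1228635 (.cut .v 33554432 (.cut .d 614317 (.cut .v 25165824 (.cut .d 307158 (.cut .v 20971520 (.cut .d 153579 (.cut .v 18874368 (.cut .v 17825792 (.pos 31 .pp ⟨⟨394550869, 0, 0, 0, 0, 0, 0, 0, 0, ⟨0, 0⟩, 0⟩, 7342291, 0⟩ 0 0) (.pos 32 .pp ⟨⟨523035980, 0, 0, 0, 0, 0, 0, 0, 0, ⟨0, 0⟩, 0⟩, 0, 0⟩ 0 0)) (.pos 30 .pp ⟨⟨630919622, 0, 0, 0, 0, 0, 0, 0, 0, ⟨0, 0⟩, 0⟩, 0, 0⟩ 0 0)) (.pos 27 .pp ⟨⟨388665368, 0, 0, 0, 0, 0, 0, 0, 0, ⟨0, 0⟩,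 0⟩, 0, 15211⟩ 0 0)) (.pos 28 .pp ⟨⟨0, 0, 0, 0, 0, 0, 0, 0, 0, ⟨0, 0⟩, 0⟩, 85676707, 0⟩ 0 0)) (.pos 25 .pp ⟨⟨0, 0, 0, 0, 0, 0, 0, 0, 0, ⟨0, 0⟩, 0⟩, 45642294, 38172⟩ 0 0)) (.pos 26 .pp ⟨⟨0, 0, 0, 0, 0, 0, 0, 0, 0, ⟨0, 0⟩, 0⟩, 111297436, 0⟩ 0 0)) (.pos 24 .pp ⟨⟨0, 0, 0, 0, 0, 0, 0, 0, 0, ⟨0, 0⟩, 0⟩, 46351429, 37027⟩ 0 0)) (.cut .d 614317 (.void 127 ⟨⟨0, 0, 0, 0, 0, 0, 0, 0, 0, ⟨0, 0⟩, 0⟩, 100000, 0⟩ 0 0) (.pos 127 .pp ⟨⟨0, 0, 0, 0, 0, 0, 0, 0, 0, ⟨0, 0⟩, 0⟩, 138746883, 0⟩ 0 0))) (.cut .v 33554432 (.pos 24 .pp ⟨⟨0, 0, 0, 0, 0, 0, 0, 0, 0, ⟨0, 0⟩, 0⟩, 0, 111844⟩ 0 0) (.pos 127 .pp ⟨⟨0, 0, 0, 0, 0, 0, 13833, 0, 0, ⟨0, 0⟩, 0⟩, 67147975, 0⟩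 0 0))) (.pos 126 .pp ⟨⟨0, 0, 0, 0, 0, 0, 0, 0, 0, ⟨0, 0⟩, 0⟩, 0, 111844⟩ 0 0)) (.void 134 ⟨⟨0, 0, 0, 46605, 0, 0, 0, 0, 0, ⟨0, 0⟩, 0⟩, 53395, 0⟩ 0 0)) (.void 141 ⟨⟨0, 0, 0, 0, 0, 0, 0, 0, 0, ⟨0, 0⟩, 0⟩, 100000, 0⟩ 0 0)))),
    by decide +kernel⟩

def covers23 : cell.Covers Vale.Agent.P237.Petty.Cor.Grid.N14.table row23.1 :=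
  ⟨(.cut .d 0 (.cut .v 16777216 (.cut .v 8388608 (.pos 2 .mm ⟨⟨0, 0, 636507081, 0, 0, 1111052911, 0, 0, 0, ⟨0, 0⟩, 0⟩, 0, 0⟩ 0 0) (.cut .d (-8388608) (.void 3 ⟨⟨100028, 0, 0, 0, 0, 0, 0, 0, 0, ⟨0, 0⟩, 0⟩, 0, 0⟩ 0 0) (.cut .d (-4194304) (.void 3 ⟨⟨100000, 0, 0, 0, 0, 0, 0, 0, 0, ⟨0, 0⟩, 0⟩, 0, 0⟩ 0 0) (.cut .d (-2097152) (.void 3 ⟨⟨100000, 0, 0, 0, 0, 0, 0, 0, 0, ⟨0, 0⟩, 0⟩, 0, 0⟩ 0 0) (.cut .d (-1048576) (.void 3 ⟨⟨0, 0, 0, 0, 0, 100000, 0, 0, 0, ⟨0, 0⟩, 0⟩, 0, 0⟩ 0 0) (.cut .d (-524288) (.void 3 ⟨⟨0, 0, 0, 0, 0, 100000, 0, 0, 0, ⟨0, 0⟩, 0⟩, 0, 0⟩ 0 0) (.cut .d (-262144) (.void 3 ⟨⟨0, 0, 0, 0, 0, 100000, 0, 0, 0, ⟨0, 0⟩, 0⟩, 0, 0⟩ 0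 0) (.cut .d (-131072) (.void 3 ⟨⟨0, 0, 0, 0, 0, 100000, 0, 0, 0, ⟨0, 0⟩, 0⟩, 0, 0⟩ 0 0) (.cut .s 13369344 (.pos 3 .mm ⟨⟨0, 0, 0, 0, 0, 981010324, 0, 0, 0, ⟨0, 0⟩, 0⟩, 0, 0⟩ 0 0) (.pos 3 .mm ⟨⟨0, 0, 0, 0, 0, 1082746848, 0, 0, 0, ⟨0, 0⟩, 0⟩, 0, 0⟩ 0 0)))))))))) (.cut .v 268435456 (.cut .v 67108864 (.cut .v 33554432 (.cut .d (-8388608) (.void 24 ⟨⟨100000, 0, 0, 0, 0, 0, 0, 0, 0, ⟨0, 0⟩, 0⟩, 0, 0⟩ 0 0) (.cut .v 25165824 (.cut .d (-4194304) (.void 25 ⟨⟨100000, 0, 0, 0, 0, 0, 0, 0, 0, ⟨0, 0⟩, 0⟩, 0, 0⟩ 0 0) (.cut .v 20971520 (.cut .d (-2097152) (.void 27 ⟨⟨100000, 0, 0, 0, 0, 0, 0, 0, 0, ⟨0, 0⟩, 0⟩, 0, 0⟩ 0 0) (.cut .v 18874368 (.cut .d (-1048576)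 (.void 29 ⟨⟨100000, 0, 0, 0, 0, 0, 0, 0, 0, ⟨0, 0⟩, 0⟩, 0, 0⟩ 0 0) (.cut .v 17825792 (.cut .d (-524288) (.void 31 ⟨⟨100000, 0, 0, 0, 0, 0, 0, 0, 0, ⟨0, 0⟩, 0⟩, 0, 0⟩ 0 0) (.cut .v 17301504 (.cut .d (-262144) (.void 33 ⟨⟨100000, 0, 0, 0, 0, 0, 0, 0, 0, ⟨0, 0⟩, 0⟩, 0, 0⟩ 0 0) (.cut .v 17039360 (.cut .d (-131072) (.void 35 ⟨⟨100000, 0, 0, 0, 0, 0, 0, 0, 0, ⟨0, 0⟩, 0⟩, 0, 0⟩ 0 0) (.cut .d (-65536) (.void 35 ⟨⟨100000, 0, 0, 0, 0, 0, 0, 0, 0, ⟨0, 0⟩, 0⟩, 0, 0⟩ 0 0) (.cut .d (-32768) (.void 35 ⟨⟨100000, 0, 0, 0, 0, 0, 0, 0, 0, ⟨0, 0⟩, 0⟩, 0, 0⟩ 0 0) (.cut .d (-16384) (.void 35 ⟨⟨100000, 0, 0, 0, 0, 0, 0, 0, 0, ⟨0, 0⟩, 0⟩, 0, 0⟩ 0 0) (.cut .v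 16908288 (.cut .s 13369344 (.cut .d (-8192) (.cut .v 16842752 (.cut .d (-12288) (.void 39 ⟨⟨0, 0, 0, 0, 0, 100000, 0, 0, 0, ⟨0, 0⟩, 0⟩, 0, 0⟩ 0 0) (.cut .d (-10240) (.pos 39 .mp ⟨⟨397642024, 0, 0, 0, 0, 472795577, 0, 0, 0, ⟨0, 0⟩, 0⟩, 0, 0⟩ 0 0) (.cut .l 131821 (.void 39 ⟨⟨100000, 0, 0, 0, 0, 0, 0, 0, 0, ⟨0, 0⟩, 0⟩, 0, 0⟩ 0 0) (.cut .l 197731 (.void 39 ⟨⟨0, 0, 0, 0, 0, 100000, 0, 0, 0, ⟨0, 0⟩, 0⟩, 0, 0⟩ 0 0) (.cut .v 16809984 (.pos 51 .mp ⟨⟨0, 0, 0, 0, 0, 1014476830, 0, 0, 0, ⟨0, 0⟩, 0⟩, 0, 0⟩ 0 0) (.cut .v 16826368 (.cut .s 13303808 (.cut .s 13271040 (.pos 117 .mp ⟨⟨409738074, 0, 0, 0, 0, 244814529, 0, 0, 0, ⟨0, 0⟩, 0⟩, 0, 0⟩ 0 0) (.pos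 117 .mp ⟨⟨418995049, 0, 0, 0, 0, 249474489, 0, 0, 0, ⟨0, 0⟩, 0⟩, 0, 0⟩ 0 0)) (.cut .s 13336576 (.pos 117 .mp ⟨⟨428493457, 0, 0, 0, 0, 254545475, 0, 0, 0, ⟨0, 0⟩, 0⟩, 0, 0⟩ 0 0) (.pos 117 .mp ⟨⟨438240048, 0, 0, 0, 0, 260025148, 0, 0, 0, ⟨0, 0⟩, 0⟩, 0, 0⟩ 0 0))) (.pos 118 .mp ⟨⟨578891710, 0, 0, 0, 0, 0, 0, 0, 0, ⟨0, 0⟩, 0⟩, 0, 0⟩ 0 0))))))) (.pos 40 .mp ⟨⟨603230723, 0, 0, 0, 0, 0, 0, 0, 0, ⟨0, 0⟩, 0⟩, 0, 0⟩ 0 0)) (.cut .v 16842752 (.cut .s 13303808 (.cut .s 13271040 (.cut .v 16809984 (.cut .s 13254656 (.cut .l 131821 (.cut .d (-4096) (.pos 51 .mp ⟨⟨395246559, 0, 0, 0, 0, 269503707, 0, 0, 0, ⟨0, 0⟩, 0⟩, 0, 0⟩ 0 0) (.cut .s 13246464 (.pos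 51 .mp ⟨⟨402134002, 0, 0, 0, 0, 244553538, 0, 0, 0, ⟨0, 0⟩, 0⟩, 0, 0⟩ 0 0) (.pos 51 .mp ⟨⟨404358847, 0, 0, 0, 0, 245743676, 0, 0, 0, ⟨0, 0⟩, 0⟩, 0, 0⟩ 0 0))) (.pos 51 .mp ⟨⟨403426724, 0, 0, 0, 0, 241130715, 0, 0, 0, ⟨0, 0⟩, 0⟩, 0, 0⟩ 0 0)) (.cut .l 131821 (.cut .d (-4096) (.pos 51 .mp ⟨⟨399633683, 0, 0, 0, 0, 272005760, 0, 0, 0, ⟨0, 0⟩, 0⟩, 0, 0⟩ 0 0) (.cut .v 16793600 (.cut .l 65910 (.cut .d (-2048) (.pos 57 .mp ⟨⟨399356770, 0, 0, 0, 0, 271412329, 0, 0, 0, ⟨0, 0⟩, 0⟩, 0, 0⟩ 0 0) (.cut .s 13262848 (.pos 57 .mp ⟨⟨403700790, 0, 0, 0, 0, 251946626, 0, 0, 0, ⟨0, 0⟩, 0⟩, 0, 0⟩ 0 0) (.pos 57 .mp ⟨⟨406152538, 0, 0, 0, 0, 252790920, 0, 0, 0,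 ⟨0, 0⟩, 0⟩, 0, 0⟩ 0 0))) (.pos 57 .mp ⟨⟨405711922, 0, 0, 0, 0, 246749752, 0, 0, 0, ⟨0, 0⟩, 0⟩, 0, 0⟩ 0 0)) (.pos 58 .mp ⟨⟨543904773, 0, 0, 0, 0, 0, 0, 0, 0, ⟨0, 0⟩, 0⟩, 0, 0⟩ 0 0))) (.pos 51 .mp ⟨⟨407935079, 0, 0, 0, 0, 243797124, 0, 0, 0, ⟨0, 0⟩, 0⟩, 0, 0⟩ 0 0))) (.pos 52 .mp ⟨⟨543672295, 0, 0, 0, 0, 0, 0, 0, 0, ⟨0, 0⟩, 0⟩, 0, 0⟩ 0 0)) (.cut .v 16809984 (.cut .s 13287424 (.cut .l 131821 (.cut .d (-4096) (.pos 51 .mp ⟨⟨404077075, 0, 0, 0, 0, 274661690, 0, 0, 0, ⟨0, 0⟩, 0⟩, 0, 0⟩ 0 0) (.cut .v 16793600 (.cut .l 65910 (.cut .d (-2048) (.pos 57 .mp ⟨⟨403784517, 0, 0, 0, 0, 274085128, 0, 0, 0, ⟨0, 0⟩, 0⟩, 0, 0⟩ 0 0) (.cut .s 13279232 (.pos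 57 .mp ⟨⟨408418131, 0, 0, 0, 0, 254064209, 0, 0, 0, ⟨0, 0⟩, 0⟩, 0, 0⟩ 0 0) (.pos 57 .mp ⟨⟨410680294, 0, 0, 0, 0, 255401126, 0, 0, 0, ⟨0, 0⟩, 0⟩, 0, 0⟩ 0 0))) (.pos 57 .mp ⟨⟨401857938, 0, 0, 0, 0, 265217817, 0, 0, 0, ⟨0, 0⟩, 0⟩, 0, 0⟩ 0 0)) (.pos 58 .mp ⟨⟨456807891, 0, 0, 0, 0, 173763814, 0, 0, 0, ⟨0, 0⟩, 0⟩, 0, 0⟩ 0 0))) (.pos 51 .mp ⟨⟨400222369, 0, 0, 0, 0, 269507419, 0, 0, 0, ⟨0, 0⟩, 0⟩, 0, 0⟩ 0 0)) (.cut .s 13295616 (.cut .d (-4096) (.pos 51 .mp ⟨⟨410572412, 0, 0, 0, 0, 264386638, 0, 0, 0, ⟨0, 0⟩, 0⟩, 0, 0⟩ 0 0) (.cut .s 13291520 (.pos 51 .mp ⟨⟨414364725, 0, 0, 0, 0, 253667741, 0, 0, 0, ⟨0, 0⟩, 0⟩, 0, 0⟩ 0 0) (.pos 51 .mp ⟨⟨415387446,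 0, 0, 0, 0, 254551175, 0, 0, 0, ⟨0, 0⟩, 0⟩, 0, 0⟩ 0 0))) (.cut .d (-4096) (.pos 51 .mp ⟨⟨412500726, 0, 0, 0, 0, 266489178, 0, 0, 0, ⟨0, 0⟩, 0⟩, 0, 0⟩ 0 0) (.cut .s 13299712 (.pos 51 .mp ⟨⟨416422071, 0, 0, 0, 0, 255428351, 0, 0, 0, ⟨0, 0⟩, 0⟩, 0, 0⟩ 0 0) (.pos 51 .mp ⟨⟨417528071, 0, 0, 0, 0, 256190638, 0, 0, 0, ⟨0, 0⟩, 0⟩, 0, 0⟩ 0 0))))) (.pos 52 .mp ⟨⟨555139681, 0, 0, 0, 0, 0, 0, 0, 0, ⟨0, 0⟩, 0⟩, 0, 0⟩ 0 0))) (.cut .s 13336576 (.cut .s 13320192 (.cut .v 16809984 (.cut .s 13312000 (.cut .d (-4096) (.pos 51 .mp ⟨⟨414492762, 0, 0, 0, 0, 268528305, 0, 0, 0, ⟨0, 0⟩, 0⟩, 0, 0⟩ 0 0) (.cut .s 13307904 (.pos 51 .mp ⟨⟨418759882, 0, 0, 0, 0, 256738509,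 0, 0, 0, ⟨0, 0⟩, 0⟩, 0, 0⟩ 0 0) (.pos 51 .mp ⟨⟨419989678, 0, 0, 0, 0, 257305523, 0, 0, 0, ⟨0, 0⟩, 0⟩, 0, 0⟩ 0 0))) (.cut .d (-4096) (.pos 51 .mp ⟨⟨416549704, 0, 0, 0, 0, 270501881, 0, 0, 0, ⟨0, 0⟩, 0⟩, 0, 0⟩ 0 0) (.cut .s 13316096 (.pos 51 .mp ⟨⟨421217383, 0, 0, 0, 0, 257891872, 0, 0, 0, ⟨0, 0⟩, 0⟩, 0, 0⟩ 0 0) (.pos 51 .mp ⟨⟨422442916, 0, 0, 0, 0, 258497752, 0, 0, 0, ⟨0, 0⟩, 0⟩, 0, 0⟩ 0 0)))) (.pos 52 .mp ⟨⟨463006343, 0, 0, 0, 0, 185823837, 0, 0, 0, ⟨0, 0⟩, 0⟩, 0, 0⟩ 0 0)) (.cut .v 16809984 (.cut .s 13328384 (.cut .l 131821 (.cut .d (-4096) (.pos 51 .mp ⟨⟨417752597, 0, 0, 0, 0, 278178512, 0, 0, 0, ⟨0, 0⟩, 0⟩, 0, 0⟩ 0 0) (.cut .s 13324288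 (.pos 51 .mp ⟨⟨423859356, 0, 0, 0, 0, 258576853, 0, 0, 0, ⟨0, 0⟩, 0⟩, 0, 0⟩ 0 0) (.pos 51 .mp ⟨⟨425040042, 0, 0, 0, 0, 259307515, 0, 0, 0, ⟨0, 0⟩, 0⟩, 0, 0⟩ 0 0))) (.pos 51 .mp ⟨⟨413695323, 0, 0, 0, 0, 276762685, 0, 0, 0, ⟨0, 0⟩, 0⟩, 0, 0⟩ 0 0)) (.cut .l 131821 (.cut .d (-4096) (.pos 51 .mp ⟨⟨420083258, 0, 0, 0, 0, 279752490, 0, 0, 0, ⟨0, 0⟩, 0⟩, 0, 0⟩ 0 0) (.cut .s 13332480 (.pos 51 .mp ⟨⟨426224542, 0, 0, 0, 0, 260045035, 0, 0, 0, ⟨0, 0⟩, 0⟩, 0, 0⟩ 0 0) (.pos 51 .mp ⟨⟨427412870, 0, 0, 0, 0, 260789411, 0, 0, 0, ⟨0, 0⟩, 0⟩, 0, 0⟩ 0 0))) (.pos 51 .mp ⟨⟨415991046, 0, 0, 0, 0, 278401167, 0, 0, 0, ⟨0, 0⟩, 0⟩, 0, 0⟩ 0 0))) (.pos 52 .mp ⟨⟨467687936,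 0, 0, 0, 0, 188723061, 0, 0, 0, ⟨0, 0⟩, 0⟩, 0, 0⟩ 0 0))) (.cut .s 13352960 (.cut .v 16809984 (.cut .s 13344768 (.cut .l 131821 (.cut .d (-4096) (.pos 51 .mp ⟨⟨422428877, 0, 0, 0, 0, 281367427, 0, 0, 0, ⟨0, 0⟩, 0⟩, 0, 0⟩ 0 0) (.cut .s 13340672 (.pos 51 .mp ⟨⟨428605040, 0, 0, 0, 0, 261540639, 0, 0, 0, ⟨0, 0⟩, 0⟩, 0, 0⟩ 0 0) (.pos 51 .mp ⟨⟨429801064, 0, 0, 0, 0, 262298715, 0, 0, 0, ⟨0, 0⟩, 0⟩, 0, 0⟩ 0 0))) (.pos 51 .mp ⟨⟨418301385, 0, 0, 0, 0, 280052989, 0, 0, 0, ⟨0, 0⟩, 0⟩, 0, 0⟩ 0 0)) (.cut .l 131821 (.cut .d (-4096) (.pos 51 .mp ⟨⟨424789559, 0, 0, 0, 0, 283023639, 0, 0, 0, ⟨0, 0⟩, 0⟩, 0, 0⟩ 0 0) (.cut .s 13348864 (.pos 51 .mp ⟨⟨431000956,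 0, 0, 0, 0, 263063636, 0, 0, 0, ⟨0, 0⟩, 0⟩, 0, 0⟩ 0 0) (.pos 51 .mp ⟨⟨432204729, 0, 0, 0, 0, 263835397, 0, 0, 0, ⟨0, 0⟩, 0⟩, 0, 0⟩ 0 0))) (.pos 51 .mp ⟨⟨420626442, 0, 0, 0, 0, 281717869, 0, 0, 0, ⟨0, 0⟩, 0⟩, 0, 0⟩ 0 0))) (.pos 52 .mp ⟨⟨472810483, 0, 0, 0, 0, 191068065, 0, 0, 0, ⟨0, 0⟩, 0⟩, 0, 0⟩ 0 0)) (.cut .v 16809984 (.cut .s 13361152 (.cut .l 131821 (.cut .d (-4096) (.pos 51 .mp ⟨⟨427165410, 0, 0, 0, 0, 284721447, 0, 0, 0, ⟨0, 0⟩, 0⟩, 0, 0⟩ 0 0) (.cut .s 13357056 (.pos 51 .mp ⟨⟨433412397, 0, 0, 0, 0, 264613996, 0, 0, 0, ⟨0, 0⟩, 0⟩, 0, 0⟩ 0 0) (.pos 51 .mp ⟨⟨434623974, 0, 0, 0, 0, 265399427, 0, 0, 0, ⟨0, 0⟩, 0⟩, 0, 0⟩ 0 0))) (.pos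 51 .mp ⟨⟨422966321, 0, 0, 0, 0, 283395528, 0, 0, 0, ⟨0, 0⟩, 0⟩, 0, 0⟩ 0 0)) (.cut .l 131821 (.cut .d (-4096) (.pos 51 .mp ⟨⟨429556534, 0, 0, 0, 0, 286461172, 0, 0, 0, ⟨0, 0⟩, 0⟩, 0, 0⟩ 0 0) (.cut .s 13365248 (.pos 51 .mp ⟨⟨435839473, 0, 0, 0, 0, 266191688, 0, 0, 0, ⟨0, 0⟩, 0⟩, 0, 0⟩ 0 0) (.pos 51 .mp ⟨⟨437058907, 0, 0, 0, 0, 266990773, 0, 0, 0, ⟨0, 0⟩, 0⟩, 0, 0⟩ 0 0))) (.pos 51 .mp ⟨⟨425321124, 0, 0, 0, 0, 285085681, 0, 0, 0, ⟨0, 0⟩, 0⟩, 0, 0⟩ 0 0))) (.pos 52 .mp ⟨⟨478391407, 0, 0, 0, 0, 192827933, 0, 0, 0, ⟨0, 0⟩, 0⟩, 0, 0⟩ 0 0))))) (.pos 40 .mp ⟨⟨570785685, 0, 0, 0, 0, 0, 0, 0, 0, ⟨0, 0⟩, 0⟩, 0, 0⟩ 0 0))) (.cut .d (-8192) (.cut .v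 16842752 (.cut .d (-12288) (.void 39 ⟨⟨0, 0, 0, 0, 0, 100000, 0, 0, 0, ⟨0, 0⟩, 0⟩, 0, 0⟩ 0 0) (.cut .d (-10240) (.void 39 ⟨⟨0, 0, 0, 0, 0, 100000, 0, 0, 0, ⟨0, 0⟩, 0⟩, 0, 0⟩ 0 0) (.cut .l 131821 (.void 39 ⟨⟨100000, 0, 0, 0, 0, 0, 0, 0, 0, ⟨0, 0⟩, 0⟩, 0, 0⟩ 0 0) (.cut .l 197731 (.void 39 ⟨⟨0, 0, 0, 0, 0, 100000, 0, 0, 0, ⟨0, 0⟩, 0⟩, 0, 0⟩ 0 0) (.cut .v 16809984 (.pos 51 .mp ⟨⟨0, 0, 0, 0, 0, 1108802203, 0, 0, 0, ⟨0, 0⟩, 0⟩, 0, 0⟩ 0 0) (.cut .s 13434880 (.cut .s 13402112 (.pos 52 .mp ⟨⟨449064384, 0, 0, 0, 0, 264470741, 0, 0, 0, ⟨0, 0⟩, 0⟩, 0, 0⟩ 0 0) (.pos 52 .mp ⟨⟨459346649, 0, 0, 0, 0, 270725186, 0, 0, 0, ⟨0, 0⟩, 0⟩, 0, 0⟩ 0 0)) (.pos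 52 .mp ⟨⟨480730668, 0, 0, 0, 0, 272041459, 0, 0, 0, ⟨0, 0⟩, 0⟩, 0, 0⟩ 0 0))))))) (.pos 40 .mp ⟨⟨656462681, 0, 0, 0, 0, 0, 0, 0, 0, ⟨0, 0⟩, 0⟩, 0, 0⟩ 0 0)) (.cut .v 16842752 (.cut .s 13434880 (.cut .s 13402112 (.cut .s 13385728 (.cut .v 16809984 (.cut .s 13377536 (.cut .l 131821 (.cut .d (-4096) (.pos 51 .mp ⟨⟨431963039, 0, 0, 0, 0, 288243140, 0, 0, 0, ⟨0, 0⟩, 0⟩, 0, 0⟩ 0 0) (.cut .s 13373440 (.pos 51 .mp ⟨⟨438282292, 0, 0, 0, 0, 267796679, 0, 0, 0, ⟨0, 0⟩, 0⟩, 0, 0⟩ 0 0) (.pos 51 .mp ⟨⟨439509640, 0, 0, 0, 0, 268609402, 0, 0, 0, ⟨0, 0⟩, 0⟩, 0, 0⟩ 0 0))) (.pos 51 .mp ⟨⟨427690957, 0, 0, 0, 0, 286788043, 0, 0, 0, ⟨0, 0⟩, 0⟩, 0, 0⟩ 0 0))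 (.cut .d (-4096) (.pos 51 .mp ⟨⟨435486584, 0, 0, 0, 0, 283667741, 0, 0, 0, ⟨0, 0⟩, 0⟩, 0, 0⟩ 0 0) (.cut .s 13381632 (.pos 51 .mp ⟨⟨440509970, 0, 0, 0, 0, 270067351, 0, 0, 0, ⟨0, 0⟩, 0⟩, 0, 0⟩ 0 0) (.pos 51 .mp ⟨⟨441689530, 0, 0, 0, 0, 271013600, 0, 0, 0, ⟨0, 0⟩, 0⟩, 0, 0⟩ 0 0)))) (.pos 52 .mp ⟨⟨484448411, 0, 0, 0, 0, 193971167, 0, 0, 0, ⟨0, 0⟩, 0⟩, 0, 0⟩ 0 0)) (.cut .v 16809984 (.cut .s 13393920 (.cut .d (-4096) (.pos 51 .mp ⟨⟨438182338, 0, 0, 0, 0, 284951984, 0, 0, 0, ⟨0, 0⟩, 0⟩, 0, 0⟩ 0 0) (.cut .s 13389824 (.pos 51 .mp ⟨⟨442865477, 0, 0, 0, 0, 271982948, 0, 0, 0, ⟨0, 0⟩, 0⟩, 0, 0⟩ 0 0) (.pos 51 .mp ⟨⟨444037719, 0, 0, 0, 0, 272975623,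 0, 0, 0, ⟨0, 0⟩, 0⟩, 0, 0⟩ 0 0))) (.cut .d (-4096) (.pos 51 .mp ⟨⟨440955316, 0, 0, 0, 0, 286148236, 0, 0, 0, ⟨0, 0⟩, 0⟩, 0, 0⟩ 0 0) (.cut .s 13398016 (.pos 51 .mp ⟨⟨445206162, 0, 0, 0, 0, 273991850, 0, 0, 0, ⟨0, 0⟩, 0⟩, 0, 0⟩ 0 0) (.pos 51 .mp ⟨⟨446535614, 0, 0, 0, 0, 274728906, 0, 0, 0, ⟨0, 0⟩, 0⟩, 0, 0⟩ 0 0)))) (.pos 52 .mp ⟨⟨490999491, 0, 0, 0, 0, 194465669, 0, 0, 0, ⟨0, 0⟩, 0⟩, 0, 0⟩ 0 0))) (.cut .s 13418496 (.cut .v 16809984 (.cut .s 13410304 (.cut .d (-4096) (.pos 51 .mp ⟨⟨443806803, 0, 0, 0, 0, 287254147, 0, 0, 0, ⟨0, 0⟩, 0⟩, 0, 0⟩ 0 0) (.cut .s 13406208 (.pos 51 .mp ⟨⟨447925863, 0, 0, 0, 0, 275370794, 0, 0, 0, ⟨0, 0⟩, 0⟩, 0,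 0⟩ 0 0) (.pos 51 .mp ⟨⟨449331661, 0, 0, 0, 0, 276000655, 0, 0, 0, ⟨0, 0⟩, 0⟩, 0, 0⟩ 0 0))) (.cut .s 13414400 (.pos 51 .mp ⟨⟨446319759, 0, 0, 0, 0, 285419546, 0, 0, 0, ⟨0, 0⟩, 0⟩, 0, 0⟩ 0 0) (.pos 51 .mp ⟨⟨447805662, 0, 0, 0, 0, 285894522, 0, 0, 0, ⟨0, 0⟩, 0⟩, 0, 0⟩ 0 0))) (.pos 52 .mp ⟨⟨498062940, 0, 0, 0, 0, 194278728, 0, 0, 0, ⟨0, 0⟩, 0⟩, 0, 0⟩ 0 0)) (.cut .v 16809984 (.cut .l 131821 (.cut .d (-4096) (.pos 51 .mp ⟨⟨446731188, 0, 0, 0, 0, 305892019, 0, 0, 0, ⟨0, 0⟩, 0⟩, 0, 0⟩ 0 0) (.cut .v 16793600 (.cut .l 65910 (.cut .d (-2048) (.pos 57 .mp ⟨⟨446289345, 0, 0, 0, 0, 305472300, 0, 0, 0, ⟨0, 0⟩, 0⟩, 0, 0⟩ 0 0) (.cut .s 13426688 (.pos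 57 .mp ⟨⟨451448042, 0, 0, 0, 0, 282366487, 0, 0, 0, ⟨0, 0⟩, 0⟩, 0, 0⟩ 0 0) (.pos 57 .mp ⟨⟨453988227, 0, 0, 0, 0, 284200278, 0, 0, 0, ⟨0, 0⟩, 0⟩, 0, 0⟩ 0 0))) (.pos 57 .mp ⟨⟨444040452, 0, 0, 0, 0, 294865699, 0, 0, 0, ⟨0, 0⟩, 0⟩, 0, 0⟩ 0 0)) (.pos 58 .mp ⟨⟨507888414, 0, 0, 0, 0, 187883748, 0, 0, 0, ⟨0, 0⟩, 0⟩, 0, 0⟩ 0 0))) (.pos 51 .mp ⟨⟨442231552, 0, 0, 0, 0, 299688359, 0, 0, 0, ⟨0, 0⟩, 0⟩, 0, 0⟩ 0 0)) (.pos 52 .mp ⟨⟨505657354, 0, 0, 0, 0, 193377005, 0, 0, 0, ⟨0, 0⟩, 0⟩, 0, 0⟩ 0 0)))) (.cut .s 13467648 (.cut .v 16809984 (.cut .s 13451264 (.cut .l 131821 (.cut .d (-4096) (.pos 51 .mp ⟨⟨451781971, 0, 0, 0, 0, 310223483, 0, 0, 0, ⟨0, 0⟩,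 0⟩, 0, 0⟩ 0 0) (.cut .v 16793600 (.cut .s 13443072 (.cut .s 13438976 (.pos 57 .mp ⟨⟨461838345, 0, 0, 0, 0, 275664147, 0, 0, 0, ⟨0, 0⟩, 0⟩, 0, 0⟩ 0 0) (.pos 57 .mp ⟨⟨463459703, 0, 0, 0, 0, 276018919, 0, 0, 0, ⟨0, 0⟩, 0⟩, 0, 0⟩ 0 0)) (.pos 57 .mp ⟨⟨457272028, 0, 0, 0, 0, 291884239, 0, 0, 0, ⟨0, 0⟩, 0⟩, 0, 0⟩ 0 0)) (.pos 58 .mp ⟨⟨516068849, 0, 0, 0, 0, 186143444, 0, 0, 0, ⟨0, 0⟩, 0⟩, 0, 0⟩ 0 0))) (.pos 51 .mp ⟨⟨447203560, 0, 0, 0, 0, 303273977, 0, 0, 0, ⟨0, 0⟩, 0⟩, 0, 0⟩ 0 0)) (.cut .l 131821 (.cut .d (-4096) (.pos 51 .mp ⟨⟨456898323, 0, 0, 0, 0, 314737249, 0, 0, 0, ⟨0, 0⟩, 0⟩, 0, 0⟩ 0 0) (.cut .s 13459456 (.pos 51 .mp ⟨⟨464910911, 0, 0,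 0, 0, 284388813, 0, 0, 0, ⟨0, 0⟩, 0⟩, 0, 0⟩ 0 0) (.pos 51 .mp ⟨⟨467543014, 0, 0, 0, 0, 286286478, 0, 0, 0, ⟨0, 0⟩, 0⟩, 0, 0⟩ 0 0))) (.pos 51 .mp ⟨⟨452239640, 0, 0, 0, 0, 306897417, 0, 0, 0, ⟨0, 0⟩, 0⟩, 0, 0⟩ 0 0))) (.pos 52 .mp ⟨⟨552431941, 0, 0, 0, 0, 129872792, 0, 0, 0, ⟨0, 0⟩, 0⟩, 0, 0⟩ 0 0)) (.cut .v 16809984 (.cut .s 13484032 (.cut .l 131821 (.cut .d (-4096) (.pos 51 .mp ⟨⟨462081191, 0, 0, 0, 0, 319436210, 0, 0, 0, ⟨0, 0⟩, 0⟩, 0, 0⟩ 0 0) (.cut .s 13475840 (.pos 51 .mp ⟨⟨470192323, 0, 0, 0, 0, 288210820, 0, 0, 0, ⟨0, 0⟩, 0⟩, 0, 0⟩ 0 0) (.pos 51 .mp ⟨⟨472605087, 0, 0, 0, 0, 290673022, 0, 0, 0, ⟨0, 0⟩, 0⟩, 0, 0⟩ 0 0))) (.pos 51 .mp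 ⟨⟨457340720, 0, 0, 0, 0, 310556237, 0, 0, 0, ⟨0, 0⟩, 0⟩, 0, 0⟩ 0 0)) (.cut .s 13492224 (.pos 51 .mp ⟨⟨471157261, 0, 0, 0, 0, 301370079, 0, 0, 0, ⟨0, 0⟩, 0⟩, 0, 0⟩ 0 0) (.pos 51 .mp ⟨⟨476610396, 0, 0, 0, 0, 298187305, 0, 0, 0, ⟨0, 0⟩, 0⟩, 0, 0⟩ 0 0))) (.pos 52 .mp ⟨⟨571896448, 0, 0, 0, 0, 121709606, 0, 0, 0, ⟨0, 0⟩, 0⟩, 0, 0⟩ 0 0)))) (.pos 40 .mp ⟨⟨623524909, 0, 0, 0, 0, 0, 0, 0, 0, ⟨0, 0⟩, 0⟩, 0, 0⟩ 0 0)))) (.pos 38 .mp ⟨⟨631816202, 0, 0, 0, 0, 0, 0, 0, 0, ⟨0, 0⟩, 0⟩, 0, 0⟩ 0 0)))))) (.pos 36 .mp ⟨⟨708454816, 0, 0, 0, 0, 0, 0, 0, 0, ⟨0, 0⟩, 0⟩, 0, 0⟩ 0 0))) (.void 34 ⟨⟨100000, 0, 0, 0, 0, 0, 0, 0, 0, ⟨0, 0⟩, 0⟩, 0, 0⟩ 0 0))) (.void 32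 ⟨⟨100000, 0, 0, 0, 0, 0, 0, 0, 0, ⟨0, 0⟩, 0⟩, 0, 0⟩ 0 0))) (.void 30 ⟨⟨100000, 0, 0, 0, 0, 0, 0, 0, 0, ⟨0, 0⟩, 0⟩, 0, 0⟩ 0 0))) (.void 28 ⟨⟨100000, 0, 0, 0, 0, 0, 0, 0, 0, ⟨0, 0⟩, 0⟩, 0, 0⟩ 0 0))) (.void 26 ⟨⟨100000, 0, 0, 0, 0, 0, 0, 0, 0, ⟨0, 0⟩, 0⟩, 0, 0⟩ 0 0))) (.void 127 ⟨⟨100000, 0, 0, 0, 0, 0, 0, 0, 0, ⟨0, 0⟩, 0⟩, 0, 0⟩ 0 0)) (.void 134 ⟨⟨100000, 0, 0, 0, 0, 0, 0, 0, 0, ⟨0, 0⟩, 0⟩, 0, 0⟩ 0 0)) (.void 141 ⟨⟨95019, 0, 0, 5092, 0, 0, 0, 0, 0, ⟨0, 0⟩, 0⟩, 0, 0⟩ 0 0))) (.cut .v 16777216 (.cut .v 8388608 (.cut .v 4194304 (.cut .v 2097152 (.cut .v 1048576 (.pos 137 .pm ⟨⟨0, 0, 24352748, 0, 0, 0, 0, 0, 0, ⟨0, 0⟩, 0⟩, 0, 4750⟩ 0 0) (.pos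 138 .pm ⟨⟨0, 0, 27985536, 0, 0, 0, 0, 0, 0, ⟨0, 0⟩, 0⟩, 0, 6986⟩ 0 0)) (.pos 7 .pm ⟨⟨0, 0, 34120937, 0, 0, 0, 0, 0, 0, ⟨0, 0⟩, 0⟩, 0, 13196⟩ 0 0)) (.pos 5 .pm ⟨⟨0, 0, 16275634, 0, 0, 0, 0, 0, 0, ⟨0, 0⟩, 0⟩, 0, 0⟩ 0 0)) (.pos 3 .pm ⟨⟨0, 0, 0, 0, 0, 0, 0, 0, 0, ⟨0, 0⟩, 0⟩, 0, 0⟩ 0 0)) (.cut .v 268435456 (.cut .v 67108864 (.cut .d 2242500 (.cut .d 1121250 (.cut .v 33554432 (.cut .d 560625 (.cut .v 25165824 (.cut .d 280312 (.cut .v 20971520 (.cut .d 140156 (.cut .v 18874368 (.cut .v 17825792 (.pos 31 .pp ⟨⟨480516778, 0, 0, 0, 0, 0, 0, 0, 0, ⟨0, 0⟩, 0⟩, 7248534, 0⟩ 0 0) (.pos 32 .pp ⟨⟨621153794, 0, 0, 0, 0, 0, 0, 0, 0, ⟨0, 0⟩, 0⟩, 0, 0⟩ 0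 0)) (.pos 30 .pp ⟨⟨749216636, 0, 0, 0, 0, 0, 0, 0, 0, ⟨0, 0⟩, 0⟩, 0, 0⟩ 0 0)) (.pos 27 .pp ⟨⟨459642850, 0, 0, 0, 0, 0, 0, 0, 0, ⟨0, 0⟩, 0⟩, 0, 11409⟩ 0 0)) (.cut .d 140156 (.void 28 ⟨⟨100000, 0, 0, 0, 0, 0, 0, 0, 0, ⟨0, 0⟩, 0⟩, 0, 0⟩ 0 0) (.pos 28 .pp ⟨⟨0, 0, 0, 0, 0, 0, 0, 0, 0, ⟨0, 0⟩, 0⟩, 87192135, 0⟩ 0 0))) (.pos 25 .pp ⟨⟨0, 0, 0, 0, 0, 0, 0, 0, 0, ⟨0, 0⟩, 0⟩, 53522308, 28828⟩ 0 0)) (.pos 26 .pp ⟨⟨0, 0, 0, 0, 0, 0, 0, 0, 0, ⟨0, 0⟩, 0⟩, 131768085, 0⟩ 0 0)) (.pos 24 .pp ⟨⟨0, 0, 0, 0, 0, 0, 0, 0, 0, ⟨0, 0⟩, 0⟩, 53844538, 28504⟩ 0 0)) (.cut .d 560625 (.void 127 ⟨⟨0, 0, 0, 0, 0, 0, 0, 0, 0, ⟨0, 0⟩, 0⟩, 100000, 0⟩ 0 0) (.pos 127 .pp ⟨⟨0,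 0, 0, 0, 0, 0, 0, 0, 0, ⟨0, 0⟩, 0⟩, 162683150, 0⟩ 0 0))) (.cut .v 33554432 (.pos 24 .pp ⟨⟨0, 0, 0, 0, 0, 0, 0, 0, 0, ⟨0, 0⟩, 0⟩, 0, 82791⟩ 0 0) (.pos 127 .pp ⟨⟨0, 0, 0, 0, 0, 0, 17525, 0, 0, ⟨0, 0⟩, 0⟩, 77769307, 0⟩ 0 0))) (.pos 126 .pp ⟨⟨0, 0, 0, 0, 0, 0, 0, 0, 0, ⟨0, 0⟩, 0⟩, 0, 82791⟩ 0 0)) (.void 134 ⟨⟨0, 0, 0, 46538, 0, 0, 0, 0, 0, ⟨0, 0⟩, 0⟩, 53327, 0⟩ 0 0)) (.void 141 ⟨⟨0, 0, 0, 0, 0, 0, 0, 0, 0, ⟨0, 0⟩, 0⟩, 100000, 0⟩ 0 0)))),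
    by decide +kernel⟩

def covers24 : cell.Covers Vale.Agent.P237.Petty.Cor.Grid.N14.table row24.1 :=
  ⟨(.cut .d 0 (.cut .v 16777216 (.cut .v 8388608 (.pos 2 .mm ⟨⟨0, 0, 724995106, 0, 0, 1588564112, 0, 0, 0, ⟨0, 0⟩, 0⟩, 0, 0⟩ 0 0) (.cut .d (-8388608) (.void 3 ⟨⟨100059, 0, 0, 0, 0, 0, 0, 0, 0, ⟨0, 0⟩, 0⟩, 0, 0⟩ 0 0) (.cut .d (-4194304) (.void 3 ⟨⟨100000, 0, 0, 0, 0, 0, 0, 0, 0, ⟨0, 0⟩, 0⟩, 0, 0⟩ 0 0) (.cut .d (-2097152) (.void 3 ⟨⟨100000, 0, 0, 0, 0, 0, 0, 0, 0, ⟨0, 0⟩, 0⟩, 0, 0⟩ 0 0) (.cut .d (-1048576) (.void 3 ⟨⟨0, 0, 0, 0, 0, 100000, 0, 0, 0, ⟨0, 0⟩, 0⟩, 0, 0⟩ 0 0) (.cut .d (-524288) (.void 3 ⟨⟨0, 0, 0, 0, 0, 100000, 0, 0, 0, ⟨0,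 0⟩, 0⟩, 0, 0⟩ 0 0) (.cut .d (-262144) (.void 3 ⟨⟨0, 0, 0, 0, 0, 100000, 0, 0, 0, ⟨0, 0⟩, 0⟩, 0, 0⟩ 0 0) (.cut .d (-131072) (.void 3 ⟨⟨0, 0, 0, 0, 0, 100000, 0, 0, 0, ⟨0, 0⟩, 0⟩, 0, 0⟩ 0 0) (.cut .s 13631488 (.pos 3 .mm ⟨⟨0, 0, 0, 0, 0, 1197425083, 0, 0, 0, ⟨0, 0⟩, 0⟩, 0, 0⟩ 0 0) (.pos 3 .mm ⟨⟨0, 0, 0, 0, 0, 1325563892, 0, 0, 0, ⟨0, 0⟩, 0⟩, 0, 0⟩ 0 0)))))))))) (.cut .v 268435456 (.cut .v 67108864 (.cut .v 33554432 (.cut .d (-8388608) (.void 24 ⟨⟨100000, 0, 0, 0, 0, 0, 0, 0, 0, ⟨0, 0⟩, 0⟩, 0, 0⟩ 0 0) (.cut .v 25165824 (.cut .d (-4194304) (.void 25 ⟨⟨100000, 0, 0, 0, 0, 0, 0, 0, 0, ⟨0, 0⟩, 0⟩, 0, 0⟩ 0 0) (.cut .v 20971520 (.cut .d (-2097152)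 (.void 27 ⟨⟨100000, 0, 0, 0, 0, 0, 0, 0, 0, ⟨0, 0⟩, 0⟩, 0, 0⟩ 0 0) (.cut .v 18874368 (.cut .d (-1048576) (.void 29 ⟨⟨100000, 0, 0, 0, 0, 0, 0, 0, 0, ⟨0, 0⟩, 0⟩, 0, 0⟩ 0 0) (.cut .v 17825792 (.cut .d (-524288) (.void 31 ⟨⟨100000, 0, 0, 0, 0, 0, 0, 0, 0, ⟨0, 0⟩, 0⟩, 0, 0⟩ 0 0) (.cut .v 17301504 (.cut .d (-262144) (.void 33 ⟨⟨100000, 0, 0, 0, 0, 0, 0, 0, 0, ⟨0, 0⟩, 0⟩, 0, 0⟩ 0 0) (.cut .v 17039360 (.cut .d (-131072) (.void 35 ⟨⟨100000, 0, 0, 0, 0, 0, 0, 0, 0, ⟨0, 0⟩, 0⟩, 0, 0⟩ 0 0) (.cut .d (-65536) (.void 35 ⟨⟨100000, 0, 0, 0, 0, 0, 0, 0, 0, ⟨0, 0⟩, 0⟩, 0, 0⟩ 0 0) (.cut .d (-32768) (.void 35 ⟨⟨100000, 0, 0, 0, 0, 0, 0, 0, 0, ⟨0, 0⟩, 0⟩,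 0, 0⟩ 0 0) (.cut .d (-16384) (.void 35 ⟨⟨100000, 0, 0, 0, 0, 0, 0, 0, 0, ⟨0, 0⟩, 0⟩, 0, 0⟩ 0 0) (.cut .v 16908288 (.cut .d (-8192) (.cut .v 16842752 (.cut .l 131821 (.void 39 ⟨⟨100000, 0, 0, 0, 0, 0, 0, 0, 0, ⟨0, 0⟩, 0⟩, 0, 0⟩ 0 0) (.cut .d (-12288) (.void 39 ⟨⟨0, 0, 0, 0, 0, 100000, 0, 0, 0, ⟨0, 0⟩, 0⟩, 0, 0⟩ 0 0) (.cut .d (-10240) (.void 39 ⟨⟨0, 0, 0, 0, 0, 100000, 0, 0, 0, ⟨0, 0⟩, 0⟩, 0, 0⟩ 0 0) (.cut .d (-9216) (.pos 39 .mp ⟨⟨474955025, 0, 0, 0, 0, 658693720, 0, 0, 0, ⟨0, 0⟩, 0⟩, 0, 0⟩ 0 0) (.cut .l 197731 (.void 39 ⟨⟨0, 0, 0, 0, 0, 100000, 0, 0, 0, ⟨0, 0⟩, 0⟩, 0, 0⟩ 0 0) (.cut .v 16809984 (.pos 51 .mp ⟨⟨0, 0, 0, 0, 0, 1335669368,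 0, 0, 0, ⟨0, 0⟩, 0⟩, 0, 0⟩ 0 0) (.cut .l 230686 (.pos 52 .mp ⟨⟨476869378, 0, 0, 0, 0, 743552902, 0, 0, 0, ⟨0, 0⟩, 0⟩, 0, 0⟩ 0 0) (.cut .v 16826368 (.cut .s 13631488 (.cut .s 13565952 (.pos 117 .mp ⟨⟨499655020, 0, 0, 0, 0, 301547333, 0, 0, 0, ⟨0, 0⟩, 0⟩, 0, 0⟩ 0 0) (.pos 117 .mp ⟨⟨523342605, 0, 0, 0, 0, 310623404, 0, 0, 0, ⟨0, 0⟩, 0⟩, 0, 0⟩ 0 0)) (.cut .s 13697024 (.pos 117 .mp ⟨⟨520400293, 0, 0, 0, 0, 383246320, 0, 0, 0, ⟨0, 0⟩, 0⟩, 0, 0⟩ 0 0) (.pos 117 .mp ⟨⟨545245468, 0, 0, 0, 0, 399274868, 0, 0, 0, ⟨0, 0⟩, 0⟩, 0, 0⟩ 0 0))) (.pos 118 .mp ⟨⟨750148821, 0, 0, 0, 0, 0, 0, 0, 0, ⟨0, 0⟩, 0⟩, 0, 0⟩ 0 0))))))))) (.pos 40 .mp ⟨⟨794399990, 0,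 0, 0, 0, 0, 0, 0, 0, ⟨0, 0⟩, 0⟩, 0, 0⟩ 0 0)) (.cut .s 13631488 (.cut .v 16842752 (.cut .s 13565952 (.cut .s 13533184 (.cut .v 16809984 (.cut .s 13516800 (.cut .s 13508608 (.pos 51 .mp ⟨⟨482138211, 0, 0, 0, 0, 294927698, 0, 0, 0, ⟨0, 0⟩, 0⟩, 0, 0⟩ 0 0) (.pos 51 .mp ⟨⟨481362983, 0, 0, 0, 0, 302948318, 0, 0, 0, ⟨0, 0⟩, 0⟩, 0, 0⟩ 0 0)) (.cut .s 13524992 (.pos 51 .mp ⟨⟨481589352, 0, 0, 0, 0, 309150981, 0, 0, 0, ⟨0, 0⟩, 0⟩, 0, 0⟩ 0 0) (.cut .s 13529088 (.pos 51 .mp ⟨⟨494845042, 0, 0, 0, 0, 289382609, 0, 0, 0, ⟨0, 0⟩, 0⟩, 0, 0⟩ 0 0) (.pos 51 .mp ⟨⟨495639447, 0, 0, 0, 0, 291171645, 0, 0, 0, ⟨0, 0⟩, 0⟩, 0, 0⟩ 0 0)))) (.pos 52 .mp ⟨⟨593809730,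 0, 0, 0, 0, 110141537, 0, 0, 0, ⟨0, 0⟩, 0⟩, 0, 0⟩ 0 0)) (.cut .v 16809984 (.cut .s 13549568 (.cut .l 131821 (.cut .d (-4096) (.pos 51 .mp ⟨⟨484413011, 0, 0, 0, 0, 332914192, 0, 0, 0, ⟨0, 0⟩, 0⟩, 0, 0⟩ 0 0) (.cut .s 13541376 (.pos 51 .mp ⟨⟨492032224, 0, 0, 0, 0, 301879805, 0, 0, 0, ⟨0, 0⟩, 0⟩, 0, 0⟩ 0 0) (.pos 51 .mp ⟨⟨494846087, 0, 0, 0, 0, 303396178, 0, 0, 0, ⟨0, 0⟩, 0⟩, 0, 0⟩ 0 0))) (.pos 51 .mp ⟨⟨478442739, 0, 0, 0, 0, 327134339, 0, 0, 0, ⟨0, 0⟩, 0⟩, 0, 0⟩ 0 0)) (.cut .l 131821 (.cut .d (-4096) (.pos 51 .mp ⟨⟨489827356, 0, 0, 0, 0, 336360664, 0, 0, 0, ⟨0, 0⟩, 0⟩, 0, 0⟩ 0 0) (.cut .v 16793600 (.cut .s 13557760 (.pos 57 .mp ⟨⟨492646044,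 0, 0, 0, 0, 314365472, 0, 0, 0, ⟨0, 0⟩, 0⟩, 0, 0⟩ 0 0) (.cut .s 13561856 (.pos 57 .mp ⟨⟨503062251, 0, 0, 0, 0, 300613671, 0, 0, 0, ⟨0, 0⟩, 0⟩, 0, 0⟩ 0 0) (.pos 57 .mp ⟨⟨504119364, 0, 0, 0, 0, 302062856, 0, 0, 0, ⟨0, 0⟩, 0⟩, 0, 0⟩ 0 0))) (.pos 58 .mp ⟨⟨563400471, 0, 0, 0, 0, 193830589, 0, 0, 0, ⟨0, 0⟩, 0⟩, 0, 0⟩ 0 0))) (.pos 51 .mp ⟨⟨483900402, 0, 0, 0, 0, 331079496, 0, 0, 0, ⟨0, 0⟩, 0⟩, 0, 0⟩ 0 0))) (.pos 52 .mp ⟨⟨601103748, 0, 0, 0, 0, 122648084, 0, 0, 0, ⟨0, 0⟩, 0⟩, 0, 0⟩ 0 0))) (.cut .s 13598720 (.cut .v 16809984 (.cut .s 13582336 (.cut .s 13574144 (.cut .s 13570048 (.pos 51 .mp ⟨⟨499051649, 0, 0, 0, 0, 315720191, 0, 0, 0, ⟨0, 0⟩,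 0⟩, 0, 0⟩ 0 0) (.pos 51 .mp ⟨⟨499485712, 0, 0, 0, 0, 318456350, 0, 0, 0, ⟨0, 0⟩, 0⟩, 0, 0⟩ 0 0)) (.cut .s 13578240 (.pos 51 .mp ⟨⟨500090989, 0, 0, 0, 0, 320887037, 0, 0, 0, ⟨0, 0⟩, 0⟩, 0, 0⟩ 0 0) (.pos 51 .mp ⟨⟨501190001, 0, 0, 0, 0, 322400863, 0, 0, 0, ⟨0, 0⟩, 0⟩, 0, 0⟩ 0 0))) (.cut .s 13590528 (.cut .d (-4096) (.pos 51 .mp ⟨⟨494515324, 0, 0, 0, 0, 345221908, 0, 0, 0, ⟨0, 0⟩, 0⟩, 0, 0⟩ 0 0) (.cut .s 13586432 (.pos 51 .mp ⟨⟨507701525, 0, 0, 0, 0, 313063437, 0, 0, 0, ⟨0, 0⟩, 0⟩, 0, 0⟩ 0 0) (.pos 51 .mp ⟨⟨508946266, 0, 0, 0, 0, 314279935, 0, 0, 0, ⟨0, 0⟩, 0⟩, 0, 0⟩ 0 0))) (.cut .d (-4096) (.pos 51 .mp ⟨⟨497362458, 0, 0, 0, 0, 347033851,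 0, 0, 0, ⟨0, 0⟩, 0⟩, 0, 0⟩ 0 0) (.cut .s 13594624 (.pos 51 .mp ⟨⟨510208564, 0, 0, 0, 0, 315484922, 0, 0, 0, ⟨0, 0⟩, 0⟩, 0, 0⟩ 0 0) (.pos 51 .mp ⟨⟨511702384, 0, 0, 0, 0, 316281104, 0, 0, 0, ⟨0, 0⟩, 0⟩, 0, 0⟩ 0 0))))) (.pos 52 .mp ⟨⟨610505080, 0, 0, 0, 0, 132573839, 0, 0, 0, ⟨0, 0⟩, 0⟩, 0, 0⟩ 0 0)) (.cut .s 13615104 (.cut .v 16809984 (.cut .s 13606912 (.cut .d (-4096) (.pos 51 .mp ⟨⟨500228860, 0, 0, 0, 0, 348901132, 0, 0, 0, ⟨0, 0⟩, 0⟩, 0, 0⟩ 0 0) (.cut .s 13602816 (.pos 51 .mp ⟨⟨513303489, 0, 0, 0, 0, 316899030, 0, 0, 0, ⟨0, 0⟩, 0⟩, 0, 0⟩ 0 0) (.pos 51 .mp ⟨⟨514900405, 0, 0, 0, 0, 317545741, 0, 0, 0, ⟨0, 0⟩, 0⟩, 0, 0⟩ 0 0))) (.cut .d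 (-4096) (.pos 51 .mp ⟨⟨503114678, 0, 0, 0, 0, 350824211, 0, 0, 0, ⟨0, 0⟩, 0⟩, 0, 0⟩ 0 0) (.cut .s 13611008 (.pos 51 .mp ⟨⟨516493002, 0, 0, 0, 0, 318221554, 0, 0, 0, ⟨0, 0⟩, 0⟩, 0, 0⟩ 0 0) (.pos 51 .mp ⟨⟨518064940, 0, 0, 0, 0, 318958948, 0, 0, 0, ⟨0, 0⟩, 0⟩, 0, 0⟩ 0 0)))) (.pos 52 .mp ⟨⟨574534836, 0, 0, 0, 0, 216836670, 0, 0, 0, ⟨0, 0⟩, 0⟩, 0, 0⟩ 0 0)) (.cut .v 16809984 (.cut .s 13623296 (.cut .d (-4096) (.pos 51 .mp ⟨⟨506020057, 0, 0, 0, 0, 352803553, 0, 0, 0, ⟨0, 0⟩, 0⟩, 0, 0⟩ 0 0) (.cut .s 13619200 (.pos 51 .mp ⟨⟨519558910, 0, 0, 0, 0, 319871724, 0, 0, 0, ⟨0, 0⟩, 0⟩, 0, 0⟩ 0 0) (.pos 51 .mp ⟨⟨521058029, 0, 0, 0, 0, 320795050, 0, 0,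 0, ⟨0, 0⟩, 0⟩, 0, 0⟩ 0 0))) (.cut .d (-4096) (.pos 51 .mp ⟨⟨508945147, 0, 0, 0, 0, 354839628, 0, 0, 0, ⟨0, 0⟩, 0⟩, 0, 0⟩ 0 0) (.cut .s 13627392 (.pos 51 .mp ⟨⟨522562315, 0, 0, 0, 0, 321728938, 0, 0, 0, ⟨0, 0⟩, 0⟩, 0, 0⟩ 0 0) (.pos 51 .mp ⟨⟨524071790, 0, 0, 0, 0, 322673398, 0, 0, 0, ⟨0, 0⟩, 0⟩, 0, 0⟩ 0 0)))) (.pos 52 .mp ⟨⟨580293748, 0, 0, 0, 0, 220872021, 0, 0, 0, ⟨0, 0⟩, 0⟩, 0, 0⟩ 0 0))))) (.pos 40 .mp ⟨⟨684740049, 0, 0, 0, 0, 0, 0, 0, 0, ⟨0, 0⟩, 0⟩, 0, 0⟩ 0 0)) (.cut .v 16842752 (.cut .s 13697024 (.cut .s 13664256 (.cut .s 13647872 (.cut .v 16809984 (.cut .s 13639680 (.cut .d (-4096) (.pos 51 .mp ⟨⟨511890098, 0, 0, 0, 0, 356932911,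 0, 0, 0, ⟨0, 0⟩, 0⟩, 0, 0⟩ 0 0) (.cut .s 13635584 (.pos 51 .mp ⟨⟨525586473, 0, 0, 0, 0, 323628444, 0, 0, 0, ⟨0, 0⟩, 0⟩, 0, 0⟩ 0 0) (.pos 51 .mp ⟨⟨527106384, 0, 0, 0, 0, 324594086, 0, 0, 0, ⟨0, 0⟩, 0⟩, 0, 0⟩ 0 0))) (.cut .d (-4096) (.pos 51 .mp ⟨⟨514855062, 0, 0, 0, 0, 359083882, 0, 0, 0, ⟨0, 0⟩, 0⟩, 0, 0⟩ 0 0) (.cut .s 13643776 (.pos 51 .mp ⟨⟨528631543, 0, 0, 0, 0, 325570337, 0, 0, 0, ⟨0, 0⟩, 0⟩, 0, 0⟩ 0 0) (.pos 51 .mp ⟨⟨530161969, 0, 0, 0, 0, 326557207, 0, 0, 0, ⟨0, 0⟩, 0⟩, 0, 0⟩ 0 0)))) (.pos 52 .mp ⟨⟨586692295, 0, 0, 0, 0, 224062583, 0, 0, 0, ⟨0, 0⟩, 0⟩, 0, 0⟩ 0 0)) (.cut .v 16809984 (.cut .s 13656064 (.cut .d (-4096) (.pos 51 .mp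 ⟨⟨517840191, 0, 0, 0, 0, 361293024, 0, 0, 0, ⟨0, 0⟩, 0⟩, 0, 0⟩ 0 0) (.cut .s 13651968 (.pos 51 .mp ⟨⟨531697683, 0, 0, 0, 0, 327554708, 0, 0, 0, ⟨0, 0⟩, 0⟩, 0, 0⟩ 0 0) (.pos 51 .mp ⟨⟨533238706, 0, 0, 0, 0, 328562852, 0, 0, 0, ⟨0, 0⟩, 0⟩, 0, 0⟩ 0 0))) (.cut .d (-4096) (.pos 51 .mp ⟨⟨520845642, 0, 0, 0, 0, 363560829, 0, 0, 0, ⟨0, 0⟩, 0⟩, 0, 0⟩ 0 0) (.cut .s 13660160 (.pos 51 .mp ⟨⟨534785057, 0, 0, 0, 0, 329581649, 0, 0, 0, ⟨0, 0⟩, 0⟩, 0, 0⟩ 0 0) (.pos 51 .mp ⟨⟨536336758, 0, 0, 0, 0, 330611112, 0, 0, 0, ⟨0, 0⟩, 0⟩, 0, 0⟩ 0 0)))) (.pos 52 .mp ⟨⟨593756066, 0, 0, 0, 0, 226362205, 0, 0, 0, ⟨0, 0⟩, 0⟩, 0, 0⟩ 0 0))) (.cut .s 13680640 (.cut .v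 16809984 (.cut .s 13672448 (.cut .d (-4096) (.pos 51 .mp ⟨⟨523871570, 0, 0, 0, 0, 365887790, 0, 0, 0, ⟨0, 0⟩, 0⟩, 0, 0⟩ 0 0) (.cut .s 13668352 (.pos 51 .mp ⟨⟨537893829, 0, 0, 0, 0, 331651251, 0, 0, 0, ⟨0, 0⟩, 0⟩, 0, 0⟩ 0 0) (.pos 51 .mp ⟨⟨539456290, 0, 0, 0, 0, 332702078, 0, 0, 0, ⟨0, 0⟩, 0⟩, 0, 0⟩ 0 0))) (.cut .d (-4096) (.pos 51 .mp ⟨⟨526918135, 0, 0, 0, 0, 368274408, 0, 0, 0, ⟨0, 0⟩, 0⟩, 0, 0⟩ 0 0) (.cut .s 13676544 (.pos 51 .mp ⟨⟨541024163, 0, 0, 0, 0, 333763603, 0, 0, 0, ⟨0, 0⟩, 0⟩, 0, 0⟩ 0 0) (.pos 51 .mp ⟨⟨542597468, 0, 0, 0, 0, 334835839, 0, 0, 0, ⟨0, 0⟩, 0⟩, 0, 0⟩ 0 0)))) (.pos 52 .mp ⟨⟨601511118, 0, 0, 0, 0, 227723781, 0, 0,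 0, ⟨0, 0⟩, 0⟩, 0, 0⟩ 0 0)) (.cut .v 16809984 (.cut .s 13688832 (.cut .d (-4096) (.pos 51 .mp ⟨⟨529985495, 0, 0, 0, 0, 370721188, 0, 0, 0, ⟨0, 0⟩, 0⟩, 0, 0⟩ 0 0) (.cut .s 13684736 (.pos 51 .mp ⟨⟨544176227, 0, 0, 0, 0, 335918795, 0, 0, 0, ⟨0, 0⟩, 0⟩, 0, 0⟩ 0 0) (.pos 51 .mp ⟨⟨545749058, 0, 0, 0, 0, 337035173, 0, 0, 0, ⟨0, 0⟩, 0⟩, 0, 0⟩ 0 0))) (.cut .d (-4096) (.pos 51 .mp ⟨⟨533073813, 0, 0, 0, 0, 373228641, 0, 0, 0, ⟨0, 0⟩, 0⟩, 0, 0⟩ 0 0) (.cut .s 13692928 (.pos 51 .mp ⟨⟨547225921, 0, 0, 0, 0, 338364246, 0, 0, 0, ⟨0, 0⟩, 0⟩, 0, 0⟩ 0 0) (.pos 51 .mp ⟨⟨548695426, 0, 0, 0, 0, 339729779, 0, 0, 0, ⟨0, 0⟩, 0⟩, 0, 0⟩ 0 0)))) (.pos 52 .mp ⟨⟨609983985,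 0, 0, 0, 0, 228099224, 0, 0, 0, ⟨0, 0⟩, 0⟩, 0, 0⟩ 0 0)))) (.cut .s 13729792 (.cut .s 13713408 (.cut .v 16809984 (.cut .s 13705216 (.cut .d (-4096) (.pos 51 .mp ⟨⟨536183253, 0, 0, 0, 0, 375797281, 0, 0, 0, ⟨0, 0⟩, 0⟩, 0, 0⟩ 0 0) (.cut .s 13701120 (.pos 51 .mp ⟨⟨550157411, 0, 0, 0, 0, 341132155, 0, 0, 0, ⟨0, 0⟩, 0⟩, 0, 0⟩ 0 0) (.pos 51 .mp ⟨⟨551656397, 0, 0, 0, 0, 342488314, 0, 0, 0, ⟨0, 0⟩, 0⟩, 0, 0⟩ 0 0))) (.cut .d (-4096) (.pos 51 .mp ⟨⟨539313979, 0, 0, 0, 0, 378427631, 0, 0, 0, ⟨0, 0⟩, 0⟩, 0, 0⟩ 0 0) (.cut .s 13709312 (.pos 51 .mp ⟨⟨553492639, 0, 0, 0, 0, 343237396, 0, 0, 0, ⟨0, 0⟩, 0⟩, 0, 0⟩ 0 0) (.pos 51 .mp ⟨⟨555352511, 0, 0, 0,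 0, 343965062, 0, 0, 0, ⟨0, 0⟩, 0⟩, 0, 0⟩ 0 0)))) (.pos 52 .mp ⟨⟨619201696, 0, 0, 0, 0, 227439437, 0, 0, 0, ⟨0, 0⟩, 0⟩, 0, 0⟩ 0 0)) (.cut .v 16809984 (.cut .s 13721600 (.cut .s 13717504 (.pos 51 .mp ⟨⟨551093014, 0, 0, 0, 0, 357048322, 0, 0, 0, ⟨0, 0⟩, 0⟩, 0, 0⟩ 0 0) (.pos 51 .mp ⟨⟨553063251, 0, 0, 0, 0, 357551579, 0, 0, 0, ⟨0, 0⟩, 0⟩, 0, 0⟩ 0 0)) (.cut .s 13725696 (.pos 51 .mp ⟨⟨555619751, 0, 0, 0, 0, 356957079, 0, 0, 0, ⟨0, 0⟩, 0⟩, 0, 0⟩ 0 0) (.pos 51 .mp ⟨⟨558310269, 0, 0, 0, 0, 356126201, 0, 0, 0, ⟨0, 0⟩, 0⟩, 0, 0⟩ 0 0))) (.pos 52 .mp ⟨⟨629191786, 0, 0, 0, 0, 225694288, 0, 0, 0, ⟨0, 0⟩, 0⟩, 0, 0⟩ 0 0))) (.cut .v 16809984 (.cut .s 13746176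 (.cut .s 13737984 (.cut .s 13733888 (.pos 51 .mp ⟨⟨561067425, 0, 0, 0, 0, 355187294, 0, 0, 0, ⟨0, 0⟩, 0⟩, 0, 0⟩ 0 0) (.pos 51 .mp ⟨⟨563891606, 0, 0, 0, 0, 354139600, 0, 0, 0, ⟨0, 0⟩, 0⟩, 0, 0⟩ 0 0)) (.cut .s 13742080 (.pos 51 .mp ⟨⟨566783198, 0, 0, 0, 0, 352982360, 0, 0, 0, ⟨0, 0⟩, 0⟩, 0, 0⟩ 0 0) (.pos 51 .mp ⟨⟨569742593, 0, 0, 0, 0, 351714812, 0, 0, 0, ⟨0, 0⟩, 0⟩, 0, 0⟩ 0 0))) (.cut .l 131821 (.cut .d (-4096) (.pos 51 .mp ⟨⟨561901759, 0, 0, 0, 0, 393273928, 0, 0, 0, ⟨0, 0⟩, 0⟩, 0, 0⟩ 0 0) (.cut .s 13754368 (.pos 51 .mp ⟨⟨571870481, 0, 0, 0, 0, 352873290, 0, 0, 0, ⟨0, 0⟩, 0⟩, 0, 0⟩ 0 0) (.pos 51 .mp ⟨⟨575237668, 0, 0, 0, 0, 355306620,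 0, 0, 0, ⟨0, 0⟩, 0⟩, 0, 0⟩ 0 0))) (.pos 51 .mp ⟨⟨555487745, 0, 0, 0, 0, 383623276, 0, 0, 0, ⟨0, 0⟩, 0⟩, 0, 0⟩ 0 0))) (.pos 52 .mp ⟨⟨696004124, 0, 0, 0, 0, 131143015, 0, 0, 0, ⟨0, 0⟩, 0⟩, 0, 0⟩ 0 0)))) (.pos 40 .mp ⟨⟨749392916, 0, 0, 0, 0, 0, 0, 0, 0, ⟨0, 0⟩, 0⟩, 0, 0⟩ 0 0)))) (.pos 38 .mp ⟨⟨760578706, 0, 0, 0, 0, 0, 0, 0, 0, ⟨0, 0⟩, 0⟩, 0, 0⟩ 0 0)))))) (.pos 36 .mp ⟨⟨853810205, 0, 0, 0, 0, 0, 0, 0, 0, ⟨0, 0⟩, 0⟩, 0, 0⟩ 0 0))) (.void 34 ⟨⟨100000, 0, 0, 0, 0, 0, 0, 0, 0, ⟨0, 0⟩, 0⟩, 0, 0⟩ 0 0))) (.void 32 ⟨⟨100000, 0, 0, 0, 0, 0, 0, 0, 0, ⟨0, 0⟩, 0⟩, 0, 0⟩ 0 0))) (.void 30 ⟨⟨100000, 0, 0, 0, 0, 0, 0, 0, 0, ⟨0, 0⟩, 0⟩, 0, 0⟩ 0 0))) (.void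 28 ⟨⟨100000, 0, 0, 0, 0, 0, 0, 0, 0, ⟨0, 0⟩, 0⟩, 0, 0⟩ 0 0))) (.void 26 ⟨⟨100000, 0, 0, 0, 0, 0, 0, 0, 0, ⟨0, 0⟩, 0⟩, 0, 0⟩ 0 0))) (.void 127 ⟨⟨100000, 0, 0, 0, 0, 0, 0, 0, 0, ⟨0, 0⟩, 0⟩, 0, 0⟩ 0 0)) (.void 134 ⟨⟨100000, 0, 0, 0, 0, 0, 0, 0, 0, ⟨0, 0⟩, 0⟩, 0, 0⟩ 0 0)) (.void 141 ⟨⟨94959, 0, 0, 5181, 0, 0, 0, 0, 0, ⟨0, 0⟩, 0⟩, 0, 0⟩ 0 0))) (.cut .v 16777216 (.cut .v 8388608 (.cut .v 4194304 (.cut .v 2097152 (.cut .v 1048576 (.pos 137 .pm ⟨⟨0, 0, 25394394, 0, 0, 0, 0, 0, 0, ⟨0, 0⟩, 0⟩, 0, 3249⟩ 0 0) (.pos 138 .pm ⟨⟨0, 0, 28975791, 0, 0, 0, 0, 0, 0, ⟨0, 0⟩, 0⟩, 0, 4778⟩ 0 0)) (.pos 7 .pm ⟨⟨0, 0, 36939711, 0, 0, 0, 0, 0, 0, ⟨0, 0⟩, 0⟩, 0,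 9024⟩ 0 0)) (.pos 5 .pm ⟨⟨0, 0, 20371721, 0, 0, 0, 0, 0, 0, ⟨0, 0⟩, 0⟩, 0, 0⟩ 0 0)) (.pos 3 .pm ⟨⟨0, 0, 0, 0, 0, 0, 0, 0, 0, ⟨0, 0⟩, 0⟩, 0, 0⟩ 0 0)) (.cut .v 268435456 (.cut .v 67108864 (.cut .d 2036071 (.cut .d 1018035 (.cut .v 33554432 (.cut .d 509017 (.cut .v 25165824 (.cut .d 254508 (.cut .v 20971520 (.cut .d 127254 (.cut .v 18874368 (.cut .v 17825792 (.pos 31 .pp ⟨⟨594494331, 0, 0, 0, 0, 0, 0, 0, 0, ⟨0, 0⟩, 0⟩, 6057198, 0⟩ 0 0) (.pos 32 .pp ⟨⟨741852508, 0, 0, 0, 0, 0, 0, 0, 0, ⟨0, 0⟩, 0⟩, 0, 0⟩ 0 0)) (.pos 30 .pp ⟨⟨894937200, 0, 0, 0, 0, 0, 0, 0, 0, ⟨0, 0⟩, 0⟩, 0, 0⟩ 0 0)) (.pos 27 .pp ⟨⟨0, 0, 0, 0, 0, 0, 0, 0, 0, ⟨0, 0⟩, 0⟩, 66144530,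 19374⟩ 0 0)) (.cut .d 127254 (.void 28 ⟨⟨100000, 0, 0, 0, 0, 0, 0, 0, 0, ⟨0, 0⟩, 0⟩, 0, 0⟩ 0 0) (.pos 28 .pp ⟨⟨0, 0, 0, 0, 0, 0, 0, 0, 0, ⟨0, 0⟩, 0⟩, 103893711, 0⟩ 0 0))) (.pos 25 .pp ⟨⟨0, 0, 0, 0, 0, 0, 0, 0, 0, ⟨0, 0⟩, 0⟩, 63206686, 21148⟩ 0 0)) (.pos 26 .pp ⟨⟨0, 0, 0, 0, 0, 0, 0, 0, 0, ⟨0, 0⟩, 0⟩, 156935137, 0⟩ 0 0)) (.pos 24 .pp ⟨⟨0, 0, 0, 0, 0, 0, 0, 0, 0, ⟨0, 0⟩, 0⟩, 63157405, 21178⟩ 0 0)) (.cut .d 509017 (.void 127 ⟨⟨0, 0, 0, 0, 0, 0, 0, 0, 0, ⟨0, 0⟩, 0⟩, 100000, 0⟩ 0 0) (.pos 127 .pp ⟨⟨0, 0, 0, 0, 0, 0, 0, 0, 0, ⟨0, 0⟩, 0⟩, 192559291, 0⟩ 0 0))) (.cut .v 33554432 (.pos 24 .pp ⟨⟨0, 0, 0, 0, 0, 0, 0, 0, 0, ⟨0, 0⟩, 0⟩, 0, 59318⟩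 0 0) (.pos 127 .pp ⟨⟨0, 0, 0, 0, 0, 0, 16016, 0, 0, ⟨0, 0⟩, 0⟩, 91595698, 0⟩ 0 0))) (.pos 126 .pp ⟨⟨0, 0, 0, 0, 0, 0, 0, 0, 0, ⟨0, 0⟩, 0⟩, 0, 59318⟩ 0 0)) (.void 134 ⟨⟨0, 0, 0, 47412, 0, 0, 0, 0, 0, ⟨0, 0⟩, 0⟩, 52588, 0⟩ 0 0)) (.void 141 ⟨⟨0, 0, 0, 0, 0, 0, 0, 0, 0, ⟨0, 0⟩, 0⟩, 100000, 0⟩ 0 0)))),
    by decide +kernel⟩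

def covers25 : cell.Covers Vale.Agent.P237.Petty.Cor.Grid.N14.table row25.1 :=
  ⟨(.cut .d 0 (.cut .v 16777216 (.cut .v 8388608 (.pos 2 .mm ⟨⟨0, 0, 813833282, 0, 0, 2050061281, 0, 0, 0, ⟨0, 0⟩, 0⟩, 0, 0⟩ 0 0) (.cut .d (-8388608) (.void 3 ⟨⟨100000, 0, 0, 0, 0, 0, 0, 0, 0, ⟨0, 0⟩, 0⟩, 0, 0⟩ 0 0) (.cut .d (-4194304) (.void 3 ⟨⟨100000, 0, 0, 0, 0, 0, 0, 0, 0, ⟨0, 0⟩, 0⟩, 0, 0⟩ 0 0) (.cut .d (-2097152) (.void 3 ⟨⟨100000, 0, 0, 0, 0, 0, 0, 0, 0, ⟨0, 0⟩, 0⟩, 0, 0⟩ 0 0) (.cut .d (-1048576) (.void 3 ⟨⟨0, 0, 0, 0, 0, 100000, 0, 0, 0, ⟨0, 0⟩, 0⟩, 0, 0⟩ 0 0) (.cut .d (-524288) (.void 3 ⟨⟨0, 0, 0, 0, 0, 100000, 0, 0, 0, ⟨0, 0⟩, 0⟩, 0, 0⟩ 0 0) (.cut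 .d (-262144) (.void 3 ⟨⟨0, 0, 0, 0, 0, 100000, 0, 0, 0, ⟨0, 0⟩, 0⟩, 0, 0⟩ 0 0) (.cut .s 13860864 (.pos 3 .mm ⟨⟨0, 0, 0, 0, 0, 1463720320, 0, 0, 0, ⟨0, 0⟩, 0⟩, 0, 0⟩ 0 0) (.pos 3 .mm ⟨⟨0, 0, 0, 0, 0, 1585014426, 0, 0, 0, ⟨0, 0⟩, 0⟩, 0, 0⟩ 0 0))))))))) (.cut .v 268435456 (.cut .v 67108864 (.cut .v 33554432 (.cut .d (-8388608) (.void 24 ⟨⟨99991, 0, 0, 0, 0, 0, 0, 0, 0, ⟨0, 0⟩, 0⟩, 0, 0⟩ 0 0) (.cut .v 25165824 (.cut .d (-4194304) (.void 25 ⟨⟨100000, 0, 0, 0, 0, 0, 0, 0, 0, ⟨0, 0⟩, 0⟩, 0, 0⟩ 0 0) (.cut .v 20971520 (.cut .d (-2097152) (.void 27 ⟨⟨100000, 0, 0, 0, 0, 0, 0, 0, 0, ⟨0, 0⟩, 0⟩, 0, 0⟩ 0 0) (.cut .d (-1048576) (.void 27 ⟨⟨100000,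 0, 0, 0, 0, 0, 0, 0, 0, ⟨0, 0⟩, 0⟩, 0, 0⟩ 0 0) (.cut .v 18874368 (.cut .d (-524288) (.void 29 ⟨⟨100000, 0, 0, 0, 0, 0, 0, 0, 0, ⟨0, 0⟩, 0⟩, 0, 0⟩ 0 0) (.cut .v 17825792 (.cut .v 17301504 (.cut .d (-262144) (.void 33 ⟨⟨100000, 0, 0, 0, 0, 0, 0, 0, 0, ⟨0, 0⟩, 0⟩, 0, 0⟩ 0 0) (.cut .v 17039360 (.cut .d (-131072) (.void 35 ⟨⟨100000, 0, 0, 0, 0, 0, 0, 0, 0, ⟨0, 0⟩, 0⟩, 0, 0⟩ 0 0) (.cut .d (-65536) (.void 35 ⟨⟨100000, 0, 0, 0, 0, 0, 0, 0, 0, ⟨0, 0⟩, 0⟩, 0, 0⟩ 0 0) (.cut .d (-32768) (.void 35 ⟨⟨100000, 0, 0, 0, 0, 0, 0, 0, 0, ⟨0, 0⟩, 0⟩, 0, 0⟩ 0 0) (.cut .d (-16384) (.void 35 ⟨⟨100000, 0, 0, 0, 0, 0, 0, 0, 0, ⟨0, 0⟩, 0⟩, 0, 0⟩ 0 0) (.cut .v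 16908288 (.cut .d (-8192) (.cut .v 16842752 (.pos 39 .mp ⟨⟨570448353, 0, 0, 0, 0, 719977535, 0, 0, 0, ⟨0, 0⟩, 0⟩, 0, 0⟩ 0 0) (.void 40 ⟨⟨100000, 0, 0, 0, 0, 0, 0, 0, 0, ⟨0, 0⟩, 0⟩, 0, 0⟩ 0 0)) (.cut .s 13860864 (.cut .v 16842752 (.cut .s 13811712 (.cut .s 13787136 (.cut .v 16809984 (.cut .s 13774848 (.cut .s 13768704 (.pos 51 .mp ⟨⟨576374084, 0, 0, 0, 0, 362301440, 0, 0, 0, ⟨0, 0⟩, 0⟩, 0, 0⟩ 0 0) (.pos 51 .mp ⟨⟨576369006, 0, 0, 0, 0, 368569468, 0, 0, 0, ⟨0, 0⟩, 0⟩, 0, 0⟩ 0 0)) (.cut .s 13780992 (.pos 51 .mp ⟨⟨576790464, 0, 0, 0, 0, 374078373, 0, 0, 0, ⟨0, 0⟩, 0⟩, 0, 0⟩ 0 0) (.cut .s 13784064 (.pos 51 .mp ⟨⟨591209724, 0, 0, 0, 0, 351325345,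 0, 0, 0, ⟨0, 0⟩, 0⟩, 0, 0⟩ 0 0) (.pos 51 .mp ⟨⟨591804871, 0, 0, 0, 0, 353346500, 0, 0, 0, ⟨0, 0⟩, 0⟩, 0, 0⟩ 0 0)))) (.pos 52 .mp ⟨⟨687885986, 0, 0, 0, 0, 175207530, 0, 0, 0, ⟨0, 0⟩, 0⟩, 0, 0⟩ 0 0)) (.cut .v 16809984 (.cut .s 13799424 (.cut .d (-4096) (.pos 51 .mp ⟨⟨571862859, 0, 0, 0, 0, 406587587, 0, 0, 0, ⟨0, 0⟩, 0⟩, 0, 0⟩ 0 0) (.cut .s 13793280 (.pos 51 .mp ⟨⟨587850338, 0, 0, 0, 0, 364736535, 0, 0, 0, ⟨0, 0⟩, 0⟩, 0, 0⟩ 0 0) (.pos 51 .mp ⟨⟨590692210, 0, 0, 0, 0, 365685353, 0, 0, 0, ⟨0, 0⟩, 0⟩, 0, 0⟩ 0 0))) (.cut .d (-4096) (.pos 51 .mp ⟨⟨576959199, 0, 0, 0, 0, 409623051, 0, 0, 0, ⟨0, 0⟩, 0⟩, 0, 0⟩ 0 0) (.cut .s 13805568 (.pos 51 .mp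 ⟨⟨593318664, 0, 0, 0, 0, 367123572, 0, 0, 0, ⟨0, 0⟩, 0⟩, 0, 0⟩ 0 0) (.pos 51 .mp ⟨⟨595959536, 0, 0, 0, 0, 368592206, 0, 0, 0, ⟨0, 0⟩, 0⟩, 0, 0⟩ 0 0)))) (.pos 52 .mp ⟨⟨696540597, 0, 0, 0, 0, 183942081, 0, 0, 0, ⟨0, 0⟩, 0⟩, 0, 0⟩ 0 0))) (.cut .s 13836288 (.cut .v 16809984 (.cut .s 13824000 (.cut .d (-4096) (.pos 51 .mp ⟨⟨582110593, 0, 0, 0, 0, 412820513, 0, 0, 0, ⟨0, 0⟩, 0⟩, 0, 0⟩ 0 0) (.cut .s 13817856 (.pos 51 .mp ⟨⟨598614914, 0, 0, 0, 0, 370091304, 0, 0, 0, ⟨0, 0⟩, 0⟩, 0, 0⟩ 0 0) (.cut .s 13820928 (.pos 51 .mp ⟨⟨601431932, 0, 0, 0, 0, 370513275, 0, 0, 0, ⟨0, 0⟩, 0⟩, 0, 0⟩ 0 0) (.pos 51 .mp ⟨⟨602573723, 0, 0, 0, 0, 371640597, 0, 0, 0,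 ⟨0, 0⟩, 0⟩, 0, 0⟩ 0 0)))) (.cut .d (-4096) (.cut .s 13830144 (.pos 51 .mp ⟨⟨587317712, 0, 0, 0, 0, 412425530, 0, 0, 0, ⟨0, 0⟩, 0⟩, 0, 0⟩ 0 0) (.pos 51 .mp ⟨⟨589942381, 0, 0, 0, 0, 414137392, 0, 0, 0, ⟨0, 0⟩, 0⟩, 0, 0⟩ 0 0)) (.cut .l 131821 (.cut .v 16793600 (.cut .s 13830144 (.pos 57 .mp ⟨⟨596804525, 0, 0, 0, 0, 386811040, 0, 0, 0, ⟨0, 0⟩, 0⟩, 0, 0⟩ 0 0) (.pos 57 .mp ⟨⟨598643459, 0, 0, 0, 0, 390091743, 0, 0, 0, ⟨0, 0⟩, 0⟩, 0, 0⟩ 0 0)) (.pos 58 .mp ⟨⟨669895533, 0, 0, 0, 0, 260489378, 0, 0, 0, ⟨0, 0⟩, 0⟩, 0, 0⟩ 0 0)) (.pos 51 .mp ⟨⟨597458955, 0, 0, 0, 0, 377969579, 0, 0, 0, ⟨0, 0⟩, 0⟩, 0, 0⟩ 0 0)))) (.pos 52 .mp ⟨⟨706934851, 0, 0, 0, 0,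 190398175, 0, 0, 0, ⟨0, 0⟩, 0⟩, 0, 0⟩ 0 0)) (.cut .v 16809984 (.cut .s 13848576 (.cut .d (-4096) (.cut .s 13842432 (.pos 51 .mp ⟨⟨592581239, 0, 0, 0, 0, 415890995, 0, 0, 0, ⟨0, 0⟩, 0⟩, 0, 0⟩ 0 0) (.pos 51 .mp ⟨⟨595234372, 0, 0, 0, 0, 417686619, 0, 0, 0, ⟨0, 0⟩, 0⟩, 0, 0⟩ 0 0)) (.cut .l 131821 (.cut .v 16793600 (.cut .d (-2048) (.pos 57 .mp ⟨⟨594976842, 0, 0, 0, 0, 413359982, 0, 0, 0, ⟨0, 0⟩, 0⟩, 0, 0⟩ 0 0) (.cut .s 13842432 (.pos 57 .mp ⟨⟨604531734, 0, 0, 0, 0, 385196581, 0, 0, 0, ⟨0, 0⟩, 0⟩, 0, 0⟩ 0 0) (.pos 57 .mp ⟨⟨607297715, 0, 0, 0, 0, 386755188, 0, 0, 0, ⟨0, 0⟩, 0⟩, 0, 0⟩ 0 0))) (.pos 58 .mp ⟨⟨675135073, 0, 0, 0, 0, 264088872,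 0, 0, 0, ⟨0, 0⟩, 0⟩, 0, 0⟩ 0 0)) (.pos 51 .mp ⟨⟨602705711, 0, 0, 0, 0, 381699679, 0, 0, 0, ⟨0, 0⟩, 0⟩, 0, 0⟩ 0 0))) (.cut .d (-4096) (.cut .s 13854720 (.pos 51 .mp ⟨⟨597901869, 0, 0, 0, 0, 419524547, 0, 0, 0, ⟨0, 0⟩, 0⟩, 0, 0⟩ 0 0) (.pos 51 .mp ⟨⟨600583817, 0, 0, 0, 0, 421405062, 0, 0, 0, ⟨0, 0⟩, 0⟩, 0, 0⟩ 0 0)) (.cut .l 131821 (.cut .v 16793600 (.cut .d (-2048) (.pos 57 .mp ⟨⟨600299870, 0, 0, 0, 0, 417032140, 0, 0, 0, ⟨0, 0⟩, 0⟩, 0, 0⟩ 0 0) (.cut .s 13854720 (.pos 57 .mp ⟨⟨610118924, 0, 0, 0, 0, 388280369, 0, 0, 0, ⟨0, 0⟩, 0⟩, 0, 0⟩ 0 0) (.pos 57 .mp ⟨⟨612848249, 0, 0, 0, 0, 390050631, 0, 0, 0, ⟨0, 0⟩, 0⟩, 0, 0⟩ 0 0))) (.pos 58 .mp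 ⟨⟨680853949, 0, 0, 0, 0, 267039582, 0, 0, 0, ⟨0, 0⟩, 0⟩, 0, 0⟩ 0 0)) (.pos 51 .mp ⟨⟨608008499, 0, 0, 0, 0, 385480488, 0, 0, 0, ⟨0, 0⟩, 0⟩, 0, 0⟩ 0 0)))) (.pos 52 .mp ⟨⟨719184789, 0, 0, 0, 0, 194365621, 0, 0, 0, ⟨0, 0⟩, 0⟩, 0, 0⟩ 0 0)))) (.pos 40 .mp ⟨⟨813545725, 0, 0, 0, 0, 0, 0, 0, 0, ⟨0, 0⟩, 0⟩, 0, 0⟩ 0 0)) (.cut .v 16842752 (.cut .s 13910016 (.cut .s 13885440 (.cut .v 16809984 (.cut .s 13873152 (.cut .d (-4096) (.cut .s 13867008 (.pos 51 .mp ⟨⟨603280307, 0, 0, 0, 0, 423328450, 0, 0, 0, ⟨0, 0⟩, 0⟩, 0, 0⟩ 0 0) (.pos 51 .mp ⟨⟨605991429, 0, 0, 0, 0, 425295002, 0, 0, 0, ⟨0, 0⟩, 0⟩, 0, 0⟩ 0 0)) (.cut .l 131821 (.cut .v 16793600 (.cut .d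 (-2048) (.pos 57 .mp ⟨⟨605680988, 0, 0, 0, 0, 420874290, 0, 0, 0, ⟨0, 0⟩, 0⟩, 0, 0⟩ 0 0) (.cut .s 13867008 (.pos 57 .mp ⟨⟨615592579, 0, 0, 0, 0, 391852180, 0, 0, 0, ⟨0, 0⟩, 0⟩, 0, 0⟩ 0 0) (.pos 57 .mp ⟨⟨618352005, 0, 0, 0, 0, 393685065, 0, 0, 0, ⟨0, 0⟩, 0⟩, 0, 0⟩ 0 0))) (.pos 58 .mp ⟨⟨687067232, 0, 0, 0, 0, 269314075, 0, 0, 0, ⟨0, 0⟩, 0⟩, 0, 0⟩ 0 0)) (.pos 51 .mp ⟨⟨613368020, 0, 0, 0, 0, 389310182, 0, 0, 0, ⟨0, 0⟩, 0⟩, 0, 0⟩ 0 0))) (.cut .d (-4096) (.cut .s 13879296 (.pos 51 .mp ⟨⟨608717273, 0, 0, 0, 0, 427305007, 0, 0, 0, ⟨0, 0⟩, 0⟩, 0, 0⟩ 0 0) (.pos 51 .mp ⟨⟨611457931, 0, 0, 0, 0, 429358761, 0, 0, 0, ⟨0, 0⟩, 0⟩, 0, 0⟩ 0 0)) (.cut .l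 131821 (.cut .v 16793600 (.cut .d (-2048) (.pos 57 .mp ⟨⟨611120917, 0, 0, 0, 0, 424888730, 0, 0, 0, ⟨0, 0⟩, 0⟩, 0, 0⟩ 0 0) (.cut .s 13879296 (.pos 57 .mp ⟨⟨621126622, 0, 0, 0, 0, 395549334, 0, 0, 0, ⟨0, 0⟩, 0⟩, 0, 0⟩ 0 0) (.pos 57 .mp ⟨⟨623916526, 0, 0, 0, 0, 397445034, 0, 0, 0, ⟨0, 0⟩, 0⟩, 0, 0⟩ 0 0))) (.pos 58 .mp ⟨⟨693697748, 0, 0, 0, 0, 271050611, 0, 0, 0, ⟨0, 0⟩, 0⟩, 0, 0⟩ 0 0)) (.pos 51 .mp ⟨⟨618784987, 0, 0, 0, 0, 393186913, 0, 0, 0, ⟨0, 0⟩, 0⟩, 0, 0⟩ 0 0)))) (.pos 52 .mp ⟨⟨733409950, 0, 0, 0, 0, 195627101, 0, 0, 0, ⟨0, 0⟩, 0⟩, 0, 0⟩ 0 0)) (.cut .v 16809984 (.cut .s 13897728 (.cut .d (-4096) (.cut .s 13891584 (.pos 51 .mp ⟨⟨614213496,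 0, 0, 0, 0, 431456559, 0, 0, 0, ⟨0, 0⟩, 0⟩, 0, 0⟩ 0 0) (.pos 51 .mp ⟨⟨616984061, 0, 0, 0, 0, 433598700, 0, 0, 0, ⟨0, 0⟩, 0⟩, 0, 0⟩ 0 0)) (.cut .l 131821 (.cut .v 16793600 (.cut .d (-2048) (.pos 57 .mp ⟨⟨616620390, 0, 0, 0, 0, 429077793, 0, 0, 0, ⟨0, 0⟩, 0⟩, 0, 0⟩ 0 0) (.cut .s 13891584 (.pos 57 .mp ⟨⟨626721810, 0, 0, 0, 0, 399372212, 0, 0, 0, ⟨0, 0⟩, 0⟩, 0, 0⟩ 0 0) (.pos 57 .mp ⟨⟨629542572, 0, 0, 0, 0, 401330915, 0, 0, 0, ⟨0, 0⟩, 0⟩, 0, 0⟩ 0 0))) (.pos 58 .mp ⟨⟨700555823, 0, 0, 0, 0, 272590059, 0, 0, 0, ⟨0, 0⟩, 0⟩, 0, 0⟩ 0 0)) (.pos 51 .mp ⟨⟨624260122, 0, 0, 0, 0, 397108810, 0, 0, 0, ⟨0, 0⟩, 0⟩, 0, 0⟩ 0 0))) (.cut .d (-4096) (.cut .s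 13903872 (.pos 51 .mp ⟨⟨619769720, 0, 0, 0, 0, 435785486, 0, 0, 0, ⟨0, 0⟩, 0⟩, 0, 0⟩ 0 0) (.pos 51 .mp ⟨⟨622570567, 0, 0, 0, 0, 438017219, 0, 0, 0, ⟨0, 0⟩, 0⟩, 0, 0⟩ 0 0)) (.cut .l 131821 (.cut .v 16793600 (.cut .d (-2048) (.pos 57 .mp ⟨⟨622180153, 0, 0, 0, 0, 433443854, 0, 0, 0, ⟨0, 0⟩, 0⟩, 0, 0⟩ 0 0) (.cut .s 13903872 (.pos 57 .mp ⟨⟨632378909, 0, 0, 0, 0, 403321187, 0, 0, 0, ⟨0, 0⟩, 0⟩, 0, 0⟩ 0 0) (.pos 57 .mp ⟨⟨635226852, 0, 0, 0, 0, 405351234, 0, 0, 0, ⟨0, 0⟩, 0⟩, 0, 0⟩ 0 0))) (.pos 58 .mp ⟨⟨707945795, 0, 0, 0, 0, 273385375, 0, 0, 0, ⟨0, 0⟩, 0⟩, 0, 0⟩ 0 0)) (.pos 51 .mp ⟨⟨629794164, 0, 0, 0, 0, 401073982, 0, 0, 0, ⟨0, 0⟩, 0⟩, 0,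 0⟩ 0 0)))) (.pos 52 .mp ⟨⟨748749881, 0, 0, 0, 0, 195726382, 0, 0, 0, ⟨0, 0⟩, 0⟩, 0, 0⟩ 0 0))) (.cut .s 13934592 (.cut .v 16809984 (.cut .s 13922304 (.cut .d (-4096) (.cut .s 13916160 (.pos 51 .mp ⟨⟨625386699, 0, 0, 0, 0, 440294208, 0, 0, 0, ⟨0, 0⟩, 0⟩, 0, 0⟩ 0 0) (.pos 51 .mp ⟨⟨628218212, 0, 0, 0, 0, 442616761, 0, 0, 0, ⟨0, 0⟩, 0⟩, 0, 0⟩ 0 0)) (.cut .l 131821 (.cut .v 16793600 (.cut .s 13916160 (.cut .s 13913088 (.pos 57 .mp ⟨⟨644504913, 0, 0, 0, 0, 394271370, 0, 0, 0, ⟨0, 0⟩, 0⟩, 0, 0⟩ 0 0) (.pos 57 .mp ⟨⟨646190244, 0, 0, 0, 0, 394844105, 0, 0, 0, ⟨0, 0⟩, 0⟩, 0, 0⟩ 0 0)) (.pos 57 .mp ⟨⟨637110390, 0, 0, 0, 0, 417456284, 0, 0, 0, ⟨0,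 0⟩, 0⟩, 0, 0⟩ 0 0)) (.pos 58 .mp ⟨⟨715883509, 0, 0, 0, 0, 273407528, 0, 0, 0, ⟨0, 0⟩, 0⟩, 0, 0⟩ 0 0)) (.pos 51 .mp ⟨⟨635387861, 0, 0, 0, 0, 405080511, 0, 0, 0, ⟨0, 0⟩, 0⟩, 0, 0⟩ 0 0))) (.cut .d (-4096) (.pos 51 .mp ⟨⟨631065203, 0, 0, 0, 0, 449256106, 0, 0, 0, ⟨0, 0⟩, 0⟩, 0, 0⟩ 0 0) (.cut .l 131821 (.cut .v 16793600 (.cut .s 13928448 (.pos 57 .mp ⟨⟨640591614, 0, 0, 0, 0, 418421015, 0, 0, 0, ⟨0, 0⟩, 0⟩, 0, 0⟩ 0 0) (.pos 57 .mp ⟨⟨644802111, 0, 0, 0, 0, 418041774, 0, 0, 0, ⟨0, 0⟩, 0⟩, 0, 0⟩ 0 0)) (.pos 58 .mp ⟨⟨724385056, 0, 0, 0, 0, 272626997, 0, 0, 0, ⟨0, 0⟩, 0⟩, 0, 0⟩ 0 0)) (.pos 51 .mp ⟨⟨641041975, 0, 0, 0, 0, 409126456, 0, 0, 0, ⟨0,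 0⟩, 0⟩, 0, 0⟩ 0 0)))) (.pos 52 .mp ⟨⟨765672425, 0, 0, 0, 0, 193823698, 0, 0, 0, ⟨0, 0⟩, 0⟩, 0, 0⟩ 0 0)) (.cut .v 16809984 (.cut .s 13946880 (.cut .d (-4096) (.pos 51 .mp ⟨⟨636806013, 0, 0, 0, 0, 454198499, 0, 0, 0, ⟨0, 0⟩, 0⟩, 0, 0⟩ 0 0) (.cut .s 13940736 (.pos 51 .mp ⟨⟨654910555, 0, 0, 0, 0, 406543089, 0, 0, 0, ⟨0, 0⟩, 0⟩, 0, 0⟩ 0 0) (.pos 51 .mp ⟨⟨657892183, 0, 0, 0, 0, 408692559, 0, 0, 0, ⟨0, 0⟩, 0⟩, 0, 0⟩ 0 0))) (.cut .d (-4096) (.pos 51 .mp ⟨⟨642609926, 0, 0, 0, 0, 459328746, 0, 0, 0, ⟨0, 0⟩, 0⟩, 0, 0⟩ 0 0) (.cut .s 13953024 (.pos 51 .mp ⟨⟨660890445, 0, 0, 0, 0, 410873460, 0, 0, 0, ⟨0, 0⟩, 0⟩, 0, 0⟩ 0 0) (.pos 51 .mp ⟨⟨663905449,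 0, 0, 0, 0, 413085829, 0, 0, 0, ⟨0, 0⟩, 0⟩, 0, 0⟩ 0 0)))) (.pos 52 .mp ⟨⟨784874714, 0, 0, 0, 0, 188662234, 0, 0, 0, ⟨0, 0⟩, 0⟩, 0, 0⟩ 0 0)))) (.pos 40 .mp ⟨⟨872846591, 0, 0, 0, 0, 0, 0, 0, 0, ⟨0, 0⟩, 0⟩, 0, 0⟩ 0 0)))) (.pos 38 .mp ⟨⟨885397202, 0, 0, 0, 0, 0, 0, 0, 0, ⟨0, 0⟩, 0⟩, 0, 0⟩ 0 0)))))) (.pos 36 .mp ⟨⟨987048637, 0, 0, 0, 0, 0, 0, 0, 0, ⟨0, 0⟩, 0⟩, 0, 0⟩ 0 0))) (.void 34 ⟨⟨100000, 0, 0, 0, 0, 0, 0, 0, 0, ⟨0, 0⟩, 0⟩, 0, 0⟩ 0 0)) (.void 32 ⟨⟨100000, 0, 0, 0, 0, 0, 0, 0, 0, ⟨0, 0⟩, 0⟩, 0, 0⟩ 0 0))) (.void 30 ⟨⟨100000, 0, 0, 0, 0, 0, 0, 0, 0, ⟨0, 0⟩, 0⟩, 0, 0⟩ 0 0)))) (.void 28 ⟨⟨100000, 0, 0, 0, 0, 0, 0, 0, 0, ⟨0, 0⟩, 0⟩, 0, 0⟩ 0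 0))) (.void 26 ⟨⟨100000, 0, 0, 0, 0, 0, 0, 0, 0, ⟨0, 0⟩, 0⟩, 0, 0⟩ 0 0))) (.void 127 ⟨⟨100000, 0, 0, 0, 0, 0, 0, 0, 0, ⟨0, 0⟩, 0⟩, 0, 0⟩ 0 0)) (.void 134 ⟨⟨100000, 0, 0, 0, 0, 0, 0, 0, 0, ⟨0, 0⟩, 0⟩, 0, 0⟩ 0 0)) (.void 141 ⟨⟨94745, 0, 0, 5255, 0, 0, 0, 0, 0, ⟨0, 0⟩, 0⟩, 0, 0⟩ 0 0))) (.cut .v 16777216 (.cut .v 8388608 (.cut .v 4194304 (.cut .v 2097152 (.cut .v 1048576 (.pos 137 .pm ⟨⟨0, 0, 27280604, 0, 0, 0, 0, 0, 0, ⟨0, 0⟩, 0⟩, 0, 1208⟩ 0 0) (.pos 138 .pm ⟨⟨0, 0, 32588707, 0, 0, 0, 0, 0, 0, ⟨0, 0⟩, 0⟩, 0, 3482⟩ 0 0)) (.pos 7 .pm ⟨⟨0, 0, 45263643, 0, 0, 0, 0, 0, 0, ⟨0, 0⟩, 0⟩, 0, 6577⟩ 0 0)) (.pos 5 .pm ⟨⟨0, 0, 25491527, 0, 0, 0, 0, 0,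 0, ⟨0, 0⟩, 0⟩, 0, 0⟩ 0 0)) (.pos 3 .pm ⟨⟨0, 0, 0, 0, 0, 0, 0, 0, 0, ⟨0, 0⟩, 0⟩, 0, 0⟩ 0 0)) (.cut .v 268435456 (.cut .v 67108864 (.cut .d 1837506 (.cut .d 918753 (.cut .v 33554432 (.cut .d 459376 (.cut .v 25165824 (.cut .d 229688 (.cut .v 20971520 (.cut .d 114844 (.cut .v 18874368 (.cut .v 17825792 (.pos 31 .pp ⟨⟨582777296, 0, 0, 0, 0, 0, 0, 0, 0, ⟨0, 0⟩, 0⟩, 22871465, 0⟩ 0 0) (.pos 32 .pp ⟨⟨873822268, 0, 0, 0, 0, 0, 0, 0, 0, ⟨0, 0⟩, 0⟩, 0, 0⟩ 0 0)) (.pos 30 .pp ⟨⟨1041266031, 0, 0, 0, 0, 0, 0, 0, 0, ⟨0, 0⟩, 0⟩, 0, 0⟩ 0 0)) (.pos 27 .pp ⟨⟨0, 0, 0, 0, 0, 0, 0, 0, 0, ⟨0, 0⟩, 0⟩, 79182664, 13300⟩ 0 0)) (.pos 28 .pp ⟨⟨0, 0, 0, 0, 0, 0, 0,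 0, 0, ⟨0, 0⟩, 0⟩, 141374617, 0⟩ 0 0)) (.pos 25 .pp ⟨⟨0, 0, 0, 0, 0, 0, 0, 0, 0, ⟨0, 0⟩, 0⟩, 75268655, 14650⟩ 0 0)) (.pos 26 .pp ⟨⟨0, 0, 0, 0, 0, 0, 0, 0, 0, ⟨0, 0⟩, 0⟩, 181675748, 0⟩ 0 0)) (.pos 24 .pp ⟨⟨0, 0, 0, 0, 0, 0, 0, 0, 0, ⟨0, 0⟩, 0⟩, 74921386, 14770⟩ 0 0)) (.cut .d 459376 (.void 127 ⟨⟨0, 0, 0, 0, 0, 0, 0, 0, 0, ⟨0, 0⟩, 0⟩, 100000, 0⟩ 0 0) (.pos 127 .pp ⟨⟨0, 0, 0, 0, 0, 0, 0, 0, 0, ⟨0, 0⟩, 0⟩, 224563870, 0⟩ 0 0))) (.cut .v 33554432 (.pos 24 .pp ⟨⟨0, 0, 0, 0, 0, 0, 0, 0, 0, ⟨0, 0⟩, 0⟩, 0, 40619⟩ 0 0) (.pos 127 .pp ⟨⟨0, 0, 0, 0, 0, 0, 10846, 0, 0, ⟨0, 0⟩, 0⟩, 109870554, 0⟩ 0 0))) (.pos 126 .pp ⟨⟨0, 0, 0, 0, 0, 0, 0, 0, 0, ⟨0, 0⟩,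 0⟩, 0, 40619⟩ 0 0)) (.void 134 ⟨⟨0, 0, 0, 47703, 0, 0, 0, 0, 0, ⟨0, 0⟩, 0⟩, 52297, 0⟩ 0 0)) (.void 141 ⟨⟨0, 0, 0, 0, 0, 0, 0, 0, 0, ⟨0, 0⟩, 0⟩, 100000, 0⟩ 0 0)))),
    by decide +kernel⟩

def covers26 : cell.Covers Vale.Agent.P237.Petty.Cor.Grid.N14.table row26.1 :=
  ⟨(.cut .d 0 (.cut .v 16777216 (.cut .v 8388608 (.pos 2 .mm ⟨⟨0, 0, 910353413, 0, 0, 2645293797, 0, 0, 0, ⟨0, 0⟩, 0⟩, 0, 0⟩ 0 0) (.cut .d (-8388608) (.void 3 ⟨⟨99995, 0, 0, 0, 0, 0, 0, 0, 0, ⟨0, 0⟩, 0⟩, 0, 0⟩ 0 0) (.cut .d (-4194304) (.void 3 ⟨⟨100000, 0, 0, 0, 0, 0, 0, 0, 0, ⟨0, 0⟩, 0⟩, 0, 0⟩ 0 0) (.cut .d (-2097152) (.void 3 ⟨⟨100000, 0, 0, 0, 0, 0, 0, 0, 0, ⟨0, 0⟩, 0⟩,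 0, 0⟩ 0 0) (.cut .d (-1048576) (.void 3 ⟨⟨0, 0, 0, 0, 0, 100000, 0, 0, 0, ⟨0, 0⟩, 0⟩, 0, 0⟩ 0 0) (.cut .d (-524288) (.void 3 ⟨⟨0, 0, 0, 0, 0, 100000, 0, 0, 0, ⟨0, 0⟩, 0⟩, 0, 0⟩ 0 0) (.cut .d (-262144) (.void 3 ⟨⟨0, 0, 0, 0, 0, 100000, 0, 0, 0, ⟨0, 0⟩, 0⟩, 0, 0⟩ 0 0) (.cut .s 14057472 (.pos 3 .mm ⟨⟨0, 0, 0, 0, 0, 1718864484, 0, 0, 0, ⟨0, 0⟩, 0⟩, 0, 0⟩ 0 0) (.cut .s 14106624 (.pos 3 .mm ⟨⟨0, 0, 0, 0, 0, 1792826678, 0, 0, 0, ⟨0, 0⟩, 0⟩, 0, 0⟩ 0 0) (.pos 3 .mm ⟨⟨0, 0, 0, 0, 0, 1868483041, 0, 0, 0, ⟨0, 0⟩, 0⟩, 0, 0⟩ 0 0)))))))))) (.cut .v 268435456 (.cut .v 67108864 (.cut .v 33554432 (.cut .d (-8388608) (.void 24 ⟨⟨100000, 0, 0, 0, 0, 0,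 0, 0, 0, ⟨0, 0⟩, 0⟩, 0, 0⟩ 0 0) (.cut .v 25165824 (.cut .d (-4194304) (.void 25 ⟨⟨100000, 0, 0, 0, 0, 0, 0, 0, 0, ⟨0, 0⟩, 0⟩, 0, 0⟩ 0 0) (.cut .v 20971520 (.cut .d (-2097152) (.void 27 ⟨⟨100000, 0, 0, 0, 0, 0, 0, 0, 0, ⟨0, 0⟩, 0⟩, 0, 0⟩ 0 0) (.cut .d (-1048576) (.void 27 ⟨⟨100000, 0, 0, 0, 0, 0, 0, 0, 0, ⟨0, 0⟩, 0⟩, 0, 0⟩ 0 0) (.cut .v 18874368 (.cut .d (-524288) (.void 29 ⟨⟨100000, 0, 0, 0, 0, 0, 0, 0, 0, ⟨0, 0⟩, 0⟩, 0, 0⟩ 0 0) (.cut .v 17825792 (.cut .d (-262144) (.void 31 ⟨⟨100000, 0, 0, 0, 0, 0, 0, 0, 0, ⟨0, 0⟩, 0⟩, 0, 0⟩ 0 0) (.cut .v 17301504 (.cut .d (-131072) (.void 33 ⟨⟨100000, 0, 0, 0, 0, 0, 0, 0, 0, ⟨0, 0⟩, 0⟩, 0, 0⟩ 0 0)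 (.cut .d (-65536) (.void 33 ⟨⟨100000, 0, 0, 0, 0, 0, 0, 0, 0, ⟨0, 0⟩, 0⟩, 0, 0⟩ 0 0) (.cut .d (-32768) (.void 33 ⟨⟨100000, 0, 0, 0, 0, 0, 0, 0, 0, ⟨0, 0⟩, 0⟩, 0, 0⟩ 0 0) (.cut .d (-16384) (.void 33 ⟨⟨100000, 0, 0, 0, 0, 0, 0, 0, 0, ⟨0, 0⟩, 0⟩, 0, 0⟩ 0 0) (.cut .d (-8192) (.void 33 ⟨⟨0, 0, 0, 0, 0, 100000, 0, 0, 0, ⟨0, 0⟩, 0⟩, 0, 0⟩ 0 0) (.cut .v 17039360 (.cut .v 16908288 (.cut .s 14057472 (.cut .v 16842752 (.cut .s 14008320 (.cut .s 13983744 (.cut .v 16809984 (.cut .s 13971456 (.cut .d (-4096) (.pos 51 .mp ⟨⟨648480022, 0, 0, 0, 0, 464631755, 0, 0, 0, ⟨0, 0⟩, 0⟩, 0, 0⟩ 0 0) (.cut .s 13965312 (.pos 51 .mp ⟨⟨666939401, 0, 0, 0, 0, 415325114,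 0, 0, 0, ⟨0, 0⟩, 0⟩, 0, 0⟩ 0 0) (.pos 51 .mp ⟨⟨669988854, 0, 0, 0, 0, 416960611, 0, 0, 0, ⟨0, 0⟩, 0⟩, 0, 0⟩ 0 0))) (.cut .d (-4096) (.pos 51 .mp ⟨⟨654429023, 0, 0, 0, 0, 468170245, 0, 0, 0, ⟨0, 0⟩, 0⟩, 0, 0⟩ 0 0) (.cut .s 13977600 (.pos 51 .mp ⟨⟨673056042, 0, 0, 0, 0, 418634746, 0, 0, 0, ⟨0, 0⟩, 0⟩, 0, 0⟩ 0 0) (.pos 51 .mp ⟨⟨676141078, 0, 0, 0, 0, 420347579, 0, 0, 0, ⟨0, 0⟩, 0⟩, 0, 0⟩ 0 0)))) (.pos 52 .mp ⟨⟨786286799, 0, 0, 0, 0, 216494600, 0, 0, 0, ⟨0, 0⟩, 0⟩, 0, 0⟩ 0 0)) (.cut .v 16809984 (.cut .s 13996032 (.cut .d (-4096) (.pos 51 .mp ⟨⟨660446113, 0, 0, 0, 0, 471915824, 0, 0, 0, ⟨0, 0⟩, 0⟩, 0, 0⟩ 0 0) (.cut .l 131821 (.cut .d (-2048)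 (.pos 51 .mp ⟨⟨673326193, 0, 0, 0, 0, 443713122, 0, 0, 0, ⟨0, 0⟩, 0⟩, 0, 0⟩ 0 0) (.cut .s 13989888 (.pos 51 .mp ⟨⟨674615239, 0, 0, 0, 0, 430592425, 0, 0, 0, ⟨0, 0⟩, 0⟩, 0, 0⟩ 0 0) (.pos 51 .mp ⟨⟨677881014, 0, 0, 0, 0, 432059781, 0, 0, 0, ⟨0, 0⟩, 0⟩, 0, 0⟩ 0 0))) (.pos 51 .mp ⟨⟨674439100, 0, 0, 0, 0, 423003092, 0, 0, 0, ⟨0, 0⟩, 0⟩, 0, 0⟩ 0 0))) (.cut .d (-4096) (.pos 51 .mp ⟨⟨666532177, 0, 0, 0, 0, 475871414, 0, 0, 0, ⟨0, 0⟩, 0⟩, 0, 0⟩ 0 0) (.cut .l 131821 (.cut .d (-2048) (.pos 51 .mp ⟨⟨678709127, 0, 0, 0, 0, 449386233, 0, 0, 0, ⟨0, 0⟩, 0⟩, 0, 0⟩ 0 0) (.cut .s 14002176 (.pos 51 .mp ⟨⟨681148056, 0, 0, 0, 0, 433602581, 0, 0, 0, ⟨0, 0⟩,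 0⟩, 0, 0⟩ 0 0) (.pos 51 .mp ⟨⟨684338236, 0, 0, 0, 0, 435390789, 0, 0, 0, ⟨0, 0⟩, 0⟩, 0, 0⟩ 0 0))) (.pos 51 .mp ⟨⟨680567289, 0, 0, 0, 0, 427181170, 0, 0, 0, ⟨0, 0⟩, 0⟩, 0, 0⟩ 0 0)))) (.cut .s 13996032 (.pos 52 .mp ⟨⟨748603630, 0, 0, 0, 0, 305780787, 0, 0, 0, ⟨0, 0⟩, 0⟩, 0, 0⟩ 0 0) (.pos 52 .mp ⟨⟨754202519, 0, 0, 0, 0, 310751505, 0, 0, 0, ⟨0, 0⟩, 0⟩, 0, 0⟩ 0 0)))) (.cut .s 14032896 (.cut .s 14020608 (.cut .v 16809984 (.cut .d (-4096) (.pos 51 .mp ⟨⟨672688113, 0, 0, 0, 0, 480039985, 0, 0, 0, ⟨0, 0⟩, 0⟩, 0, 0⟩ 0 0) (.cut .l 131821 (.cut .v 16793600 (.cut .d (-2048) (.pos 57 .mp ⟨⟨675111946, 0, 0, 0, 0, 473335640, 0, 0, 0, ⟨0, 0⟩, 0⟩, 0,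 0⟩ 0 0) (.cut .s 14014464 (.pos 57 .mp ⟨⟨686237275, 0, 0, 0, 0, 439670558, 0, 0, 0, ⟨0, 0⟩, 0⟩, 0, 0⟩ 0 0) (.pos 57 .mp ⟨⟨689394996, 0, 0, 0, 0, 441686380, 0, 0, 0, ⟨0, 0⟩, 0⟩, 0, 0⟩ 0 0))) (.pos 58 .mp ⟨⟨764715451, 0, 0, 0, 0, 304458383, 0, 0, 0, ⟨0, 0⟩, 0⟩, 0, 0⟩ 0 0)) (.pos 51 .mp ⟨⟨686743395, 0, 0, 0, 0, 431474607, 0, 0, 0, ⟨0, 0⟩, 0⟩, 0, 0⟩ 0 0))) (.pos 52 .mp ⟨⟨760378459, 0, 0, 0, 0, 314945869, 0, 0, 0, ⟨0, 0⟩, 0⟩, 0, 0⟩ 0 0)) (.cut .v 16809984 (.cut .d (-4096) (.pos 51 .mp ⟨⟨678914836, 0, 0, 0, 0, 484424563, 0, 0, 0, ⟨0, 0⟩, 0⟩, 0, 0⟩ 0 0) (.cut .l 131821 (.cut .v 16793600 (.cut .d (-2048) (.pos 57 .mp ⟨⟨681337217, 0, 0, 0, 0,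 477700324, 0, 0, 0, ⟨0, 0⟩, 0⟩, 0, 0⟩ 0 0) (.cut .s 14026752 (.pos 57 .mp ⟨⟨692571093, 0, 0, 0, 0, 443741894, 0, 0, 0, ⟨0, 0⟩, 0⟩, 0, 0⟩ 0 0) (.pos 57 .mp ⟨⟨695765688, 0, 0, 0, 0, 445837160, 0, 0, 0, ⟨0, 0⟩, 0⟩, 0, 0⟩ 0 0))) (.pos 58 .mp ⟨⟨771546862, 0, 0, 0, 0, 307699409, 0, 0, 0, ⟨0, 0⟩, 0⟩, 0, 0⟩ 0 0)) (.pos 51 .mp ⟨⟨692989106, 0, 0, 0, 0, 435837098, 0, 0, 0, ⟨0, 0⟩, 0⟩, 0, 0⟩ 0 0))) (.pos 52 .mp ⟨⟨767151272, 0, 0, 0, 0, 318327674, 0, 0, 0, ⟨0, 0⟩, 0⟩, 0, 0⟩ 0 0))) (.cut .s 14045184 (.cut .v 16809984 (.cut .d (-4096) (.cut .s 14039040 (.pos 51 .mp ⟨⟨685213279, 0, 0, 0, 0, 484042151, 0, 0, 0, ⟨0, 0⟩, 0⟩, 0, 0⟩ 0 0) (.pos 51 .mp ⟨⟨688389691,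 0, 0, 0, 0, 486383652, 0, 0, 0, ⟨0, 0⟩, 0⟩, 0, 0⟩ 0 0)) (.cut .l 131821 (.cut .v 16793600 (.cut .d (-2048) (.pos 57 .mp ⟨⟨687634496, 0, 0, 0, 0, 482283139, 0, 0, 0, ⟨0, 0⟩, 0⟩, 0, 0⟩ 0 0) (.cut .s 14039040 (.pos 57 .mp ⟨⟨698978901, 0, 0, 0, 0, 447972237, 0, 0, 0, ⟨0, 0⟩, 0⟩, 0, 0⟩ 0 0) (.pos 57 .mp ⟨⟨702210857, 0, 0, 0, 0, 450147184, 0, 0, 0, ⟨0, 0⟩, 0⟩, 0, 0⟩ 0 0))) (.pos 58 .mp ⟨⟨778995446, 0, 0, 0, 0, 310089977, 0, 0, 0, ⟨0, 0⟩, 0⟩, 0, 0⟩ 0 0)) (.pos 51 .mp ⟨⟨699305350, 0, 0, 0, 0, 440266253, 0, 0, 0, ⟨0, 0⟩, 0⟩, 0, 0⟩ 0 0))) (.pos 52 .mp ⟨⟨774541095, 0, 0, 0, 0, 320860070, 0, 0, 0, ⟨0, 0⟩, 0⟩, 0, 0⟩ 0 0)) (.cut .v 16809984 (.cut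 .d (-4096) (.pos 51 .mp ⟨⟨691584390, 0, 0, 0, 0, 493854109, 0, 0, 0, ⟨0, 0⟩, 0⟩, 0, 0⟩ 0 0) (.cut .l 131821 (.cut .v 16793600 (.cut .d (-2048) (.pos 57 .mp ⟨⟨694004735, 0, 0, 0, 0, 487087205, 0, 0, 0, ⟨0, 0⟩, 0⟩, 0, 0⟩ 0 0) (.cut .s 14051328 (.pos 57 .mp ⟨⟨705461678, 0, 0, 0, 0, 452362058, 0, 0, 0, ⟨0, 0⟩, 0⟩, 0, 0⟩ 0 0) (.pos 57 .mp ⟨⟨708731492, 0, 0, 0, 0, 454616917, 0, 0, 0, ⟨0, 0⟩, 0⟩, 0, 0⟩ 0 0))) (.pos 58 .mp ⟨⟨787081638, 0, 0, 0, 0, 311592618, 0, 0, 0, ⟨0, 0⟩, 0⟩, 0, 0⟩ 0 0)) (.pos 51 .mp ⟨⟨705693070, 0, 0, 0, 0, 444759651, 0, 0, 0, ⟨0, 0⟩, 0⟩, 0, 0⟩ 0 0))) (.pos 52 .mp ⟨⟨782568390, 0, 0, 0, 0, 322505544, 0, 0, 0, ⟨0, 0⟩, 0⟩,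 0, 0⟩ 0 0))))) (.pos 40 .mp ⟨⟨940131807, 0, 0, 0, 0, 0, 0, 0, 0, ⟨0, 0⟩, 0⟩, 0, 0⟩ 0 0)) (.cut .v 16842752 (.cut .s 14106624 (.cut .s 14082048 (.cut .s 14069760 (.cut .v 16809984 (.cut .d (-4096) (.pos 51 .mp ⟨⟨698029135, 0, 0, 0, 0, 498905400, 0, 0, 0, ⟨0, 0⟩, 0⟩, 0, 0⟩ 0 0) (.cut .l 131821 (.cut .v 16793600 (.cut .d (-2048) (.pos 57 .mp ⟨⟨700448903, 0, 0, 0, 0, 492115697, 0, 0, 0, ⟨0, 0⟩, 0⟩, 0, 0⟩ 0 0) (.cut .s 14063616 (.pos 57 .mp ⟨⟨712020423, 0, 0, 0, 0, 456911818, 0, 0, 0, ⟨0, 0⟩, 0⟩, 0, 0⟩ 0 0) (.pos 57 .mp ⟨⟨715328600, 0, 0, 0, 0, 459246814, 0, 0, 0, ⟨0, 0⟩, 0⟩, 0, 0⟩ 0 0))) (.pos 58 .mp ⟨⟨795826203, 0, 0, 0, 0, 312169191, 0,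 0, 0, ⟨0, 0⟩, 0⟩, 0, 0⟩ 0 0)) (.pos 51 .mp ⟨⟨712153225, 0, 0, 0, 0, 449314839, 0, 0, 0, ⟨0, 0⟩, 0⟩, 0, 0⟩ 0 0))) (.pos 52 .mp ⟨⟨791253953, 0, 0, 0, 0, 323225910, 0, 0, 0, ⟨0, 0⟩, 0⟩, 0, 0⟩ 0 0)) (.cut .v 16809984 (.cut .d (-4096) (.pos 51 .mp ⟨⟨704548497, 0, 0, 0, 0, 504185347, 0, 0, 0, ⟨0, 0⟩, 0⟩, 0, 0⟩ 0 0) (.cut .l 131821 (.cut .v 16793600 (.cut .d (-2048) (.pos 57 .mp ⟨⟨706967988, 0, 0, 0, 0, 497371848, 0, 0, 0, ⟨0, 0⟩, 0⟩, 0, 0⟩ 0 0) (.cut .s 14075904 (.pos 57 .mp ⟨⟨718656152, 0, 0, 0, 0, 461621961, 0, 0, 0, ⟨0, 0⟩, 0⟩, 0, 0⟩ 0 0) (.pos 57 .mp ⟨⟨722003207, 0, 0, 0, 0, 464037313, 0, 0, 0, ⟨0, 0⟩, 0⟩, 0, 0⟩ 0 0))) (.pos 58 .mp ⟨⟨805250247,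 0, 0, 0, 0, 311780863, 0, 0, 0, ⟨0, 0⟩, 0⟩, 0, 0⟩ 0 0)) (.pos 51 .mp ⟨⟨718686792, 0, 0, 0, 0, 453929330, 0, 0, 0, ⟨0, 0⟩, 0⟩, 0, 0⟩ 0 0))) (.pos 52 .mp ⟨⟨800618919, 0, 0, 0, 0, 322982290, 0, 0, 0, ⟨0, 0⟩, 0⟩, 0, 0⟩ 0 0))) (.cut .v 16809984 (.cut .s 14094336 (.cut .d (-4096) (.pos 51 .mp ⟨⟨711143478, 0, 0, 0, 0, 509697257, 0, 0, 0, ⟨0, 0⟩, 0⟩, 0, 0⟩ 0 0) (.cut .l 131821 (.cut .d (-2048) (.pos 51 .mp ⟨⟨724016157, 0, 0, 0, 0, 481528028, 0, 0, 0, ⟨0, 0⟩, 0⟩, 0, 0⟩ 0 0) (.cut .s 14088192 (.pos 51 .mp ⟨⟨726684782, 0, 0, 0, 0, 464041835, 0, 0, 0, ⟨0, 0⟩, 0⟩, 0, 0⟩ 0 0) (.pos 51 .mp ⟨⟨730072097, 0, 0, 0, 0, 466537041, 0, 0, 0, ⟨0, 0⟩, 0⟩, 0,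 0⟩ 0 0))) (.pos 51 .mp ⟨⟨725294767, 0, 0, 0, 0, 458600605, 0, 0, 0, ⟨0, 0⟩, 0⟩, 0, 0⟩ 0 0))) (.cut .d (-4096) (.pos 51 .mp ⟨⟨717815096, 0, 0, 0, 0, 515444494, 0, 0, 0, ⟨0, 0⟩, 0⟩, 0, 0⟩ 0 0) (.cut .l 131821 (.cut .d (-2048) (.pos 51 .mp ⟨⟨731674240, 0, 0, 0, 0, 484855900, 0, 0, 0, ⟨0, 0⟩, 0⟩, 0, 0⟩ 0 0) (.cut .s 14100480 (.pos 51 .mp ⟨⟨733311533, 0, 0, 0, 0, 469437736, 0, 0, 0, ⟨0, 0⟩, 0⟩, 0, 0⟩ 0 0) (.pos 51 .mp ⟨⟨736545954, 0, 0, 0, 0, 472433482, 0, 0, 0, ⟨0, 0⟩, 0⟩, 0, 0⟩ 0 0))) (.pos 51 .mp ⟨⟨731978163, 0, 0, 0, 0, 463326109, 0, 0, 0, ⟨0, 0⟩, 0⟩, 0, 0⟩ 0 0)))) (.cut .s 14094336 (.pos 52 .mp ⟨⟨810684771, 0, 0, 0, 0, 321735099, 0,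 0, 0, ⟨0, 0⟩, 0⟩, 0, 0⟩ 0 0) (.pos 52 .mp ⟨⟨821473351, 0, 0, 0, 0, 319444026, 0, 0, 0, ⟨0, 0⟩, 0⟩, 0, 0⟩ 0 0)))) (.cut .s 14131200 (.cut .v 16809984 (.cut .s 14118912 (.cut .d (-4096) (.pos 51 .mp ⟨⟨724564391, 0, 0, 0, 0, 521430488, 0, 0, 0, ⟨0, 0⟩, 0⟩, 0, 0⟩ 0 0) (.cut .s 14112768 (.pos 51 .mp ⟨⟨745263883, 0, 0, 0, 0, 465358079, 0, 0, 0, ⟨0, 0⟩, 0⟩, 0, 0⟩ 0 0) (.pos 51 .mp ⟨⟨748772719, 0, 0, 0, 0, 467936404, 0, 0, 0, ⟨0, 0⟩, 0⟩, 0, 0⟩ 0 0))) (.cut .d (-4096) (.pos 51 .mp ⟨⟨731392419, 0, 0, 0, 0, 527658728, 0, 0, 0, ⟨0, 0⟩, 0⟩, 0, 0⟩ 0 0) (.cut .s 14125056 (.pos 51 .mp ⟨⟨752302340, 0, 0, 0, 0, 470554635, 0, 0, 0, ⟨0, 0⟩, 0⟩, 0, 0⟩ 0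 0) (.pos 51 .mp ⟨⟨755852886, 0, 0, 0, 0, 473212815, 0, 0, 0, ⟨0, 0⟩, 0⟩, 0, 0⟩ 0 0)))) (.pos 52 .mp ⟨⟨897867784, 0, 0, 0, 0, 207833659, 0, 0, 0, ⟨0, 0⟩, 0⟩, 0, 0⟩ 0 0)) (.cut .v 16809984 (.cut .s 14143488 (.cut .s 14137344 (.cut .s 14134272 (.pos 51 .mp ⟨⟨764448090, 0, 0, 0, 0, 465307784, 0, 0, 0, ⟨0, 0⟩, 0⟩, 0, 0⟩ 0 0) (.pos 51 .mp ⟨⟨767640897, 0, 0, 0, 0, 463910001, 0, 0, 0, ⟨0, 0⟩, 0⟩, 0, 0⟩ 0 0)) (.pos 51 .mp ⟨⟨753120117, 0, 0, 0, 0, 499226436, 0, 0, 0, ⟨0, 0⟩, 0⟩, 0, 0⟩ 0 0)) (.cut .s 14149632 (.pos 51 .mp ⟨⟨758772877, 0, 0, 0, 0, 497958888, 0, 0, 0, ⟨0, 0⟩, 0⟩, 0, 0⟩ 0 0) (.pos 51 .mp ⟨⟨765625403, 0, 0, 0, 0, 494442631, 0, 0, 0,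 ⟨0, 0⟩, 0⟩, 0, 0⟩ 0 0))) (.pos 52 .mp ⟨⟨926494844, 0, 0, 0, 0, 191901708, 0, 0, 0, ⟨0, 0⟩, 0⟩, 0, 0⟩ 0 0)))) (.pos 40 .mp ⟨⟨1012162713, 0, 0, 0, 0, 0, 0, 0, 0, ⟨0, 0⟩, 0⟩, 0, 0⟩ 0 0))) (.pos 38 .mp ⟨⟨1005033326, 0, 0, 0, 0, 0, 0, 0, 0, ⟨0, 0⟩, 0⟩, 0, 0⟩ 0 0)) (.pos 36 .mp ⟨⟨1053268935, 0, 0, 0, 0, 0, 0, 0, 0, ⟨0, 0⟩, 0⟩, 0, 0⟩ 0 0))))))) (.void 34 ⟨⟨100000, 0, 0, 0, 0, 0, 0, 0, 0, ⟨0, 0⟩, 0⟩, 0, 0⟩ 0 0))) (.void 32 ⟨⟨100000, 0, 0, 0, 0, 0, 0, 0, 0, ⟨0, 0⟩, 0⟩, 0, 0⟩ 0 0))) (.void 30 ⟨⟨100000, 0, 0, 0, 0, 0, 0, 0, 0, ⟨0, 0⟩, 0⟩, 0, 0⟩ 0 0)))) (.void 28 ⟨⟨100000, 0, 0, 0, 0, 0, 0, 0, 0, ⟨0, 0⟩, 0⟩, 0, 0⟩ 0 0))) (.void 26 ⟨⟨100000, 0, 0,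 0, 0, 0, 0, 0, 0, ⟨0, 0⟩, 0⟩, 0, 0⟩ 0 0))) (.void 127 ⟨⟨100000, 0, 0, 0, 0, 0, 0, 0, 0, ⟨0, 0⟩, 0⟩, 0, 0⟩ 0 0)) (.void 134 ⟨⟨100000, 0, 0, 0, 0, 0, 0, 0, 0, ⟨0, 0⟩, 0⟩, 0, 0⟩ 0 0)) (.void 141 ⟨⟨94675, 0, 0, 5325, 0, 0, 0, 0, 0, ⟨0, 0⟩, 0⟩, 0, 0⟩ 0 0))) (.cut .v 16777216 (.cut .v 8388608 (.cut .v 4194304 (.cut .v 2097152 (.cut .v 1048576 (.pos 137 .pm ⟨⟨0, 0, 28464680, 0, 0, 0, 0, 0, 0, ⟨0, 0⟩, 0⟩, 0, 855⟩ 0 0) (.pos 138 .pm ⟨⟨0, 0, 36520513, 0, 0, 0, 0, 0, 0, ⟨0, 0⟩, 0⟩, 0, 2464⟩ 0 0)) (.pos 7 .pm ⟨⟨0, 0, 53770305, 0, 0, 0, 0, 0, 0, ⟨0, 0⟩, 0⟩, 0, 4655⟩ 0 0)) (.pos 5 .pm ⟨⟨0, 0, 30207473, 0, 0, 0, 0, 0, 0, ⟨0, 0⟩, 0⟩, 0, 0⟩ 0 0)) (.pos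 3 .pm ⟨⟨0, 0, 0, 0, 0, 0, 0, 0, 0, ⟨0, 0⟩, 0⟩, 0, 0⟩ 0 0)) (.cut .v 268435456 (.cut .v 67108864 (.cut .d 1693476 (.cut .d 846738 (.cut .v 33554432 (.cut .d 423369 (.cut .v 25165824 (.cut .d 211684 (.cut .v 20971520 (.cut .d 105842 (.cut .v 18874368 (.cut .v 17825792 (.pos 31 .pp ⟨⟨687586800, 0, 0, 0, 0, 0, 0, 0, 0, ⟨0, 0⟩, 0⟩, 24497234, 0⟩ 0 0) (.pos 32 .pp ⟨⟨1008183982, 0, 0, 0, 0, 0, 0, 0, 0, ⟨0, 0⟩, 0⟩, 0, 0⟩ 0 0)) (.pos 30 .pp ⟨⟨1201720838, 0, 0, 0, 0, 0, 0, 0, 0, ⟨0, 0⟩, 0⟩, 0, 0⟩ 0 0)) (.pos 27 .pp ⟨⟨0, 0, 0, 0, 0, 0, 0, 0, 0, ⟨0, 0⟩, 0⟩, 91126674, 9688⟩ 0 0)) (.pos 28 .pp ⟨⟨0, 0, 0, 0, 0, 0, 0, 0, 0, ⟨0, 0⟩, 0⟩, 163169083, 0⟩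 0 0)) (.pos 25 .pp ⟨⟨0, 0, 0, 0, 0, 0, 0, 0, 0, ⟨0, 0⟩, 0⟩, 86375017, 10725⟩ 0 0)) (.pos 26 .pp ⟨⟨0, 0, 0, 0, 0, 0, 0, 0, 0, ⟨0, 0⟩, 0⟩, 209250593, 0⟩ 0 0)) (.pos 24 .pp ⟨⟨0, 0, 0, 0, 0, 0, 0, 0, 0, ⟨0, 0⟩, 0⟩, 85614411, 10891⟩ 0 0)) (.cut .d 423369 (.void 127 ⟨⟨0, 0, 0, 0, 0, 0, 0, 0, 0, ⟨0, 0⟩, 0⟩, 100000, 0⟩ 0 0) (.pos 127 .pp ⟨⟨0, 0, 0, 0, 0, 0, 0, 0, 0, ⟨0, 0⟩, 0⟩, 258698791, 0⟩ 0 0))) (.cut .v 33554432 (.pos 24 .pp ⟨⟨0, 0, 0, 0, 0, 0, 0, 0, 0, ⟨0, 0⟩, 0⟩, 0, 29576⟩ 0 0) (.pos 127 .pp ⟨⟨0, 0, 0, 0, 0, 0, 6904, 0, 0, ⟨0, 0⟩, 0⟩, 127609650, 0⟩ 0 0))) (.pos 126 .pp ⟨⟨0, 0, 0, 0, 0, 0, 0, 0, 0, ⟨0, 0⟩, 0⟩, 0, 29576⟩ 0 0)) (.void 134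 ⟨⟨0, 0, 0, 47991, 0, 0, 0, 0, 0, ⟨0, 0⟩, 0⟩, 52009, 0⟩ 0 0)) (.void 141 ⟨⟨0, 0, 0, 0, 0, 0, 0, 0, 0, ⟨0, 0⟩, 0⟩, 100000, 0⟩ 0 0)))),
    by decide +kernel⟩

def covers27 : cell.Covers Vale.Agent.P237.Petty.Cor.Grid.N14.table row27.1 :=
  ⟨(.cut .d 0 (.cut .v 16777216 (.cut .v 8388608 (.void 2 ⟨⟨0, 0, 100000, 0, 0, 0, 0, 0, 0, ⟨0, 0⟩, 0⟩, 0, 0⟩ 0 0) (.cut .d (-8388608) (.void 3 ⟨⟨100000, 0, 0, 0, 0, 0, 0, 0, 0, ⟨0, 0⟩, 0⟩, 0, 0⟩ 0 0) (.cut .d (-4194304) (.void 3 ⟨⟨100000, 0, 0, 0, 0, 0, 0, 0, 0, ⟨0, 0⟩, 0⟩, 0, 0⟩ 0 0) (.cut .d (-2097152) (.void 3 ⟨⟨100000, 0, 0, 0, 0, 0, 0, 0, 0, ⟨0, 0⟩, 0⟩, 0, 0⟩ 0 0) (.cut .d (-1048576) (.void 3 ⟨⟨82749,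 0, 17251, 0, 0, 0, 0, 0, 0, ⟨0, 0⟩, 0⟩, 0, 0⟩ 0 0) (.cut .d (-524288) (.void 3 ⟨⟨0, 0, 0, 0, 0, 100000, 0, 0, 0, ⟨0, 0⟩, 0⟩, 0, 0⟩ 0 0) (.cut .d (-262144) (.void 3 ⟨⟨0, 0, 0, 0, 0, 100000, 0, 0, 0, ⟨0, 0⟩, 0⟩, 0, 0⟩ 0 0) (.cut .s 14237696 (.pos 3 .mm ⟨⟨0, 0, 0, 0, 0, 2002296980, 0, 0, 0, ⟨0, 0⟩, 0⟩, 0, 0⟩ 0 0) (.pos 3 .mm ⟨⟨0, 0, 0, 0, 0, 2149453008, 0, 0, 0, ⟨0, 0⟩, 0⟩, 0, 0⟩ 0 0))))))))) (.cut .v 268435456 (.cut .v 67108864 (.cut .v 33554432 (.cut .d (-8388608) (.void 24 ⟨⟨100000, 0, 0, 0, 0, 0, 0, 0, 0, ⟨0, 0⟩, 0⟩, 0, 0⟩ 0 0) (.cut .v 25165824 (.cut .d (-4194304) (.void 25 ⟨⟨100000, 0, 0, 0, 0, 0, 0, 0, 0, ⟨0, 0⟩, 0⟩, 0, 0⟩ 0 0) (.cut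 .d (-2097152) (.void 25 ⟨⟨100000, 0, 0, 0, 0, 0, 0, 0, 0, ⟨0, 0⟩, 0⟩, 0, 0⟩ 0 0) (.cut .v 20971520 (.cut .d (-1048576) (.void 27 ⟨⟨100000, 0, 0, 0, 0, 0, 0, 0, 0, ⟨0, 0⟩, 0⟩, 0, 0⟩ 0 0) (.cut .v 18874368 (.cut .d (-524288) (.void 29 ⟨⟨100000, 0, 0, 0, 0, 0, 0, 0, 0, ⟨0, 0⟩, 0⟩, 0, 0⟩ 0 0) (.cut .v 17825792 (.cut .d (-262144) (.void 31 ⟨⟨100000, 0, 0, 0, 0, 0, 0, 0, 0, ⟨0, 0⟩, 0⟩, 0, 0⟩ 0 0) (.cut .v 17301504 (.cut .d (-131072) (.void 33 ⟨⟨100000, 0, 0, 0, 0, 0, 0, 0, 0, ⟨0, 0⟩, 0⟩, 0, 0⟩ 0 0) (.cut .d (-65536) (.void 33 ⟨⟨100000, 0, 0, 0, 0, 0, 0, 0, 0, ⟨0, 0⟩, 0⟩, 0, 0⟩ 0 0) (.cut .d (-32768) (.void 33 ⟨⟨100000, 0, 0, 0, 0, 0, 0, 0,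 0, ⟨0, 0⟩, 0⟩, 0, 0⟩ 0 0) (.cut .d (-16384) (.void 33 ⟨⟨100000, 0, 0, 0, 0, 0, 0, 0, 0, ⟨0, 0⟩, 0⟩, 0, 0⟩ 0 0) (.cut .d (-8192) (.void 33 ⟨⟨0, 0, 0, 0, 0, 100000, 0, 0, 0, ⟨0, 0⟩, 0⟩, 0, 0⟩ 0 0) (.cut .v 17039360 (.cut .v 16908288 (.cut .s 14237696 (.cut .v 16842752 (.cut .s 14196736 (.cut .s 14176256 (.cut .v 16809984 (.cut .d (-4096) (.pos 51 .mp ⟨⟨752356649, 0, 0, 0, 0, 555831406, 0, 0, 0, ⟨0, 0⟩, 0⟩, 0, 0⟩ 0 0) (.cut .l 131821 (.cut .d (-2048) (.pos 51 .mp ⟨⟨771833997, 0, 0, 0, 0, 512592345, 0, 0, 0, ⟨0, 0⟩, 0⟩, 0, 0⟩ 0 0) (.cut .s 14166016 (.pos 51 .mp ⟨⟨771163563, 0, 0, 0, 0, 494105607, 0, 0, 0, ⟨0, 0⟩, 0⟩, 0, 0⟩ 0 0) (.cut .s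 14171136 (.pos 51 .mp ⟨⟨777634921, 0, 0, 0, 0, 494769330, 0, 0, 0, ⟨0, 0⟩, 0⟩, 0, 0⟩ 0 0) (.pos 51 .mp ⟨⟨780075713, 0, 0, 0, 0, 497533375, 0, 0, 0, ⟨0, 0⟩, 0⟩, 0, 0⟩ 0 0)))) (.pos 51 .mp ⟨⟨773450652, 0, 0, 0, 0, 479464920, 0, 0, 0, ⟨0, 0⟩, 0⟩, 0, 0⟩ 0 0))) (.pos 52 .mp ⟨⟨898887842, 0, 0, 0, 0, 276102948, 0, 0, 0, ⟨0, 0⟩, 0⟩, 0, 0⟩ 0 0)) (.cut .v 16809984 (.cut .d (-4096) (.pos 51 .mp ⟨⟨764376895, 0, 0, 0, 0, 562650665, 0, 0, 0, ⟨0, 0⟩, 0⟩, 0, 0⟩ 0 0) (.cut .l 131821 (.cut .v 16793600 (.cut .d (-2048) (.pos 57 .mp ⟨⟨766784813, 0, 0, 0, 0, 555623651, 0, 0, 0, ⟨0, 0⟩, 0⟩, 0, 0⟩ 0 0) (.cut .l 65910 (.cut .d (-1024) (.pos 57 .mp ⟨⟨782686061,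 0, 0, 0, 0, 520289210, 0, 0, 0, ⟨0, 0⟩, 0⟩, 0, 0⟩ 0 0) (.cut .s 14186496 (.pos 57 .mp ⟨⟨779361232, 0, 0, 0, 0, 508154107, 0, 0, 0, ⟨0, 0⟩, 0⟩, 0, 0⟩ 0 0) (.cut .s 14191616 (.pos 57 .mp ⟨⟨787370024, 0, 0, 0, 0, 506294063, 0, 0, 0, ⟨0, 0⟩, 0⟩, 0, 0⟩ 0 0) (.pos 57 .mp ⟨⟨789989915, 0, 0, 0, 0, 508992759, 0, 0, 0, ⟨0, 0⟩, 0⟩, 0, 0⟩ 0 0)))) (.pos 57 .mp ⟨⟨783639675, 0, 0, 0, 0, 490010995, 0, 0, 0, ⟨0, 0⟩, 0⟩, 0, 0⟩ 0 0))) (.pos 58 .mp ⟨⟨912690121, 0, 0, 0, 0, 277340395, 0, 0, 0, ⟨0, 0⟩, 0⟩, 0, 0⟩ 0 0)) (.pos 51 .mp ⟨⟨785852453, 0, 0, 0, 0, 487054367, 0, 0, 0, ⟨0, 0⟩, 0⟩, 0, 0⟩ 0 0))) (.pos 52 .mp ⟨⟨907512278, 0, 0, 0, 0, 289905917, 0, 0, 0,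 ⟨0, 0⟩, 0⟩, 0, 0⟩ 0 0))) (.cut .s 14217216 (.cut .v 16809984 (.cut .s 14206976 (.cut .d (-4096) (.pos 51 .mp ⟨⟨776642846, 0, 0, 0, 0, 559652252, 0, 0, 0, ⟨0, 0⟩, 0⟩, 0, 0⟩ 0 0) (.cut .s 14201856 (.pos 51 .mp ⟨⟨798259528, 0, 0, 0, 0, 500977743, 0, 0, 0, ⟨0, 0⟩, 0⟩, 0, 0⟩ 0 0) (.pos 51 .mp ⟨⟨801451170, 0, 0, 0, 0, 502784690, 0, 0, 0, ⟨0, 0⟩, 0⟩, 0, 0⟩ 0 0))) (.cut .d (-4096) (.pos 51 .mp ⟨⟨782869763, 0, 0, 0, 0, 563555053, 0, 0, 0, ⟨0, 0⟩, 0⟩, 0, 0⟩ 0 0) (.cut .s 14212096 (.pos 51 .mp ⟨⟨804659372, 0, 0, 0, 0, 504625474, 0, 0, 0, ⟨0, 0⟩, 0⟩, 0, 0⟩ 0 0) (.pos 51 .mp ⟨⟨807884233, 0, 0, 0, 0, 506500128, 0, 0, 0, ⟨0, 0⟩, 0⟩, 0, 0⟩ 0 0)))) (.pos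 52 .mp ⟨⟨918185660, 0, 0, 0, 0, 300914625, 0, 0, 0, ⟨0, 0⟩, 0⟩, 0, 0⟩ 0 0)) (.cut .d (-4096) (.cut .v 16809984 (.cut .s 14227456 (.pos 51 .mp ⟨⟨789160291, 0, 0, 0, 0, 567649973, 0, 0, 0, ⟨0, 0⟩, 0⟩, 0, 0⟩ 0 0) (.pos 51 .mp ⟨⟨795515183, 0, 0, 0, 0, 571939457, 0, 0, 0, ⟨0, 0⟩, 0⟩, 0, 0⟩ 0 0)) (.pos 52 .mp ⟨⟨906565917, 0, 0, 0, 0, 357495453, 0, 0, 0, ⟨0, 0⟩, 0⟩, 0, 0⟩ 0 0)) (.cut .l 131821 (.cut .v 16809984 (.cut .v 16793600 (.cut .s 14227456 (.cut .s 14222336 (.pos 57 .mp ⟨⟨806742323, 0, 0, 0, 0, 516618986, 0, 0, 0, ⟨0, 0⟩, 0⟩, 0, 0⟩ 0 0) (.pos 57 .mp ⟨⟨808663697, 0, 0, 0, 0, 521206219, 0, 0, 0, ⟨0, 0⟩, 0⟩, 0, 0⟩ 0 0)) (.cut .s 14232576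 (.pos 57 .mp ⟨⟨810754161, 0, 0, 0, 0, 525527364, 0, 0, 0, ⟨0, 0⟩, 0⟩, 0, 0⟩ 0 0) (.pos 57 .mp ⟨⟨813015517, 0, 0, 0, 0, 529578911, 0, 0, 0, ⟨0, 0⟩, 0⟩, 0, 0⟩ 0 0))) (.pos 58 .mp ⟨⟨936456972, 0, 0, 0, 0, 295743271, 0, 0, 0, ⟨0, 0⟩, 0⟩, 0, 0⟩ 0 0)) (.pos 52 .mp ⟨⟨1114012186, 0, 0, 0, 0, 0, 0, 0, 0, ⟨0, 0⟩, 0⟩, 0, 0⟩ 0 0)) (.pos 39 .mp ⟨⟨814373757, 0, 0, 0, 0, 497881595, 0, 0, 0, ⟨0, 0⟩, 0⟩, 0, 0⟩ 0 0))))) (.pos 40 .mp ⟨⟨1085548387, 0, 0, 0, 0, 0, 0, 0, 0, ⟨0, 0⟩, 0⟩, 0, 0⟩ 0 0)) (.cut .v 16842752 (.cut .s 14278656 (.cut .s 14258176 (.cut .d (-4096) (.cut .v 16809984 (.cut .s 14247936 (.pos 51 .mp ⟨⟨801935203, 0, 0, 0, 0, 576425991, 0, 0,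 0, ⟨0, 0⟩, 0⟩, 0, 0⟩ 0 0) (.pos 51 .mp ⟨⟨808421129, 0, 0, 0, 0, 581112100, 0, 0, 0, ⟨0, 0⟩, 0⟩, 0, 0⟩ 0 0)) (.pos 52 .mp ⟨⟨921969719, 0, 0, 0, 0, 361772248, 0, 0, 0, ⟨0, 0⟩, 0⟩, 0, 0⟩ 0 0)) (.cut .l 131821 (.cut .v 16809984 (.cut .s 14247936 (.cut .d (-2048) (.pos 51 .mp ⟨⟨817438257, 0, 0, 0, 0, 541471861, 0, 0, 0, ⟨0, 0⟩, 0⟩, 0, 0⟩ 0 0) (.cut .s 14242816 (.pos 51 .mp ⟨⟨818076638, 0, 0, 0, 0, 527821166, 0, 0, 0, ⟨0, 0⟩, 0⟩, 0, 0⟩ 0 0) (.pos 51 .mp ⟨⟨821452854, 0, 0, 0, 0, 529781246, 0, 0, 0, ⟨0, 0⟩, 0⟩, 0, 0⟩ 0 0))) (.cut .d (-2048) (.pos 51 .mp ⟨⟨823741684, 0, 0, 0, 0, 546607313, 0, 0, 0, ⟨0, 0⟩, 0⟩, 0, 0⟩ 0 0) (.cut .s 14253056 (.pos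 51 .mp ⟨⟨824825913, 0, 0, 0, 0, 531820106, 0, 0, 0, ⟨0, 0⟩, 0⟩, 0, 0⟩ 0 0) (.pos 51 .mp ⟨⟨828195493, 0, 0, 0, 0, 533938727, 0, 0, 0, ⟨0, 0⟩, 0⟩, 0, 0⟩ 0 0)))) (.pos 52 .mp ⟨⟨1131677332, 0, 0, 0, 0, 0, 0, 0, 0, ⟨0, 0⟩, 0⟩, 0, 0⟩ 0 0)) (.pos 39 .mp ⟨⟨827610528, 0, 0, 0, 0, 505994417, 0, 0, 0, ⟨0, 0⟩, 0⟩, 0, 0⟩ 0 0))) (.cut .d (-4096) (.cut .v 16809984 (.cut .s 14268416 (.pos 51 .mp ⟨⟨814973752, 0, 0, 0, 0, 586000352, 0, 0, 0, ⟨0, 0⟩, 0⟩, 0, 0⟩ 0 0) (.pos 51 .mp ⟨⟨821593872, 0, 0, 0, 0, 591093355, 0, 0, 0, ⟨0, 0⟩, 0⟩, 0, 0⟩ 0 0)) (.pos 52 .mp ⟨⟨939830393, 0, 0, 0, 0, 362497063, 0, 0, 0, ⟨0, 0⟩, 0⟩, 0, 0⟩ 0 0)) (.cut .l 131821 (.cut .v 16809984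 (.cut .s 14268416 (.cut .d (-2048) (.pos 51 .mp ⟨⟨830309766, 0, 0, 0, 0, 551454660, 0, 0, 0, ⟨0, 0⟩, 0⟩, 0, 0⟩ 0 0) (.cut .s 14263296 (.pos 51 .mp ⟨⟨831561262, 0, 0, 0, 0, 536138098, 0, 0, 0, ⟨0, 0⟩, 0⟩, 0, 0⟩ 0 0) (.pos 51 .mp ⟨⟨834922888, 0, 0, 0, 0, 538419221, 0, 0, 0, ⟨0, 0⟩, 0⟩, 0, 0⟩ 0 0))) (.cut .d (-2048) (.pos 51 .mp ⟨⟨837148987, 0, 0, 0, 0, 556001518, 0, 0, 0, ⟨0, 0⟩, 0⟩, 0, 0⟩ 0 0) (.cut .s 14273536 (.pos 51 .mp ⟨⟨838280031, 0, 0, 0, 0, 540783109, 0, 0, 0, ⟨0, 0⟩, 0⟩, 0, 0⟩ 0 0) (.pos 51 .mp ⟨⟨841632348, 0, 0, 0, 0, 543230787, 0, 0, 0, ⟨0, 0⟩, 0⟩, 0, 0⟩ 0 0)))) (.pos 52 .mp ⟨⟨1149707423, 0, 0, 0, 0, 0, 0, 0, 0, ⟨0, 0⟩, 0⟩,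 0, 0⟩ 0 0)) (.pos 39 .mp ⟨⟨841123843, 0, 0, 0, 0, 514276946, 0, 0, 0, ⟨0, 0⟩, 0⟩, 0, 0⟩ 0 0)))) (.cut .s 14299136 (.cut .d (-4096) (.cut .v 16809984 (.cut .s 14288896 (.pos 51 .mp ⟨⟨828282307, 0, 0, 0, 0, 596393759, 0, 0, 0, ⟨0, 0⟩, 0⟩, 0, 0⟩ 0 0) (.pos 51 .mp ⟨⟨835039887, 0, 0, 0, 0, 601904259, 0, 0, 0, ⟨0, 0⟩, 0⟩, 0, 0⟩ 0 0)) (.pos 52 .mp ⟨⟨960284503, 0, 0, 0, 0, 359416114, 0, 0, 0, ⟨0, 0⟩, 0⟩, 0, 0⟩ 0 0)) (.cut .l 131821 (.cut .v 16809984 (.cut .s 14288896 (.cut .d (-2048) (.pos 51 .mp ⟨⟨844265922, 0, 0, 0, 0, 560235317, 0, 0, 0, ⟨0, 0⟩, 0⟩, 0, 0⟩ 0 0) (.cut .s 14283776 (.pos 51 .mp ⟨⟨844979490, 0, 0, 0, 0, 545763294, 0, 0, 0, ⟨0,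 0⟩, 0⟩, 0, 0⟩ 0 0) (.pos 51 .mp ⟨⟨848321104, 0, 0, 0, 0, 548381677, 0, 0, 0, ⟨0, 0⟩, 0⟩, 0, 0⟩ 0 0))) (.cut .s 14294016 (.cut .s 14291456 (.pos 51 .mp ⟨⟨856682170, 0, 0, 0, 0, 539537600, 0, 0, 0, ⟨0, 0⟩, 0⟩, 0, 0⟩ 0 0) (.pos 51 .mp ⟨⟨858588414, 0, 0, 0, 0, 540442761, 0, 0, 0, ⟨0, 0⟩, 0⟩, 0, 0⟩ 0 0)) (.pos 51 .mp ⟨⟨861830166, 0, 0, 0, 0, 541115616, 0, 0, 0, ⟨0, 0⟩, 0⟩, 0, 0⟩ 0 0))) (.pos 52 .mp ⟨⟨1168099117, 0, 0, 0, 0, 0, 0, 0, 0, ⟨0, 0⟩, 0⟩, 0, 0⟩ 0 0)) (.pos 39 .mp ⟨⟨854920439, 0, 0, 0, 0, 522712668, 0, 0, 0, ⟨0, 0⟩, 0⟩, 0, 0⟩ 0 0))) (.cut .d (-4096) (.cut .s 14309376 (.pos 39 .mp ⟨⟨855510054, 0, 0, 0, 0, 581879605, 0, 0, 0, ⟨0, 0⟩,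 0⟩, 0, 0⟩ 0 0) (.pos 39 .mp ⟨⟨851860227, 0, 0, 0, 0, 614119752, 0, 0, 0, ⟨0, 0⟩, 0⟩, 0, 0⟩ 0 0)) (.cut .l 131821 (.cut .v 16809984 (.cut .v 16793600 (.cut .s 14309376 (.cut .s 14304256 (.pos 57 .mp ⟨⟨858800634, 0, 0, 0, 0, 556084760, 0, 0, 0, ⟨0, 0⟩, 0⟩, 0, 0⟩ 0 0) (.pos 57 .mp ⟨⟨863648799, 0, 0, 0, 0, 555982826, 0, 0, 0, ⟨0, 0⟩, 0⟩, 0, 0⟩ 0 0)) (.cut .s 14314496 (.pos 57 .mp ⟨⟨868696004, 0, 0, 0, 0, 555556327, 0, 0, 0, ⟨0, 0⟩, 0⟩, 0, 0⟩ 0 0) (.pos 57 .mp ⟨⟨873944206, 0, 0, 0, 0, 554801431, 0, 0, 0, ⟨0, 0⟩, 0⟩, 0, 0⟩ 0 0))) (.pos 58 .mp ⟨⟨1012700479, 0, 0, 0, 0, 291371310, 0, 0, 0, ⟨0, 0⟩, 0⟩, 0, 0⟩ 0 0)) (.pos 52 .mp ⟨⟨1186849101, 0,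 0, 0, 0, 0, 0, 0, 0, ⟨0, 0⟩, 0⟩, 0, 0⟩ 0 0)) (.pos 39 .mp ⟨⟨869007277, 0, 0, 0, 0, 531284637, 0, 0, 0, ⟨0, 0⟩, 0⟩, 0, 0⟩ 0 0))))) (.pos 40 .mp ⟨⟨1156164396, 0, 0, 0, 0, 0, 0, 0, 0, ⟨0, 0⟩, 0⟩, 0, 0⟩ 0 0))) (.pos 38 .mp ⟨⟨1151270020, 0, 0, 0, 0, 0, 0, 0, 0, ⟨0, 0⟩, 0⟩, 0, 0⟩ 0 0)) (.pos 36 .mp ⟨⟨1205756469, 0, 0, 0, 0, 0, 0, 0, 0, ⟨0, 0⟩, 0⟩, 0, 0⟩ 0 0))))))) (.void 34 ⟨⟨100000, 0, 0, 0, 0, 0, 0, 0, 0, ⟨0, 0⟩, 0⟩, 0, 0⟩ 0 0))) (.void 32 ⟨⟨100000, 0, 0, 0, 0, 0, 0, 0, 0, ⟨0, 0⟩, 0⟩, 0, 0⟩ 0 0))) (.void 30 ⟨⟨100000, 0, 0, 0, 0, 0, 0, 0, 0, ⟨0, 0⟩, 0⟩, 0, 0⟩ 0 0))) (.void 28 ⟨⟨100000, 0, 0, 0, 0, 0, 0, 0, 0, ⟨0, 0⟩, 0⟩, 0, 0⟩ 0 0)))) (.void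 26 ⟨⟨100000, 0, 0, 0, 0, 0, 0, 0, 0, ⟨0, 0⟩, 0⟩, 0, 0⟩ 0 0))) (.void 127 ⟨⟨100000, 0, 0, 0, 0, 0, 0, 0, 0, ⟨0, 0⟩, 0⟩, 0, 0⟩ 0 0)) (.void 134 ⟨⟨100000, 0, 0, 0, 0, 0, 0, 0, 0, ⟨0, 0⟩, 0⟩, 0, 0⟩ 0 0)) (.void 141 ⟨⟨94612, 0, 0, 5384, 0, 0, 0, 0, 0, ⟨0, 0⟩, 0⟩, 0, 0⟩ 0 0))) (.cut .v 16777216 (.cut .v 8388608 (.cut .v 4194304 (.cut .v 2097152 (.cut .v 1048576 (.cut .v 524288 (.pos 144 .pm ⟨⟨0, 0, 26851555, 0, 0, 0, 0, 0, 0, ⟨0, 0⟩, 0⟩, 0, 314⟩ 0 0) (.pos 145 .pm ⟨⟨0, 0, 32760218, 0, 0, 0, 0, 0, 0, ⟨0, 0⟩, 0⟩, 0, 923⟩ 0 0)) (.pos 138 .pm ⟨⟨0, 0, 42525520, 0, 0, 0, 0, 0, 0, ⟨0, 0⟩, 0⟩, 0, 1791⟩ 0 0)) (.pos 7 .pm ⟨⟨0, 0, 66741432, 0, 0, 0,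 0, 0, 0, ⟨0, 0⟩, 0⟩, 0, 3383⟩ 0 0)) (.pos 5 .pm ⟨⟨0, 0, 200066859, 0, 0, 0, 0, 0, 0, ⟨0, 0⟩, 0⟩, 0, 6089⟩ 0 0)) (.pos 3 .pm ⟨⟨0, 0, 0, 0, 0, 0, 0, 0, 0, ⟨0, 0⟩, 0⟩, 0, 0⟩ 0 0)) (.cut .v 268435456 (.cut .v 67108864 (.cut .d 1553447 (.cut .d 776723 (.cut .v 33554432 (.cut .d 388361 (.cut .v 25165824 (.cut .d 194180 (.cut .v 20971520 (.cut .d 97090 (.cut .v 18874368 (.cut .v 17825792 (.pos 31 .pp ⟨⟨712653402, 0, 0, 0, 0, 0, 0, 0, 0, ⟨0, 0⟩, 0⟩, 38492681, 0⟩ 0 0) (.pos 32 .pp ⟨⟨1157471014, 0, 0, 0, 0, 0, 0, 0, 0, ⟨0, 0⟩, 0⟩, 0, 0⟩ 0 0)) (.pos 30 .pp ⟨⟨1370844514, 0, 0, 0, 0, 0, 0, 0, 0, ⟨0, 0⟩, 0⟩, 0, 0⟩ 0 0)) (.pos 27 .pp ⟨⟨0, 0, 0, 0,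 0, 0, 0, 0, 0, ⟨0, 0⟩, 0⟩, 105476268, 6902⟩ 0 0)) (.pos 28 .pp ⟨⟨0, 0, 0, 0, 0, 0, 0, 0, 0, ⟨0, 0⟩, 0⟩, 186081277, 0⟩ 0 0)) (.pos 25 .pp ⟨⟨0, 0, 0, 0, 0, 0, 0, 0, 0, ⟨0, 0⟩, 0⟩, 99780248, 7660⟩ 0 0)) (.pos 26 .pp ⟨⟨0, 0, 0, 0, 0, 0, 0, 0, 0, ⟨0, 0⟩, 0⟩, 237898890, 0⟩ 0 0)) (.pos 24 .pp ⟨⟨0, 0, 0, 0, 0, 0, 0, 0, 0, ⟨0, 0⟩, 0⟩, 98386794, 7846⟩ 0 0)) (.cut .d 388361 (.void 127 ⟨⟨0, 0, 0, 0, 0, 0, 0, 0, 0, ⟨0, 0⟩, 0⟩, 100000, 0⟩ 0 0) (.pos 127 .pp ⟨⟨0, 0, 0, 0, 0, 0, 0, 0, 0, ⟨0, 0⟩, 0⟩, 296049468, 0⟩ 0 0))) (.cut .v 33554432 (.pos 24 .pp ⟨⟨0, 0, 0, 0, 0, 0, 0, 0, 0, ⟨0, 0⟩, 0⟩, 0, 20945⟩ 0 0) (.pos 127 .pp ⟨⟨0, 0, 0, 0, 0, 0, 3895, 0, 0,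 ⟨0, 0⟩, 0⟩, 149998737, 0⟩ 0 0))) (.pos 126 .pp ⟨⟨0, 0, 0, 0, 0, 0, 0, 0, 0, ⟨0, 0⟩, 0⟩, 0, 20945⟩ 0 0)) (.void 134 ⟨⟨0, 0, 0, 48230, 0, 0, 0, 0, 0, ⟨0, 0⟩, 0⟩, 51770, 0⟩ 0 0)) (.void 141 ⟨⟨0, 0, 0, 0, 0, 0, 0, 0, 0, ⟨0, 0⟩, 0⟩, 100000, 0⟩ 0 0)))),
    by decide +kernel⟩

def covers28 : cell.Covers Vale.Agent.P237.Petty.Cor.Grid.N14.table row28.1 :=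
  ⟨(.cut .d 0 (.cut .v 16777216 (.cut .v 8388608 (.void 2 ⟨⟨0, 0, 100000, 0, 0, 0, 0, 0, 0, ⟨0, 0⟩, 0⟩, 0, 0⟩ 0 0) (.cut .d (-8388608) (.void 3 ⟨⟨100000, 0, 0, 0, 0, 0, 0, 0, 0, ⟨0, 0⟩, 0⟩, 0, 0⟩ 0 0) (.cut .d (-4194304) (.void 3 ⟨⟨100000, 0, 0, 0, 0, 0, 0, 0, 0, ⟨0, 0⟩, 0⟩, 0, 0⟩ 0 0) (.cut .d (-2097152) (.void 3 ⟨⟨100000, 0, 0, 0, 0, 0, 0, 0, 0, ⟨0, 0⟩, 0⟩, 0, 0⟩ 0 0) (.cut .d (-1048576) (.void 3 ⟨⟨100000, 0, 0, 0, 0, 0, 0, 0, 0, ⟨0, 0⟩, 0⟩, 0, 0⟩ 0 0) (.cut .d (-524288) (.void 3 ⟨⟨0, 0, 0, 0, 0, 100000, 0, 0, 0, ⟨0, 0⟩, 0⟩, 0, 0⟩ 0 0) (.cut .d (-262144) (.void 3 ⟨⟨0, 0, 0, 0, 0, 100000, 0, 0, 0, ⟨0, 0⟩, 0⟩, 0, 0⟩ 0 0) (.cut .s 14401536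 (.pos 3 .mm ⟨⟨0, 0, 0, 0, 0, 2310657716, 0, 0, 0, ⟨0, 0⟩, 0⟩, 0, 0⟩ 0 0) (.cut .s 14442496 (.pos 3 .mm ⟨⟨0, 0, 0, 0, 0, 2398966617, 0, 0, 0, ⟨0, 0⟩, 0⟩, 0, 0⟩ 0 0) (.pos 3 .mm ⟨⟨0, 0, 0, 0, 0, 2489326990, 0, 0, 0, ⟨0, 0⟩, 0⟩, 0, 0⟩ 0 0)))))))))) (.cut .v 268435456 (.cut .v 67108864 (.cut .v 33554432 (.cut .d (-8388608) (.void 24 ⟨⟨100024, 0, 0, 0, 0, 0, 0, 0, 0, ⟨0, 0⟩, 0⟩, 0, 0⟩ 0 0) (.cut .v 25165824 (.cut .d (-4194304) (.void 25 ⟨⟨100000, 0, 0, 0, 0, 0, 0, 0, 0, ⟨0, 0⟩, 0⟩, 0, 0⟩ 0 0) (.cut .d (-2097152) (.void 25 ⟨⟨100000, 0, 0, 0, 0, 0, 0, 0, 0, ⟨0, 0⟩, 0⟩, 0, 0⟩ 0 0) (.cut .v 20971520 (.cut .d (-1048576) (.void 27 ⟨⟨100000, 0,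 0, 0, 0, 0, 0, 0, 0, ⟨0, 0⟩, 0⟩, 0, 0⟩ 0 0) (.cut .v 18874368 (.cut .d (-524288) (.void 29 ⟨⟨100000, 0, 0, 0, 0, 0, 0, 0, 0, ⟨0, 0⟩, 0⟩, 0, 0⟩ 0 0) (.cut .v 17825792 (.cut .d (-262144) (.void 31 ⟨⟨100000, 0, 0, 0, 0, 0, 0, 0, 0, ⟨0, 0⟩, 0⟩, 0, 0⟩ 0 0) (.cut .v 17301504 (.cut .d (-131072) (.void 33 ⟨⟨100000, 0, 0, 0, 0, 0, 0, 0, 0, ⟨0, 0⟩, 0⟩, 0, 0⟩ 0 0) (.cut .v 17039360 (.cut .d (-65536) (.void 35 ⟨⟨100000, 0, 0, 0, 0, 0, 0, 0, 0, ⟨0, 0⟩, 0⟩, 0, 0⟩ 0 0) (.cut .d (-32768) (.void 35 ⟨⟨100000, 0, 0, 0, 0, 0, 0, 0, 0, ⟨0, 0⟩, 0⟩, 0, 0⟩ 0 0) (.cut .d (-16384) (.void 35 ⟨⟨100000, 0, 0, 0, 0, 0, 0, 0, 0, ⟨0, 0⟩, 0⟩, 0, 0⟩ 0 0) (.cut .d (-8192)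 (.void 35 ⟨⟨0, 0, 0, 0, 0, 100000, 0, 0, 0, ⟨0, 0⟩, 0⟩, 0, 0⟩ 0 0) (.cut .v 16908288 (.cut .s 14401536 (.cut .v 16842752 (.cut .s 14360576 (.cut .s 14340096 (.cut .d (-4096) (.cut .s 14329856 (.pos 39 .mp ⟨⟨858857296, 0, 0, 0, 0, 620271772, 0, 0, 0, ⟨0, 0⟩, 0⟩, 0, 0⟩ 0 0) (.pos 39 .mp ⟨⟨865941405, 0, 0, 0, 0, 624663979, 0, 0, 0, ⟨0, 0⟩, 0⟩, 0, 0⟩ 0 0)) (.cut .l 131821 (.cut .v 16809984 (.cut .s 14329856 (.cut .s 14324736 (.pos 51 .mp ⟨⟨879637673, 0, 0, 0, 0, 553425448, 0, 0, 0, ⟨0, 0⟩, 0⟩, 0, 0⟩ 0 0) (.pos 51 .mp ⟨⟨883256073, 0, 0, 0, 0, 555531014, 0, 0, 0, ⟨0, 0⟩, 0⟩, 0, 0⟩ 0 0)) (.cut .s 14334976 (.pos 51 .mp ⟨⟨886894352, 0, 0, 0,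 0, 557672540, 0, 0, 0, ⟨0, 0⟩, 0⟩, 0, 0⟩ 0 0) (.pos 51 .mp ⟨⟨890552632, 0, 0, 0, 0, 559849949, 0, 0, 0, ⟨0, 0⟩, 0⟩, 0, 0⟩ 0 0))) (.pos 52 .mp ⟨⟨1207827636, 0, 0, 0, 0, 0, 0, 0, 0, ⟨0, 0⟩, 0⟩, 0, 0⟩ 0 0)) (.pos 39 .mp ⟨⟨883413782, 0, 0, 0, 0, 543127353, 0, 0, 0, ⟨0, 0⟩, 0⟩, 0, 0⟩ 0 0))) (.cut .d (-4096) (.cut .s 14350336 (.pos 39 .mp ⟨⟨873102092, 0, 0, 0, 0, 629295228, 0, 0, 0, ⟨0, 0⟩, 0⟩, 0, 0⟩ 0 0) (.pos 39 .mp ⟨⟨880340309, 0, 0, 0, 0, 634168711, 0, 0, 0, ⟨0, 0⟩, 0⟩, 0, 0⟩ 0 0)) (.cut .l 131821 (.cut .v 16809984 (.cut .s 14350336 (.cut .s 14345216 (.pos 51 .mp ⟨⟨894231039, 0, 0, 0, 0, 562063159, 0, 0, 0, ⟨0, 0⟩, 0⟩, 0, 0⟩ 0 0) (.cut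 .s 14347776 (.pos 51 .mp ⟨⟨896111903, 0, 0, 0, 0, 565241078, 0, 0, 0, ⟨0, 0⟩, 0⟩, 0, 0⟩ 0 0) (.pos 51 .mp ⟨⟨897810277, 0, 0, 0, 0, 566641556, 0, 0, 0, ⟨0, 0⟩, 0⟩, 0, 0⟩ 0 0))) (.cut .d (-2048) (.pos 51 .mp ⟨⟨880997590, 0, 0, 0, 0, 627663005, 0, 0, 0, ⟨0, 0⟩, 0⟩, 0, 0⟩ 0 0) (.cut .s 14355456 (.pos 51 .mp ⟨⟨894689684, 0, 0, 0, 0, 579363692, 0, 0, 0, ⟨0, 0⟩, 0⟩, 0, 0⟩ 0 0) (.pos 51 .mp ⟨⟨898536500, 0, 0, 0, 0, 581390142, 0, 0, 0, ⟨0, 0⟩, 0⟩, 0, 0⟩ 0 0)))) (.pos 52 .mp ⟨⟨1227381503, 0, 0, 0, 0, 0, 0, 0, 0, ⟨0, 0⟩, 0⟩, 0, 0⟩ 0 0)) (.pos 39 .mp ⟨⟨898134759, 0, 0, 0, 0, 552030575, 0, 0, 0, ⟨0, 0⟩, 0⟩, 0, 0⟩ 0 0)))) (.cut .s 14381056 (.cut .d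 (-4096) (.cut .v 16809984 (.cut .s 14370816 (.pos 51 .mp ⟨⟨884436395, 0, 0, 0, 0, 638683816, 0, 0, 0, ⟨0, 0⟩, 0⟩, 0, 0⟩ 0 0) (.pos 51 .mp ⟨⟨891806512, 0, 0, 0, 0, 644040544, 0, 0, 0, ⟨0, 0⟩, 0⟩, 0, 0⟩ 0 0)) (.pos 52 .mp ⟨⟨1006206759, 0, 0, 0, 0, 421572554, 0, 0, 0, ⟨0, 0⟩, 0⟩, 0, 0⟩ 0 0)) (.cut .l 131821 (.cut .v 16809984 (.cut .s 14370816 (.cut .d (-2048) (.pos 51 .mp ⟨⟨888287478, 0, 0, 0, 0, 632789475, 0, 0, 0, ⟨0, 0⟩, 0⟩, 0, 0⟩ 0 0) (.cut .s 14365696 (.pos 51 .mp ⟨⟨902379857, 0, 0, 0, 0, 583511852, 0, 0, 0, ⟨0, 0⟩, 0⟩, 0, 0⟩ 0 0) (.pos 51 .mp ⟨⟨906219331, 0, 0, 0, 0, 585730086, 0, 0, 0, ⟨0, 0⟩, 0⟩, 0, 0⟩ 0 0))) (.cut .d (-2048) (.pos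 51 .mp ⟨⟨895656858, 0, 0, 0, 0, 638163892, 0, 0, 0, ⟨0, 0⟩, 0⟩, 0, 0⟩ 0 0) (.cut .s 14375936 (.pos 51 .mp ⟨⟨909981136, 0, 0, 0, 0, 588206712, 0, 0, 0, ⟨0, 0⟩, 0⟩, 0, 0⟩ 0 0) (.pos 51 .mp ⟨⟨913759997, 0, 0, 0, 0, 590734720, 0, 0, 0, ⟨0, 0⟩, 0⟩, 0, 0⟩ 0 0)))) (.pos 52 .mp ⟨⟨1247407566, 0, 0, 0, 0, 0, 0, 0, 0, ⟨0, 0⟩, 0⟩, 0, 0⟩ 0 0)) (.pos 39 .mp ⟨⟨913180343, 0, 0, 0, 0, 561207331, 0, 0, 0, ⟨0, 0⟩, 0⟩, 0, 0⟩ 0 0))) (.cut .d (-4096) (.cut .s 14391296 (.cut .s 14386176 (.pos 39 .mp ⟨⟨902529911, 0, 0, 0, 0, 642393461, 0, 0, 0, ⟨0, 0⟩, 0⟩, 0, 0⟩ 0 0) (.pos 39 .mp ⟨⟨906298754, 0, 0, 0, 0, 645236921, 0, 0, 0, ⟨0, 0⟩, 0⟩, 0, 0⟩ 0 0)) (.pos 39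 .mp ⟨⟨910088102, 0, 0, 0, 0, 656150725, 0, 0, 0, ⟨0, 0⟩, 0⟩, 0, 0⟩ 0 0)) (.cut .l 131821 (.cut .v 16809984 (.cut .s 14391296 (.cut .d (-2048) (.pos 51 .mp ⟨⟨903106730, 0, 0, 0, 0, 643789603, 0, 0, 0, ⟨0, 0⟩, 0⟩, 0, 0⟩ 0 0) (.cut .s 14386176 (.pos 51 .mp ⟨⟨917559662, 0, 0, 0, 0, 593306232, 0, 0, 0, ⟨0, 0⟩, 0⟩, 0, 0⟩ 0 0) (.pos 51 .mp ⟨⟨921380263, 0, 0, 0, 0, 595921283, 0, 0, 0, ⟨0, 0⟩, 0⟩, 0, 0⟩ 0 0))) (.cut .d (-2048) (.pos 51 .mp ⟨⟨910638114, 0, 0, 0, 0, 649670011, 0, 0, 0, ⟨0, 0⟩, 0⟩, 0, 0⟩ 0 0) (.cut .s 14396416 (.pos 51 .mp ⟨⟨925221932, 0, 0, 0, 0, 598579909, 0, 0, 0, ⟨0, 0⟩, 0⟩, 0, 0⟩ 0 0) (.pos 51 .mp ⟨⟨929084803, 0, 0, 0, 0, 601282146,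 0, 0, 0, ⟨0, 0⟩, 0⟩, 0, 0⟩ 0 0)))) (.pos 52 .mp ⟨⟨1267901573, 0, 0, 0, 0, 0, 0, 0, 0, ⟨0, 0⟩, 0⟩, 0, 0⟩ 0 0)) (.pos 39 .mp ⟨⟨928558786, 0, 0, 0, 0, 570637265, 0, 0, 0, ⟨0, 0⟩, 0⟩, 0, 0⟩ 0 0))))) (.pos 40 .mp ⟨⟨1235567884, 0, 0, 0, 0, 0, 0, 0, 0, ⟨0, 0⟩, 0⟩, 0, 0⟩ 0 0)) (.cut .v 16842752 (.cut .s 14442496 (.cut .s 14422016 (.cut .d (-4096) (.cut .s 14411776 (.pos 39 .mp ⟨⟨917728835, 0, 0, 0, 0, 662285177, 0, 0, 0, ⟨0, 0⟩, 0⟩, 0, 0⟩ 0 0) (.pos 39 .mp ⟨⟨925453164, 0, 0, 0, 0, 668682186, 0, 0, 0, ⟨0, 0⟩, 0⟩, 0, 0⟩ 0 0)) (.cut .v 16809984 (.cut .l 131821 (.cut .s 14411776 (.cut .d (-2048) (.pos 51 .mp ⟨⟨918252046, 0, 0, 0, 0, 655808575, 0,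 0, 0, ⟨0, 0⟩, 0⟩, 0, 0⟩ 0 0) (.cut .s 14406656 (.pos 51 .mp ⟨⟨932949890, 0, 0, 0, 0, 604069911, 0, 0, 0, ⟨0, 0⟩, 0⟩, 0, 0⟩ 0 0) (.pos 51 .mp ⟨⟨936742231, 0, 0, 0, 0, 607107758, 0, 0, 0, ⟨0, 0⟩, 0⟩, 0, 0⟩ 0 0))) (.cut .d (-2048) (.pos 51 .mp ⟨⟨925949582, 0, 0, 0, 0, 662208816, 0, 0, 0, ⟨0, 0⟩, 0⟩, 0, 0⟩ 0 0) (.cut .s 14416896 (.pos 51 .mp ⟨⟨940526570, 0, 0, 0, 0, 610254230, 0, 0, 0, ⟨0, 0⟩, 0⟩, 0, 0⟩ 0 0) (.pos 51 .mp ⟨⟨944302418, 0, 0, 0, 0, 613510758, 0, 0, 0, ⟨0, 0⟩, 0⟩, 0, 0⟩ 0 0)))) (.pos 51 .mp ⟨⟨940881964, 0, 0, 0, 0, 586138999, 0, 0, 0, ⟨0, 0⟩, 0⟩, 0, 0⟩ 0 0)) (.pos 52 .mp ⟨⟨1251597226, 0, 0, 0, 0, 0, 0, 0, 0, ⟨0, 0⟩, 0⟩, 0, 0⟩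 0 0))) (.cut .d (-4096) (.cut .s 14432256 (.pos 39 .mp ⟨⟨933262163, 0, 0, 0, 0, 675345344, 0, 0, 0, ⟨0, 0⟩, 0⟩, 0, 0⟩ 0 0) (.pos 39 .mp ⟨⟨941156924, 0, 0, 0, 0, 682278308, 0, 0, 0, ⟨0, 0⟩, 0⟩, 0, 0⟩ 0 0)) (.cut .l 131821 (.cut .v 16809984 (.cut .s 14432256 (.cut .s 14427136 (.cut .s 14424576 (.pos 51 .mp ⟨⟨954189128, 0, 0, 0, 0, 602775356, 0, 0, 0, ⟨0, 0⟩, 0⟩, 0, 0⟩ 0 0) (.pos 51 .mp ⟨⟨956474278, 0, 0, 0, 0, 603690846, 0, 0, 0, ⟨0, 0⟩, 0⟩, 0, 0⟩ 0 0)) (.pos 51 .mp ⟨⟨959968606, 0, 0, 0, 0, 605078709, 0, 0, 0, ⟨0, 0⟩, 0⟩, 0, 0⟩ 0 0)) (.cut .s 14437376 (.pos 51 .mp ⟨⟨964031731, 0, 0, 0, 0, 607920525, 0, 0, 0, ⟨0, 0⟩, 0⟩, 0, 0⟩ 0 0) (.pos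 51 .mp ⟨⟨968117551, 0, 0, 0, 0, 610796265, 0, 0, 0, ⟨0, 0⟩, 0⟩, 0, 0⟩ 0 0))) (.pos 52 .mp ⟨⟨1310276595, 0, 0, 0, 0, 0, 0, 0, 0, ⟨0, 0⟩, 0⟩, 0, 0⟩ 0 0)) (.pos 39 .mp ⟨⟨960348695, 0, 0, 0, 0, 590172456, 0, 0, 0, ⟨0, 0⟩, 0⟩, 0, 0⟩ 0 0)))) (.cut .s 14462976 (.cut .d (-4096) (.cut .s 14452736 (.pos 39 .mp ⟨⟨949138557, 0, 0, 0, 0, 689484798, 0, 0, 0, ⟨0, 0⟩, 0⟩, 0, 0⟩ 0 0) (.pos 39 .mp ⟨⟨957208194, 0, 0, 0, 0, 696968601, 0, 0, 0, ⟨0, 0⟩, 0⟩, 0, 0⟩ 0 0)) (.cut .l 131821 (.cut .v 16809984 (.cut .v 16793600 (.cut .d (-2048) (.pos 57 .mp ⟨⟨947836580, 0, 0, 0, 0, 697021718, 0, 0, 0, ⟨0, 0⟩, 0⟩, 0, 0⟩ 0 0) (.cut .l 65910 (.cut .d (-1024) (.pos 57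 .mp ⟨⟨949767647, 0, 0, 0, 0, 697120979, 0, 0, 0, ⟨0, 0⟩, 0⟩, 0, 0⟩ 0 0) (.cut .v 16785408 (.cut .l 32955 (.cut .d (-512) (.pos 75 .mp ⟨⟨949875163, 0, 0, 0, 0, 695485690, 0, 0, 0, ⟨0, 0⟩, 0⟩, 0, 0⟩ 0 0) (.cut .v 16781312 (.cut .l 16477 (.cut .s 14452736 (.cut .s 14447616 (.pos 77 .mp ⟨⟨966873597, 0, 0, 0, 0, 623265387, 0, 0, 0, ⟨0, 0⟩, 0⟩, 0, 0⟩ 0 0) (.pos 77 .mp ⟨⟨971831420, 0, 0, 0, 0, 624742422, 0, 0, 0, ⟨0, 0⟩, 0⟩, 0, 0⟩ 0 0)) (.cut .s 14457856 (.pos 77 .mp ⟨⟨976893461, 0, 0, 0, 0, 626108192, 0, 0, 0, ⟨0, 0⟩, 0⟩, 0, 0⟩ 0 0) (.pos 77 .mp ⟨⟨982061234, 0, 0, 0, 0, 627360031, 0, 0, 0, ⟨0, 0⟩, 0⟩, 0, 0⟩ 0 0))) (.pos 77 .mp ⟨⟨966998435,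 0, 0, 0, 0, 615220680, 0, 0, 0, ⟨0, 0⟩, 0⟩, 0, 0⟩ 0 0)) (.pos 78 .mp ⟨⟨1293467604, 0, 0, 0, 0, 0, 0, 0, 0, ⟨0, 0⟩, 0⟩, 0, 0⟩ 0 0))) (.pos 75 .mp ⟨⟨967892793, 0, 0, 0, 0, 613945535, 0, 0, 0, ⟨0, 0⟩, 0⟩, 0, 0⟩ 0 0)) (.pos 76 .mp ⟨⟨1293844107, 0, 0, 0, 0, 0, 0, 0, 0, ⟨0, 0⟩, 0⟩, 0, 0⟩ 0 0))) (.pos 57 .mp ⟨⟨969682503, 0, 0, 0, 0, 611395750, 0, 0, 0, ⟨0, 0⟩, 0⟩, 0, 0⟩ 0 0))) (.pos 58 .mp ⟨⟨1147122549, 0, 0, 0, 0, 312493844, 0, 0, 0, ⟨0, 0⟩, 0⟩, 0, 0⟩ 0 0)) (.pos 52 .mp ⟨⟨1332149290, 0, 0, 0, 0, 0, 0, 0, 0, ⟨0, 0⟩, 0⟩, 0, 0⟩ 0 0)) (.pos 39 .mp ⟨⟨976778150, 0, 0, 0, 0, 600234133, 0, 0, 0, ⟨0, 0⟩, 0⟩, 0, 0⟩ 0 0))) (.cut .v 16809984 (.cut .d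 (-4096) (.pos 51 .mp ⟨⟨961872291, 0, 0, 0, 0, 719855417, 0, 0, 0, ⟨0, 0⟩, 0⟩, 0, 0⟩ 0 0) (.cut .l 131821 (.cut .d (-2048) (.pos 51 .mp ⟨⟨965729524, 0, 0, 0, 0, 716160207, 0, 0, 0, ⟨0, 0⟩, 0⟩, 0, 0⟩ 0 0) (.cut .v 16793600 (.cut .l 65910 (.cut .d (-1024) (.pos 57 .mp ⟨⟨965915891, 0, 0, 0, 0, 712892478, 0, 0, 0, ⟨0, 0⟩, 0⟩, 0, 0⟩ 0 0) (.cut .s 14473216 (.cut .s 14468096 (.pos 57 .mp ⟨⟨983203789, 0, 0, 0, 0, 637567811, 0, 0, 0, ⟨0, 0⟩, 0⟩, 0, 0⟩ 0 0) (.pos 57 .mp ⟨⟨988265078, 0, 0, 0, 0, 639290038, 0, 0, 0, ⟨0, 0⟩, 0⟩, 0, 0⟩ 0 0)) (.pos 57 .mp ⟨⟨988233828, 0, 0, 0, 0, 653679533, 0, 0, 0, ⟨0, 0⟩, 0⟩, 0, 0⟩ 0 0))) (.pos 57 .mp ⟨⟨986293669,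 0, 0, 0, 0, 621937959, 0, 0, 0, ⟨0, 0⟩, 0⟩, 0, 0⟩ 0 0)) (.pos 58 .mp ⟨⟨1318105443, 0, 0, 0, 0, 0, 0, 0, 0, ⟨0, 0⟩, 0⟩, 0, 0⟩ 0 0))) (.pos 51 .mp ⟨⟨990007240, 0, 0, 0, 0, 616624257, 0, 0, 0, ⟨0, 0⟩, 0⟩, 0, 0⟩ 0 0))) (.pos 52 .mp ⟨⟨1173809592, 0, 0, 0, 0, 310348490, 0, 0, 0, ⟨0, 0⟩, 0⟩, 0, 0⟩ 0 0)))) (.pos 40 .mp ⟨⟨1320953261, 0, 0, 0, 0, 0, 0, 0, 0, ⟨0, 0⟩, 0⟩, 0, 0⟩ 0 0))) (.pos 38 .mp ⟨⟨1314165302, 0, 0, 0, 0, 0, 0, 0, 0, ⟨0, 0⟩, 0⟩, 0, 0⟩ 0 0)))))) (.pos 36 .mp ⟨⟨1440951013, 0, 0, 0, 0, 0, 0, 0, 0, ⟨0, 0⟩, 0⟩, 0, 0⟩ 0 0))) (.void 34 ⟨⟨100000, 0, 0, 0, 0, 0, 0, 0, 0, ⟨0, 0⟩, 0⟩, 0, 0⟩ 0 0))) (.void 32 ⟨⟨100000, 0, 0, 0, 0, 0, 0, 0,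 0, ⟨0, 0⟩, 0⟩, 0, 0⟩ 0 0))) (.void 30 ⟨⟨100000, 0, 0, 0, 0, 0, 0, 0, 0, ⟨0, 0⟩, 0⟩, 0, 0⟩ 0 0))) (.void 28 ⟨⟨100000, 0, 0, 0, 0, 0, 0, 0, 0, ⟨0, 0⟩, 0⟩, 0, 0⟩ 0 0)))) (.void 26 ⟨⟨100000, 0, 0, 0, 0, 0, 0, 0, 0, ⟨0, 0⟩, 0⟩, 0, 0⟩ 0 0))) (.void 127 ⟨⟨100000, 0, 0, 0, 0, 0, 0, 0, 0, ⟨0, 0⟩, 0⟩, 0, 0⟩ 0 0)) (.void 134 ⟨⟨100000, 0, 0, 0, 0, 0, 0, 0, 0, ⟨0, 0⟩, 0⟩, 0, 0⟩ 0 0)) (.void 141 ⟨⟨94494, 0, 0, 5444, 0, 0, 0, 0, 0, ⟨0, 0⟩, 0⟩, 0, 0⟩ 0 0))) (.cut .v 16777216 (.cut .v 8388608 (.cut .v 4194304 (.cut .v 2097152 (.cut .v 1048576 (.cut .v 524288 (.pos 144 .pm ⟨⟨0, 0, 27989443, 0, 0, 0, 0, 0, 0, ⟨0, 0⟩, 0⟩, 0, 223⟩ 0 0) (.pos 145 .pm ⟨⟨0,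 0, 36013180, 0, 0, 0, 0, 0, 0, ⟨0, 0⟩, 0⟩, 0, 655⟩ 0 0)) (.pos 138 .pm ⟨⟨0, 0, 49582315, 0, 0, 0, 0, 0, 0, ⟨0, 0⟩, 0⟩, 0, 1271⟩ 0 0)) (.pos 7 .pm ⟨⟨0, 0, 82335622, 0, 0, 0, 0, 0, 0, ⟨0, 0⟩, 0⟩, 0, 2601⟩ 0 0)) (.pos 5 .pm ⟨⟨0, 0, 248618122, 0, 0, 0, 0, 0, 0, ⟨0, 0⟩, 0⟩, 0, 6086⟩ 0 0)) (.pos 3 .pm ⟨⟨0, 0, 0, 0, 0, 0, 0, 0, 0, ⟨0, 0⟩, 0⟩, 0, 0⟩ 0 0)) (.cut .v 268435456 (.cut .v 67108864 (.cut .d 1439693 (.cut .v 33554432 (.cut .d 719846 (.cut .d 359923 (.cut .v 25165824 (.cut .d 179961 (.cut .v 20971520 (.cut .d 89980 (.cut .v 18874368 (.cut .v 17825792 (.pos 31 .pp ⟨⟨826268428, 0, 0, 0, 0, 0, 0, 0, 0, ⟨0, 0⟩, 0⟩, 41833141, 0⟩ 0 0) (.pos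 32 .pp ⟨⟨1316529372, 0, 0, 0, 0, 0, 0, 0, 0, ⟨0, 0⟩, 0⟩, 0, 0⟩ 0 0)) (.pos 30 .pp ⟨⟨1559930437, 0, 0, 0, 0, 0, 0, 0, 0, ⟨0, 0⟩, 0⟩, 0, 0⟩ 0 0)) (.pos 27 .pp ⟨⟨0, 0, 0, 0, 0, 0, 0, 0, 0, ⟨0, 0⟩, 0⟩, 119773839, 4992⟩ 0 0)) (.pos 28 .pp ⟨⟨0, 0, 0, 0, 0, 0, 0, 0, 0, ⟨0, 0⟩, 0⟩, 211763215, 0⟩ 0 0)) (.pos 25 .pp ⟨⟨0, 0, 0, 0, 0, 0, 0, 0, 0, ⟨0, 0⟩, 0⟩, 113199563, 5554⟩ 0 0)) (.pos 26 .pp ⟨⟨0, 0, 0, 0, 0, 0, 0, 0, 0, ⟨0, 0⟩, 0⟩, 270314314, 0⟩ 0 0)) (.pos 24 .pp ⟨⟨0, 0, 0, 0, 0, 0, 0, 0, 0, ⟨0, 0⟩, 0⟩, 111324297, 5714⟩ 0 0)) (.pos 24 .pp ⟨⟨0, 0, 0, 0, 0, 0, 0, 0, 0, ⟨0, 0⟩, 0⟩, 0, 15215⟩ 0 0)) (.cut .d 719846 (.cut .d 359923 (.void 127 ⟨⟨0,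 0, 0, 0, 0, 0, 0, 0, 0, ⟨0, 0⟩, 0⟩, 100000, 0⟩ 0 0) (.pos 127 .pp ⟨⟨0, 0, 0, 0, 0, 0, 0, 0, 0, ⟨0, 0⟩, 0⟩, 337513257, 0⟩ 0 0)) (.pos 127 .pp ⟨⟨0, 0, 0, 0, 0, 0, 1687, 0, 0, ⟨0, 0⟩, 0⟩, 173327934, 0⟩ 0 0))) (.pos 126 .pp ⟨⟨0, 0, 0, 0, 0, 0, 0, 0, 0, ⟨0, 0⟩, 0⟩, 0, 15215⟩ 0 0)) (.void 134 ⟨⟨0, 0, 0, 48467, 0, 0, 0, 0, 0, ⟨0, 0⟩, 0⟩, 51533, 0⟩ 0 0)) (.void 141 ⟨⟨0, 0, 0, 0, 0, 0, 0, 0, 0, ⟨0, 0⟩, 0⟩, 100000, 0⟩ 0 0)))),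
    by decide +kernel⟩

def covers29 : cell.Covers Vale.Agent.P237.Petty.Cor.Grid.N14.table row29.1 :=
  ⟨(.cut .d 0 (.cut .v 16777216 (.cut .v 8388608 (.void 2 ⟨⟨0, 0, 100000, 0, 0, 0, 0, 0, 0, ⟨0, 0⟩, 0⟩, 0, 0⟩ 0 0) (.cut .d (-8388608) (.void 3 ⟨⟨100000, 0, 0, 0, 0, 0, 0, 0, 0, ⟨0, 0⟩, 0⟩, 0, 0⟩ 0 0) (.cut .d (-4194304) (.void 3 ⟨⟨100000, 0, 0, 0, 0, 0, 0, 0, 0, ⟨0, 0⟩, 0⟩, 0, 0⟩ 0 0) (.cut .d (-2097152) (.void 3 ⟨⟨100000, 0, 0, 0, 0, 0, 0, 0, 0, ⟨0, 0⟩, 0⟩, 0, 0⟩ 0 0) (.cut .d (-1048576) (.void 3 ⟨⟨100000, 0, 0, 0, 0, 0, 0, 0, 0, ⟨0, 0⟩, 0⟩, 0, 0⟩ 0 0) (.cut .d (-524288) (.void 3 ⟨⟨0, 0, 0, 0, 0, 100000, 0, 0, 0, ⟨0, 0⟩, 0⟩, 0, 0⟩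 0 0) (.cut .d (-262144) (.void 3 ⟨⟨0, 0, 0, 0, 0, 100000, 0, 0, 0, ⟨0, 0⟩, 0⟩, 0, 0⟩ 0 0) (.cut .d (-131072) (.void 3 ⟨⟨0, 0, 0, 0, 0, 100000, 0, 0, 0, ⟨0, 0⟩, 0⟩, 0, 0⟩ 0 0) (.cut .s 14565376 (.pos 3 .mm ⟨⟨0, 0, 0, 0, 0, 2613683068, 0, 0, 0, ⟨0, 0⟩, 0⟩, 0, 0⟩ 0 0) (.pos 3 .mm ⟨⟨0, 0, 0, 0, 0, 2819898642, 0, 0, 0, ⟨0, 0⟩, 0⟩, 0, 0⟩ 0 0)))))))))) (.cut .v 268435456 (.cut .v 67108864 (.cut .v 33554432 (.cut .d (-8388608) (.void 24 ⟨⟨100000, 0, 0, 0, 0, 0, 0, 0, 0, ⟨0, 0⟩, 0⟩, 0, 0⟩ 0 0) (.cut .v 25165824 (.cut .d (-4194304) (.void 25 ⟨⟨100000, 0, 0, 0, 0, 0, 0, 0, 0, ⟨0, 0⟩, 0⟩, 0, 0⟩ 0 0) (.cut .d (-2097152) (.void 25 ⟨⟨100000, 0, 0,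 0, 0, 0, 0, 0, 0, ⟨0, 0⟩, 0⟩, 0, 0⟩ 0 0) (.cut .v 20971520 (.cut .d (-1048576) (.void 27 ⟨⟨100000, 0, 0, 0, 0, 0, 0, 0, 0, ⟨0, 0⟩, 0⟩, 0, 0⟩ 0 0) (.cut .v 18874368 (.cut .d (-524288) (.void 29 ⟨⟨100000, 0, 0, 0, 0, 0, 0, 0, 0, ⟨0, 0⟩, 0⟩, 0, 0⟩ 0 0) (.cut .v 17825792 (.cut .d (-262144) (.void 31 ⟨⟨100000, 0, 0, 0, 0, 0, 0, 0, 0, ⟨0, 0⟩, 0⟩, 0, 0⟩ 0 0) (.cut .v 17301504 (.cut .d (-131072) (.void 33 ⟨⟨100000, 0, 0, 0, 0, 0, 0, 0, 0, ⟨0, 0⟩, 0⟩, 0, 0⟩ 0 0) (.cut .v 17039360 (.cut .d (-65536) (.void 35 ⟨⟨100000, 0, 0, 0, 0, 0, 0, 0, 0, ⟨0, 0⟩, 0⟩, 0, 0⟩ 0 0) (.cut .d (-32768) (.void 35 ⟨⟨100000, 0, 0, 0, 0, 0, 0, 0, 0, ⟨0, 0⟩, 0⟩, 0, 0⟩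 0 0) (.cut .d (-16384) (.void 35 ⟨⟨100000, 0, 0, 0, 0, 0, 0, 0, 0, ⟨0, 0⟩, 0⟩, 0, 0⟩ 0 0) (.cut .d (-8192) (.void 35 ⟨⟨0, 0, 0, 0, 0, 100000, 0, 0, 0, ⟨0, 0⟩, 0⟩, 0, 0⟩ 0 0) (.cut .v 16908288 (.cut .s 14565376 (.cut .v 16842752 (.cut .s 14524416 (.cut .d (-4096) (.cut .s 14503936 (.pos 39 .mp ⟨⟨981959956, 0, 0, 0, 0, 739635749, 0, 0, 0, ⟨0, 0⟩, 0⟩, 0, 0⟩ 0 0) (.cut .s 14514176 (.pos 39 .mp ⟨⟨998991900, 0, 0, 0, 0, 730222367, 0, 0, 0, ⟨0, 0⟩, 0⟩, 0, 0⟩ 0 0) (.pos 39 .mp ⟨⟨1007656203, 0, 0, 0, 0, 735240937, 0, 0, 0, ⟨0, 0⟩, 0⟩, 0, 0⟩ 0 0))) (.cut .v 16809984 (.cut .s 14503936 (.cut .l 131821 (.cut .d (-2048) (.pos 51 .mp ⟨⟨982268725, 0,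 0, 0, 0, 733114903, 0, 0, 0, ⟨0, 0⟩, 0⟩, 0, 0⟩ 0 0) (.cut .v 16793600 (.cut .s 14493696 (.pos 57 .mp ⟨⟨1000606933, 0, 0, 0, 0, 653405579, 0, 0, 0, ⟨0, 0⟩, 0⟩, 0, 0⟩ 0 0) (.cut .s 14498816 (.pos 57 .mp ⟨⟨1018031133, 0, 0, 0, 0, 637604695, 0, 0, 0, ⟨0, 0⟩, 0⟩, 0, 0⟩ 0 0) (.pos 57 .mp ⟨⟨1020847092, 0, 0, 0, 0, 642746293, 0, 0, 0, ⟨0, 0⟩, 0⟩, 0, 0⟩ 0 0))) (.pos 58 .mp ⟨⟨1342557381, 0, 0, 0, 0, 0, 0, 0, 0, ⟨0, 0⟩, 0⟩, 0, 0⟩ 0 0))) (.pos 51 .mp ⟨⟨1007165848, 0, 0, 0, 0, 633147694, 0, 0, 0, ⟨0, 0⟩, 0⟩, 0, 0⟩ 0 0)) (.cut .l 131821 (.cut .d (-2048) (.pos 51 .mp ⟨⟨999214285, 0, 0, 0, 0, 742968495, 0, 0, 0, ⟨0, 0⟩, 0⟩, 0, 0⟩ 0 0) (.cut .v 16793600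 (.cut .l 65910 (.cut .d (-1024) (.pos 57 .mp ⟨⟨999330820, 0, 0, 0, 0, 739732593, 0, 0, 0, ⟨0, 0⟩, 0⟩, 0, 0⟩ 0 0) (.cut .v 16785408 (.cut .l 32955 (.cut .d (-512) (.pos 75 .mp ⟨⟨999390174, 0, 0, 0, 0, 738112166, 0, 0, 0, ⟨0, 0⟩, 0⟩, 0, 0⟩ 0 0) (.cut .v 16781312 (.cut .l 16477 (.cut .s 14514176 (.cut .s 14509056 (.pos 77 .mp ⟨⟨1021189950, 0, 0, 0, 0, 651735749, 0, 0, 0, ⟨0, 0⟩, 0⟩, 0, 0⟩ 0 0) (.pos 77 .mp ⟨⟨1024364269, 0, 0, 0, 0, 656476213, 0, 0, 0, ⟨0, 0⟩, 0⟩, 0, 0⟩ 0 0)) (.cut .s 14519296 (.pos 77 .mp ⟨⟨1027635861, 0, 0, 0, 0, 661135707, 0, 0, 0, ⟨0, 0⟩, 0⟩, 0, 0⟩ 0 0) (.pos 77 .mp ⟨⟨1031006438, 0, 0, 0, 0, 665711252, 0, 0, 0, ⟨0, 0⟩,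 0⟩, 0, 0⟩ 0 0))) (.pos 77 .mp ⟨⟨1017706292, 0, 0, 0, 0, 654024811, 0, 0, 0, ⟨0, 0⟩, 0⟩, 0, 0⟩ 0 0)) (.pos 78 .mp ⟨⟨1362702112, 0, 0, 0, 0, 0, 0, 0, 0, ⟨0, 0⟩, 0⟩, 0, 0⟩ 0 0))) (.pos 75 .mp ⟨⟨1018707658, 0, 0, 0, 0, 652577884, 0, 0, 0, ⟨0, 0⟩, 0⟩, 0, 0⟩ 0 0)) (.pos 76 .mp ⟨⟨1363099196, 0, 0, 0, 0, 0, 0, 0, 0, ⟨0, 0⟩, 0⟩, 0, 0⟩ 0 0))) (.pos 57 .mp ⟨⟨1020711492, 0, 0, 0, 0, 649684185, 0, 0, 0, ⟨0, 0⟩, 0⟩, 0, 0⟩ 0 0)) (.pos 58 .mp ⟨⟨1363878070, 0, 0, 0, 0, 0, 0, 0, 0, ⟨0, 0⟩, 0⟩, 0, 0⟩ 0 0))) (.pos 51 .mp ⟨⟨1024725481, 0, 0, 0, 0, 643886236, 0, 0, 0, ⟨0, 0⟩, 0⟩, 0, 0⟩ 0 0))) (.pos 52 .mp ⟨⟨1360811177, 0, 0, 0, 0, 0, 0, 0, 0, ⟨0, 0⟩, 0⟩,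 0, 0⟩ 0 0))) (.cut .d (-4096) (.cut .d (-6144) (.void 39 ⟨⟨0, 0, 0, 0, 0, 100000, 0, 0, 0, ⟨0, 0⟩, 0⟩, 0, 0⟩ 0 0) (.cut .l 131821 (.void 39 ⟨⟨100000, 0, 0, 0, 0, 0, 0, 0, 0, ⟨0, 0⟩, 0⟩, 0, 0⟩ 0 0) (.cut .s 14544896 (.pos 39 .mp ⟨⟨1019847524, 0, 0, 0, 0, 742814749, 0, 0, 0, ⟨0, 0⟩, 0⟩, 0, 0⟩ 0 0) (.cut .s 14555136 (.pos 39 .mp ⟨⟨1040601071, 0, 0, 0, 0, 729100276, 0, 0, 0, ⟨0, 0⟩, 0⟩, 0, 0⟩ 0 0) (.pos 39 .mp ⟨⟨1049108612, 0, 0, 0, 0, 736882478, 0, 0, 0, ⟨0, 0⟩, 0⟩, 0, 0⟩ 0 0))))) (.cut .v 16809984 (.cut .s 14544896 (.cut .l 131821 (.cut .d (-2048) (.pos 51 .mp ⟨⟨1016556591, 0, 0, 0, 0, 754052070, 0, 0, 0, ⟨0, 0⟩, 0⟩, 0, 0⟩ 0 0) (.cut .v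 16793600 (.cut .l 65910 (.cut .d (-1024) (.pos 57 .mp ⟨⟨1016629776, 0, 0, 0, 0, 750850088, 0, 0, 0, ⟨0, 0⟩, 0⟩, 0, 0⟩ 0 0) (.cut .v 16785408 (.cut .l 32955 (.cut .d (-512) (.pos 75 .mp ⟨⟨1016667482, 0, 0, 0, 0, 749246566, 0, 0, 0, ⟨0, 0⟩, 0⟩, 0, 0⟩ 0 0) (.cut .v 16781312 (.cut .l 16477 (.cut .s 14534656 (.cut .s 14529536 (.pos 77 .mp ⟨⟨1034477730, 0, 0, 0, 0, 670199833, 0, 0, 0, ⟨0, 0⟩, 0⟩, 0, 0⟩ 0 0) (.pos 77 .mp ⟨⟨1038051485, 0, 0, 0, 0, 674598400, 0, 0, 0, ⟨0, 0⟩, 0⟩, 0, 0⟩ 0 0)) (.cut .s 14539776 (.pos 77 .mp ⟨⟨1041729467, 0, 0, 0, 0, 678903869, 0, 0, 0, ⟨0, 0⟩, 0⟩, 0, 0⟩ 0 0) (.pos 77 .mp ⟨⟨1045513460, 0, 0, 0, 0, 683113120, 0,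 0, 0, ⟨0, 0⟩, 0⟩, 0, 0⟩ 0 0))) (.pos 77 .mp ⟨⟨1035407836, 0, 0, 0, 0, 665558221, 0, 0, 0, ⟨0, 0⟩, 0⟩, 0, 0⟩ 0 0)) (.pos 78 .mp ⟨⟨1384995823, 0, 0, 0, 0, 0, 0, 0, 0, ⟨0, 0⟩, 0⟩, 0, 0⟩ 0 0))) (.pos 75 .mp ⟨⟨1036448181, 0, 0, 0, 0, 664048264, 0, 0, 0, ⟨0, 0⟩, 0⟩, 0, 0⟩ 0 0)) (.pos 76 .mp ⟨⟨1385399563, 0, 0, 0, 0, 0, 0, 0, 0, ⟨0, 0⟩, 0⟩, 0, 0⟩ 0 0))) (.pos 57 .mp ⟨⟨1038530010, 0, 0, 0, 0, 661028511, 0, 0, 0, ⟨0, 0⟩, 0⟩, 0, 0⟩ 0 0)) (.pos 58 .mp ⟨⟨1386191341, 0, 0, 0, 0, 0, 0, 0, 0, ⟨0, 0⟩, 0⟩, 0, 0⟩ 0 0))) (.pos 51 .mp ⟨⟨1042700178, 0, 0, 0, 0, 654978130, 0, 0, 0, ⟨0, 0⟩, 0⟩, 0, 0⟩ 0 0)) (.cut .s 14555136 (.cut .l 131821 (.cut .d (-2048)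 (.pos 51 .mp ⟨⟨1034306388, 0, 0, 0, 0, 745906109, 0, 0, 0, ⟨0, 0⟩, 0⟩, 0, 0⟩ 0 0) (.cut .s 14550016 (.pos 51 .mp ⟨⟨1050773574, 0, 0, 0, 0, 685200168, 0, 0, 0, ⟨0, 0⟩, 0⟩, 0, 0⟩ 0 0) (.pos 51 .mp ⟨⟨1055600247, 0, 0, 0, 0, 687567989, 0, 0, 0, ⟨0, 0⟩, 0⟩, 0, 0⟩ 0 0))) (.pos 51 .mp ⟨⟨1051846705, 0, 0, 0, 0, 677168376, 0, 0, 0, ⟨0, 0⟩, 0⟩, 0, 0⟩ 0 0)) (.cut .l 131821 (.cut .d (-2048) (.pos 51 .mp ⟨⟨1043337561, 0, 0, 0, 0, 752222416, 0, 0, 0, ⟨0, 0⟩, 0⟩, 0, 0⟩ 0 0) (.cut .s 14560256 (.pos 51 .mp ⟨⟨1060246947, 0, 0, 0, 0, 690444811, 0, 0, 0, ⟨0, 0⟩, 0⟩, 0, 0⟩ 0 0) (.pos 51 .mp ⟨⟨1064881995, 0, 0, 0, 0, 693461548, 0, 0, 0, ⟨0, 0⟩, 0⟩, 0, 0⟩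 0 0))) (.pos 51 .mp ⟨⟨1061101284, 0, 0, 0, 0, 683203020, 0, 0, 0, ⟨0, 0⟩, 0⟩, 0, 0⟩ 0 0)))) (.pos 52 .mp ⟨⟨1405671269, 0, 0, 0, 0, 0, 0, 0, 0, ⟨0, 0⟩, 0⟩, 0, 0⟩ 0 0)))) (.pos 40 .mp ⟨⟨1417405974, 0, 0, 0, 0, 0, 0, 0, 0, ⟨0, 0⟩, 0⟩, 0, 0⟩ 0 0)) (.cut .v 16842752 (.cut .s 14606336 (.cut .d (-4096) (.cut .d (-6144) (.void 39 ⟨⟨0, 0, 0, 0, 0, 100000, 0, 0, 0, ⟨0, 0⟩, 0⟩, 0, 0⟩ 0 0) (.cut .d (-5120) (.pos 39 .mp ⟨⟨1056831810, 0, 0, 0, 0, 837439152, 0, 0, 0, ⟨0, 0⟩, 0⟩, 0, 0⟩ 0 0) (.cut .v 16809984 (.cut .s 14585856 (.pos 51 .mp ⟨⟨1048713651, 0, 0, 0, 0, 783075227, 0, 0, 0, ⟨0, 0⟩, 0⟩, 0, 0⟩ 0 0) (.pos 51 .mp ⟨⟨1067335306, 0, 0, 0, 0, 797915137,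 0, 0, 0, ⟨0, 0⟩, 0⟩, 0, 0⟩ 0 0)) (.pos 52 .mp ⟨⟨1420315500, 0, 0, 0, 0, 85879823, 0, 0, 0, ⟨0, 0⟩, 0⟩, 0, 0⟩ 0 0)))) (.cut .v 16809984 (.cut .s 14585856 (.cut .s 14575616 (.cut .l 131821 (.cut .d (-2048) (.pos 51 .mp ⟨⟨1052474817, 0, 0, 0, 0, 758865830, 0, 0, 0, ⟨0, 0⟩, 0⟩, 0, 0⟩ 0 0) (.cut .s 14570496 (.pos 51 .mp ⟨⟨1069544483, 0, 0, 0, 0, 696532798, 0, 0, 0, ⟨0, 0⟩, 0⟩, 0, 0⟩ 0 0) (.pos 51 .mp ⟨⟨1074234600, 0, 0, 0, 0, 699658585, 0, 0, 0, ⟨0, 0⟩, 0⟩, 0, 0⟩ 0 0))) (.pos 51 .mp ⟨⟨1070465402, 0, 0, 0, 0, 689312585, 0, 0, 0, ⟨0, 0⟩, 0⟩, 0, 0⟩ 0 0)) (.cut .l 131821 (.cut .d (-2048) (.pos 51 .mp ⟨⟨1061719615, 0, 0, 0, 0, 765841131, 0, 0,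 0, ⟨0, 0⟩, 0⟩, 0, 0⟩ 0 0) (.cut .s 14580736 (.pos 51 .mp ⟨⟨1078952536, 0, 0, 0, 0, 702838931, 0, 0, 0, ⟨0, 0⟩, 0⟩, 0, 0⟩ 0 0) (.pos 51 .mp ⟨⟨1083698483, 0, 0, 0, 0, 706073855, 0, 0, 0, ⟨0, 0⟩, 0⟩, 0, 0⟩ 0 0))) (.pos 51 .mp ⟨⟨1079940570, 0, 0, 0, 0, 695493435, 0, 0, 0, ⟨0, 0⟩, 0⟩, 0, 0⟩ 0 0))) (.cut .s 14596096 (.cut .l 131821 (.cut .d (-2048) (.pos 51 .mp ⟨⟨1071073439, 0, 0, 0, 0, 773153186, 0, 0, 0, ⟨0, 0⟩, 0⟩, 0, 0⟩ 0 0) (.cut .s 14590976 (.pos 51 .mp ⟨⟨1088472636, 0, 0, 0, 0, 709363375, 0, 0, 0, ⟨0, 0⟩, 0⟩, 0, 0⟩ 0 0) (.pos 51 .mp ⟨⟨1093275190, 0, 0, 0, 0, 712707505, 0, 0, 0, ⟨0, 0⟩, 0⟩, 0, 0⟩ 0 0))) (.pos 51 .mp ⟨⟨1089528330, 0,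 0, 0, 0, 701741881, 0, 0, 0, ⟨0, 0⟩, 0⟩, 0, 0⟩ 0 0)) (.cut .l 131821 (.cut .d (-2048) (.pos 51 .mp ⟨⟨1080537803, 0, 0, 0, 0, 780806953, 0, 0, 0, ⟨0, 0⟩, 0⟩, 0, 0⟩ 0 0) (.cut .s 14601216 (.pos 51 .mp ⟨⟨1098106342, 0, 0, 0, 0, 716106262, 0, 0, 0, ⟨0, 0⟩, 0⟩, 0, 0⟩ 0 0) (.pos 51 .mp ⟨⟨1102966292, 0, 0, 0, 0, 719559655, 0, 0, 0, ⟨0, 0⟩, 0⟩, 0, 0⟩ 0 0))) (.pos 51 .mp ⟨⟨1099230251, 0, 0, 0, 0, 708054176, 0, 0, 0, ⟨0, 0⟩, 0⟩, 0, 0⟩ 0 0)))) (.pos 52 .mp ⟨⟨1454649961, 0, 0, 0, 0, 0, 0, 0, 0, ⟨0, 0⟩, 0⟩, 0, 0⟩ 0 0))) (.cut .d (-4096) (.cut .d (-6144) (.void 39 ⟨⟨0, 0, 0, 0, 0, 100000, 0, 0, 0, ⟨0, 0⟩, 0⟩, 0, 0⟩ 0 0) (.cut .l 131821 (.void 39 ⟨⟨100000,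 0, 0, 0, 0, 0, 0, 0, 0, ⟨0, 0⟩, 0⟩, 0, 0⟩ 0 0) (.cut .s 14626816 (.pos 39 .mp ⟨⟨1090723843, 0, 0, 0, 0, 805648506, 0, 0, 0, ⟨0, 0⟩, 0⟩, 0, 0⟩ 0 0) (.pos 39 .mp ⟨⟨1111625066, 0, 0, 0, 0, 818462995, 0, 0, 0, ⟨0, 0⟩, 0⟩, 0, 0⟩ 0 0)))) (.cut .v 16809984 (.cut .s 14626816 (.cut .s 14616576 (.cut .l 131821 (.cut .d (-2048) (.pos 51 .mp ⟨⟨1090114250, 0, 0, 0, 0, 788807486, 0, 0, 0, ⟨0, 0⟩, 0⟩, 0, 0⟩ 0 0) (.cut .s 14611456 (.pos 51 .mp ⟨⟨1107855241, 0, 0, 0, 0, 723067697, 0, 0, 0, ⟨0, 0⟩, 0⟩, 0, 0⟩ 0 0) (.pos 51 .mp ⟨⟨1112665380, 0, 0, 0, 0, 726867745, 0, 0, 0, ⟨0, 0⟩, 0⟩, 0, 0⟩ 0 0))) (.pos 51 .mp ⟨⟨1109047934, 0, 0, 0, 0, 714426516, 0, 0,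 0, ⟨0, 0⟩, 0⟩, 0, 0⟩ 0 0)) (.cut .l 131821 (.cut .d (-2048) (.pos 51 .mp ⟨⟨1099804349, 0, 0, 0, 0, 797159931, 0, 0, 0, ⟨0, 0⟩, 0⟩, 0, 0⟩ 0 0) (.cut .s 14621696 (.pos 51 .mp ⟨⟨1117327415, 0, 0, 0, 0, 731112581, 0, 0, 0, ⟨0, 0⟩, 0⟩, 0, 0⟩ 0 0) (.pos 51 .mp ⟨⟨1121971469, 0, 0, 0, 0, 735516765, 0, 0, 0, ⟨0, 0⟩, 0⟩, 0, 0⟩ 0 0))) (.pos 51 .mp ⟨⟨1118983008, 0, 0, 0, 0, 720855038, 0, 0, 0, ⟨0, 0⟩, 0⟩, 0, 0⟩ 0 0))) (.cut .l 131821 (.cut .d (-2048) (.pos 51 .mp ⟨⟨1109609702, 0, 0, 0, 0, 829210810, 0, 0, 0, ⟨0, 0⟩, 0⟩, 0, 0⟩ 0 0) (.cut .v 16793600 (.cut .l 65910 (.cut .d (-1024) (.pos 57 .mp ⟨⟨1109461583, 0, 0, 0, 0, 826155561, 0, 0, 0, ⟨0, 0⟩,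 0⟩, 0, 0⟩ 0 0) (.cut .l 32955 (.cut .d (-512) (.pos 57 .mp ⟨⟨1132909034, 0, 0, 0, 0, 765893381, 0, 0, 0, ⟨0, 0⟩, 0⟩, 0, 0⟩ 0 0) (.cut .v 16785408 (.cut .v 16781312 (.cut .l 16477 (.cut .s 14637056 (.cut .s 14631936 (.pos 77 .mp ⟨⟨1127881430, 0, 0, 0, 0, 736746380, 0, 0, 0, ⟨0, 0⟩, 0⟩, 0, 0⟩ 0 0) (.pos 77 .mp ⟨⟨1133900567, 0, 0, 0, 0, 738647383, 0, 0, 0, ⟨0, 0⟩, 0⟩, 0, 0⟩ 0 0)) (.cut .s 14642176 (.pos 77 .mp ⟨⟨1140063342, 0, 0, 0, 0, 740385588, 0, 0, 0, ⟨0, 0⟩, 0⟩, 0, 0⟩ 0 0) (.pos 77 .mp ⟨⟨1146371949, 0, 0, 0, 0, 741957075, 0, 0, 0, ⟨0, 0⟩, 0⟩, 0, 0⟩ 0 0))) (.pos 77 .mp ⟨⟨1130439831, 0, 0, 0, 0, 727729094, 0, 0, 0, ⟨0, 0⟩, 0⟩, 0, 0⟩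 0 0)) (.pos 78 .mp ⟨⟨1512287764, 0, 0, 0, 0, 0, 0, 0, 0, ⟨0, 0⟩, 0⟩, 0, 0⟩ 0 0)) (.pos 76 .mp ⟨⟨1515604017, 0, 0, 0, 0, 0, 0, 0, 0, ⟨0, 0⟩, 0⟩, 0, 0⟩ 0 0))) (.pos 57 .mp ⟨⟨1132710210, 0, 0, 0, 0, 724096324, 0, 0, 0, ⟨0, 0⟩, 0⟩, 0, 0⟩ 0 0))) (.pos 57 .mp ⟨⟨1134195711, 0, 0, 0, 0, 722168882, 0, 0, 0, ⟨0, 0⟩, 0⟩, 0, 0⟩ 0 0)) (.pos 58 .mp ⟨⟨1513594862, 0, 0, 0, 0, 0, 0, 0, 0, ⟨0, 0⟩, 0⟩, 0, 0⟩ 0 0))) (.pos 51 .mp ⟨⟨1139212010, 0, 0, 0, 0, 714742683, 0, 0, 0, ⟨0, 0⟩, 0⟩, 0, 0⟩ 0 0))) (.pos 52 .mp ⟨⟨1507970225, 0, 0, 0, 0, 0, 0, 0, 0, ⟨0, 0⟩, 0⟩, 0, 0⟩ 0 0)))) (.pos 40 .mp ⟨⟨1518678363, 0, 0, 0, 0, 0, 0, 0, 0, ⟨0, 0⟩, 0⟩, 0, 0⟩ 0 0))) (.pos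 38 .mp ⟨⟨1512533045, 0, 0, 0, 0, 0, 0, 0, 0, ⟨0, 0⟩, 0⟩, 0, 0⟩ 0 0)))))) (.pos 36 .mp ⟨⟨1658567401, 0, 0, 0, 0, 0, 0, 0, 0, ⟨0, 0⟩, 0⟩, 0, 0⟩ 0 0))) (.void 34 ⟨⟨100000, 0, 0, 0, 0, 0, 0, 0, 0, ⟨0, 0⟩, 0⟩, 0, 0⟩ 0 0))) (.void 32 ⟨⟨100000, 0, 0, 0, 0, 0, 0, 0, 0, ⟨0, 0⟩, 0⟩, 0, 0⟩ 0 0))) (.void 30 ⟨⟨100000, 0, 0, 0, 0, 0, 0, 0, 0, ⟨0, 0⟩, 0⟩, 0, 0⟩ 0 0))) (.void 28 ⟨⟨100000, 0, 0, 0, 0, 0, 0, 0, 0, ⟨0, 0⟩, 0⟩, 0, 0⟩ 0 0)))) (.void 26 ⟨⟨100000, 0, 0, 0, 0, 0, 0, 0, 0, ⟨0, 0⟩, 0⟩, 0, 0⟩ 0 0))) (.void 127 ⟨⟨100000, 0, 0, 0, 0, 0, 0, 0, 0, ⟨0, 0⟩, 0⟩, 0, 0⟩ 0 0)) (.void 134 ⟨⟨100000, 0, 0, 0, 0, 0, 0, 0, 0, ⟨0, 0⟩, 0⟩, 0, 0⟩ 0 0)) (.void 141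 ⟨⟨94328, 0, 0, 5491, 0, 0, 0, 0, 0, ⟨0, 0⟩, 0⟩, 0, 0⟩ 0 0))) (.cut .v 16777216 (.cut .v 8388608 (.cut .v 4194304 (.cut .v 2097152 (.cut .v 1048576 (.cut .v 524288 (.pos 144 .pm ⟨⟨0, 0, 29595455, 0, 0, 0, 0, 0, 0, ⟨0, 0⟩, 0⟩, 0, 152⟩ 0 0) (.pos 145 .pm ⟨⟨0, 0, 40645453, 0, 0, 0, 0, 0, 0, ⟨0, 0⟩, 0⟩, 0, 448⟩ 0 0)) (.pos 138 .pm ⟨⟨0, 0, 59435937, 0, 0, 0, 0, 0, 0, ⟨0, 0⟩, 0⟩, 0, 869⟩ 0 0)) (.pos 7 .pm ⟨⟨0, 0, 101893857, 0, 0, 0, 0, 0, 0, ⟨0, 0⟩, 0⟩, 0, 2399⟩ 0 0)) (.pos 5 .pm ⟨⟨0, 0, 310273382, 0, 0, 0, 0, 0, 0, ⟨0, 0⟩, 0⟩, 0, 4318⟩ 0 0)) (.pos 3 .pm ⟨⟨0, 0, 0, 0, 0, 0, 0, 0, 0, ⟨0, 0⟩, 0⟩, 0, 0⟩ 0 0)) (.cut .v 268435456 (.cut .v 67108864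 (.cut .d 1328514 (.cut .v 33554432 (.cut .d 664257 (.cut .d 332128 (.cut .v 25165824 (.cut .d 166064 (.cut .v 20971520 (.cut .d 83032 (.cut .v 18874368 (.cut .v 17825792 (.pos 31 .pp ⟨⟨978834184, 0, 0, 0, 0, 0, 0, 0, 0, ⟨0, 0⟩, 0⟩, 43590047, 0⟩ 0 0) (.pos 32 .pp ⟨⟨1506376687, 0, 0, 0, 0, 0, 0, 0, 0, ⟨0, 0⟩, 0⟩, 0, 0⟩ 0 0)) (.pos 30 .pp ⟨⟨1786021679, 0, 0, 0, 0, 0, 0, 0, 0, ⟨0, 0⟩, 0⟩, 0, 0⟩ 0 0)) (.pos 27 .pp ⟨⟨0, 0, 0, 0, 0, 0, 0, 0, 0, ⟨0, 0⟩, 0⟩, 136779284, 3559⟩ 0 0)) (.pos 28 .pp ⟨⟨0, 0, 0, 0, 0, 0, 0, 0, 0, ⟨0, 0⟩, 0⟩, 242481512, 0⟩ 0 0)) (.pos 25 .pp ⟨⟨0, 0, 0, 0, 0, 0, 0, 0, 0, ⟨0, 0⟩, 0⟩, 129231487, 3958⟩ 0 0)) (.pos 26 .pp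 ⟨⟨0, 0, 0, 0, 0, 0, 0, 0, 0, ⟨0, 0⟩, 0⟩, 309045154, 0⟩ 0 0)) (.pos 24 .pp ⟨⟨0, 0, 0, 0, 0, 0, 0, 0, 0, ⟨0, 0⟩, 0⟩, 126948447, 4079⟩ 0 0)) (.pos 24 .pp ⟨⟨0, 0, 0, 0, 0, 0, 0, 0, 0, ⟨0, 0⟩, 0⟩, 0, 10795⟩ 0 0)) (.cut .d 664257 (.cut .d 332128 (.void 127 ⟨⟨0, 0, 0, 0, 0, 0, 0, 0, 0, ⟨0, 0⟩, 0⟩, 100000, 0⟩ 0 0) (.pos 127 .pp ⟨⟨0, 0, 0, 0, 0, 0, 0, 0, 0, ⟨0, 0⟩, 0⟩, 387703591, 0⟩ 0 0)) (.pos 127 .pp ⟨⟨0, 0, 0, 0, 0, 0, 394, 0, 0, ⟨0, 0⟩, 0⟩, 202200454, 0⟩ 0 0))) (.pos 126 .pp ⟨⟨0, 0, 0, 0, 0, 0, 0, 0, 0, ⟨0, 0⟩, 0⟩, 0, 10795⟩ 0 0)) (.void 134 ⟨⟨0, 0, 0, 48702, 0, 0, 0, 0, 0, ⟨0, 0⟩, 0⟩, 51298, 0⟩ 0 0)) (.void 141 ⟨⟨0, 0, 0, 0, 0, 0, 0, 0,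 0, ⟨0, 0⟩, 0⟩, 100000, 0⟩ 0 0)))),
    by decide +kernel⟩

def covers30 : cell.Covers Vale.Agent.P237.Petty.Cor.Grid.N14.table row30.1 :=
  ⟨(.cut .d 0 (.cut .v 16777216 (.cut .v 8388608 (.void 2 ⟨⟨0, 0, 100000, 0, 0, 0, 0, 0, 0, ⟨0, 0⟩, 0⟩, 0, 0⟩ 0 0) (.cut .d (-8388608) (.void 3 ⟨⟨100000, 0, 0, 0, 0, 0, 0, 0, 0, ⟨0, 0⟩, 0⟩, 0, 0⟩ 0 0) (.cut .d (-4194304) (.void 3 ⟨⟨100000, 0, 0, 0, 0, 0, 0, 0, 0, ⟨0, 0⟩, 0⟩, 0, 0⟩ 0 0) (.cut .d (-2097152) (.void 3 ⟨⟨100000, 0, 0, 0, 0, 0, 0, 0, 0, ⟨0, 0⟩, 0⟩, 0, 0⟩ 0 0) (.cut .d (-1048576) (.void 3 ⟨⟨100000, 0, 0, 0, 0, 0, 0, 0, 0, ⟨0, 0⟩, 0⟩, 0, 0⟩ 0 0) (.cut .d (-524288) (.void 3 ⟨⟨0, 0, 0, 0, 0,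 100000, 0, 0, 0, ⟨0, 0⟩, 0⟩, 0, 0⟩ 0 0) (.cut .d (-262144) (.void 3 ⟨⟨0, 0, 0, 0, 0, 100000, 0, 0, 0, ⟨0, 0⟩, 0⟩, 0, 0⟩ 0 0) (.cut .d (-131072) (.void 3 ⟨⟨0, 0, 0, 0, 0, 100000, 0, 0, 0, ⟨0, 0⟩, 0⟩, 0, 0⟩ 0 0) (.cut .s 14729216 (.pos 3 .mm ⟨⟨0, 0, 0, 0, 0, 3048718387, 0, 0, 0, ⟨0, 0⟩, 0⟩, 0, 0⟩ 0 0) (.pos 3 .mm ⟨⟨0, 0, 0, 0, 0, 3302104625, 0, 0, 0, ⟨0, 0⟩, 0⟩, 0, 0⟩ 0 0)))))))))) (.cut .v 268435456 (.cut .v 67108864 (.cut .v 33554432 (.cut .d (-8388608) (.void 24 ⟨⟨100005, 0, 0, 0, 0, 0, 0, 0, 0, ⟨0, 0⟩, 0⟩, 0, 0⟩ 0 0) (.cut .d (-4194304) (.void 24 ⟨⟨100000, 0, 0, 0, 0, 0, 0, 0, 0, ⟨0, 0⟩, 0⟩, 0, 0⟩ 0 0) (.cut .v 25165824 (.cut .d (-2097152)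 (.void 25 ⟨⟨100000, 0, 0, 0, 0, 0, 0, 0, 0, ⟨0, 0⟩, 0⟩, 0, 0⟩ 0 0) (.cut .v 20971520 (.cut .d (-1048576) (.void 27 ⟨⟨100000, 0, 0, 0, 0, 0, 0, 0, 0, ⟨0, 0⟩, 0⟩, 0, 0⟩ 0 0) (.cut .v 18874368 (.cut .d (-524288) (.void 29 ⟨⟨100000, 0, 0, 0, 0, 0, 0, 0, 0, ⟨0, 0⟩, 0⟩, 0, 0⟩ 0 0) (.cut .v 17825792 (.cut .d (-262144) (.void 31 ⟨⟨100000, 0, 0, 0, 0, 0, 0, 0, 0, ⟨0, 0⟩, 0⟩, 0, 0⟩ 0 0) (.cut .v 17301504 (.cut .d (-131072) (.void 33 ⟨⟨100000, 0, 0, 0, 0, 0, 0, 0, 0, ⟨0, 0⟩, 0⟩, 0, 0⟩ 0 0) (.cut .v 17039360 (.cut .d (-65536) (.void 35 ⟨⟨100000, 0, 0, 0, 0, 0, 0, 0, 0, ⟨0, 0⟩, 0⟩, 0, 0⟩ 0 0) (.cut .v 16908288 (.cut .d (-32768) (.void 37 ⟨⟨100000,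 0, 0, 0, 0, 0, 0, 0, 0, ⟨0, 0⟩, 0⟩, 0, 0⟩ 0 0) (.cut .d (-16384) (.void 37 ⟨⟨100000, 0, 0, 0, 0, 0, 0, 0, 0, ⟨0, 0⟩, 0⟩, 0, 0⟩ 0 0) (.cut .d (-8192) (.void 37 ⟨⟨100000, 0, 0, 0, 0, 0, 0, 0, 0, ⟨0, 0⟩, 0⟩, 0, 0⟩ 0 0) (.cut .s 14729216 (.cut .v 16842752 (.cut .d (-4096) (.cut .l 131821 (.void 39 ⟨⟨100000, 0, 0, 0, 0, 0, 0, 0, 0, ⟨0, 0⟩, 0⟩, 0, 0⟩ 0 0) (.cut .d (-6144) (.void 39 ⟨⟨0, 0, 0, 0, 0, 100000, 0, 0, 0, ⟨0, 0⟩, 0⟩, 0, 0⟩ 0 0) (.cut .d (-5120) (.pos 39 .mp ⟨⟨1152692315, 0, 0, 0, 0, 991033308, 0, 0, 0, ⟨0, 0⟩, 0⟩, 0, 0⟩ 0 0) (.cut .l 197731 (.void 39 ⟨⟨0, 0, 0, 0, 0, 100000, 0, 0, 0, ⟨0, 0⟩, 0⟩, 0, 0⟩ 0 0) (.cut .s 14688256 (.cut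 .s 14667776 (.pos 39 .mp ⟨⟨1162318565, 0, 0, 0, 0, 739889749, 0, 0, 0, ⟨0, 0⟩, 0⟩, 0, 0⟩ 0 0) (.pos 39 .mp ⟨⟨1183700968, 0, 0, 0, 0, 750647023, 0, 0, 0, ⟨0, 0⟩, 0⟩, 0, 0⟩ 0 0)) (.cut .s 14708736 (.pos 39 .mp ⟨⟨1205628250, 0, 0, 0, 0, 762455125, 0, 0, 0, ⟨0, 0⟩, 0⟩, 0, 0⟩ 0 0) (.pos 39 .mp ⟨⟨1193353329, 0, 0, 0, 0, 880439312, 0, 0, 0, ⟨0, 0⟩, 0⟩, 0, 0⟩ 0 0))))))) (.cut .s 14688256 (.cut .v 16809984 (.cut .s 14667776 (.cut .s 14657536 (.cut .s 14652416 (.pos 51 .mp ⟨⟨1157758805, 0, 0, 0, 0, 735102118, 0, 0, 0, ⟨0, 0⟩, 0⟩, 0, 0⟩ 0 0) (.pos 51 .mp ⟨⟨1162987995, 0, 0, 0, 0, 737906793, 0, 0, 0, ⟨0, 0⟩, 0⟩, 0, 0⟩ 0 0)) (.cut .s 14662656 (.pos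 51 .mp ⟨⟨1168250366, 0, 0, 0, 0, 740780457, 0, 0, 0, ⟨0, 0⟩, 0⟩, 0, 0⟩ 0 0) (.pos 51 .mp ⟨⟨1173546157, 0, 0, 0, 0, 743723140, 0, 0, 0, ⟨0, 0⟩, 0⟩, 0, 0⟩ 0 0))) (.cut .s 14678016 (.cut .l 131821 (.cut .d (-2048) (.pos 51 .mp ⟨⟨1150057996, 0, 0, 0, 0, 836945024, 0, 0, 0, ⟨0, 0⟩, 0⟩, 0, 0⟩ 0 0) (.cut .s 14672896 (.pos 51 .mp ⟨⟨1167928022, 0, 0, 0, 0, 767348152, 0, 0, 0, ⟨0, 0⟩, 0⟩, 0, 0⟩ 0 0) (.pos 51 .mp ⟨⟨1173647193, 0, 0, 0, 0, 769625604, 0, 0, 0, ⟨0, 0⟩, 0⟩, 0, 0⟩ 0 0))) (.pos 51 .mp ⟨⟨1170547822, 0, 0, 0, 0, 756369995, 0, 0, 0, ⟨0, 0⟩, 0⟩, 0, 0⟩ 0 0)) (.cut .l 131821 (.cut .d (-2048) (.pos 51 .mp ⟨⟨1160491518, 0, 0, 0, 0, 843857895,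 0, 0, 0, ⟨0, 0⟩, 0⟩, 0, 0⟩ 0 0) (.cut .s 14683136 (.pos 51 .mp ⟨⟨1179356692, 0, 0, 0, 0, 772068233, 0, 0, 0, ⟨0, 0⟩, 0⟩, 0, 0⟩ 0 0) (.pos 51 .mp ⟨⟨1184855545, 0, 0, 0, 0, 775118617, 0, 0, 0, ⟨0, 0⟩, 0⟩, 0, 0⟩ 0 0))) (.pos 51 .mp ⟨⟨1181256706, 0, 0, 0, 0, 763258975, 0, 0, 0, ⟨0, 0⟩, 0⟩, 0, 0⟩ 0 0)))) (.pos 52 .mp ⟨⟨1566101473, 0, 0, 0, 0, 0, 0, 0, 0, ⟨0, 0⟩, 0⟩, 0, 0⟩ 0 0)) (.cut .v 16809984 (.cut .s 14708736 (.cut .s 14698496 (.cut .l 131821 (.cut .d (-2048) (.pos 51 .mp ⟨⟨1171056248, 0, 0, 0, 0, 851185676, 0, 0, 0, ⟨0, 0⟩, 0⟩, 0, 0⟩ 0 0) (.cut .s 14693376 (.pos 51 .mp ⟨⟨1190248915, 0, 0, 0, 0, 778546119, 0, 0, 0, ⟨0, 0⟩, 0⟩, 0, 0⟩ 0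 0) (.pos 51 .mp ⟨⟨1195676507, 0, 0, 0, 0, 782044073, 0, 0, 0, ⟨0, 0⟩, 0⟩, 0, 0⟩ 0 0))) (.pos 51 .mp ⟨⟨1192101382, 0, 0, 0, 0, 770264363, 0, 0, 0, ⟨0, 0⟩, 0⟩, 0, 0⟩ 0 0)) (.cut .l 131821 (.cut .d (-2048) (.pos 51 .mp ⟨⟨1181754097, 0, 0, 0, 0, 858934775, 0, 0, 0, ⟨0, 0⟩, 0⟩, 0, 0⟩ 0 0) (.cut .s 14703616 (.pos 51 .mp ⟨⟨1201138570, 0, 0, 0, 0, 785612502, 0, 0, 0, ⟨0, 0⟩, 0⟩, 0, 0⟩ 0 0) (.pos 51 .mp ⟨⟨1206635357, 0, 0, 0, 0, 789251427, 0, 0, 0, ⟨0, 0⟩, 0⟩, 0, 0⟩ 0 0))) (.pos 51 .mp ⟨⟨1203083836, 0, 0, 0, 0, 777381389, 0, 0, 0, ⟨0, 0⟩, 0⟩, 0, 0⟩ 0 0))) (.cut .s 14718976 (.cut .l 131821 (.cut .d (-2048) (.pos 51 .mp ⟨⟨1192587014, 0, 0, 0, 0,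 867111724, 0, 0, 0, ⟨0, 0⟩, 0⟩, 0, 0⟩ 0 0) (.cut .s 14713856 (.pos 51 .mp ⟨⟨1212167123, 0, 0, 0, 0, 792960865, 0, 0, 0, ⟨0, 0⟩, 0⟩, 0, 0⟩ 0 0) (.pos 51 .mp ⟨⟨1217734124, 0, 0, 0, 0, 796740832, 0, 0, 0, ⟨0, 0⟩, 0⟩, 0, 0⟩ 0 0))) (.pos 51 .mp ⟨⟨1214206094, 0, 0, 0, 0, 784605202, 0, 0, 0, ⟨0, 0⟩, 0⟩, 0, 0⟩ 0 0)) (.cut .l 131821 (.cut .d (-2048) (.pos 51 .mp ⟨⟨1203556985, 0, 0, 0, 0, 875723189, 0, 0, 0, ⟨0, 0⟩, 0⟩, 0, 0⟩ 0 0) (.cut .s 14724096 (.pos 51 .mp ⟨⟨1223336622, 0, 0, 0, 0, 800591341, 0, 0, 0, ⟨0, 0⟩, 0⟩, 0, 0⟩ 0 0) (.pos 51 .mp ⟨⟨1228974877, 0, 0, 0, 0, 804512401, 0, 0, 0, ⟨0, 0⟩, 0⟩, 0, 0⟩ 0 0))) (.pos 51 .mp ⟨⟨1225470223, 0, 0,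 0, 0, 791930874, 0, 0, 0, ⟨0, 0⟩, 0⟩, 0, 0⟩ 0 0)))) (.pos 52 .mp ⟨⟨1622203783, 0, 0, 0, 0, 0, 0, 0, 0, ⟨0, 0⟩, 0⟩, 0, 0⟩ 0 0)))) (.pos 40 .mp ⟨⟨1634068722, 0, 0, 0, 0, 0, 0, 0, 0, ⟨0, 0⟩, 0⟩, 0, 0⟩ 0 0)) (.cut .v 16842752 (.cut .d (-4096) (.cut .l 131821 (.void 39 ⟨⟨100000, 0, 0, 0, 0, 0, 0, 0, 0, ⟨0, 0⟩, 0⟩, 0, 0⟩ 0 0) (.cut .d (-6144) (.void 39 ⟨⟨0, 0, 0, 0, 0, 100000, 0, 0, 0, ⟨0, 0⟩, 0⟩, 0, 0⟩ 0 0) (.cut .l 197731 (.void 39 ⟨⟨0, 0, 0, 0, 0, 100000, 0, 0, 0, ⟨0, 0⟩, 0⟩, 0, 0⟩ 0 0) (.cut .s 14770176 (.cut .s 14749696 (.pos 39 .mp ⟨⟨1215557469, 0, 0, 0, 0, 899175335, 0, 0, 0, ⟨0, 0⟩, 0⟩, 0, 0⟩ 0 0) (.pos 39 .mp ⟨⟨1238327796, 0, 0, 0,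 0, 916813730, 0, 0, 0, ⟨0, 0⟩, 0⟩, 0, 0⟩ 0 0)) (.pos 39 .mp ⟨⟨1261681410, 0, 0, 0, 0, 982160415, 0, 0, 0, ⟨0, 0⟩, 0⟩, 0, 0⟩ 0 0))))) (.cut .s 14770176 (.cut .v 16809984 (.cut .s 14749696 (.cut .s 14739456 (.cut .l 131821 (.cut .d (-2048) (.pos 51 .mp ⟨⟨1214666038, 0, 0, 0, 0, 884775965, 0, 0, 0, ⟨0, 0⟩, 0⟩, 0, 0⟩ 0 0) (.cut .s 14734336 (.pos 51 .mp ⟨⟨1234649155, 0, 0, 0, 0, 808504019, 0, 0, 0, ⟨0, 0⟩, 0⟩, 0, 0⟩ 0 0) (.pos 51 .mp ⟨⟨1240359725, 0, 0, 0, 0, 812566200, 0, 0, 0, ⟨0, 0⟩, 0⟩, 0, 0⟩ 0 0))) (.pos 51 .mp ⟨⟨1236878334, 0, 0, 0, 0, 799353395, 0, 0, 0, ⟨0, 0⟩, 0⟩, 0, 0⟩ 0 0)) (.cut .l 131821 (.cut .d (-2048) (.pos 51 .mp ⟨⟨1225916240,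 0, 0, 0, 0, 894276985, 0, 0, 0, ⟨0, 0⟩, 0⟩, 0, 0⟩ 0 0) (.cut .s 14744576 (.pos 51 .mp ⟨⟨1246106856, 0, 0, 0, 0, 816698945, 0, 0, 0, ⟨0, 0⟩, 0⟩, 0, 0⟩ 0 0) (.pos 51 .mp ⟨⟨1251890821, 0, 0, 0, 0, 820902253, 0, 0, 0, ⟨0, 0⟩, 0⟩, 0, 0⟩ 0 0))) (.pos 51 .mp ⟨⟨1248432576, 0, 0, 0, 0, 806867673, 0, 0, 0, ⟨0, 0⟩, 0⟩, 0, 0⟩ 0 0))) (.cut .s 14759936 (.cut .l 131821 (.cut .d (-2048) (.pos 51 .mp ⟨⟨1237309702, 0, 0, 0, 0, 904233322, 0, 0, 0, ⟨0, 0⟩, 0⟩, 0, 0⟩ 0 0) (.cut .s 14754816 (.pos 51 .mp ⟨⟨1257711897, 0, 0, 0, 0, 825176118, 0, 0, 0, ⟨0, 0⟩, 0⟩, 0, 0⟩ 0 0) (.pos 51 .mp ⟨⟨1263173696, 0, 0, 0, 0, 830393528, 0, 0, 0, ⟨0, 0⟩, 0⟩, 0, 0⟩ 0 0))) (.pos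 51 .mp ⟨⟨1260135144, 0, 0, 0, 0, 814468529, 0, 0, 0, ⟨0, 0⟩, 0⟩, 0, 0⟩ 0 0)) (.cut .s 14765056 (.cut .s 14762496 (.pos 51 .mp ⟨⟨1282627776, 0, 0, 0, 0, 806201414, 0, 0, 0, ⟨0, 0⟩, 0⟩, 0, 0⟩ 0 0) (.pos 51 .mp ⟨⟨1286303922, 0, 0, 0, 0, 807081979, 0, 0, 0, ⟨0, 0⟩, 0⟩, 0, 0⟩ 0 0)) (.pos 51 .mp ⟨⟨1286867671, 0, 0, 0, 0, 817095649, 0, 0, 0, ⟨0, 0⟩, 0⟩, 0, 0⟩ 0 0)))) (.pos 52 .mp ⟨⟨1683761665, 0, 0, 0, 0, 0, 0, 0, 0, ⟨0, 0⟩, 0⟩, 0, 0⟩ 0 0)) (.cut .v 16809984 (.cut .s 14790656 (.cut .s 14780416 (.cut .s 14775296 (.pos 51 .mp ⟨⟨1292924556, 0, 0, 0, 0, 821490251, 0, 0, 0, ⟨0, 0⟩, 0⟩, 0, 0⟩ 0 0) (.pos 51 .mp ⟨⟨1299020732, 0, 0, 0, 0, 825953873,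 0, 0, 0, ⟨0, 0⟩, 0⟩, 0, 0⟩ 0 0)) (.cut .s 14785536 (.pos 51 .mp ⟨⟨1305156496, 0, 0, 0, 0, 830486478, 0, 0, 0, ⟨0, 0⟩, 0⟩, 0, 0⟩ 0 0) (.pos 51 .mp ⟨⟨1311332152, 0, 0, 0, 0, 835088028, 0, 0, 0, ⟨0, 0⟩, 0⟩, 0, 0⟩ 0 0))) (.cut .l 131821 (.cut .d (-2048) (.pos 51 .mp ⟨⟨1284359865, 0, 0, 0, 0, 979805868, 0, 0, 0, ⟨0, 0⟩, 0⟩, 0, 0⟩ 0 0) (.cut .v 16793600 (.cut .l 65910 (.cut .d (-1024) (.pos 57 .mp ⟨⟨1283729309, 0, 0, 0, 0, 977163866, 0, 0, 0, ⟨0, 0⟩, 0⟩, 0, 0⟩ 0 0) (.cut .l 32955 (.cut .d (-512) (.pos 57 .mp ⟨⟨1284569790, 0, 0, 0, 0, 987699415, 0, 0, 0, ⟨0, 0⟩, 0⟩, 0, 0⟩ 0 0) (.cut .s 14800896 (.cut .s 14795776 (.pos 57 .mp ⟨⟨1301250190, 0,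 0, 0, 0, 871772514, 0, 0, 0, ⟨0, 0⟩, 0⟩, 0, 0⟩ 0 0) (.pos 57 .mp ⟨⟨1308331949, 0, 0, 0, 0, 875106977, 0, 0, 0, ⟨0, 0⟩, 0⟩, 0, 0⟩ 0 0)) (.pos 57 .mp ⟨⟨1312742437, 0, 0, 0, 0, 888302770, 0, 0, 0, ⟨0, 0⟩, 0⟩, 0, 0⟩ 0 0))) (.pos 57 .mp ⟨⟨1311971150, 0, 0, 0, 0, 844886672, 0, 0, 0, ⟨0, 0⟩, 0⟩, 0, 0⟩ 0 0))) (.pos 57 .mp ⟨⟨1314177320, 0, 0, 0, 0, 841803677, 0, 0, 0, ⟨0, 0⟩, 0⟩, 0, 0⟩ 0 0)) (.pos 58 .mp ⟨⟨1757087605, 0, 0, 0, 0, 0, 0, 0, 0, ⟨0, 0⟩, 0⟩, 0, 0⟩ 0 0))) (.pos 51 .mp ⟨⟨1320952926, 0, 0, 0, 0, 831464925, 0, 0, 0, ⟨0, 0⟩, 0⟩, 0, 0⟩ 0 0))) (.pos 52 .mp ⟨⟨1751095823, 0, 0, 0, 0, 0, 0, 0, 0, ⟨0, 0⟩, 0⟩, 0, 0⟩ 0 0)))) (.pos 40 .mp ⟨⟨1759072321,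 0, 0, 0, 0, 0, 0, 0, 0, ⟨0, 0⟩, 0⟩, 0, 0⟩ 0 0)))))) (.pos 38 .mp ⟨⟨1849653695, 0, 0, 0, 0, 0, 0, 0, 0, ⟨0, 0⟩, 0⟩, 0, 0⟩ 0 0))) (.pos 36 .mp ⟨⟨1922424949, 0, 0, 0, 0, 0, 0, 0, 0, ⟨0, 0⟩, 0⟩, 0, 0⟩ 0 0))) (.void 34 ⟨⟨100000, 0, 0, 0, 0, 0, 0, 0, 0, ⟨0, 0⟩, 0⟩, 0, 0⟩ 0 0))) (.void 32 ⟨⟨100000, 0, 0, 0, 0, 0, 0, 0, 0, ⟨0, 0⟩, 0⟩, 0, 0⟩ 0 0))) (.void 30 ⟨⟨100000, 0, 0, 0, 0, 0, 0, 0, 0, ⟨0, 0⟩, 0⟩, 0, 0⟩ 0 0))) (.void 28 ⟨⟨100000, 0, 0, 0, 0, 0, 0, 0, 0, ⟨0, 0⟩, 0⟩, 0, 0⟩ 0 0))) (.void 26 ⟨⟨100000, 0, 0, 0, 0, 0, 0, 0, 0, ⟨0, 0⟩, 0⟩, 0, 0⟩ 0 0)))) (.void 127 ⟨⟨100000, 0, 0, 0, 0, 0, 0, 0, 0, ⟨0, 0⟩, 0⟩, 0, 0⟩ 0 0)) (.void 134 ⟨⟨100000, 0,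 0, 0, 0, 0, 0, 0, 0, ⟨0, 0⟩, 0⟩, 0, 0⟩ 0 0)) (.void 141 ⟨⟨95028, 0, 0, 5611, 0, 0, 0, 0, 0, ⟨0, 0⟩, 0⟩, 0, 0⟩ 0 0))) (.cut .v 16777216 (.cut .v 8388608 (.cut .v 4194304 (.cut .v 2097152 (.cut .v 1048576 (.cut .v 524288 (.pos 144 .pm ⟨⟨0, 0, 31851853, 0, 0, 0, 0, 0, 0, ⟨0, 0⟩, 0⟩, 0, 101⟩ 0 0) (.pos 145 .pm ⟨⟨0, 0, 47312869, 0, 0, 0, 0, 0, 0, ⟨0, 0⟩, 0⟩, 0, 296⟩ 0 0)) (.pos 138 .pm ⟨⟨0, 0, 72408045, 0, 0, 0, 0, 0, 0, ⟨0, 0⟩, 0⟩, 0, 752⟩ 0 0)) (.pos 7 .pm ⟨⟨0, 0, 128856037, 0, 0, 0, 0, 0, 0, ⟨0, 0⟩, 0⟩, 0, 1641⟩ 0 0)) (.pos 5 .pm ⟨⟨0, 0, 393943893, 0, 0, 0, 0, 0, 0, ⟨0, 0⟩, 0⟩, 0, 2953⟩ 0 0)) (.pos 3 .pm ⟨⟨0, 0, 0, 0, 0, 0, 0, 0, 0, ⟨0,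 0⟩, 0⟩, 0, 0⟩ 0 0)) (.cut .v 268435456 (.cut .v 67108864 (.cut .d 1219821 (.cut .v 33554432 (.cut .d 609910 (.cut .d 304955 (.cut .v 25165824 (.cut .d 152477 (.cut .v 20971520 (.cut .d 76238 (.cut .v 18874368 (.cut .v 17825792 (.pos 31 .pp ⟨⟨1163264322, 0, 0, 0, 0, 0, 0, 0, 0, ⟨0, 0⟩, 0⟩, 45595061, 0⟩ 0 0) (.pos 32 .pp ⟨⟨1734865169, 0, 0, 0, 0, 0, 0, 0, 0, ⟨0, 0⟩, 0⟩, 0, 0⟩ 0 0)) (.pos 30 .pp ⟨⟨2059030150, 0, 0, 0, 0, 0, 0, 0, 0, ⟨0, 0⟩, 0⟩, 0, 0⟩ 0 0)) (.pos 27 .pp ⟨⟨0, 0, 0, 0, 0, 0, 0, 0, 0, ⟨0, 0⟩, 0⟩, 157246534, 2423⟩ 0 0)) (.pos 28 .pp ⟨⟨0, 0, 0, 0, 0, 0, 0, 0, 0, ⟨0, 0⟩, 0⟩, 279581413, 0⟩ 0 0)) (.pos 25 .pp ⟨⟨0, 0, 0, 0, 0, 0,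 0, 0, 0, ⟨0, 0⟩, 0⟩, 148614605, 2695⟩ 0 0)) (.pos 26 .pp ⟨⟨0, 0, 0, 0, 0, 0, 0, 0, 0, ⟨0, 0⟩, 0⟩, 355859739, 0⟩ 0 0)) (.pos 24 .pp ⟨⟨0, 0, 0, 0, 0, 0, 0, 0, 0, ⟨0, 0⟩, 0⟩, 146042143, 2776⟩ 0 0)) (.pos 24 .pp ⟨⟨0, 0, 0, 0, 0, 0, 0, 0, 0, ⟨0, 0⟩, 0⟩, 0, 7383⟩ 0 0)) (.cut .d 609910 (.cut .d 304955 (.void 127 ⟨⟨0, 0, 0, 0, 0, 0, 0, 0, 0, ⟨0, 0⟩, 0⟩, 100000, 0⟩ 0 0) (.pos 127 .pp ⟨⟨0, 0, 0, 0, 0, 0, 0, 0, 0, ⟨0, 0⟩, 0⟩, 449218551, 0⟩ 0 0)) (.pos 127 .pp ⟨⟨0, 0, 0, 0, 0, 0, 0, 0, 0, ⟨0, 0⟩, 0⟩, 238345155, 0⟩ 0 0))) (.pos 126 .pp ⟨⟨0, 0, 0, 0, 0, 0, 0, 0, 0, ⟨0, 0⟩, 0⟩, 0, 7383⟩ 0 0)) (.void 134 ⟨⟨0, 0, 0, 48936, 0, 0, 0, 0, 0, ⟨0, 0⟩, 0⟩,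 51064, 0⟩ 0 0)) (.void 141 ⟨⟨0, 0, 0, 0, 0, 0, 0, 0, 0, ⟨0, 0⟩, 0⟩, 100000, 0⟩ 0 0)))),
    by decide +kernel⟩

def covers31 : cell.Covers Vale.Agent.P237.Petty.Cor.Grid.N14.table row31.1 :=
  ⟨(.cut .d 0 (.cut .v 16777216 (.cut .v 8388608 (.void 2 ⟨⟨0, 0, 100000, 0, 0, 0, 0, 0, 0, ⟨0, 0⟩, 0⟩, 0, 0⟩ 0 0) (.cut .d (-8388608) (.void 3 ⟨⟨100000, 0, 0, 0, 0, 0, 0, 0, 0, ⟨0, 0⟩, 0⟩, 0, 0⟩ 0 0) (.cut .d (-4194304) (.void 3 ⟨⟨100000, 0, 0, 0, 0, 0, 0, 0, 0, ⟨0, 0⟩, 0⟩, 0, 0⟩ 0 0) (.cut .d (-2097152) (.void 3 ⟨⟨100000, 0, 0, 0, 0, 0, 0, 0, 0, ⟨0, 0⟩, 0⟩, 0, 0⟩ 0 0) (.cut .d (-1048576) (.void 3 ⟨⟨100000, 0, 0, 0, 0, 0, 0, 0, 0, ⟨0, 0⟩, 0⟩, 0,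 0⟩ 0 0) (.cut .d (-524288) (.void 3 ⟨⟨0, 0, 0, 0, 0, 100000, 0, 0, 0, ⟨0, 0⟩, 0⟩, 0, 0⟩ 0 0) (.cut .d (-262144) (.void 3 ⟨⟨0, 0, 0, 0, 0, 100000, 0, 0, 0, ⟨0, 0⟩, 0⟩, 0, 0⟩ 0 0) (.cut .d (-131072) (.void 3 ⟨⟨0, 0, 0, 0, 0, 100000, 0, 0, 0, ⟨0, 0⟩, 0⟩, 0, 0⟩ 0 0) (.cut .s 14876672 (.pos 3 .mm ⟨⟨0, 0, 0, 0, 0, 3528204766, 0, 0, 0, ⟨0, 0⟩, 0⟩, 0, 0⟩ 0 0) (.pos 3 .mm ⟨⟨0, 0, 0, 0, 0, 3772227518, 0, 0, 0, ⟨0, 0⟩, 0⟩, 0, 0⟩ 0 0)))))))))) (.cut .v 268435456 (.cut .v 67108864 (.cut .v 33554432 (.cut .d (-8388608) (.void 24 ⟨⟨100000, 0, 0, 0, 0, 0, 0, 0, 0, ⟨0, 0⟩, 0⟩, 0, 0⟩ 0 0) (.cut .d (-4194304) (.void 24 ⟨⟨100000, 0, 0, 0, 0, 0, 0, 0, 0,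 ⟨0, 0⟩, 0⟩, 0, 0⟩ 0 0) (.cut .v 25165824 (.cut .d (-2097152) (.void 25 ⟨⟨100000, 0, 0, 0, 0, 0, 0, 0, 0, ⟨0, 0⟩, 0⟩, 0, 0⟩ 0 0) (.cut .v 20971520 (.cut .d (-1048576) (.void 27 ⟨⟨100000, 0, 0, 0, 0, 0, 0, 0, 0, ⟨0, 0⟩, 0⟩, 0, 0⟩ 0 0) (.cut .v 18874368 (.cut .d (-524288) (.void 29 ⟨⟨100000, 0, 0, 0, 0, 0, 0, 0, 0, ⟨0, 0⟩, 0⟩, 0, 0⟩ 0 0) (.cut .v 17825792 (.cut .d (-262144) (.void 31 ⟨⟨100000, 0, 0, 0, 0, 0, 0, 0, 0, ⟨0, 0⟩, 0⟩, 0, 0⟩ 0 0) (.cut .v 17301504 (.cut .d (-131072) (.void 33 ⟨⟨100000, 0, 0, 0, 0, 0, 0, 0, 0, ⟨0, 0⟩, 0⟩, 0, 0⟩ 0 0) (.cut .v 17039360 (.cut .d (-65536) (.void 35 ⟨⟨100000, 0, 0, 0, 0, 0, 0, 0, 0, ⟨0, 0⟩, 0⟩, 0, 0⟩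 0 0) (.cut .v 16908288 (.cut .d (-32768) (.void 37 ⟨⟨100000, 0, 0, 0, 0, 0, 0, 0, 0, ⟨0, 0⟩, 0⟩, 0, 0⟩ 0 0) (.cut .d (-16384) (.void 37 ⟨⟨100000, 0, 0, 0, 0, 0, 0, 0, 0, ⟨0, 0⟩, 0⟩, 0, 0⟩ 0 0) (.cut .d (-8192) (.void 37 ⟨⟨100000, 0, 0, 0, 0, 0, 0, 0, 0, ⟨0, 0⟩, 0⟩, 0, 0⟩ 0 0) (.cut .d (-4096) (.cut .v 16842752 (.cut .l 131821 (.void 39 ⟨⟨100000, 0, 0, 0, 0, 0, 0, 0, 0, ⟨0, 0⟩, 0⟩, 0, 0⟩ 0 0) (.cut .d (-6144) (.void 39 ⟨⟨0, 0, 0, 0, 0, 100000, 0, 0, 0, ⟨0, 0⟩, 0⟩, 0, 0⟩ 0 0) (.cut .d (-5120) (.void 39 ⟨⟨0, 0, 0, 0, 0, 100000, 0, 0, 0, ⟨0, 0⟩, 0⟩, 0, 0⟩ 0 0) (.cut .l 197731 (.void 39 ⟨⟨0, 0, 0, 0, 0, 100000, 0, 0, 0, ⟨0, 0⟩, 0⟩, 0, 0⟩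 0 0) (.cut .s 14876672 (.cut .s 14843904 (.pos 39 .mp ⟨⟨1325979862, 0, 0, 0, 0, 987081959, 0, 0, 0, ⟨0, 0⟩, 0⟩, 0, 0⟩ 0 0) (.pos 39 .mp ⟨⟨1360637076, 0, 0, 0, 0, 1031588100, 0, 0, 0, ⟨0, 0⟩, 0⟩, 0, 0⟩ 0 0)) (.cut .s 14909440 (.pos 39 .mp ⟨⟨1398662214, 0, 0, 0, 0, 1074902072, 0, 0, 0, ⟨0, 0⟩, 0⟩, 0, 0⟩ 0 0) (.pos 39 .mp ⟨⟨1438308935, 0, 0, 0, 0, 1124539573, 0, 0, 0, ⟨0, 0⟩, 0⟩, 0, 0⟩ 0 0))))))) (.pos 40 .mp ⟨⟨2057528323, 0, 0, 0, 0, 0, 0, 0, 0, ⟨0, 0⟩, 0⟩, 0, 0⟩ 0 0)) (.cut .s 14876672 (.cut .v 16842752 (.cut .s 14843904 (.cut .v 16809984 (.cut .s 14827520 (.cut .s 14819328 (.pos 51 .mp ⟨⟨1346664442, 0, 0, 0, 0, 855941636, 0, 0, 0, ⟨0,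 0⟩, 0⟩, 0, 0⟩ 0 0) (.cut .s 14823424 (.pos 51 .mp ⟨⟨1365237764, 0, 0, 0, 0, 839920105, 0, 0, 0, ⟨0, 0⟩, 0⟩, 0, 0⟩ 0 0) (.pos 51 .mp ⟨⟨1368277531, 0, 0, 0, 0, 846581078, 0, 0, 0, ⟨0, 0⟩, 0⟩, 0, 0⟩ 0 0))) (.cut .l 131821 (.cut .d (-2048) (.pos 51 .mp ⟨⟨1328861984, 0, 0, 0, 0, 1004761376, 0, 0, 0, ⟨0, 0⟩, 0⟩, 0, 0⟩ 0 0) (.cut .s 14835712 (.pos 51 .mp ⟨⟨1354857357, 0, 0, 0, 0, 889829976, 0, 0, 0, ⟨0, 0⟩, 0⟩, 0, 0⟩ 0 0) (.cut .s 14839808 (.pos 51 .mp ⟨⟨1366768228, 0, 0, 0, 0, 888258418, 0, 0, 0, ⟨0, 0⟩, 0⟩, 0, 0⟩ 0 0) (.pos 51 .mp ⟨⟨1370840138, 0, 0, 0, 0, 893376787, 0, 0, 0, ⟨0, 0⟩, 0⟩, 0, 0⟩ 0 0)))) (.pos 51 .mp ⟨⟨1362112177, 0, 0, 0, 0,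 872171611, 0, 0, 0, ⟨0, 0⟩, 0⟩, 0, 0⟩ 0 0))) (.pos 52 .mp ⟨⟨1813261140, 0, 0, 0, 0, 0, 0, 0, 0, ⟨0, 0⟩, 0⟩, 0, 0⟩ 0 0)) (.cut .v 16809984 (.cut .s 14860288 (.cut .s 14852096 (.cut .s 14848000 (.pos 51 .mp ⟨⟨1384666775, 0, 0, 0, 0, 879485295, 0, 0, 0, ⟨0, 0⟩, 0⟩, 0, 0⟩ 0 0) (.pos 51 .mp ⟨⟨1388729826, 0, 0, 0, 0, 884952666, 0, 0, 0, ⟨0, 0⟩, 0⟩, 0, 0⟩ 0 0)) (.cut .s 14856192 (.pos 51 .mp ⟨⟨1394119022, 0, 0, 0, 0, 887977819, 0, 0, 0, ⟨0, 0⟩, 0⟩, 0, 0⟩ 0 0) (.pos 51 .mp ⟨⟨1399537949, 0, 0, 0, 0, 891058430, 0, 0, 0, ⟨0, 0⟩, 0⟩, 0, 0⟩ 0 0))) (.cut .s 14868480 (.cut .s 14864384 (.pos 51 .mp ⟨⟨1404986794, 0, 0, 0, 0, 894194482, 0, 0, 0, ⟨0, 0⟩,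 0⟩, 0, 0⟩ 0 0) (.pos 51 .mp ⟨⟨1410465748, 0, 0, 0, 0, 897385953, 0, 0, 0, ⟨0, 0⟩, 0⟩, 0, 0⟩ 0 0)) (.cut .s 14872576 (.pos 51 .mp ⟨⟨1415975001, 0, 0, 0, 0, 900632821, 0, 0, 0, ⟨0, 0⟩, 0⟩, 0, 0⟩ 0 0) (.pos 51 .mp ⟨⟨1421514747, 0, 0, 0, 0, 903935061, 0, 0, 0, ⟨0, 0⟩, 0⟩, 0, 0⟩ 0 0)))) (.pos 52 .mp ⟨⟨1865977687, 0, 0, 0, 0, 0, 0, 0, 0, ⟨0, 0⟩, 0⟩, 0, 0⟩ 0 0))) (.pos 40 .mp ⟨⟨1855918736, 0, 0, 0, 0, 0, 0, 0, 0, ⟨0, 0⟩, 0⟩, 0, 0⟩ 0 0)) (.cut .v 16842752 (.cut .s 14909440 (.cut .v 16809984 (.cut .s 14893056 (.cut .s 14884864 (.cut .s 14880768 (.pos 51 .mp ⟨⟨1427085182, 0, 0, 0, 0, 907292648, 0, 0, 0, ⟨0, 0⟩, 0⟩, 0, 0⟩ 0 0) (.pos 51 .mp ⟨⟨1432686501,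 0, 0, 0, 0, 910705552, 0, 0, 0, ⟨0, 0⟩, 0⟩, 0, 0⟩ 0 0)) (.cut .s 14888960 (.pos 51 .mp ⟨⟨1438318903, 0, 0, 0, 0, 914173744, 0, 0, 0, ⟨0, 0⟩, 0⟩, 0, 0⟩ 0 0) (.cut .s 14891008 (.pos 51 .mp ⟨⟨1445022544, 0, 0, 0, 0, 912500054, 0, 0, 0, ⟨0, 0⟩, 0⟩, 0, 0⟩ 0 0) (.pos 51 .mp ⟨⟨1447690507, 0, 0, 0, 0, 914610355, 0, 0, 0, ⟨0, 0⟩, 0⟩, 0, 0⟩ 0 0)))) (.cut .s 14901248 (.cut .d (-2048) (.pos 51 .mp ⟨⟨1423587986, 0, 0, 0, 0, 991597962, 0, 0, 0, ⟨0, 0⟩, 0⟩, 0, 0⟩ 0 0) (.cut .s 14897152 (.pos 51 .mp ⟨⟨1434579760, 0, 0, 0, 0, 950918884, 0, 0, 0, ⟨0, 0⟩, 0⟩, 0, 0⟩ 0 0) (.pos 51 .mp ⟨⟨1440123964, 0, 0, 0, 0, 954897087, 0, 0, 0, ⟨0, 0⟩, 0⟩, 0, 0⟩ 0 0)))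 (.cut .d (-2048) (.pos 51 .mp ⟨⟨1434778656, 0, 0, 0, 0, 999753749, 0, 0, 0, ⟨0, 0⟩, 0⟩, 0, 0⟩ 0 0) (.cut .s 14905344 (.pos 51 .mp ⟨⟨1445795327, 0, 0, 0, 0, 958759691, 0, 0, 0, ⟨0, 0⟩, 0⟩, 0, 0⟩ 0 0) (.pos 51 .mp ⟨⟨1451595817, 0, 0, 0, 0, 962503373, 0, 0, 0, ⟨0, 0⟩, 0⟩, 0, 0⟩ 0 0))))) (.pos 52 .mp ⟨⟨1923185348, 0, 0, 0, 0, 0, 0, 0, 0, ⟨0, 0⟩, 0⟩, 0, 0⟩ 0 0)) (.cut .v 16809984 (.cut .s 14925824 (.cut .s 14917632 (.cut .d (-2048) (.pos 51 .mp ⟨⟨1446645159, 0, 0, 0, 0, 1006999475, 0, 0, 0, ⟨0, 0⟩, 0⟩, 0, 0⟩ 0 0) (.cut .s 14913536 (.pos 51 .mp ⟨⟨1457527424, 0, 0, 0, 0, 966124768, 0, 0, 0, ⟨0, 0⟩, 0⟩, 0, 0⟩ 0 0) (.pos 51 .mp ⟨⟨1463592156,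 0, 0, 0, 0, 969620471, 0, 0, 0, ⟨0, 0⟩, 0⟩, 0, 0⟩ 0 0))) (.cut .s 14921728 (.pos 51 .mp ⟨⟨1456371941, 0, 0, 0, 0, 1002104310, 0, 0, 0, ⟨0, 0⟩, 0⟩, 0, 0⟩ 0 0) (.pos 51 .mp ⟨⟨1462831272, 0, 0, 0, 0, 1004960781, 0, 0, 0, ⟨0, 0⟩, 0⟩, 0, 0⟩ 0 0))) (.cut .s 14934016 (.cut .s 14929920 (.pos 51 .mp ⟨⟨1469949162, 0, 0, 0, 0, 1006578707, 0, 0, 0, ⟨0, 0⟩, 0⟩, 0, 0⟩ 0 0) (.pos 51 .mp ⟨⟨1478753771, 0, 0, 0, 0, 1004831952, 0, 0, 0, ⟨0, 0⟩, 0⟩, 0, 0⟩ 0 0)) (.cut .s 14938112 (.pos 51 .mp ⟨⟨1488024101, 0, 0, 0, 0, 1002245311, 0, 0, 0, ⟨0, 0⟩, 0⟩, 0, 0⟩ 0 0) (.pos 51 .mp ⟨⟨1497763369, 0, 0, 0, 0, 998812324, 0, 0, 0, ⟨0, 0⟩, 0⟩, 0, 0⟩ 0 0)))) (.pos 52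 .mp ⟨⟨1985111727, 0, 0, 0, 0, 0, 0, 0, 0, ⟨0, 0⟩, 0⟩, 0, 0⟩ 0 0))) (.pos 40 .mp ⟨⟨1971476054, 0, 0, 0, 0, 0, 0, 0, 0, ⟨0, 0⟩, 0⟩, 0, 0⟩ 0 0))))))) (.pos 38 .mp ⟨⟨2096705147, 0, 0, 0, 0, 0, 0, 0, 0, ⟨0, 0⟩, 0⟩, 0, 0⟩ 0 0))) (.pos 36 .mp ⟨⟨2178063743, 0, 0, 0, 0, 0, 0, 0, 0, ⟨0, 0⟩, 0⟩, 0, 0⟩ 0 0))) (.void 34 ⟨⟨100000, 0, 0, 0, 0, 0, 0, 0, 0, ⟨0, 0⟩, 0⟩, 0, 0⟩ 0 0))) (.void 32 ⟨⟨100000, 0, 0, 0, 0, 0, 0, 0, 0, ⟨0, 0⟩, 0⟩, 0, 0⟩ 0 0))) (.void 30 ⟨⟨100000, 0, 0, 0, 0, 0, 0, 0, 0, ⟨0, 0⟩, 0⟩, 0, 0⟩ 0 0))) (.void 28 ⟨⟨100000, 0, 0, 0, 0, 0, 0, 0, 0, ⟨0, 0⟩, 0⟩, 0, 0⟩ 0 0))) (.void 26 ⟨⟨100000, 0, 0, 0, 0, 0, 0, 0, 0, ⟨0, 0⟩, 0⟩, 0, 0⟩ 0 0))))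 (.void 127 ⟨⟨100000, 0, 0, 0, 0, 0, 0, 0, 0, ⟨0, 0⟩, 0⟩, 0, 0⟩ 0 0)) (.void 134 ⟨⟨100000, 0, 0, 0, 0, 0, 0, 0, 0, ⟨0, 0⟩, 0⟩, 0, 0⟩ 0 0)) (.void 141 ⟨⟨94437, 0, 0, 5607, 0, 0, 0, 0, 0, ⟨0, 0⟩, 0⟩, 0, 0⟩ 0 0))) (.cut .v 16777216 (.cut .v 8388608 (.cut .v 4194304 (.cut .v 2097152 (.cut .v 1048576 (.cut .v 524288 (.pos 144 .pm ⟨⟨0, 0, 34668924, 0, 0, 0, 0, 0, 0, ⟨0, 0⟩, 0⟩, 0, 70⟩ 0 0) (.pos 145 .pm ⟨⟨0, 0, 55695574, 0, 0, 0, 0, 0, 0, ⟨0, 0⟩, 0⟩, 0, 241⟩ 0 0)) (.pos 138 .pm ⟨⟨0, 0, 88079813, 0, 0, 0, 0, 0, 0, ⟨0, 0⟩, 0⟩, 0, 522⟩ 0 0)) (.pos 7 .pm ⟨⟨0, 0, 165624297, 0, 0, 0, 0, 0, 0, ⟨0, 0⟩, 0⟩, 0, 1087⟩ 0 0)) (.pos 5 .pm ⟨⟨0, 0, 508044060,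 0, 0, 0, 0, 0, 0, ⟨0, 0⟩, 0⟩, 0, 1956⟩ 0 0)) (.pos 3 .pm ⟨⟨0, 0, 0, 0, 0, 0, 0, 0, 0, ⟨0, 0⟩, 0⟩, 0, 0⟩ 0 0)) (.cut .v 268435456 (.cut .v 67108864 (.cut .d 1113533 (.cut .v 33554432 (.cut .d 556766 (.cut .d 278383 (.cut .v 25165824 (.cut .d 139191 (.cut .v 20971520 (.cut .d 69595 (.cut .v 18874368 (.cut .v 17825792 (.pos 31 .pp ⟨⟨1172726846, 0, 0, 0, 0, 0, 0, 0, 0, ⟨0, 0⟩, 0⟩, 73934355, 0⟩ 0 0) (.pos 32 .pp ⟨⟨1988615292, 0, 0, 0, 0, 0, 0, 0, 0, ⟨0, 0⟩, 0⟩, 0, 0⟩ 0 0)) (.pos 30 .pp ⟨⟨2343524375, 0, 0, 0, 0, 0, 0, 0, 0, ⟨0, 0⟩, 0⟩, 0, 0⟩ 0 0)) (.pos 27 .pp ⟨⟨0, 0, 0, 0, 0, 0, 0, 0, 0, ⟨0, 0⟩, 0⟩, 182215414, 1610⟩ 0 0)) (.pos 28 .pp ⟨⟨0,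 0, 0, 0, 0, 0, 0, 0, 0, ⟨0, 0⟩, 0⟩, 318099868, 0⟩ 0 0)) (.pos 25 .pp ⟨⟨0, 0, 0, 0, 0, 0, 0, 0, 0, ⟨0, 0⟩, 0⟩, 172366884, 1787⟩ 0 0)) (.pos 26 .pp ⟨⟨0, 0, 0, 0, 0, 0, 0, 0, 0, ⟨0, 0⟩, 0⟩, 403777029, 0⟩ 0 0)) (.pos 24 .pp ⟨⟨0, 0, 0, 0, 0, 0, 0, 0, 0, ⟨0, 0⟩, 0⟩, 169683111, 1836⟩ 0 0)) (.pos 24 .pp ⟨⟨0, 0, 0, 0, 0, 0, 0, 0, 0, ⟨0, 0⟩, 0⟩, 0, 4891⟩ 0 0)) (.cut .d 556766 (.cut .d 278383 (.void 127 ⟨⟨0, 0, 0, 0, 0, 0, 0, 0, 0, ⟨0, 0⟩, 0⟩, 100000, 0⟩ 0 0) (.pos 127 .pp ⟨⟨0, 0, 0, 0, 0, 0, 0, 0, 0, ⟨0, 0⟩, 0⟩, 515318267, 0⟩ 0 0)) (.pos 127 .pp ⟨⟨0, 0, 0, 0, 0, 0, 0, 0, 0, ⟨0, 0⟩, 0⟩, 284099728, 0⟩ 0 0))) (.pos 126 .pp ⟨⟨0, 0, 0, 0, 0, 0, 0,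 0, 0, ⟨0, 0⟩, 0⟩, 0, 4891⟩ 0 0)) (.void 134 ⟨⟨0, 0, 0, 49122, 0, 0, 0, 0, 0, ⟨0, 0⟩, 0⟩, 50878, 0⟩ 0 0)) (.void 141 ⟨⟨0, 0, 0, 0, 0, 0, 0, 0, 0, ⟨0, 0⟩, 0⟩, 100000, 0⟩ 0 0)))),
    by decide +kernel⟩

def covers32 : cell.Covers Vale.Agent.P237.Petty.Cor.Grid.N14.table row32.1 :=
  ⟨(.cut .d 0 (.cut .v 16777216 (.cut .v 8388608 (.void 2 ⟨⟨0, 0, 100000, 0, 0, 0, 0, 0, 0, ⟨0, 0⟩, 0⟩, 0, 0⟩ 0 0) (.cut .d (-8388608) (.void 3 ⟨⟨100000, 0, 0, 0, 0, 0, 0, 0, 0, ⟨0, 0⟩, 0⟩, 0, 0⟩ 0 0) (.cut .d (-4194304) (.void 3 ⟨⟨100000, 0, 0, 0, 0, 0, 0, 0, 0, ⟨0, 0⟩, 0⟩, 0, 0⟩ 0 0) (.cut .d (-2097152) (.void 3 ⟨⟨100000, 0, 0, 0, 0, 0, 0, 0, 0, ⟨0, 0⟩, 0⟩,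 0, 0⟩ 0 0) (.cut .d (-1048576) (.void 3 ⟨⟨100000, 0, 0, 0, 0, 0, 0, 0, 0, ⟨0, 0⟩, 0⟩, 0, 0⟩ 0 0) (.cut .d (-524288) (.void 3 ⟨⟨0, 0, 0, 0, 0, 100000, 0, 0, 0, ⟨0, 0⟩, 0⟩, 0, 0⟩ 0 0) (.cut .d (-262144) (.void 3 ⟨⟨0, 0, 0, 0, 0, 100000, 0, 0, 0, ⟨0, 0⟩, 0⟩, 0, 0⟩ 0 0) (.cut .d (-131072) (.void 3 ⟨⟨0, 0, 0, 0, 0, 100000, 0, 0, 0, ⟨0, 0⟩, 0⟩, 0, 0⟩ 0 0) (.cut .s 15007744 (.pos 3 .mm ⟨⟨0, 0, 0, 0, 0, 4040570125, 0, 0, 0, ⟨0, 0⟩, 0⟩, 0, 0⟩ 0 0) (.pos 3 .mm ⟨⟨0, 0, 0, 0, 0, 4335425959, 0, 0, 0, ⟨0, 0⟩, 0⟩, 0, 0⟩ 0 0)))))))))) (.cut .v 268435456 (.cut .v 67108864 (.cut .v 33554432 (.cut .d (-8388608) (.void 24 ⟨⟨100000, 0, 0, 0, 0, 0, 0, 0,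 0, ⟨0, 0⟩, 0⟩, 0, 0⟩ 0 0) (.cut .d (-4194304) (.void 24 ⟨⟨100000, 0, 0, 0, 0, 0, 0, 0, 0, ⟨0, 0⟩, 0⟩, 0, 0⟩ 0 0) (.cut .v 25165824 (.cut .d (-2097152) (.void 25 ⟨⟨100000, 0, 0, 0, 0, 0, 0, 0, 0, ⟨0, 0⟩, 0⟩, 0, 0⟩ 0 0) (.cut .v 20971520 (.cut .d (-1048576) (.void 27 ⟨⟨100000, 0, 0, 0, 0, 0, 0, 0, 0, ⟨0, 0⟩, 0⟩, 0, 0⟩ 0 0) (.cut .v 18874368 (.cut .d (-524288) (.void 29 ⟨⟨100000, 0, 0, 0, 0, 0, 0, 0, 0, ⟨0, 0⟩, 0⟩, 0, 0⟩ 0 0) (.cut .v 17825792 (.cut .d (-262144) (.void 31 ⟨⟨100000, 0, 0, 0, 0, 0, 0, 0, 0, ⟨0, 0⟩, 0⟩, 0, 0⟩ 0 0) (.cut .v 17301504 (.cut .d (-131072) (.void 33 ⟨⟨100000, 0, 0, 0, 0, 0, 0, 0, 0, ⟨0, 0⟩, 0⟩, 0, 0⟩ 0 0) (.cut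 .v 17039360 (.cut .d (-65536) (.void 35 ⟨⟨100000, 0, 0, 0, 0, 0, 0, 0, 0, ⟨0, 0⟩, 0⟩, 0, 0⟩ 0 0) (.cut .v 16908288 (.cut .d (-32768) (.void 37 ⟨⟨100000, 0, 0, 0, 0, 0, 0, 0, 0, ⟨0, 0⟩, 0⟩, 0, 0⟩ 0 0) (.cut .d (-16384) (.void 37 ⟨⟨100000, 0, 0, 0, 0, 0, 0, 0, 0, ⟨0, 0⟩, 0⟩, 0, 0⟩ 0 0) (.cut .d (-8192) (.void 37 ⟨⟨100000, 0, 0, 0, 0, 0, 0, 0, 0, ⟨0, 0⟩, 0⟩, 0, 0⟩ 0 0) (.cut .d (-4096) (.cut .v 16842752 (.cut .s 15007744 (.cut .s 14974976 (.pos 39 .mp ⟨⟨1489604689, 0, 0, 0, 0, 1182845470, 0, 0, 0, ⟨0, 0⟩, 0⟩, 0, 0⟩ 0 0) (.pos 39 .mp ⟨⟨1533684046, 0, 0, 0, 0, 1233829843, 0, 0, 0, ⟨0, 0⟩, 0⟩, 0, 0⟩ 0 0)) (.pos 39 .mp ⟨⟨1584811805, 0, 0, 0,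 0, 1438576583, 0, 0, 0, ⟨0, 0⟩, 0⟩, 0, 0⟩ 0 0)) (.void 40 ⟨⟨100000, 0, 0, 0, 0, 0, 0, 0, 0, ⟨0, 0⟩, 0⟩, 0, 0⟩ 0 0)) (.cut .s 15007744 (.cut .v 16842752 (.cut .s 14974976 (.cut .v 16809984 (.cut .s 14958592 (.cut .s 14950400 (.cut .s 14946304 (.pos 51 .mp ⟨⟨1507367394, 0, 0, 0, 0, 995790403, 0, 0, 0, ⟨0, 0⟩, 0⟩, 0, 0⟩ 0 0) (.pos 51 .mp ⟨⟨1508222780, 0, 0, 0, 0, 1010048341, 0, 0, 0, ⟨0, 0⟩, 0⟩, 0, 0⟩ 0 0)) (.cut .s 14954496 (.pos 51 .mp ⟨⟨1509523454, 0, 0, 0, 0, 1023532150, 0, 0, 0, ⟨0, 0⟩, 0⟩, 0, 0⟩ 0 0) (.pos 51 .mp ⟨⟨1511273464, 0, 0, 0, 0, 1036233712, 0, 0, 0, ⟨0, 0⟩, 0⟩, 0, 0⟩ 0 0))) (.cut .s 14966784 (.cut .s 14962688 (.pos 51 .mp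 ⟨⟨1515575825, 0, 0, 0, 0, 1043801877, 0, 0, 0, ⟨0, 0⟩, 0⟩, 0, 0⟩ 0 0) (.cut .s 14964736 (.pos 51 .mp ⟨⟨1552456895, 0, 0, 0, 0, 980603075, 0, 0, 0, ⟨0, 0⟩, 0⟩, 0, 0⟩ 0 0) (.pos 51 .mp ⟨⟨1554981472, 0, 0, 0, 0, 983642768, 0, 0, 0, ⟨0, 0⟩, 0⟩, 0, 0⟩ 0 0))) (.cut .d (-2048) (.pos 51 .mp ⟨⟨1529468427, 0, 0, 0, 0, 1066973898, 0, 0, 0, ⟨0, 0⟩, 0⟩, 0, 0⟩ 0 0) (.cut .s 14970880 (.pos 51 .mp ⟨⟨1540493232, 0, 0, 0, 0, 1023723146, 0, 0, 0, ⟨0, 0⟩, 0⟩, 0, 0⟩ 0 0) (.pos 51 .mp ⟨⟨1546732386, 0, 0, 0, 0, 1027569396, 0, 0, 0, ⟨0, 0⟩, 0⟩, 0, 0⟩ 0 0))))) (.pos 52 .mp ⟨⟨2005763226, 0, 0, 0, 0, 96210692, 0, 0, 0, ⟨0, 0⟩, 0⟩, 0, 0⟩ 0 0)) (.cut .v 16809984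 (.cut .s 14991360 (.cut .s 14983168 (.cut .d (-2048) (.pos 51 .mp ⟨⟨1540374993, 0, 0, 0, 0, 1078653837, 0, 0, 0, ⟨0, 0⟩, 0⟩, 0, 0⟩ 0 0) (.cut .s 14979072 (.pos 51 .mp ⟨⟨1553383701, 0, 0, 0, 0, 1030752177, 0, 0, 0, ⟨0, 0⟩, 0⟩, 0, 0⟩ 0 0) (.pos 51 .mp ⟨⟨1559999333, 0, 0, 0, 0, 1034177010, 0, 0, 0, ⟨0, 0⟩, 0⟩, 0, 0⟩ 0 0))) (.cut .d (-2048) (.pos 51 .mp ⟨⟨1552025151, 0, 0, 0, 0, 1089391962, 0, 0, 0, ⟨0, 0⟩, 0⟩, 0, 0⟩ 0 0) (.cut .s 14987264 (.pos 51 .mp ⟨⟨1566577728, 0, 0, 0, 0, 1037848047, 0, 0, 0, ⟨0, 0⟩, 0⟩, 0, 0⟩ 0 0) (.pos 51 .mp ⟨⟨1573117311, 0, 0, 0, 0, 1041769505, 0, 0, 0, ⟨0, 0⟩, 0⟩, 0, 0⟩ 0 0)))) (.cut .s 14999552 (.cut .d (-2048)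 (.pos 51 .mp ⟨⟨1564440764, 0, 0, 0, 0, 1099146338, 0, 0, 0, ⟨0, 0⟩, 0⟩, 0, 0⟩ 0 0) (.cut .s 14995456 (.pos 51 .mp ⟨⟨1579616477, 0, 0, 0, 0, 1045945660, 0, 0, 0, ⟨0, 0⟩, 0⟩, 0, 0⟩ 0 0) (.pos 51 .mp ⟨⟨1586073596, 0, 0, 0, 0, 1050380853, 0, 0, 0, ⟨0, 0⟩, 0⟩, 0, 0⟩ 0 0))) (.cut .d (-2048) (.pos 51 .mp ⟨⟨1577644065, 0, 0, 0, 0, 1107874290, 0, 0, 0, ⟨0, 0⟩, 0⟩, 0, 0⟩ 0 0) (.cut .s 15003648 (.pos 51 .mp ⟨⟨1592487011, 0, 0, 0, 0, 1055079491, 0, 0, 0, ⟨0, 0⟩, 0⟩, 0, 0⟩ 0 0) (.pos 51 .mp ⟨⟨1598855035, 0, 0, 0, 0, 1060046044, 0, 0, 0, ⟨0, 0⟩, 0⟩, 0, 0⟩ 0 0))))) (.pos 52 .mp ⟨⟨2069838010, 0, 0, 0, 0, 100438256, 0, 0, 0, ⟨0, 0⟩, 0⟩, 0, 0⟩ 0 0)))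 (.pos 40 .mp ⟨⟨2103198592, 0, 0, 0, 0, 0, 0, 0, 0, ⟨0, 0⟩, 0⟩, 0, 0⟩ 0 0)) (.cut .v 16842752 (.cut .s 15040512 (.cut .v 16809984 (.cut .s 15024128 (.cut .s 15015936 (.cut .d (-2048) (.pos 51 .mp ⟨⟨1591657661, 0, 0, 0, 0, 1115532384, 0, 0, 0, ⟨0, 0⟩, 0⟩, 0, 0⟩ 0 0) (.cut .s 15011840 (.pos 51 .mp ⟨⟨1605175956, 0, 0, 0, 0, 1065285050, 0, 0, 0, ⟨0, 0⟩, 0⟩, 0, 0⟩ 0 0) (.pos 51 .mp ⟨⟨1611448031, 0, 0, 0, 0, 1070801113, 0, 0, 0, ⟨0, 0⟩, 0⟩, 0, 0⟩ 0 0))) (.cut .d (-2048) (.pos 51 .mp ⟨⟨1575699839, 0, 0, 0, 0, 1194043875, 0, 0, 0, ⟨0, 0⟩, 0⟩, 0, 0⟩ 0 0) (.cut .s 15020032 (.pos 51 .mp ⟨⟨1617669491, 0, 0, 0, 0, 1076598907, 0, 0, 0, ⟨0, 0⟩, 0⟩,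 0, 0⟩ 0 0) (.pos 51 .mp ⟨⟨1624862815, 0, 0, 0, 0, 1080609527, 0, 0, 0, ⟨0, 0⟩, 0⟩, 0, 0⟩ 0 0)))) (.cut .s 15032320 (.cut .s 15028224 (.pos 51 .mp ⟨⟨1616776379, 0, 0, 0, 0, 1118237050, 0, 0, 0, ⟨0, 0⟩, 0⟩, 0, 0⟩ 0 0) (.pos 51 .mp ⟨⟨1624833515, 0, 0, 0, 0, 1120595703, 0, 0, 0, ⟨0, 0⟩, 0⟩, 0, 0⟩ 0 0)) (.cut .s 15036416 (.pos 51 .mp ⟨⟨1635463955, 0, 0, 0, 0, 1117777707, 0, 0, 0, ⟨0, 0⟩, 0⟩, 0, 0⟩ 0 0) (.pos 51 .mp ⟨⟨1647089963, 0, 0, 0, 0, 1113051602, 0, 0, 0, ⟨0, 0⟩, 0⟩, 0, 0⟩ 0 0)))) (.pos 52 .mp ⟨⟨2155367360, 0, 0, 0, 0, 72323132, 0, 0, 0, ⟨0, 0⟩, 0⟩, 0, 0⟩ 0 0)) (.cut .v 16809984 (.cut .s 15056896 (.cut .s 15048704 (.cut .s 15044608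 (.pos 51 .mp ⟨⟨1659256396, 0, 0, 0, 0, 1107360638, 0, 0, 0, ⟨0, 0⟩, 0⟩, 0, 0⟩ 0 0) (.pos 51 .mp ⟨⟨1671967923, 0, 0, 0, 0, 1100695458, 0, 0, 0, ⟨0, 0⟩, 0⟩, 0, 0⟩ 0 0)) (.cut .s 15052800 (.pos 51 .mp ⟨⟨1685229245, 0, 0, 0, 0, 1093046635, 0, 0, 0, ⟨0, 0⟩, 0⟩, 0, 0⟩ 0 0) (.pos 51 .mp ⟨⟨1699045099, 0, 0, 0, 0, 1084404672, 0, 0, 0, ⟨0, 0⟩, 0⟩, 0, 0⟩ 0 0))) (.cut .l 131821 (.cut .d (-2048) (.pos 51 .mp ⟨⟨1662037305, 0, 0, 0, 0, 1278632366, 0, 0, 0, ⟨0, 0⟩, 0⟩, 0, 0⟩ 0 0) (.cut .v 16793600 (.cut .s 15065088 (.cut .s 15060992 (.pos 57 .mp ⟨⟨1710291140, 0, 0, 0, 0, 1081473194, 0, 0, 0, ⟨0, 0⟩, 0⟩, 0, 0⟩ 0 0) (.pos 57 .mp ⟨⟨1720318327, 0, 0, 0,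 0, 1081479329, 0, 0, 0, ⟨0, 0⟩, 0⟩, 0, 0⟩ 0 0)) (.pos 57 .mp ⟨⟨1690049384, 0, 0, 0, 0, 1169799579, 0, 0, 0, ⟨0, 0⟩, 0⟩, 0, 0⟩ 0 0)) (.pos 58 .mp ⟨⟨2066393821, 0, 0, 0, 0, 423997232, 0, 0, 0, ⟨0, 0⟩, 0⟩, 0, 0⟩ 0 0))) (.pos 51 .mp ⟨⟨1644353979, 0, 0, 0, 0, 1222355132, 0, 0, 0, ⟨0, 0⟩, 0⟩, 0, 0⟩ 0 0))) (.pos 52 .mp ⟨⟨2265068876, 0, 0, 0, 0, 6699228, 0, 0, 0, ⟨0, 0⟩, 0⟩, 0, 0⟩ 0 0))) (.pos 40 .mp ⟨⟨2245338138, 0, 0, 0, 0, 0, 0, 0, 0, ⟨0, 0⟩, 0⟩, 0, 0⟩ 0 0))))))) (.pos 38 .mp ⟨⟨2387531115, 0, 0, 0, 0, 0, 0, 0, 0, ⟨0, 0⟩, 0⟩, 0, 0⟩ 0 0))) (.pos 36 .mp ⟨⟨2482962576, 0, 0, 0, 0, 0, 0, 0, 0, ⟨0, 0⟩, 0⟩, 0, 0⟩ 0 0))) (.void 34 ⟨⟨100000, 0, 0,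 0, 0, 0, 0, 0, 0, ⟨0, 0⟩, 0⟩, 0, 0⟩ 0 0))) (.void 32 ⟨⟨100000, 0, 0, 0, 0, 0, 0, 0, 0, ⟨0, 0⟩, 0⟩, 0, 0⟩ 0 0))) (.void 30 ⟨⟨100000, 0, 0, 0, 0, 0, 0, 0, 0, ⟨0, 0⟩, 0⟩, 0, 0⟩ 0 0))) (.void 28 ⟨⟨100000, 0, 0, 0, 0, 0, 0, 0, 0, ⟨0, 0⟩, 0⟩, 0, 0⟩ 0 0))) (.void 26 ⟨⟨100000, 0, 0, 0, 0, 0, 0, 0, 0, ⟨0, 0⟩, 0⟩, 0, 0⟩ 0 0)))) (.void 127 ⟨⟨100000, 0, 0, 0, 0, 0, 0, 0, 0, ⟨0, 0⟩, 0⟩, 0, 0⟩ 0 0)) (.void 134 ⟨⟨99994, 0, 0, 0, 0, 0, 0, 0, 0, ⟨0, 0⟩, 0⟩, 0, 0⟩ 0 0)) (.void 141 ⟨⟨94388, 0, 0, 5639, 0, 0, 0, 0, 0, ⟨0, 0⟩, 0⟩, 0, 0⟩ 0 0))) (.cut .v 16777216 (.cut .v 8388608 (.cut .v 4194304 (.cut .v 2097152 (.cut .v 1048576 (.cut .v 524288 (.pos 144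 .pm ⟨⟨0, 0, 37960779, 0, 0, 0, 0, 0, 0, ⟨0, 0⟩, 0⟩, 0, 47⟩ 0 0) (.pos 145 .pm ⟨⟨0, 0, 64979164, 0, 0, 0, 0, 0, 0, ⟨0, 0⟩, 0⟩, 0, 174⟩ 0 0)) (.pos 138 .pm ⟨⟨0, 0, 105961798, 0, 0, 0, 0, 0, 0, ⟨0, 0⟩, 0⟩, 0, 353⟩ 0 0)) (.pos 7 .pm ⟨⟨0, 0, 205841848, 0, 0, 0, 0, 0, 0, ⟨0, 0⟩, 0⟩, 0, 754⟩ 0 0)) (.pos 5 .pm ⟨⟨0, 0, 628907249, 0, 0, 0, 0, 0, 0, ⟨0, 0⟩, 0⟩, 0, 1356⟩ 0 0)) (.pos 3 .pm ⟨⟨0, 0, 0, 0, 0, 0, 0, 0, 0, ⟨0, 0⟩, 0⟩, 0, 0⟩ 0 0)) (.cut .v 268435456 (.cut .v 67108864 (.cut .d 1030181 (.cut .v 33554432 (.cut .d 515090 (.cut .d 257545 (.cut .v 25165824 (.cut .d 128772 (.cut .v 20971520 (.cut .d 64386 (.cut .v 18874368 (.cut .v 17825792 (.pos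 31 .pp ⟨⟨1367832383, 0, 0, 0, 0, 0, 0, 0, 0, ⟨0, 0⟩, 0⟩, 78960236, 0⟩ 0 0) (.pos 32 .pp ⟨⟨2254946819, 0, 0, 0, 0, 0, 0, 0, 0, ⟨0, 0⟩, 0⟩, 0, 0⟩ 0 0)) (.pos 30 .pp ⟨⟨2660198613, 0, 0, 0, 0, 0, 0, 0, 0, ⟨0, 0⟩, 0⟩, 0, 0⟩ 0 0)) (.pos 27 .pp ⟨⟨0, 0, 0, 0, 0, 0, 0, 0, 0, ⟨0, 0⟩, 0⟩, 206420288, 1106⟩ 0 0)) (.pos 28 .pp ⟨⟨0, 0, 0, 0, 0, 0, 0, 0, 0, ⟨0, 0⟩, 0⟩, 361141289, 0⟩ 0 0)) (.pos 25 .pp ⟨⟨0, 0, 0, 0, 0, 0, 0, 0, 0, ⟨0, 0⟩, 0⟩, 195489595, 1227⟩ 0 0)) (.pos 26 .pp ⟨⟨0, 0, 0, 0, 0, 0, 0, 0, 0, ⟨0, 0⟩, 0⟩, 457996898, 0⟩ 0 0)) (.pos 24 .pp ⟨⟨0, 0, 0, 0, 0, 0, 0, 0, 0, ⟨0, 0⟩, 0⟩, 192912881, 1256⟩ 0 0)) (.pos 24 .pp ⟨⟨0, 0, 0, 0, 0, 0, 0, 0,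 0, ⟨0, 0⟩, 0⟩, 0, 3391⟩ 0 0)) (.cut .d 515090 (.cut .d 257545 (.void 127 ⟨⟨0, 0, 0, 0, 0, 0, 0, 0, 0, ⟨0, 0⟩, 0⟩, 100000, 0⟩ 0 0) (.pos 127 .pp ⟨⟨0, 0, 0, 0, 0, 0, 0, 0, 0, ⟨0, 0⟩, 0⟩, 588595348, 0⟩ 0 0)) (.pos 127 .pp ⟨⟨0, 0, 0, 0, 0, 0, 0, 0, 0, ⟨0, 0⟩, 0⟩, 329986601, 0⟩ 0 0))) (.pos 126 .pp ⟨⟨0, 0, 0, 0, 0, 0, 0, 0, 0, ⟨0, 0⟩, 0⟩, 0, 3391⟩ 0 0)) (.void 134 ⟨⟨0, 0, 0, 49307, 0, 0, 0, 0, 0, ⟨0, 0⟩, 0⟩, 50693, 0⟩ 0 0)) (.void 141 ⟨⟨0, 0, 0, 0, 0, 0, 0, 0, 0, ⟨0, 0⟩, 0⟩, 100000, 0⟩ 0 0)))),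
    by decide +kernel⟩

def covers33 : cell.Covers Vale.Agent.P237.Petty.Cor.Grid.N14.table row33.1 :=
  ⟨(.cut .d 0 (.cut .v 16777216 (.cut .v 8388608 (.void 2 ⟨⟨0, 0, 100000, 0, 0, 0, 0, 0, 0, ⟨0, 0⟩, 0⟩, 0, 0⟩ 0 0) (.cut .d (-8388608) (.void 3 ⟨⟨100000, 0, 0, 0, 0, 0, 0, 0, 0, ⟨0, 0⟩, 0⟩, 0, 0⟩ 0 0) (.cut .d (-4194304) (.void 3 ⟨⟨100000, 0, 0, 0, 0, 0, 0, 0, 0, ⟨0, 0⟩, 0⟩, 0, 0⟩ 0 0) (.cut .d (-2097152) (.void 3 ⟨⟨100000, 0, 0, 0, 0, 0, 0, 0, 0, ⟨0, 0⟩, 0⟩, 0, 0⟩ 0 0) (.cut .d (-1048576) (.void 3 ⟨⟨100000, 0, 0, 0, 0, 0, 0, 0, 0, ⟨0, 0⟩, 0⟩, 0, 0⟩ 0 0) (.cut .d (-524288) (.void 3 ⟨⟨81969, 0, 18031, 0, 0, 0, 0, 0, 0, ⟨0, 0⟩, 0⟩, 0,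 0⟩ 0 0) (.cut .d (-262144) (.void 3 ⟨⟨0, 0, 0, 0, 0, 100000, 0, 0, 0, ⟨0, 0⟩, 0⟩, 0, 0⟩ 0 0) (.cut .s 15122432 (.pos 3 .mm ⟨⟨0, 0, 0, 0, 0, 4717413561, 0, 0, 0, ⟨0, 0⟩, 0⟩, 0, 0⟩ 0 0) (.pos 3 .mm ⟨⟨0, 0, 0, 0, 0, 5043233475, 0, 0, 0, ⟨0, 0⟩, 0⟩, 0, 0⟩ 0 0))))))))) (.cut .v 268435456 (.cut .v 67108864 (.cut .v 33554432 (.cut .d (-8388608) (.void 24 ⟨⟨100000, 0, 0, 0, 0, 0, 0, 0, 0, ⟨0, 0⟩, 0⟩, 0, 0⟩ 0 0) (.cut .d (-4194304) (.void 24 ⟨⟨100000, 0, 0, 0, 0, 0, 0, 0, 0, ⟨0, 0⟩, 0⟩, 0, 0⟩ 0 0) (.cut .v 25165824 (.cut .d (-2097152) (.void 25 ⟨⟨100000, 0, 0, 0, 0, 0, 0, 0, 0, ⟨0, 0⟩, 0⟩, 0, 0⟩ 0 0) (.cut .v 20971520 (.cut .d (-1048576) (.void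 27 ⟨⟨100000, 0, 0, 0, 0, 0, 0, 0, 0, ⟨0, 0⟩, 0⟩, 0, 0⟩ 0 0) (.cut .v 18874368 (.cut .d (-524288) (.void 29 ⟨⟨100000, 0, 0, 0, 0, 0, 0, 0, 0, ⟨0, 0⟩, 0⟩, 0, 0⟩ 0 0) (.cut .v 17825792 (.cut .d (-262144) (.void 31 ⟨⟨100000, 0, 0, 0, 0, 0, 0, 0, 0, ⟨0, 0⟩, 0⟩, 0, 0⟩ 0 0) (.cut .s 15122432 (.cut .v 17301504 (.cut .d (-131072) (.void 33 ⟨⟨100000, 0, 0, 0, 0, 0, 0, 0, 0, ⟨0, 0⟩, 0⟩, 0, 0⟩ 0 0) (.cut .s 15097856 (.cut .v 17039360 (.cut .d (-65536) (.void 35 ⟨⟨100000, 0, 0, 0, 0, 0, 0, 0, 0, ⟨0, 0⟩, 0⟩, 0, 0⟩ 0 0) (.cut .s 15085568 (.cut .v 16908288 (.cut .d (-32768) (.void 37 ⟨⟨100000, 0, 0, 0, 0, 0, 0, 0, 0, ⟨0, 0⟩, 0⟩, 0, 0⟩ 0 0) (.cut .s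 15079424 (.cut .v 16842752 (.cut .d (-16384) (.void 39 ⟨⟨100000, 0, 0, 0, 0, 0, 0, 0, 0, ⟨0, 0⟩, 0⟩, 0, 0⟩ 0 0) (.cut .s 15076352 (.cut .s 15074816 (.pos 39 .mp ⟨⟨1705865234, 0, 0, 0, 0, 1178313810, 0, 0, 0, ⟨0, 0⟩, 0⟩, 0, 0⟩ 0 0) (.pos 39 .mp ⟨⟨1966135151, 0, 0, 0, 0, 710193902, 0, 0, 0, ⟨0, 0⟩, 0⟩, 0, 0⟩ 0 0)) (.pos 39 .mp ⟨⟨2174289930, 0, 0, 0, 0, 360455549, 0, 0, 0, ⟨0, 0⟩, 0⟩, 0, 0⟩ 0 0))) (.pos 40 .mp ⟨⟨2370932817, 0, 0, 0, 0, 0, 0, 0, 0, ⟨0, 0⟩, 0⟩, 0, 0⟩ 0 0)) (.pos 37 .mp ⟨⟨2352297946, 0, 0, 0, 0, 91416636, 0, 0, 0, ⟨0, 0⟩, 0⟩, 0, 0⟩ 0 0))) (.pos 38 .mp ⟨⟨2422300163, 0, 0, 0, 0, 0, 0, 0, 0, ⟨0, 0⟩, 0⟩, 0, 0⟩ 0 0)) (.pos 35 .mp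 ⟨⟨2488722054, 0, 0, 0, 0, 0, 0, 0, 0, ⟨0, 0⟩, 0⟩, 0, 0⟩ 0 0))) (.pos 36 .mp ⟨⟨2543547216, 0, 0, 0, 0, 0, 0, 0, 0, ⟨0, 0⟩, 0⟩, 0, 0⟩ 0 0)) (.pos 33 .mp ⟨⟨2653056077, 0, 0, 0, 0, 0, 0, 0, 0, ⟨0, 0⟩, 0⟩, 0, 0⟩ 0 0))) (.void 34 ⟨⟨100000, 0, 0, 0, 0, 0, 0, 0, 0, ⟨0, 0⟩, 0⟩, 0, 0⟩ 0 0)) (.pos 31 .mp ⟨⟨2904588677, 0, 0, 0, 0, 77773484, 0, 0, 0, ⟨0, 0⟩, 0⟩, 0, 0⟩ 0 0))) (.void 32 ⟨⟨100000, 0, 0, 0, 0, 0, 0, 0, 0, ⟨0, 0⟩, 0⟩, 0, 0⟩ 0 0))) (.void 30 ⟨⟨100000, 0, 0, 0, 0, 0, 0, 0, 0, ⟨0, 0⟩, 0⟩, 0, 0⟩ 0 0))) (.void 28 ⟨⟨100000, 0, 0, 0, 0, 0, 0, 0, 0, ⟨0, 0⟩, 0⟩, 0, 0⟩ 0 0))) (.void 26 ⟨⟨100000, 0, 0, 0, 0, 0, 0, 0, 0, ⟨0, 0⟩, 0⟩, 0, 0⟩ 0 0))))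 (.void 127 ⟨⟨100000, 0, 0, 0, 0, 0, 0, 0, 0, ⟨0, 0⟩, 0⟩, 0, 0⟩ 0 0)) (.void 134 ⟨⟨100000, 0, 0, 0, 0, 0, 0, 0, 0, ⟨0, 0⟩, 0⟩, 0, 0⟩ 0 0)) (.void 141 ⟨⟨94382, 0, 0, 5694, 0, 0, 0, 0, 0, ⟨0, 0⟩, 0⟩, 0, 0⟩ 0 0))) (.cut .v 16777216 (.cut .v 8388608 (.cut .v 4194304 (.cut .v 2097152 (.cut .v 1048576 (.cut .v 524288 (.pos 144 .pm ⟨⟨0, 0, 41604516, 0, 0, 0, 0, 0, 0, ⟨0, 0⟩, 0⟩, 0, 84⟩ 0 0) (.pos 145 .pm ⟨⟨0, 0, 75238853, 0, 0, 0, 0, 0, 0, ⟨0, 0⟩, 0⟩, 0, 139⟩ 0 0)) (.pos 138 .pm ⟨⟨0, 0, 127211098, 0, 0, 0, 0, 0, 0, ⟨0, 0⟩, 0⟩, 0, 270⟩ 0 0)) (.pos 7 .pm ⟨⟨0, 0, 256723498, 0, 0, 0, 0, 0, 0, ⟨0, 0⟩, 0⟩, 0, 510⟩ 0 0)) (.pos 5 .pm ⟨⟨0, 0, 785508605,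 0, 0, 0, 0, 0, 0, ⟨0, 0⟩, 0⟩, 0, 917⟩ 0 0)) (.pos 3 .pm ⟨⟨0, 0, 0, 0, 0, 0, 0, 0, 0, ⟨0, 0⟩, 0⟩, 0, 0⟩ 0 0)) (.cut .v 268435456 (.cut .v 67108864 (.cut .d 948278 (.cut .v 33554432 (.cut .d 474139 (.cut .d 237069 (.cut .v 25165824 (.cut .d 118534 (.cut .v 20971520 (.cut .d 59267 (.cut .v 18874368 (.cut .v 17825792 (.pos 31 .pp ⟨⟨1290743917, 0, 0, 0, 0, 0, 0, 0, 0, ⟨0, 0⟩, 0⟩, 122552120, 0⟩ 0 0) (.pos 32 .pp ⟨⟨2539515566, 0, 0, 0, 0, 0, 0, 0, 0, ⟨0, 0⟩, 0⟩, 0, 0⟩ 0 0)) (.pos 30 .pp ⟨⟨2971808148, 0, 0, 0, 0, 0, 0, 0, 0, ⟨0, 0⟩, 0⟩, 0, 0⟩ 0 0)) (.pos 27 .pp ⟨⟨0, 0, 0, 0, 0, 0, 0, 0, 0, ⟨0, 0⟩, 0⟩, 235517226, 750⟩ 0 0)) (.pos 28 .pp ⟨⟨0,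 0, 0, 0, 0, 0, 0, 0, 0, ⟨0, 0⟩, 0⟩, 402796862, 0⟩ 0 0)) (.pos 25 .pp ⟨⟨0, 0, 0, 0, 0, 0, 0, 0, 0, ⟨0, 0⟩, 0⟩, 223382263, 829⟩ 0 0)) (.pos 26 .pp ⟨⟨0, 0, 0, 0, 0, 0, 0, 0, 0, ⟨0, 0⟩, 0⟩, 507902256, 0⟩ 0 0)) (.pos 24 .pp ⟨⟨0, 0, 0, 0, 0, 0, 0, 0, 0, ⟨0, 0⟩, 0⟩, 221150240, 844⟩ 0 0)) (.pos 24 .pp ⟨⟨0, 0, 0, 0, 0, 0, 0, 0, 0, ⟨0, 0⟩, 0⟩, 0, 2293⟩ 0 0)) (.cut .d 474139 (.cut .d 237069 (.void 127 ⟨⟨0, 0, 0, 0, 0, 0, 0, 0, 0, ⟨0, 0⟩, 0⟩, 100000, 0⟩ 0 0) (.pos 127 .pp ⟨⟨0, 0, 0, 0, 0, 0, 0, 0, 0, ⟨0, 0⟩, 0⟩, 658938384, 0⟩ 0 0)) (.pos 127 .pp ⟨⟨0, 0, 0, 0, 0, 0, 0, 0, 0, ⟨0, 0⟩, 0⟩, 387211245, 0⟩ 0 0))) (.pos 126 .pp ⟨⟨0, 0, 0, 0, 0, 0, 0, 0,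 0, ⟨0, 0⟩, 0⟩, 0, 2293⟩ 0 0)) (.void 134 ⟨⟨0, 0, 0, 49444, 0, 0, 0, 0, 0, ⟨0, 0⟩, 0⟩, 50556, 0⟩ 0 0)) (.void 141 ⟨⟨0, 0, 0, 49331, 0, 0, 0, 0, 0, ⟨0, 0⟩, 0⟩, 49248, 0⟩ 0 0)))),
    by decide +kernel⟩

def covers34 : cell.Covers Vale.Agent.P237.Petty.Cor.Grid.N14.table row34.1 :=
  ⟨(.cut .d 0 (.cut .v 16777216 (.cut .v 8388608 (.void 2 ⟨⟨0, 0, 100000, 0, 0, 0, 0, 0, 0, ⟨0, 0⟩, 0⟩, 0, 0⟩ 0 0) (.cut .d (-8388608) (.void 3 ⟨⟨100000, 0, 0, 0, 0, 0, 0, 0, 0, ⟨0, 0⟩, 0⟩, 0, 0⟩ 0 0) (.cut .d (-4194304) (.void 3 ⟨⟨100000, 0, 0, 0, 0, 0, 0, 0, 0, ⟨0, 0⟩, 0⟩, 0, 0⟩ 0 0) (.pos 3 .mm ⟨⟨0, 0, 0, 0, 0, 10811813190, 0, 0, 0, ⟨0, 0⟩, 0⟩, 0, 0⟩ 0 0))))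 (.cut .v 268435456 (.cut .v 67108864 (.cut .v 33554432 (.cut .d (-8388608) (.void 24 ⟨⟨100094, 0, 0, 0, 0, 0, 0, 0, 0, ⟨0, 0⟩, 0⟩, 0, 0⟩ 0 0) (.cut .d (-4194304) (.void 24 ⟨⟨100000, 0, 0, 0, 0, 0, 0, 0, 0, ⟨0, 0⟩, 0⟩, 0, 0⟩ 0 0) (.cut .v 25165824 (.cut .d (-2097152) (.void 25 ⟨⟨100000, 0, 0, 0, 0, 0, 0, 0, 0, ⟨0, 0⟩, 0⟩, 0, 0⟩ 0 0) (.cut .v 20971520 (.pos 27 .mp ⟨⟨3207889468, 0, 0, 0, 0, 4809507889, 0, 0, 0, ⟨0, 0⟩, 0⟩, 0, 0⟩ 0 0) (.void 28 ⟨⟨100000, 0, 0, 0, 0, 0, 0, 0, 0, ⟨0, 0⟩, 0⟩, 0, 0⟩ 0 0))) (.void 26 ⟨⟨100000, 0, 0, 0, 0, 0, 0, 0, 0, ⟨0, 0⟩, 0⟩, 0, 0⟩ 0 0)))) (.void 127 ⟨⟨100000, 0, 0, 0, 0, 0, 0, 0, 0, ⟨0, 0⟩, 0⟩, 0, 0⟩ 0 0))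 (.void 134 ⟨⟨100001, 0, 0, 0, 0, 0, 0, 0, 0, ⟨0, 0⟩, 0⟩, 0, 0⟩ 0 0)) (.void 141 ⟨⟨94285, 0, 0, 5719, 0, 0, 0, 0, 0, ⟨0, 0⟩, 0⟩, 0, 0⟩ 0 0))) (.cut .v 16777216 (.cut .v 8388608 (.cut .v 4194304 (.cut .v 2097152 (.cut .v 1048576 (.cut .v 524288 (.pos 144 .pm ⟨⟨0, 0, 45570440, 0, 0, 0, 0, 0, 0, ⟨0, 0⟩, 0⟩, 0, 61⟩ 0 0) (.pos 145 .pm ⟨⟨0, 0, 86157893, 0, 0, 0, 0, 0, 0, ⟨0, 0⟩, 0⟩, 0, 237⟩ 0 0)) (.pos 138 .pm ⟨⟨0, 0, 149047149, 0, 0, 0, 0, 0, 0, ⟨0, 0⟩, 0⟩, 0, 455⟩ 0 0)) (.pos 7 .pm ⟨⟨0, 0, 306609589, 0, 0, 0, 0, 0, 0, ⟨0, 0⟩, 0⟩, 0, 905⟩ 0 0)) (.pos 5 .pm ⟨⟨0, 0, 933359654, 0, 0, 0, 0, 0, 0, ⟨0, 0⟩, 0⟩, 0, 1628⟩ 0 0)) (.pos 3 .pm ⟨⟨0, 0,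 0, 0, 0, 0, 0, 0, 0, ⟨0, 0⟩, 0⟩, 0, 0⟩ 0 0)) (.cut .v 268435456 (.cut .v 67108864 (.cut .d 887780 (.cut .v 33554432 (.cut .d 443890 (.cut .d 221945 (.cut .v 25165824 (.cut .d 110972 (.cut .v 20971520 (.cut .d 55486 (.cut .v 18874368 (.cut .s 15220736 (.pos 29 .pp ⟨⟨2513171973, 0, 0, 0, 0, 0, 0, 0, 0, ⟨0, 0⟩, 0⟩, 0, 1907⟩ 0 0) (.pos 29 .pp ⟨⟨2652481838, 0, 0, 0, 0, 0, 0, 0, 0, ⟨0, 0⟩, 0⟩, 0, 1644⟩ 0 0)) (.pos 30 .pp ⟨⟨3325585320, 0, 0, 0, 0, 0, 4686, 0, 0, ⟨0, 0⟩, 0⟩, 0, 0⟩ 0 0)) (.pos 27 .pp ⟨⟨0, 0, 0, 0, 0, 0, 356, 0, 0, ⟨0, 0⟩, 0⟩, 261431070, 2770⟩ 0 0)) (.pos 28 .pp ⟨⟨0, 0, 0, 0, 0, 0, 5186, 0, 0, ⟨0, 0⟩, 0⟩, 449262802, 0⟩ 0 0)) (.pos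 25 .pp ⟨⟨0, 0, 0, 0, 0, 0, 0, 0, 0, ⟨0, 0⟩, 0⟩, 248301536, 3004⟩ 0 0)) (.pos 26 .pp ⟨⟨0, 0, 0, 0, 0, 0, 4912, 0, 0, ⟨0, 0⟩, 0⟩, 566702401, 0⟩ 0 0)) (.pos 24 .pp ⟨⟨0, 0, 0, 0, 0, 0, 0, 0, 0, ⟨0, 0⟩, 0⟩, 246545478, 3012⟩ 0 0)) (.pos 24 .pp ⟨⟨0, 0, 0, 0, 0, 0, 0, 0, 0, ⟨0, 0⟩, 0⟩, 0, 4071⟩ 0 0)) (.cut .d 443890 (.cut .d 221945 (.void 127 ⟨⟨0, 0, 0, 0, 0, 0, 0, 0, 0, ⟨0, 0⟩, 0⟩, 100000, 0⟩ 0 0) (.pos 127 .pp ⟨⟨0, 0, 0, 0, 0, 0, 3591, 0, 0, ⟨0, 0⟩, 0⟩, 738915541, 0⟩ 0 0)) (.pos 127 .pp ⟨⟨0, 0, 0, 0, 0, 0, 8724, 0, 0, ⟨0, 0⟩, 0⟩, 440079461, 0⟩ 0 0))) (.pos 126 .pp ⟨⟨0, 0, 0, 0, 0, 0, 0, 0, 0, ⟨0, 0⟩, 0⟩, 0, 4071⟩ 0 0)) (.void 134 ⟨⟨0, 0, 0,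 49582, 0, 0, 0, 0, 0, ⟨0, 0⟩, 0⟩, 50418, 0⟩ 0 0)) (.void 141 ⟨⟨0, 0, 0, 44970, 0, 0, 0, 0, 0, ⟨0, 0⟩, 0⟩, 44700, 0⟩ 0 0)))),
    by decide +kernel⟩

def covers35 : cell.Covers Vale.Agent.P237.Petty.Cor.Grid.N14.table row35.1 :=
  ⟨(.cut .d 0 (.cut .v 16777216 (.cut .v 8388608 (.void 2 ⟨⟨0, 0, 100000, 0, 0, 0, 0, 0, 0, ⟨0, 0⟩, 0⟩, 0, 0⟩ 0 0) (.cut .d (-8388608) (.void 3 ⟨⟨100000, 0, 0, 0, 0, 0, 0, 0, 0, ⟨0, 0⟩, 0⟩, 0, 0⟩ 0 0) (.cut .d (-4194304) (.void 3 ⟨⟨100000, 0, 0, 0, 0, 0, 0, 0, 0, ⟨0, 0⟩, 0⟩, 0, 0⟩ 0 0) (.pos 3 .mm ⟨⟨0, 0, 0, 0, 0, 12847194767, 0, 0, 0, ⟨0, 0⟩, 0⟩, 0, 0⟩ 0 0)))) (.cut .v 268435456 (.cut .v 67108864 (.cut .v 33554432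 (.cut .d (-8388608) (.void 24 ⟨⟨100017, 0, 0, 0, 0, 0, 0, 0, 0, ⟨0, 0⟩, 0⟩, 0, 0⟩ 0 0) (.cut .d (-4194304) (.void 24 ⟨⟨100000, 0, 0, 0, 0, 0, 0, 0, 0, ⟨0, 0⟩, 0⟩, 0, 0⟩ 0 0) (.cut .v 25165824 (.cut .d (-2097152) (.void 25 ⟨⟨100000, 0, 0, 0, 0, 0, 0, 0, 0, ⟨0, 0⟩, 0⟩, 0, 0⟩ 0 0) (.cut .v 20971520 (.pos 27 .mp ⟨⟨3726097242, 0, 0, 0, 0, 5734990799, 0, 0, 0, ⟨0, 0⟩, 0⟩, 0, 0⟩ 0 0) (.void 28 ⟨⟨100000, 0, 0, 0, 0, 0, 0, 0, 0, ⟨0, 0⟩, 0⟩, 0, 0⟩ 0 0))) (.void 26 ⟨⟨100000, 0, 0, 0, 0, 0, 0, 0, 0, ⟨0, 0⟩, 0⟩, 0, 0⟩ 0 0)))) (.void 127 ⟨⟨100000, 0, 0, 0, 0, 0, 0, 0, 0, ⟨0, 0⟩, 0⟩, 0, 0⟩ 0 0)) (.void 134 ⟨⟨99738, 0, 0, 0, 0, 0, 0, 0, 0, ⟨0, 0⟩, 0⟩,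 0, 0⟩ 0 0)) (.void 141 ⟨⟨94200, 0, 0, 5768, 0, 0, 0, 0, 0, ⟨0, 0⟩, 0⟩, 0, 0⟩ 0 0))) (.cut .v 16777216 (.cut .v 8388608 (.cut .v 4194304 (.cut .v 2097152 (.cut .v 1048576 (.cut .v 524288 (.pos 144 .pm ⟨⟨0, 0, 51733465, 0, 0, 0, 0, 0, 0, ⟨0, 0⟩, 0⟩, 0, 38⟩ 0 0) (.pos 145 .pm ⟨⟨0, 0, 102043796, 0, 0, 0, 0, 0, 0, ⟨0, 0⟩, 0⟩, 0, 148⟩ 0 0)) (.pos 138 .pm ⟨⟨0, 0, 179504577, 0, 0, 0, 0, 0, 0, ⟨0, 0⟩, 0⟩, 0, 285⟩ 0 0)) (.pos 7 .pm ⟨⟨0, 0, 372110551, 0, 0, 0, 0, 0, 0, ⟨0, 0⟩, 0⟩, 0, 656⟩ 0 0)) (.pos 5 .pm ⟨⟨0, 0, 1114615473, 0, 0, 0, 0, 0, 0, ⟨0, 0⟩, 0⟩, 0, 1180⟩ 0 0)) (.pos 3 .pm ⟨⟨0, 0, 0, 0, 0, 0, 0, 0, 0, ⟨0, 0⟩, 0⟩, 0, 0⟩ 0 0)) (.cut .v 268435456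 (.cut .v 67108864 (.cut .d 828061 (.cut .v 33554432 (.cut .d 414030 (.cut .d 207015 (.cut .v 25165824 (.cut .d 103507 (.cut .v 20971520 (.cut .d 51753 (.cut .v 18874368 (.cut .v 17825792 (.pos 31 .pp ⟨⟨2813346833, 0, 0, 0, 0, 0, 0, 0, 0, ⟨0, 0⟩, 0⟩, 0, 1156⟩ 0 0) (.pos 32 .pp ⟨⟨3212471837, 0, 0, 0, 0, 0, 0, 0, 0, ⟨0, 0⟩, 0⟩, 0, 1312⟩ 0 0)) (.pos 30 .pp ⟨⟨3823251823, 0, 0, 0, 0, 0, 3014, 0, 0, ⟨0, 0⟩, 0⟩, 0, 0⟩ 0 0)) (.pos 27 .pp ⟨⟨0, 0, 0, 0, 0, 0, 2572, 0, 0, ⟨0, 0⟩, 0⟩, 291784555, 868⟩ 0 0)) (.pos 28 .pp ⟨⟨0, 0, 0, 0, 0, 0, 3354, 0, 0, ⟨0, 0⟩, 0⟩, 516785159, 0⟩ 0 0)) (.pos 25 .pp ⟨⟨0, 0, 0, 0, 0, 0, 0, 0, 0, ⟨0, 0⟩, 0⟩, 277570386,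 2193⟩ 0 0)) (.pos 26 .pp ⟨⟨0, 0, 0, 0, 0, 0, 3510, 0, 0, ⟨0, 0⟩, 0⟩, 652360023, 0⟩ 0 0)) (.pos 24 .pp ⟨⟨0, 0, 0, 0, 0, 0, 0, 0, 0, ⟨0, 0⟩, 0⟩, 276543332, 2196⟩ 0 0)) (.pos 24 .pp ⟨⟨0, 0, 0, 0, 0, 0, 0, 0, 0, ⟨0, 0⟩, 0⟩, 0, 2951⟩ 0 0)) (.cut .d 414030 (.cut .d 207015 (.void 127 ⟨⟨0, 0, 0, 0, 0, 0, 0, 0, 0, ⟨0, 0⟩, 0⟩, 100000, 0⟩ 0 0) (.pos 127 .pp ⟨⟨0, 0, 0, 0, 0, 0, 2480, 0, 0, ⟨0, 0⟩, 0⟩, 853774022, 0⟩ 0 0)) (.pos 127 .pp ⟨⟨0, 0, 0, 0, 0, 0, 6293, 0, 0, ⟨0, 0⟩, 0⟩, 504598235, 0⟩ 0 0))) (.pos 126 .pp ⟨⟨0, 0, 0, 0, 0, 0, 0, 0, 0, ⟨0, 0⟩, 0⟩, 0, 2951⟩ 0 0)) (.void 134 ⟨⟨0, 0, 0, 49764, 0, 0, 0, 0, 0, ⟨0, 0⟩, 0⟩, 50236, 0⟩ 0 0)) (.void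 141 ⟨⟨0, 0, 0, 48995, 0, 0, 0, 0, 0, ⟨0, 0⟩, 0⟩, 69586, 0⟩ 0 0)))),
    by decide +kernel⟩

def covers36 : cell.Covers Vale.Agent.P237.Petty.Cor.Grid.N14.table row36.1 :=
  ⟨(.cut .d 0 (.cut .v 16777216 (.cut .v 8388608 (.void 2 ⟨⟨0, 0, 100000, 0, 0, 0, 0, 0, 0, ⟨0, 0⟩, 0⟩, 0, 0⟩ 0 0) (.cut .d (-8388608) (.void 3 ⟨⟨100000, 0, 0, 0, 0, 0, 0, 0, 0, ⟨0, 0⟩, 0⟩, 0, 0⟩ 0 0) (.cut .d (-4194304) (.void 3 ⟨⟨100000, 0, 0, 0, 0, 0, 0, 0, 0, ⟨0, 0⟩, 0⟩, 0, 0⟩ 0 0) (.pos 3 .mm ⟨⟨0, 0, 0, 0, 0, 15425482143, 0, 0, 0, ⟨0, 0⟩, 0⟩, 0, 0⟩ 0 0)))) (.cut .v 268435456 (.cut .v 67108864 (.cut .v 33554432 (.cut .d (-8388608) (.void 24 ⟨⟨100343, 0, 0, 0, 0,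 0, 0, 0, 0, ⟨0, 0⟩, 0⟩, 0, 0⟩ 0 0) (.cut .d (-4194304) (.void 24 ⟨⟨100000, 0, 0, 0, 0, 0, 0, 0, 0, ⟨0, 0⟩, 0⟩, 0, 0⟩ 0 0) (.cut .v 25165824 (.cut .d (-2097152) (.void 25 ⟨⟨100000, 0, 0, 0, 0, 0, 0, 0, 0, ⟨0, 0⟩, 0⟩, 0, 0⟩ 0 0) (.cut .v 20971520 (.pos 27 .mp ⟨⟨4412508206, 0, 0, 0, 0, 6852620565, 0, 0, 0, ⟨0, 0⟩, 0⟩, 0, 0⟩ 0 0) (.void 28 ⟨⟨100000, 0, 0, 0, 0, 0, 0, 0, 0, ⟨0, 0⟩, 0⟩, 0, 0⟩ 0 0))) (.void 26 ⟨⟨100000, 0, 0, 0, 0, 0, 0, 0, 0, ⟨0, 0⟩, 0⟩, 0, 0⟩ 0 0)))) (.void 127 ⟨⟨100000, 0, 0, 0, 0, 0, 0, 0, 0, ⟨0, 0⟩, 0⟩, 0, 0⟩ 0 0)) (.void 134 ⟨⟨100051, 0, 0, 0, 0, 0, 0, 0, 0, ⟨0, 0⟩, 0⟩, 0, 0⟩ 0 0)) (.void 141 ⟨⟨93945, 0, 0, 5810, 0, 0,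 0, 0, 0, ⟨0, 0⟩, 0⟩, 0, 0⟩ 0 0))) (.cut .v 16777216 (.cut .v 8388608 (.cut .v 4194304 (.cut .v 2097152 (.cut .v 1048576 (.pos 137 .pm ⟨⟨0, 0, 97442929, 0, 0, 0, 0, 0, 0, ⟨0, 0⟩, 0⟩, 0, 57⟩ 0 0) (.pos 138 .pm ⟨⟨0, 0, 227642254, 0, 0, 0, 0, 0, 0, ⟨0, 0⟩, 0⟩, 0, 170⟩ 0 0)) (.pos 7 .pm ⟨⟨0, 0, 481104897, 0, 0, 0, 0, 0, 0, ⟨0, 0⟩, 0⟩, 0, 411⟩ 0 0)) (.pos 5 .pm ⟨⟨0, 0, 1425319646, 0, 0, 0, 0, 0, 0, ⟨0, 0⟩, 0⟩, 0, 740⟩ 0 0)) (.pos 3 .pm ⟨⟨0, 0, 0, 0, 0, 0, 0, 0, 0, ⟨0, 0⟩, 0⟩, 0, 0⟩ 0 0)) (.cut .v 268435456 (.cut .v 67108864 (.cut .d 749621 (.cut .v 33554432 (.cut .d 374810 (.cut .d 187405 (.cut .v 25165824 (.cut .d 93702 (.cut .v 20971520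 (.cut .d 46851 (.cut .v 18874368 (.cut .v 17825792 (.pos 31 .pp ⟨⟨3291353557, 0, 0, 0, 0, 0, 0, 0, 0, ⟨0, 0⟩, 0⟩, 0, 718⟩ 0 0) (.pos 32 .pp ⟨⟨3765497204, 0, 0, 0, 0, 0, 0, 0, 0, ⟨0, 0⟩, 0⟩, 0, 795⟩ 0 0)) (.pos 30 .pp ⟨⟨4494006850, 0, 0, 0, 0, 0, 1828, 0, 0, ⟨0, 0⟩, 0⟩, 0, 0⟩ 0 0)) (.pos 27 .pp ⟨⟨0, 0, 0, 0, 0, 0, 2513, 0, 0, ⟨0, 0⟩, 0⟩, 341133678, 108⟩ 0 0)) (.pos 28 .pp ⟨⟨0, 0, 0, 0, 0, 0, 2043, 0, 0, ⟨0, 0⟩, 0⟩, 607633472, 0⟩ 0 0)) (.pos 25 .pp ⟨⟨0, 0, 0, 0, 0, 0, 0, 0, 0, ⟨0, 0⟩, 0⟩, 325288337, 1387⟩ 0 0)) (.pos 26 .pp ⟨⟨0, 0, 0, 0, 0, 0, 2281, 0, 0, ⟨0, 0⟩, 0⟩, 766550008, 0⟩ 0 0)) (.pos 24 .pp ⟨⟨0, 0, 0, 0, 0, 0, 0, 0, 0, ⟨0, 0⟩,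 0⟩, 325727326, 1387⟩ 0 0)) (.pos 24 .pp ⟨⟨0, 0, 0, 0, 0, 0, 0, 0, 0, ⟨0, 0⟩, 0⟩, 0, 1850⟩ 0 0)) (.cut .d 374810 (.cut .d 187405 (.void 127 ⟨⟨0, 0, 0, 0, 0, 0, 0, 0, 0, ⟨0, 0⟩, 0⟩, 100000, 0⟩ 0 0) (.pos 127 .pp ⟨⟨0, 0, 0, 0, 0, 0, 1641, 0, 0, ⟨0, 0⟩, 0⟩, 1012843720, 0⟩ 0 0)) (.pos 127 .pp ⟨⟨0, 0, 0, 0, 0, 0, 3929, 0, 0, ⟨0, 0⟩, 0⟩, 610370242, 0⟩ 0 0))) (.pos 126 .pp ⟨⟨0, 0, 0, 0, 0, 0, 0, 0, 0, ⟨0, 0⟩, 0⟩, 0, 1850⟩ 0 0)) (.void 134 ⟨⟨0, 0, 0, 49945, 0, 0, 0, 0, 0, ⟨0, 0⟩, 0⟩, 50055, 0⟩ 0 0)) (.void 141 ⟨⟨0, 0, 0, 0, 0, 0, 0, 0, 0, ⟨0, 0⟩, 0⟩, 100000, 0⟩ 0 0)))),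
    by decide +kernel⟩

def covers37 : cell.Covers Vale.Agent.P237.Petty.Cor.Grid.N14.table row37.1 :=
  ⟨(.cut .d 0 (.cut .v 16777216 (.cut .v 8388608 (.void 2 ⟨⟨0, 0, 100000, 0, 0, 0, 0, 0, 0, ⟨0, 0⟩, 0⟩, 0, 0⟩ 0 0) (.cut .d (-8388608) (.void 3 ⟨⟨99964, 0, 0, 0, 0, 0, 0, 0, 0, ⟨0, 0⟩, 0⟩, 0, 0⟩ 0 0) (.cut .d (-4194304) (.void 3 ⟨⟨100000, 0, 0, 0, 0, 0, 0, 0, 0, ⟨0, 0⟩, 0⟩, 0, 0⟩ 0 0) (.cut .d (-2097152) (.void 3 ⟨⟨100000, 0, 0, 0, 0, 0, 0, 0, 0, ⟨0, 0⟩, 0⟩, 0, 0⟩ 0 0) (.pos 3 .mm ⟨⟨0, 0, 0, 0, 0, 16640518035, 0, 0, 0, ⟨0, 0⟩, 0⟩, 0, 0⟩ 0 0))))) (.cut .v 268435456 (.cut .v 67108864 (.cut .v 33554432 (.cut .d (-8388608) (.void 24 ⟨⟨100095,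 0, 0, 0, 0, 0, 0, 0, 0, ⟨0, 0⟩, 0⟩, 0, 0⟩ 0 0) (.cut .d (-4194304) (.void 24 ⟨⟨100000, 0, 0, 0, 0, 0, 0, 0, 0, ⟨0, 0⟩, 0⟩, 0, 0⟩ 0 0) (.cut .v 25165824 (.cut .d (-2097152) (.void 25 ⟨⟨100000, 0, 0, 0, 0, 0, 0, 0, 0, ⟨0, 0⟩, 0⟩, 0, 0⟩ 0 0) (.cut .v 20971520 (.cut .d (-1048576) (.void 27 ⟨⟨100000, 0, 0, 0, 0, 0, 0, 0, 0, ⟨0, 0⟩, 0⟩, 0, 0⟩ 0 0) (.pos 27 .mp ⟨⟨6345050569, 0, 0, 0, 0, 5828437946, 0, 0, 0, ⟨0, 0⟩, 0⟩, 0, 0⟩ 0 0)) (.void 28 ⟨⟨100000, 0, 0, 0, 0, 0, 0, 0, 0, ⟨0, 0⟩, 0⟩, 0, 0⟩ 0 0))) (.void 26 ⟨⟨100000, 0, 0, 0, 0, 0, 0, 0, 0, ⟨0, 0⟩, 0⟩, 0, 0⟩ 0 0)))) (.void 127 ⟨⟨100000, 0, 0, 0, 0, 0, 0, 0, 0, ⟨0, 0⟩, 0⟩, 0, 0⟩ 0 0)) (.void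 134 ⟨⟨100042, 0, 0, 0, 0, 0, 0, 0, 0, ⟨0, 0⟩, 0⟩, 0, 0⟩ 0 0)) (.void 141 ⟨⟨94100, 0, 0, 5900, 0, 0, 0, 0, 0, ⟨0, 0⟩, 0⟩, 0, 0⟩ 0 0))) (.cut .v 16777216 (.cut .v 8388608 (.cut .v 4194304 (.cut .v 2097152 (.cut .v 1048576 (.pos 137 .pm ⟨⟨0, 0, 137737621, 0, 0, 0, 0, 0, 0, ⟨0, 0⟩, 0⟩, 0, 27⟩ 0 0) (.pos 138 .pm ⟨⟨0, 0, 319494683, 0, 0, 0, 0, 0, 0, ⟨0, 0⟩, 0⟩, 0, 52⟩ 0 0)) (.pos 7 .pm ⟨⟨0, 0, 659461040, 0, 0, 0, 0, 0, 0, ⟨0, 0⟩, 0⟩, 0, 136⟩ 0 0)) (.pos 5 .pm ⟨⟨0, 0, 1836614497, 0, 0, 0, 0, 0, 0, ⟨0, 0⟩, 0⟩, 0, 406⟩ 0 0)) (.pos 3 .pm ⟨⟨0, 0, 0, 0, 0, 0, 0, 0, 0, ⟨0, 0⟩, 0⟩, 0, 0⟩ 0 0)) (.cut .v 268435456 (.cut .v 67108864 (.cut .d 672505 (.cut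 .v 33554432 (.cut .d 336252 (.cut .d 168126 (.cut .v 25165824 (.cut .d 84063 (.cut .v 20971520 (.cut .d 42031 (.cut .v 18874368 (.cut .d 21015 (.cut .v 17825792 (.cut .s 15654912 (.pos 31 .pp ⟨⟨3881610500, 0, 0, 0, 0, 0, 0, 0, 0, ⟨0, 0⟩, 0⟩, 0, 416⟩ 0 0) (.pos 31 .pp ⟨⟨4646070886, 0, 0, 0, 0, 0, 0, 0, 0, ⟨0, 0⟩, 0⟩, 0, 237⟩ 0 0)) (.pos 32 .pp ⟨⟨5313985080, 0, 0, 0, 0, 0, 0, 0, 0, ⟨0, 0⟩, 0⟩, 0, 254⟩ 0 0)) (.pos 29 .pp ⟨⟨3101229463, 0, 0, 0, 0, 0, 0, 0, 0, ⟨0, 0⟩, 0⟩, 0, 395⟩ 0 0)) (.cut .d 21015 (.pos 30 .pp ⟨⟨7354213653, 0, 0, 0, 0, 0, 0, 0, 0, ⟨0, 0⟩, 0⟩, 0, 213⟩ 0 0) (.pos 30 .pp ⟨⟨5329816593, 0, 0, 0, 0, 0, 627, 0, 0, ⟨0, 0⟩, 0⟩,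 0, 0⟩ 0 0))) (.pos 27 .pp ⟨⟨0, 0, 0, 0, 0, 0, 1208, 0, 0, ⟨0, 0⟩, 0⟩, 404550024, 0⟩ 0 0)) (.cut .d 42031 (.pos 28 .pp ⟨⟨0, 0, 0, 0, 0, 0, 478, 0, 0, ⟨0, 0⟩, 0⟩, 1064555457, 0⟩ 0 0) (.pos 28 .pp ⟨⟨0, 0, 0, 0, 0, 0, 737, 0, 0, ⟨0, 0⟩, 0⟩, 672127334, 0⟩ 0 0))) (.pos 25 .pp ⟨⟨0, 0, 0, 0, 0, 0, 0, 0, 0, ⟨0, 0⟩, 0⟩, 386978694, 785⟩ 0 0)) (.cut .d 84063 (.pos 26 .pp ⟨⟨0, 0, 0, 0, 0, 0, 529, 0, 0, ⟨0, 0⟩, 0⟩, 1171046611, 0⟩ 0 0) (.pos 26 .pp ⟨⟨0, 0, 0, 0, 0, 0, 907, 0, 0, ⟨0, 0⟩, 0⟩, 807065476, 0⟩ 0 0))) (.pos 24 .pp ⟨⟨0, 0, 0, 0, 0, 0, 0, 0, 0, ⟨0, 0⟩, 0⟩, 389997180, 783⟩ 0 0)) (.pos 24 .pp ⟨⟨0, 0, 0, 0, 0, 0, 0, 0, 0, ⟨0, 0⟩, 0⟩, 0, 1289⟩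 0 0)) (.cut .d 336252 (.cut .v 50331648 (.pos 128 .pp ⟨⟨0, 0, 0, 0, 0, 0, 255, 0, 0, ⟨0, 0⟩, 0⟩, 1491954103, 0⟩ 0 0) (.void 129 ⟨⟨0, 0, 0, 0, 0, 0, 0, 0, 0, ⟨0, 0⟩, 0⟩, 100000, 0⟩ 0 0)) (.pos 127 .pp ⟨⟨0, 0, 0, 0, 0, 0, 2133, 0, 0, ⟨0, 0⟩, 0⟩, 772797733, 0⟩ 0 0))) (.pos 126 .pp ⟨⟨0, 0, 0, 0, 0, 0, 0, 0, 0, ⟨0, 0⟩, 0⟩, 0, 1038⟩ 0 0)) (.void 134 ⟨⟨0, 0, 0, 50281, 0, 0, 0, 0, 0, ⟨0, 0⟩, 0⟩, 49719, 0⟩ 0 0)) (.void 141 ⟨⟨0, 0, 0, 0, 0, 0, 0, 0, 0, ⟨0, 0⟩, 0⟩, 100000, 0⟩ 0 0)))),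
    by decide +kernel⟩

def covers38 : cell.Covers Vale.Agent.P237.Petty.Cor.Grid.N14.table row38.1 :=
  ⟨(.cut .d 0 (.cut .v 16777216 (.cut .v 8388608 (.pos 2 .mm ⟨⟨0, 0, 1677721600000000, 0, 0, 0, 0, 0, 0, ⟨0, 0⟩, 0⟩, 0, 0⟩ 0 0) (.cut .d (-8388608) (.void 3 ⟨⟨100000, 0, 0, 0, 0, 0, 0, 0, 0, ⟨0, 0⟩, 0⟩, 0, 0⟩ 0 0) (.cut .d (-4194304) (.void 3 ⟨⟨100000, 0, 0, 0, 0, 0, 0, 0, 0, ⟨0, 0⟩, 0⟩, 0, 0⟩ 0 0) (.pos 3 .mm ⟨⟨0, 0, 0, 0, 0, 32240359139, 0, 0, 0, ⟨0, 0⟩, 0⟩, 0, 0⟩ 0 0)))) (.cut .v 268435456 (.cut .v 67108864 (.cut .v 33554432 (.cut .d (-8388608) (.void 24 ⟨⟨100000, 0, 0, 0, 0, 0, 0, 0, 0, ⟨0, 0⟩, 0⟩, 0, 0⟩ 0 0) (.cut .d (-4194304)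 (.void 24 ⟨⟨100000, 0, 0, 0, 0, 0, 0, 0, 0, ⟨0, 0⟩, 0⟩, 0, 0⟩ 0 0) (.cut .v 25165824 (.cut .d (-2097152) (.void 25 ⟨⟨100000, 0, 0, 0, 0, 0, 0, 0, 0, ⟨0, 0⟩, 0⟩, 0, 0⟩ 0 0) (.cut .v 20971520 (.pos 27 .mp ⟨⟨8909309807, 0, 0, 0, 0, 14188552527, 0, 0, 0, ⟨0, 0⟩, 0⟩, 0, 0⟩ 0 0) (.void 28 ⟨⟨100000, 0, 0, 0, 0, 0, 0, 0, 0, ⟨0, 0⟩, 0⟩, 0, 0⟩ 0 0))) (.void 26 ⟨⟨100000, 0, 0, 0, 0, 0, 0, 0, 0, ⟨0, 0⟩, 0⟩, 0, 0⟩ 0 0)))) (.void 127 ⟨⟨100000, 0, 0, 0, 0, 0, 0, 0, 0, ⟨0, 0⟩, 0⟩, 0, 0⟩ 0 0)) (.void 134 ⟨⟨100000, 0, 0, 0, 0, 0, 0, 0, 0, ⟨0, 0⟩, 0⟩, 0, 0⟩ 0 0)) (.pos 141 .mp ⟨⟨1577682383921156, 0, 0, 100039216080674, 0, 0, 0, 0, 0, ⟨0, 0⟩, 0⟩, 0, 0⟩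 0 0))) (.cut .v 16777216 (.cut .v 8388608 (.cut .v 4194304 (.cut .v 2097152 (.cut .v 1048576 (.cut .d 531367 (.void 137 ⟨⟨0, 0, 100000, 0, 0, 0, 0, 0, 0, ⟨0, 0⟩, 0⟩, 0, 0⟩ 0 0) (.pos 137 .pm ⟨⟨0, 0, 103160584, 0, 0, 0, 0, 0, 0, ⟨0, 0⟩, 0⟩, 0, 0⟩ 0 0)) (.pos 138 .pm ⟨⟨0, 0, 532040292, 0, 0, 0, 0, 0, 0, ⟨0, 0⟩, 0⟩, 0, 16⟩ 0 0)) (.pos 7 .pm ⟨⟨0, 0, 1135848384, 0, 0, 0, 0, 0, 0, ⟨0, 0⟩, 0⟩, 0, 41⟩ 0 0)) (.pos 5 .pm ⟨⟨0, 0, 3107398518, 0, 0, 0, 0, 0, 0, ⟨0, 0⟩, 0⟩, 0, 106⟩ 0 0)) (.pos 3 .pm ⟨⟨0, 0, 0, 0, 0, 0, 0, 0, 0, ⟨0, 0⟩, 0⟩, 0, 0⟩ 0 0)) (.cut .v 268435456 (.cut .v 67108864 (.cut .d 531367 (.cut .v 33554432 (.cut .d 265683 (.cut .d 132841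 (.cut .v 25165824 (.cut .d 66420 (.cut .v 20971520 (.cut .d 33210 (.cut .v 18874368 (.cut .d 16605 (.cut .v 17825792 (.cut .s 15876096 (.pos 31 .pp ⟨⟨5551767951, 0, 0, 0, 0, 0, 0, 0, 0, ⟨0, 0⟩, 0⟩, 0, 132⟩ 0 0) (.pos 31 .pp ⟨⟨6626186043, 0, 0, 0, 0, 0, 0, 0, 0, ⟨0, 0⟩, 0⟩, 0, 74⟩ 0 0)) (.pos 32 .pp ⟨⟨7562435664, 0, 0, 0, 0, 0, 0, 0, 0, ⟨0, 0⟩, 0⟩, 0, 79⟩ 0 0)) (.pos 29 .pp ⟨⟨4463077941, 0, 0, 0, 0, 0, 0, 0, 0, ⟨0, 0⟩, 0⟩, 0, 119⟩ 0 0)) (.cut .d 16605 (.pos 30 .pp ⟨⟨10427104904, 0, 0, 0, 0, 0, 0, 0, 0, ⟨0, 0⟩, 0⟩, 0, 68⟩ 0 0) (.pos 30 .pp ⟨⟨7622413129, 0, 0, 0, 0, 0, 195, 0, 0, ⟨0, 0⟩, 0⟩, 0, 0⟩ 0 0))) (.pos 27 .pp ⟨⟨0, 0, 0, 0, 0, 0,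 356, 0, 0, ⟨0, 0⟩, 0⟩, 583710564, 0⟩ 0 0)) (.cut .d 33210 (.pos 28 .pp ⟨⟨0, 0, 0, 0, 0, 0, 153, 0, 0, ⟨0, 0⟩, 0⟩, 1509130160, 0⟩ 0 0) (.pos 28 .pp ⟨⟨0, 0, 0, 0, 0, 0, 229, 0, 0, ⟨0, 0⟩, 0⟩, 964799561, 0⟩ 0 0))) (.pos 25 .pp ⟨⟨0, 0, 0, 0, 0, 0, 0, 0, 0, ⟨0, 0⟩, 0⟩, 561501336, 249⟩ 0 0)) (.cut .d 66420 (.pos 26 .pp ⟨⟨0, 0, 0, 0, 0, 0, 171, 0, 0, ⟨0, 0⟩, 0⟩, 1657842560, 0⟩ 0 0) (.pos 26 .pp ⟨⟨0, 0, 0, 0, 0, 0, 283, 0, 0, ⟨0, 0⟩, 0⟩, 1163398541, 0⟩ 0 0))) (.pos 24 .pp ⟨⟨0, 0, 0, 0, 0, 0, 0, 0, 0, ⟨0, 0⟩, 0⟩, 572467047, 248⟩ 0 0)) (.pos 24 .pp ⟨⟨0, 0, 0, 0, 0, 0, 0, 0, 0, ⟨0, 0⟩, 0⟩, 0, 432⟩ 0 0)) (.cut .d 265683 (.cut .v 50331648 (.pos 128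 .pp ⟨⟨0, 0, 0, 0, 0, 0, 173, 0, 0, ⟨0, 0⟩, 0⟩, 2111667714, 0⟩ 0 0) (.void 129 ⟨⟨0, 0, 0, 0, 0, 0, 0, 0, 0, ⟨0, 0⟩, 0⟩, 100000, 0⟩ 0 0)) (.pos 127 .pp ⟨⟨0, 0, 0, 0, 0, 0, 662, 0, 0, ⟨0, 0⟩, 0⟩, 1191597531, 0⟩ 0 0))) (.pos 126 .pp ⟨⟨0, 0, 0, 0, 0, 0, 0, 0, 0, ⟨0, 0⟩, 0⟩, 0, 324⟩ 0 0)) (.void 134 ⟨⟨0, 0, 0, 50548, 0, 0, 0, 0, 0, ⟨0, 0⟩, 0⟩, 49452, 0⟩ 0 0)) (.void 141 ⟨⟨0, 0, 0, 0, 0, 0, 0, 0, 0, ⟨0, 0⟩, 0⟩, 100000, 0⟩ 0 0)))),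
    by decide +kernel⟩

def covers39 : cell.Covers Vale.Agent.P237.Petty.Cor.Grid.N14.table row39.1 :=
  ⟨(.cut .d 0 (.cut .v 16777216 (.cut .v 8388608 (.pos 2 .mm ⟨⟨0, 0, 1677721600000000, 0, 0, 0, 0, 0, 0, ⟨0, 0⟩, 0⟩, 0, 0⟩ 0 0) (.cut .d (-8388608) (.void 3 ⟨⟨100111, 0, 0, 0, 0, 0, 0, 0, 0, ⟨0, 0⟩, 0⟩, 0, 0⟩ 0 0) (.cut .d (-4194304) (.void 3 ⟨⟨100000, 0, 0, 0, 0, 0, 0, 0, 0, ⟨0, 0⟩, 0⟩, 0, 0⟩ 0 0) (.pos 3 .mm ⟨⟨0, 0, 0, 0, 0, 45877471420, 0, 0, 0, ⟨0, 0⟩, 0⟩, 0, 0⟩ 0 0)))) (.cut .v 268435456 (.cut .v 67108864 (.cut .v 33554432 (.cut .d (-8388608) (.void 24 ⟨⟨100002, 0, 0, 0, 0, 0, 0, 0, 0, ⟨0, 0⟩, 0⟩, 0, 0⟩ 0 0) (.cut .d (-4194304)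 (.void 24 ⟨⟨100000, 0, 0, 0, 0, 0, 0, 0, 0, ⟨0, 0⟩, 0⟩, 0, 0⟩ 0 0) (.cut .v 25165824 (.cut .d (-2097152) (.void 25 ⟨⟨100000, 0, 0, 0, 0, 0, 0, 0, 0, ⟨0, 0⟩, 0⟩, 0, 0⟩ 0 0) (.cut .v 20971520 (.pos 27 .mp ⟨⟨12959117671, 0, 0, 0, 0, 19585671833, 0, 0, 0, ⟨0, 0⟩, 0⟩, 0, 0⟩ 0 0) (.void 28 ⟨⟨100000, 0, 0, 0, 0, 0, 0, 0, 0, ⟨0, 0⟩, 0⟩, 0, 0⟩ 0 0))) (.void 26 ⟨⟨100000, 0, 0, 0, 0, 0, 0, 0, 0, ⟨0, 0⟩, 0⟩, 0, 0⟩ 0 0)))) (.void 127 ⟨⟨100000, 0, 0, 0, 0, 0, 0, 0, 0, ⟨0, 0⟩, 0⟩, 0, 0⟩ 0 0)) (.void 134 ⟨⟨100000, 0, 0, 0, 0, 0, 0, 0, 0, ⟨0, 0⟩, 0⟩, 0, 0⟩ 0 0)) (.void 141 ⟨⟨301386, 0, 0, 5603, 0, 0, 0, 0, 0, ⟨0, 0⟩, 0⟩, 0, 0⟩ 0 0))) (.cut .v 16777216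 (.cut .v 8388608 (.cut .v 4194304 (.cut .v 2097152 (.cut .d 421582 (.pos 6 .pm ⟨⟨0, 0, 1677721599999994, 0, 0, 0, 0, 0, 0, ⟨0, 0⟩, 0⟩, 0, 7⟩ 0 0) (.cut .d 632373 (.pos 6 .pm ⟨⟨0, 0, 1823580945, 0, 0, 0, 0, 0, 0, ⟨0, 0⟩, 0⟩, 0, 0⟩ 0 0) (.pos 6 .pm ⟨⟨0, 0, 81642363, 0, 0, 0, 0, 0, 0, ⟨0, 0⟩, 0⟩, 0, 0⟩ 0 0))) (.pos 7 .pm ⟨⟨0, 0, 1862306716, 0, 0, 0, 0, 0, 0, ⟨0, 0⟩, 0⟩, 0, 12⟩ 0 0)) (.pos 5 .pm ⟨⟨0, 0, 5005525970, 0, 0, 0, 0, 0, 0, ⟨0, 0⟩, 0⟩, 0, 26⟩ 0 0)) (.pos 3 .pm ⟨⟨0, 0, 0, 0, 0, 0, 0, 0, 0, ⟨0, 0⟩, 0⟩, 0, 0⟩ 0 0)) (.cut .v 268435456 (.cut .v 67108864 (.cut .d 421582 (.cut .v 33554432 (.cut .d 210791 (.cut .d 105395 (.cut .v 25165824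 (.cut .d 52697 (.cut .v 20971520 (.cut .d 26348 (.cut .v 18874368 (.cut .d 13174 (.cut .v 17825792 (.cut .s 16056320 (.pos 31 .pp ⟨⟨7916612677, 0, 0, 0, 0, 0, 0, 0, 0, ⟨0, 0⟩, 0⟩, 0, 40⟩ 0 0) (.cut .s 16097280 (.pos 31 .pp ⟨⟨9125896011, 0, 0, 0, 0, 0, 0, 0, 0, ⟨0, 0⟩, 0⟩, 0, 27⟩ 0 0) (.pos 31 .pp ⟨⟨10057286241, 0, 0, 0, 0, 0, 0, 0, 0, ⟨0, 0⟩, 0⟩, 0, 20⟩ 0 0))) (.pos 32 .pp ⟨⟨10822451900, 0, 0, 0, 0, 0, 0, 0, 0, ⟨0, 0⟩, 0⟩, 0, 23⟩ 0 0)) (.pos 29 .pp ⟨⟨6377467721, 0, 0, 0, 0, 0, 0, 0, 0, ⟨0, 0⟩, 0⟩, 0, 34⟩ 0 0)) (.cut .d 13174 (.pos 30 .pp ⟨⟨15113109244, 0, 0, 0, 0, 0, 0, 0, 0, ⟨0, 0⟩, 0⟩, 0, 20⟩ 0 0) (.pos 30 .pp ⟨⟨10891118338, 0, 0,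 0, 0, 0, 56, 0, 0, ⟨0, 0⟩, 0⟩, 0, 0⟩ 0 0))) (.pos 27 .pp ⟨⟨0, 0, 0, 0, 0, 0, 101, 0, 0, ⟨0, 0⟩, 0⟩, 836049611, 0⟩ 0 0)) (.cut .d 26348 (.pos 28 .pp ⟨⟨0, 0, 0, 0, 0, 0, 57, 0, 0, ⟨0, 0⟩, 0⟩, 1854717138, 0⟩ 0 0) (.pos 28 .pp ⟨⟨0, 0, 0, 0, 0, 0, 66, 0, 0, ⟨0, 0⟩, 0⟩, 1382032249, 0⟩ 0 0))) (.pos 25 .pp ⟨⟨0, 0, 0, 0, 0, 0, 59, 0, 0, ⟨0, 0⟩, 0⟩, 808250895, 47⟩ 0 0)) (.cut .d 52697 (.pos 26 .pp ⟨⟨0, 0, 0, 0, 0, 0, 50, 0, 0, ⟨0, 0⟩, 0⟩, 2402235159, 0⟩ 0 0) (.pos 26 .pp ⟨⟨0, 0, 0, 0, 0, 0, 82, 0, 0, ⟨0, 0⟩, 0⟩, 1673276499, 0⟩ 0 0))) (.pos 24 .pp ⟨⟨0, 0, 0, 0, 0, 0, 0, 0, 0, ⟨0, 0⟩, 0⟩, 832237271, 76⟩ 0 0)) (.pos 24 .pp ⟨⟨0, 0, 0, 0, 0, 0, 0,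 0, 0, ⟨0, 0⟩, 0⟩, 0, 130⟩ 0 0)) (.cut .d 210791 (.cut .v 50331648 (.pos 128 .pp ⟨⟨0, 0, 0, 0, 0, 0, 71, 0, 0, ⟨0, 0⟩, 0⟩, 3014367991, 0⟩ 0 0) (.void 129 ⟨⟨0, 0, 0, 0, 0, 0, 0, 0, 0, ⟨0, 0⟩, 0⟩, 100000, 0⟩ 0 0)) (.pos 127 .pp ⟨⟨0, 0, 0, 0, 0, 0, 200, 0, 0, ⟨0, 0⟩, 0⟩, 1801300607, 0⟩ 0 0))) (.pos 126 .pp ⟨⟨0, 0, 0, 0, 0, 0, 0, 0, 0, ⟨0, 0⟩, 0⟩, 0, 98⟩ 0 0)) (.pos 134 .pp ⟨⟨0, 0, 0, 851751511115126, 0, 0, 0, 0, 0, ⟨0, 0⟩, 0⟩, 825970088884874, 0⟩ 0 0)) (.void 141 ⟨⟨0, 0, 0, 0, 0, 0, 0, 0, 0, ⟨0, 0⟩, 0⟩, 100000, 0⟩ 0 0)))),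
    by decide +kernel⟩

def covers40 : cell.Covers Vale.Agent.P237.Petty.Cor.Grid.N14.table row40.1 :=
  ⟨(.cut .d 0 (.cut .v 16777216 (.cut .v 8388608 (.pos 2 .mm ⟨⟨0, 0, 1677721600000000, 0, 0, 0, 0, 0, 0, ⟨0, 0⟩, 0⟩, 0, 0⟩ 0 0) (.cut .d (-8388608) (.void 3 ⟨⟨203307, 0, 0, 0, 0, 0, 0, 0, 0, ⟨0, 0⟩, 0⟩, 0, 0⟩ 0 0) (.cut .d (-4194304) (.void 3 ⟨⟨100000, 0, 0, 0, 0, 0, 0, 0, 0, ⟨0, 0⟩, 0⟩, 0, 0⟩ 0 0) (.pos 3 .mm ⟨⟨0, 0, 0, 0, 0, 64516953765, 0, 0, 0, ⟨0, 0⟩, 0⟩, 0, 0⟩ 0 0)))) (.cut .v 268435456 (.cut .v 67108864 (.cut .v 33554432 (.cut .d (-8388608) (.void 24 ⟨⟨99908, 0, 0, 0, 0, 0, 0, 0, 0, ⟨0, 0⟩, 0⟩, 0, 0⟩ 0 0) (.cut .d (-4194304)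 (.void 24 ⟨⟨100000, 0, 0, 0, 0, 0, 0, 0, 0, ⟨0, 0⟩, 0⟩, 0, 0⟩ 0 0) (.cut .v 25165824 (.cut .d (-2097152) (.void 25 ⟨⟨100000, 0, 0, 0, 0, 0, 0, 0, 0, ⟨0, 0⟩, 0⟩, 0, 0⟩ 0 0) (.cut .v 20971520 (.pos 27 .mp ⟨⟨18877172375, 0, 0, 0, 0, 26504569439, 0, 0, 0, ⟨0, 0⟩, 0⟩, 0, 0⟩ 0 0) (.void 28 ⟨⟨100000, 0, 0, 0, 0, 0, 0, 0, 0, ⟨0, 0⟩, 0⟩, 0, 0⟩ 0 0))) (.void 26 ⟨⟨100000, 0, 0, 0, 0, 0, 0, 0, 0, ⟨0, 0⟩, 0⟩, 0, 0⟩ 0 0)))) (.pos 127 .mp ⟨⟨1677721600000000, 0, 0, 0, 0, 0, 0, 0, 0, ⟨0, 0⟩, 0⟩, 0, 0⟩ 0 0)) (.pos 134 .mp ⟨⟨1677721600000001, 0, 0, 0, 0, 0, 0, 0, 0, ⟨0, 0⟩, 0⟩, 0, 0⟩ 0 0)) (.void 141 ⟨⟨93877, 0, 0, 6072, 0, 0, 0, 0, 0, ⟨0, 0⟩, 0⟩, 0, 0⟩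 0 0))) (.cut .v 16777216 (.cut .v 8388608 (.cut .v 4194304 (.cut .d 332139 (.pos 4 .pm ⟨⟨0, 0, 21173229570, 0, 0, 0, 0, 0, 0, ⟨0, 0⟩, 0⟩, 0, 2⟩ 0 0) (.cut .d 498208 (.pos 4 .pm ⟨⟨0, 0, 3848386843, 0, 0, 0, 0, 0, 0, ⟨0, 0⟩, 0⟩, 0, 0⟩ 0 0) (.pos 4 .pm ⟨⟨0, 0, 21464211, 0, 3, 0, 0, 0, 0, ⟨0, 0⟩, 0⟩, 0, 0⟩ 0 0))) (.pos 5 .pm ⟨⟨0, 0, 7927628039, 0, 0, 0, 0, 0, 0, ⟨0, 0⟩, 0⟩, 0, 6⟩ 0 0)) (.pos 3 .pm ⟨⟨0, 0, 0, 0, 0, 0, 0, 0, 0, ⟨0, 0⟩, 0⟩, 0, 0⟩ 0 0)) (.cut .v 268435456 (.cut .v 67108864 (.cut .d 332139 (.cut .v 33554432 (.cut .d 166069 (.cut .d 83034 (.cut .v 25165824 (.cut .d 41517 (.cut .v 20971520 (.cut .d 20758 (.cut .v 18874368 (.cut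 .d 10379 (.cut .v 17825792 (.cut .s 16203776 (.pos 31 .pp ⟨⟨11383447330, 0, 0, 0, 0, 0, 0, 0, 0, ⟨0, 0⟩, 0⟩, 0, 11⟩ 0 0) (.cut .v 17301504 (.pos 33 .pp ⟨⟨13496435327, 0, 0, 0, 0, 0, 0, 0, 0, ⟨0, 0⟩, 0⟩, 0, 6⟩ 0 0) (.pos 34 .pp ⟨⟨14757083800, 0, 0, 0, 0, 0, 0, 0, 0, ⟨0, 0⟩, 0⟩, 0, 6⟩ 0 0))) (.pos 32 .pp ⟨⟨15535190278, 0, 0, 0, 0, 0, 0, 0, 0, ⟨0, 0⟩, 0⟩, 0, 6⟩ 0 0)) (.pos 29 .pp ⟨⟨9212305003, 0, 0, 0, 0, 0, 0, 0, 0, ⟨0, 0⟩, 0⟩, 0, 9⟩ 0 0)) (.cut .d 10379 (.pos 30 .pp ⟨⟨21726470249, 0, 0, 0, 0, 0, 0, 0, 0, ⟨0, 0⟩, 0⟩, 0, 6⟩ 0 0) (.pos 30 .pp ⟨⟨15671658545, 0, 0, 0, 0, 0, 16, 0, 0, ⟨0, 0⟩, 0⟩, 0, 0⟩ 0 0))) (.pos 27 .pp ⟨⟨0, 0, 0, 0, 0, 0,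 27, 0, 0, ⟨0, 0⟩, 0⟩, 1210107245, 0⟩ 0 0)) (.cut .d 20758 (.pos 28 .pp ⟨⟨0, 0, 0, 0, 0, 0, 16, 0, 0, ⟨0, 0⟩, 0⟩, 2662306291, 0⟩ 0 0) (.pos 28 .pp ⟨⟨0, 0, 0, 0, 0, 0, 19, 0, 0, ⟨0, 0⟩, 0⟩, 1993356916, 0⟩ 0 0))) (.pos 25 .pp ⟨⟨0, 0, 0, 0, 0, 0, 30, 0, 0, ⟨0, 0⟩, 0⟩, 1174758506, 7⟩ 0 0)) (.cut .d 41517 (.pos 26 .pp ⟨⟨0, 0, 0, 0, 0, 0, 14, 0, 0, ⟨0, 0⟩, 0⟩, 3453643870, 0⟩ 0 0) (.pos 26 .pp ⟨⟨0, 0, 0, 0, 0, 0, 23, 0, 0, ⟨0, 0⟩, 0⟩, 2420337914, 0⟩ 0 0))) (.pos 24 .pp ⟨⟨0, 0, 0, 0, 0, 0, 0, 0, 0, ⟨0, 0⟩, 0⟩, 1219354089, 22⟩ 0 0)) (.pos 24 .pp ⟨⟨0, 0, 0, 0, 0, 0, 0, 0, 0, ⟨0, 0⟩, 0⟩, 0, 37⟩ 0 0)) (.cut .d 166069 (.cut .v 50331648 (.pos 128 .pp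 ⟨⟨0, 0, 0, 0, 0, 0, 24, 0, 0, ⟨0, 0⟩, 0⟩, 4314678542, 0⟩ 0 0) (.void 129 ⟨⟨0, 0, 0, 0, 0, 0, 0, 0, 0, ⟨0, 0⟩, 0⟩, 100000, 0⟩ 0 0)) (.pos 127 .pp ⟨⟨0, 0, 0, 0, 0, 0, 32, 0, 0, ⟨0, 0⟩, 0⟩, 2693065377, 8⟩ 0 0))) (.pos 126 .pp ⟨⟨0, 0, 0, 0, 0, 0, 0, 0, 0, ⟨0, 0⟩, 0⟩, 76688553, 27⟩ 0 0)) (.pos 134 .pp ⟨⟨0, 0, 0, 854689543332728, 0, 0, 0, 0, 0, ⟨0, 0⟩, 0⟩, 823032056667272, 0⟩ 0 0)) (.void 141 ⟨⟨0, 0, 0, 0, 0, 0, 0, 0, 0, ⟨0, 0⟩, 0⟩, 100000, 0⟩ 0 0)))),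
    by decide +kernel⟩

def covers41 : cell.Covers Vale.Agent.P237.Petty.Cor.Grid.N14.table row41.1 :=
  ⟨(.cut .d 0 (.cut .v 16777216 (.cut .v 8388608 (.pos 2 .mm ⟨⟨0, 0, 1677721600000000, 0, 0, 0, 0, 0, 0, ⟨0, 0⟩, 0⟩, 0, 0⟩ 0 0) (.cut .d (-8388608) (.void 3 ⟨⟨99564, 0, 0, 0, 0, 0, 0, 0, 0, ⟨0, 0⟩, 0⟩, 0, 0⟩ 0 0) (.cut .d (-4194304) (.void 3 ⟨⟨100000, 0, 0, 0, 0, 0, 0, 0, 0, ⟨0, 0⟩, 0⟩, 0, 0⟩ 0 0) (.pos 3 .mm ⟨⟨0, 0, 0, 0, 0, 87991995202, 0, 0, 0, ⟨0, 0⟩, 0⟩, 0, 0⟩ 0 0)))) (.cut .v 4294967296 (.cut .v 268435456 (.cut .v 67108864 (.cut .v 33554432 (.cut .d (-8388608) (.void 24 ⟨⟨96731, 0, 10, 3261, 0, 0, 0, 0, 0, ⟨0, 0⟩, 0⟩, 0, 0⟩ 0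 0) (.cut .d (-4194304) (.void 24 ⟨⟨100000, 0, 0, 0, 0, 0, 0, 0, 0, ⟨0, 0⟩, 0⟩, 0, 0⟩ 0 0) (.cut .v 25165824 (.cut .d (-2097152) (.void 25 ⟨⟨100000, 0, 0, 0, 0, 0, 0, 0, 0, ⟨0, 0⟩, 0⟩, 0, 0⟩ 0 0) (.pos 25 .mp ⟨⟨36549412506, 0, 0, 0, 0, 34106497974, 0, 0, 0, ⟨0, 0⟩, 0⟩, 0, 0⟩ 0 0)) (.void 26 ⟨⟨100000, 0, 0, 0, 0, 0, 0, 0, 0, ⟨0, 0⟩, 0⟩, 0, 0⟩ 0 0)))) (.pos 127 .mp ⟨⟨1677721600000000, 0, 0, 0, 0, 0, 0, 0, 0, ⟨0, 0⟩, 0⟩, 0, 0⟩ 0 0)) (.pos 134 .mp ⟨⟨1677721600000000, 0, 0, 0, 0, 0, 0, 0, 0, ⟨0, 0⟩, 0⟩, 0, 0⟩ 0 0)) (.pos 141 .mp ⟨⟨1575504709746154, 0, 0, 102216890253846, 0, 0, 0, 0, 0, ⟨0, 0⟩, 0⟩, 0, 0⟩ 0 0)) (.void 148 ⟨⟨44736, 0, 0, 1667,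 0, 0, 0, 0, 0, ⟨0, 0⟩, 0⟩, 0, 0⟩ 0 0))) (.cut .v 16777216 (.cut .v 8388608 (.cut .d 261881 (.pos 2 .pm ⟨⟨0, 0, 11969622807, 0, 0, 0, 0, 0, 0, ⟨0, 0⟩, 0⟩, 0, 1⟩ 0 0) (.cut .d 392822 (.pos 2 .pm ⟨⟨0, 0, 4562769764, 0, 0, 0, 0, 0, 0, ⟨0, 0⟩, 0⟩, 0, 2⟩ 0 0) (.pos 2 .pm ⟨⟨0, 0, 21253563, 0, 2, 0, 0, 0, 0, ⟨0, 0⟩, 0⟩, 0, 0⟩ 0 0))) (.pos 3 .pm ⟨⟨0, 0, 0, 0, 0, 0, 0, 0, 0, ⟨0, 0⟩, 0⟩, 0, 0⟩ 0 0)) (.cut .v 4294967296 (.cut .v 268435456 (.cut .v 67108864 (.cut .d 261881 (.cut .v 33554432 (.cut .d 130940 (.cut .d 65470 (.cut .v 25165824 (.cut .d 32735 (.cut .v 20971520 (.cut .d 16367 (.cut .v 18874368 (.cut .d 8183 (.cut .v 17825792 (.cut .s 16318464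 (.pos 31 .pp ⟨⟨16271962429, 0, 0, 0, 0, 0, 0, 0, 0, ⟨0, 0⟩, 0⟩, 0, 3⟩ 0 0) (.cut .s 16343040 (.pos 31 .pp ⟨⟨18577938203, 0, 0, 0, 0, 0, 0, 0, 0, ⟨0, 0⟩, 0⟩, 0, 2⟩ 0 0) (.cut .s 16355328 (.pos 31 .pp ⟨⟨20110780513, 0, 0, 0, 0, 0, 0, 0, 0, ⟨0, 0⟩, 0⟩, 0, 2⟩ 0 0) (.cut .l 131821 (.cut .l 65910 (.pos 31 .pp ⟨⟨21063347029, 0, 0, 0, 0, 0, 0, 0, 0, ⟨0, 0⟩, 0⟩, 0, 1⟩ 0 0) (.pos 31 .pp ⟨⟨0, 0, 0, 0, 0, 0, 0, 0, 0, ⟨0, 0⟩, 0⟩, 2706592370, 0⟩ 0 0)) (.pos 31 .pp ⟨⟨0, 0, 0, 0, 0, 0, 0, 0, 0, ⟨0, 0⟩, 0⟩, 2649480253, 0⟩ 0 0))))) (.pos 32 .pp ⟨⟨21925582334, 0, 0, 0, 0, 0, 0, 0, 0, ⟨0, 0⟩, 0⟩, 0, 2⟩ 0 0)) (.pos 29 .pp ⟨⟨13294930255, 0, 0, 0, 0, 0, 0,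 0, 0, ⟨0, 0⟩, 0⟩, 0, 3⟩ 0 0)) (.cut .d 8183 (.pos 30 .pp ⟨⟨29983067226, 0, 0, 0, 0, 0, 0, 0, 0, ⟨0, 0⟩, 0⟩, 0, 2⟩ 0 0) (.pos 30 .pp ⟨⟨22352178743, 0, 0, 0, 0, 0, 5, 0, 0, ⟨0, 0⟩, 0⟩, 0, 0⟩ 0 0))) (.pos 27 .pp ⟨⟨0, 0, 0, 0, 0, 0, 8, 0, 0, ⟨0, 0⟩, 0⟩, 1749051755, 0⟩ 0 0)) (.cut .d 16367 (.pos 28 .pp ⟨⟨0, 0, 0, 0, 0, 0, 5, 0, 0, ⟨0, 0⟩, 0⟩, 3738598000, 0⟩ 0 0) (.pos 28 .pp ⟨⟨0, 0, 0, 0, 0, 0, 6, 0, 0, ⟨0, 0⟩, 0⟩, 2849696884, 0⟩ 0 0))) (.pos 25 .pp ⟨⟨0, 0, 0, 0, 0, 0, 10, 0, 0, ⟨0, 0⟩, 0⟩, 1703242935, 1⟩ 0 0)) (.cut .d 32735 (.pos 26 .pp ⟨⟨0, 0, 0, 0, 0, 0, 4, 0, 0, ⟨0, 0⟩, 0⟩, 4765931858, 0⟩ 0 0) (.pos 26 .pp ⟨⟨0, 0, 0, 0, 0, 0, 7, 0, 0,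 ⟨0, 0⟩, 0⟩, 3463601868, 0⟩ 0 0))) (.pos 24 .pp ⟨⟨0, 0, 0, 0, 0, 0, 0, 0, 0, ⟨0, 0⟩, 0⟩, 1778078448, 6⟩ 0 0)) (.pos 24 .pp ⟨⟨0, 0, 0, 0, 0, 0, 0, 0, 0, ⟨0, 0⟩, 0⟩, 0, 10⟩ 0 0)) (.cut .d 130940 (.cut .v 50331648 (.pos 128 .pp ⟨⟨0, 0, 0, 0, 0, 0, 7, 0, 0, ⟨0, 0⟩, 0⟩, 6061443208, 0⟩ 0 0) (.void 129 ⟨⟨0, 0, 0, 0, 0, 0, 0, 0, 0, ⟨0, 0⟩, 0⟩, 100000, 0⟩ 0 0)) (.pos 127 .pp ⟨⟨0, 0, 0, 0, 0, 0, 16, 0, 0, ⟨0, 0⟩, 0⟩, 3963942533, 0⟩ 0 0))) (.pos 126 .pp ⟨⟨0, 0, 0, 0, 0, 0, 0, 0, 0, ⟨0, 0⟩, 0⟩, 260139498, 8⟩ 0 0)) (.pos 134 .pp ⟨⟨0, 0, 0, 856880986781278, 0, 0, 0, 0, 0, ⟨0, 0⟩, 0⟩, 820840613218723, 0⟩ 0 0)) (.void 141 ⟨⟨0, 0, 0, 0, 0, 0, 0, 0, 0,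 ⟨0, 0⟩, 0⟩, 100000, 0⟩ 0 0)) (.void 148 ⟨⟨0, 0, 0, 0, 0, 0, 0, 0, 0, ⟨0, 0⟩, 0⟩, 100000, 0⟩ 0 0)))),
    by decide +kernel⟩

def covers42 : cell.Covers Vale.Agent.P237.Petty.Cor.Grid.N14.table row42.1 :=
  ⟨(.cut .d 0 (.cut .v 16777216 (.cut .v 8388608 (.void 2 ⟨⟨0, 0, 100000, 0, 0, 0, 0, 0, 0, ⟨0, 0⟩, 0⟩, 0, 0⟩ 0 0) (.cut .d (-8388608) (.void 3 ⟨⟨100010, 0, 0, 0, 0, 0, 0, 0, 0, ⟨0, 0⟩, 0⟩, 0, 0⟩ 0 0) (.pos 3 .mm ⟨⟨0, 0, 0, 0, 0, 176885688316, 0, 0, 0, ⟨0, 0⟩, 0⟩, 0, 0⟩ 0 0))) (.cut .v 4294967296 (.cut .v 268435456 (.cut .v 67108864 (.cut .v 33554432 (.cut .d (-8388608) (.void 24 ⟨⟨92158, 0, 5089, 3345, 0, 0, 0, 0, 0, ⟨0, 0⟩, 0⟩, 0,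 0⟩ 0 0) (.cut .d (-4194304) (.void 24 ⟨⟨100000, 0, 0, 0, 0, 0, 0, 0, 0, ⟨0, 0⟩, 0⟩, 0, 0⟩ 0 0) (.cut .v 25165824 (.cut .d (-2097152) (.void 25 ⟨⟨100000, 0, 0, 0, 0, 0, 0, 0, 0, ⟨0, 0⟩, 0⟩, 0, 0⟩ 0 0) (.pos 25 .mp ⟨⟨52057214350, 0, 0, 0, 0, 44150038383, 0, 0, 0, ⟨0, 0⟩, 0⟩, 0, 0⟩ 0 0)) (.void 26 ⟨⟨100000, 0, 0, 0, 0, 0, 0, 0, 0, ⟨0, 0⟩, 0⟩, 0, 0⟩ 0 0)))) (.pos 127 .mp ⟨⟨1677721600000000, 0, 0, 0, 0, 0, 0, 0, 0, ⟨0, 0⟩, 0⟩, 0, 0⟩ 0 0)) (.pos 134 .mp ⟨⟨1677721600000000, 0, 0, 0, 0, 0, 0, 0, 0, ⟨0, 0⟩, 0⟩, 0, 0⟩ 0 0)) (.pos 141 .mp ⟨⟨1575097467336653, 0, 0, 102624132663347, 0, 0, 0, 0, 0, ⟨0, 0⟩, 0⟩, 0, 0⟩ 0 0)) (.void 148 ⟨⟨148067, 0, 0,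 3746, 0, 0, 0, 0, 0, ⟨0, 0⟩, 0⟩, 0, 0⟩ 0 0))) (.cut .v 16777216 (.cut .v 8388608 (.cut .d 209926 (.pos 2 .pm ⟨⟨0, 0, 17387792076, 0, 0, 0, 0, 0, 0, ⟨0, 0⟩, 0⟩, 0, 0⟩ 0 0) (.cut .d 314889 (.pos 2 .pm ⟨⟨0, 0, 7981184016, 0, 0, 0, 0, 0, 0, ⟨0, 0⟩, 0⟩, 0, 0⟩ 0 0) (.cut .s 16408576 (.pos 2 .pm ⟨⟨0, 0, 21394263, 0, 1, 0, 0, 0, 0, ⟨0, 0⟩, 0⟩, 0, 0⟩ 0 0) (.cut .d 367371 (.cut .v 4194304 (.cut .v 2097152 (.cut .v 1048576 (.cut .d 341130 (.cut .s 16429056 (.pos 137 .pm ⟨⟨0, 0, 27605901649, 0, 0, 0, 0, 0, 0, ⟨0, 0⟩, 0⟩, 0, 0⟩ 0 0) (.cut .s 16439296 (.pos 137 .pm ⟨⟨0, 0, 11394331235, 0, 0, 0, 0, 0, 0, ⟨0, 0⟩, 0⟩, 0, 0⟩ 0 0) (.cut .d 328009 (.pos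 137 .pm ⟨⟨0, 0, 11904454899, 0, 0, 0, 0, 0, 0, ⟨0, 0⟩, 0⟩, 0, 0⟩ 0 0) (.cut .v 524288 (.cut .v 262144 (.pos 149 .pm ⟨⟨0, 0, 21149577, 0, 1, 0, 0, 0, 0, ⟨0, 0⟩, 0⟩, 0, 0⟩ 0 0) (.pos 150 .pm ⟨⟨0, 0, 821276961, 0, 0, 0, 0, 0, 0, ⟨0, 0⟩, 0⟩, 0, 0⟩ 0 0)) (.pos 145 .pm ⟨⟨0, 0, 0, 0, 0, 0, 0, 0, 0, ⟨0, 0⟩, 0⟩, 0, 0⟩ 0 0))))) (.pos 137 .pm ⟨⟨0, 0, 0, 877271, 1, 0, 0, 0, 0, ⟨0, 0⟩, 0⟩, 0, 0⟩ 0 0)) (.pos 138 .pm ⟨⟨0, 0, 2776983947, 0, 0, 0, 0, 0, 0, ⟨0, 0⟩, 0⟩, 0, 0⟩ 0 0)) (.pos 7 .pm ⟨⟨0, 0, 0, 0, 0, 0, 0, 0, 0, ⟨0, 0⟩, 0⟩, 0, 0⟩ 0 0)) (.pos 5 .pm ⟨⟨0, 0, 0, 0, 0, 0, 0, 0, 0, ⟨0, 0⟩, 0⟩, 0, 1⟩ 0 0)) (.pos 2 .pm ⟨⟨0, 0, 0, 871600, 1, 0, 0, 0,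 0, ⟨0, 0⟩, 0⟩, 0, 0⟩ 0 0))))) (.pos 3 .pm ⟨⟨0, 0, 0, 0, 0, 0, 0, 0, 0, ⟨0, 0⟩, 0⟩, 0, 0⟩ 0 0)) (.cut .v 4294967296 (.cut .v 268435456 (.cut .v 67108864 (.cut .d 209926 (.cut .v 33554432 (.cut .d 104963 (.cut .d 52481 (.cut .v 25165824 (.cut .d 26240 (.cut .v 20971520 (.cut .d 13120 (.cut .v 18874368 (.cut .l 131821 (.cut .d 6560 (.cut .v 17825792 (.cut .l 65910 (.cut .d 3280 (.cut .l 32955 (.cut .v 17301504 (.cut .s 16408576 (.cut .s 16388096 (.pos 33 .pp ⟨⟨21965843254, 0, 0, 0, 0, 0, 0, 0, 0, ⟨0, 0⟩, 0⟩, 0, 1⟩ 0 0) (.cut .s 16398336 (.pos 33 .pp ⟨⟨23590619575, 0, 0, 0, 0, 0, 0, 0, 0, ⟨0, 0⟩, 0⟩, 0, 1⟩ 0 0) (.cut .l 16477 (.pos 33 .pp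 ⟨⟨24642801022, 0, 0, 0, 0, 0, 0, 0, 0, ⟨0, 0⟩, 0⟩, 0, 0⟩ 0 0) (.pos 33 .pp ⟨⟨0, 0, 0, 0, 0, 0, 0, 0, 0, ⟨0, 0⟩, 0⟩, 3170259191, 0⟩ 0 0)))) (.pos 33 .pp ⟨⟨26676688121, 0, 0, 0, 0, 0, 0, 0, 0, ⟨0, 0⟩, 0⟩, 0, 0⟩ 0 0)) (.cut .d 1640 (.pos 34 .pp ⟨⟨37679797810, 0, 0, 0, 0, 0, 0, 0, 0, ⟨0, 0⟩, 0⟩, 0, 0⟩ 0 0) (.pos 34 .pp ⟨⟨25280201980, 0, 0, 0, 0, 0, 0, 0, 0, ⟨0, 0⟩, 0⟩, 0, 1⟩ 0 0))) (.pos 31 .pp ⟨⟨24659349621, 0, 0, 0, 0, 0, 0, 0, 0, ⟨0, 0⟩, 0⟩, 0, 0⟩ 0 0)) (.pos 31 .pp ⟨⟨17935831684, 0, 0, 0, 0, 0, 0, 0, 0, ⟨0, 0⟩, 0⟩, 0, 1⟩ 0 0)) (.pos 31 .pp ⟨⟨23805805948, 0, 0, 0, 0, 0, 0, 0, 0, ⟨0, 0⟩, 0⟩, 0, 0⟩ 0 0)) (.cut .d 3280 (.pos 32 .pp ⟨⟨39376448131,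 0, 0, 0, 0, 0, 0, 0, 0, ⟨0, 0⟩, 0⟩, 0, 0⟩ 0 0) (.cut .s 16408576 (.pos 32 .pp ⟨⟨25300150367, 0, 0, 0, 0, 0, 0, 0, 0, ⟨0, 0⟩, 0⟩, 0, 1⟩ 0 0) (.cut .l 65910 (.pos 32 .pp ⟨⟨29588422970, 0, 0, 0, 0, 0, 0, 0, 0, ⟨0, 0⟩, 0⟩, 0, 1⟩ 0 0) (.pos 32 .pp ⟨⟨28954509984, 0, 0, 0, 0, 0, 0, 0, 0, ⟨0, 0⟩, 0⟩, 0, 0⟩ 0 0))))) (.pos 29 .pp ⟨⟨18712746439, 0, 0, 0, 0, 0, 0, 0, 0, ⟨0, 0⟩, 0⟩, 0, 1⟩ 0 0)) (.pos 29 .pp ⟨⟨24527045906, 0, 0, 0, 0, 0, 0, 0, 0, ⟨0, 0⟩, 0⟩, 0, 0⟩ 0 0)) (.cut .d 6560 (.pos 30 .pp ⟨⟨42853043994, 0, 0, 0, 0, 0, 0, 0, 0, ⟨0, 0⟩, 0⟩, 0, 0⟩ 0 0) (.pos 30 .pp ⟨⟨31484680535, 0, 0, 0, 0, 0, 1, 0, 0, ⟨0, 0⟩, 0⟩, 0, 0⟩ 0 0))) (.pos 27 .pp ⟨⟨0,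 0, 0, 0, 0, 0, 2, 0, 0, ⟨0, 0⟩, 0⟩, 2464683224, 0⟩ 0 0)) (.cut .d 13120 (.pos 28 .pp ⟨⟨0, 0, 0, 0, 0, 0, 1, 0, 0, ⟨0, 0⟩, 0⟩, 5292499595, 0⟩ 0 0) (.cut .v 23068672 (.pos 63 .pp ⟨⟨0, 0, 0, 0, 0, 0, 1, 0, 0, ⟨0, 0⟩, 0⟩, 3674848114, 0⟩ 0 0) (.pos 64 .pp ⟨⟨0, 0, 0, 0, 0, 0, 1, 0, 0, ⟨0, 0⟩, 0⟩, 4820188637, 0⟩ 0 0)))) (.pos 25 .pp ⟨⟨0, 0, 0, 0, 0, 0, 4, 0, 0, ⟨0, 0⟩, 0⟩, 2405625607, 0⟩ 0 0)) (.cut .d 26240 (.pos 26 .pp ⟨⟨0, 0, 0, 0, 0, 0, 1, 0, 0, ⟨0, 0⟩, 0⟩, 6814000359, 0⟩ 0 0) (.pos 26 .pp ⟨⟨0, 0, 0, 0, 0, 0, 2, 0, 0, ⟨0, 0⟩, 0⟩, 4893090393, 0⟩ 0 0))) (.pos 24 .pp ⟨⟨0, 0, 0, 0, 0, 0, 0, 0, 0, ⟨0, 0⟩, 0⟩, 2521206197, 2⟩ 0 0)) (.pos 24 .pp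 ⟨⟨0, 0, 0, 0, 0, 0, 0, 0, 0, ⟨0, 0⟩, 0⟩, 0, 3⟩ 0 0)) (.cut .d 104963 (.cut .v 50331648 (.cut .v 41943040 (.pos 130 .pp ⟨⟨0, 0, 0, 0, 0, 0, 2, 0, 0, ⟨0, 0⟩, 0⟩, 7766225964, 0⟩ 0 0) (.pos 131 .pp ⟨⟨0, 0, 0, 0, 0, 0, 1, 0, 0, ⟨0, 0⟩, 0⟩, 12756975408, 0⟩ 0 0)) (.void 129 ⟨⟨0, 0, 0, 0, 0, 0, 0, 0, 0, ⟨0, 0⟩, 0⟩, 100000, 0⟩ 0 0)) (.pos 127 .pp ⟨⟨0, 0, 0, 0, 0, 0, 5, 0, 0, ⟨0, 0⟩, 0⟩, 5678026062, 0⟩ 0 0))) (.pos 126 .pp ⟨⟨0, 0, 0, 0, 0, 0, 0, 0, 0, ⟨0, 0⟩, 0⟩, 518782438, 2⟩ 0 0)) (.pos 134 .pp ⟨⟨0, 0, 0, 858698747518581, 0, 0, 0, 0, 0, ⟨0, 0⟩, 0⟩, 819022852481419, 0⟩ 0 0)) (.void 141 ⟨⟨0, 0, 0, 0, 0, 0, 0, 0, 0, ⟨0, 0⟩, 0⟩, 100000, 0⟩ 0 0))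 (.void 148 ⟨⟨0, 0, 0, 0, 0, 0, 0, 0, 0, ⟨0, 0⟩, 0⟩, 100000, 0⟩ 0 0)))),
    by decide +kernel⟩

def covers43 : cell.Covers Vale.Agent.P237.Petty.Cor.Grid.N14.table row43.1 :=
  ⟨(.cut .d 0 (.cut .v 16777216 (.cut .v 8388608 (.pos 2 .mm ⟨⟨0, 0, 1677721600000000, 0, 0, 0, 0, 0, 0, ⟨0, 0⟩, 0⟩, 0, 0⟩ 0 0) (.cut .d (-8388608) (.void 3 ⟨⟨128668, 0, 0, 0, 0, 0, 0, 0, 0, ⟨0, 0⟩, 0⟩, 0, 0⟩ 0 0) (.pos 3 .mm ⟨⟨0, 0, 0, 0, 0, 237963027908, 0, 0, 0, ⟨0, 0⟩, 0⟩, 0, 0⟩ 0 0))) (.cut .v 4294967296 (.cut .v 268435456 (.cut .v 67108864 (.cut .v 33554432 (.cut .d (-8388608) (.pos 24 .mp ⟨⟨1677721600000000, 0, 0, 0, 0, 0, 0, 0, 0, ⟨0, 0⟩, 0⟩, 0, 0⟩ 0 0)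 (.cut .d (-4194304) (.void 24 ⟨⟨100000, 0, 0, 0, 0, 0, 0, 0, 0, ⟨0, 0⟩, 0⟩, 0, 0⟩ 0 0) (.cut .v 25165824 (.cut .d (-2097152) (.void 25 ⟨⟨100000, 0, 0, 0, 0, 0, 0, 0, 0, ⟨0, 0⟩, 0⟩, 0, 0⟩ 0 0) (.pos 25 .mp ⟨⟨74103274149, 0, 0, 0, 0, 56411720300, 0, 0, 0, ⟨0, 0⟩, 0⟩, 0, 0⟩ 0 0)) (.void 26 ⟨⟨100000, 0, 0, 0, 0, 0, 0, 0, 0, ⟨0, 0⟩, 0⟩, 0, 0⟩ 0 0)))) (.pos 127 .mp ⟨⟨1677721600000000, 0, 0, 0, 0, 0, 0, 0, 0, ⟨0, 0⟩, 0⟩, 0, 0⟩ 0 0)) (.pos 134 .mp ⟨⟨1677721600000000, 0, 0, 0, 0, 0, 0, 0, 0, ⟨0, 0⟩, 0⟩, 0, 0⟩ 0 0)) (.pos 141 .mp ⟨⟨1574808434583066, 0, 0, 102913165416934, 0, 0, 0, 0, 0, ⟨0, 0⟩, 0⟩, 0, 0⟩ 0 0)) (.void 148 ⟨⟨100626, 0, 0, 162, 0,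 0, 0, 0, 0, ⟨0, 0⟩, 0⟩, 0, 0⟩ 0 0))) (.cut .v 16777216 (.cut .v 8388608 (.cut .d 167105 (.pos 2 .pm ⟨⟨0, 0, 25194437617, 0, 0, 0, 0, 0, 0, ⟨0, 0⟩, 0⟩, 0, 0⟩ 0 0) (.cut .d 250657 (.pos 2 .pm ⟨⟨0, 0, 13891925573, 0, 0, 0, 0, 0, 0, ⟨0, 0⟩, 0⟩, 0, 0⟩ 0 0) (.pos 2 .pm ⟨⟨0, 0, 20981782, 0, 0, 0, 0, 0, 0, ⟨0, 0⟩, 0⟩, 0, 0⟩ 0 0))) (.pos 3 .pm ⟨⟨0, 0, 0, 0, 0, 0, 0, 0, 0, ⟨0, 0⟩, 0⟩, 0, 0⟩ 0 0)) (.cut .v 4294967296 (.cut .v 268435456 (.cut .v 67108864 (.cut .d 167105 (.cut .v 33554432 (.cut .d 83552 (.cut .d 41776 (.cut .v 25165824 (.cut .d 20888 (.cut .v 20971520 (.cut .d 10444 (.cut .v 18874368 (.cut .d 5222 (.cut .v 17825792 (.cut .d 2611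 (.cut .v 17301504 (.cut .s 16482304 (.cut .l 131821 (.cut .l 65910 (.cut .l 32955 (.pos 33 .pp ⟨⟨31830192221, 0, 0, 0, 0, 0, 0, 0, 0, ⟨0, 0⟩, 0⟩, 0, 0⟩ 0 0) (.pos 33 .pp ⟨⟨12207884688, 0, 0, 0, 0, 0, 0, 0, 0, ⟨0, 0⟩, 0⟩, 2559035330, 0⟩ 0 0)) (.pos 33 .pp ⟨⟨5823404528, 0, 0, 0, 0, 0, 0, 0, 0, ⟨0, 0⟩, 0⟩, 3355155335, 0⟩ 0 0)) (.pos 33 .pp ⟨⟨0, 0, 0, 0, 0, 0, 0, 0, 0, ⟨0, 0⟩, 0⟩, 3921898179, 0⟩ 0 0)) (.pos 33 .pp ⟨⟨37771985690, 0, 0, 0, 0, 0, 0, 0, 0, ⟨0, 0⟩, 0⟩, 0, 0⟩ 0 0)) (.pos 34 .pp ⟨⟨40906504334, 0, 0, 0, 0, 0, 0, 0, 0, ⟨0, 0⟩, 0⟩, 0, 0⟩ 0 0)) (.pos 31 .pp ⟨⟨25512456076, 0, 0, 0, 0, 0, 0, 0, 0, ⟨0, 0⟩, 0⟩, 0, 0⟩ 0 0)) (.pos 32 .pp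 ⟨⟨43828198566, 0, 0, 0, 0, 0, 0, 0, 0, ⟨0, 0⟩, 0⟩, 0, 0⟩ 0 0)) (.pos 29 .pp ⟨⟨26629276483, 0, 0, 0, 0, 0, 0, 0, 0, ⟨0, 0⟩, 0⟩, 0, 0⟩ 0 0)) (.cut .d 5222 (.pos 30 .pp ⟨⟨60654745944, 0, 0, 0, 0, 0, 0, 0, 0, ⟨0, 0⟩, 0⟩, 0, 0⟩ 0 0) (.pos 30 .pp ⟨⟨44653410770, 0, 0, 0, 0, 0, 0, 0, 0, ⟨0, 0⟩, 0⟩, 0, 0⟩ 0 0))) (.cut .l 131821 (.pos 27 .pp ⟨⟨0, 0, 0, 0, 0, 0, 1, 0, 0, ⟨0, 0⟩, 0⟩, 3510426990, 0⟩ 0 0) (.pos 27 .pp ⟨⟨0, 0, 0, 0, 0, 0, 0, 0, 0, ⟨0, 0⟩, 0⟩, 3408825564, 0⟩ 0 0))) (.cut .d 10444 (.pos 28 .pp ⟨⟨0, 0, 0, 0, 0, 0, 0, 0, 0, ⟨0, 0⟩, 0⟩, 7493136471, 0⟩ 0 0) (.pos 28 .pp ⟨⟨0, 0, 0, 0, 0, 0, 0, 0, 0, ⟨0, 0⟩, 0⟩, 5704213451, 0⟩ 0 0))) (.pos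 25 .pp ⟨⟨0, 0, 0, 0, 0, 0, 1, 0, 0, ⟨0, 0⟩, 0⟩, 3431936914, 0⟩ 0 0)) (.cut .d 20888 (.pos 26 .pp ⟨⟨0, 0, 0, 0, 0, 0, 0, 0, 0, ⟨0, 0⟩, 0⟩, 9647125759, 0⟩ 0 0) (.cut .v 29360128 (.pos 97 .pp ⟨⟨0, 0, 0, 0, 0, 0, 1, 0, 0, ⟨0, 0⟩, 0⟩, 6311234698, 0⟩ 0 0) (.pos 98 .pp ⟨⟨0, 0, 0, 0, 0, 0, 0, 0, 0, ⟨0, 0⟩, 0⟩, 8919292618, 0⟩ 0 0)))) (.pos 24 .pp ⟨⟨0, 0, 0, 0, 0, 0, 1, 0, 0, ⟨0, 0⟩, 0⟩, 3606434784, 0⟩ 0 0)) (.pos 24 .pp ⟨⟨0, 0, 0, 0, 0, 0, 3, 0, 0, ⟨0, 0⟩, 0⟩, 0, 0⟩ 0 0)) (.cut .d 83552 (.cut .v 50331648 (.cut .v 41943040 (.pos 130 .pp ⟨⟨0, 0, 0, 0, 0, 0, 1, 0, 0, ⟨0, 0⟩, 0⟩, 10977233874, 0⟩ 0 0) (.pos 131 .pp ⟨⟨0, 0, 0, 0, 0, 0, 0, 0, 0, ⟨0,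 0⟩, 0⟩, 18128202968, 0⟩ 0 0)) (.void 129 ⟨⟨0, 0, 0, 0, 0, 0, 0, 0, 0, ⟨0, 0⟩, 0⟩, 100000, 0⟩ 0 0)) (.pos 127 .pp ⟨⟨0, 0, 0, 0, 0, 0, 1, 0, 0, ⟨0, 0⟩, 0⟩, 8170544129, 0⟩ 0 0))) (.pos 126 .pp ⟨⟨0, 0, 0, 0, 0, 0, 1, 0, 0, ⟨0, 0⟩, 0⟩, 905153636, 0⟩ 0 0)) (.void 134 ⟨⟨0, 0, 0, 48791, 0, 0, 0, 0, 0, ⟨0, 0⟩, 0⟩, 51209, 0⟩ 0 0)) (.void 141 ⟨⟨0, 0, 0, 0, 0, 0, 0, 0, 0, ⟨0, 0⟩, 0⟩, 100000, 0⟩ 0 0)) (.void 148 ⟨⟨0, 0, 0, 0, 0, 0, 0, 0, 0, ⟨0, 0⟩, 0⟩, 100000, 0⟩ 0 0)))),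
    by decide +kernel⟩

def covers44 : cell.Covers Vale.Agent.P237.Petty.Cor.Grid.N14.table row44.1 :=
  ⟨(.cut .d 0 (.cut .v 16777216 (.cut .v 8388608 (.void 2 ⟨⟨0, 0, 100000, 0, 0, 0, 0, 0, 0, ⟨0, 0⟩, 0⟩, 0, 0⟩ 0 0) (.cut .d (-8388608) (.void 3 ⟨⟨100000, 0, 0, 0, 0, 0, 0, 0, 0, ⟨0, 0⟩, 0⟩, 0, 0⟩ 0 0) (.pos 3 .mm ⟨⟨0, 0, 0, 0, 0, 312427035264, 0, 0, 0, ⟨0, 0⟩, 0⟩, 0, 0⟩ 0 0))) (.cut .v 4294967296 (.cut .v 268435456 (.cut .v 67108864 (.cut .v 33554432 (.cut .d (-8388608) (.void 24 ⟨⟨96825, 0, 0, 3173, 0, 0, 0, 0, 0, ⟨0, 0⟩, 0⟩, 0, 0⟩ 0 0) (.cut .d (-4194304) (.void 24 ⟨⟨100000, 0, 0, 0, 0, 0, 0, 0, 0, ⟨0, 0⟩, 0⟩, 0, 0⟩ 0 0) (.cut .v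 25165824 (.cut .d (-2097152) (.void 25 ⟨⟨100000, 0, 0, 0, 0, 0, 0, 0, 0, ⟨0, 0⟩, 0⟩, 0, 0⟩ 0 0) (.pos 25 .mp ⟨⟨102976376126, 0, 0, 0, 0, 69890636414, 0, 0, 0, ⟨0, 0⟩, 0⟩, 0, 0⟩ 0 0)) (.void 26 ⟨⟨100000, 0, 0, 0, 0, 0, 0, 0, 0, ⟨0, 0⟩, 0⟩, 0, 0⟩ 0 0)))) (.pos 127 .mp ⟨⟨1677721600012055, 0, 0, 0, 0, 0, 0, 0, 0, ⟨0, 0⟩, 0⟩, 0, 0⟩ 0 0)) (.pos 134 .mp ⟨⟨1677721599995564, 0, 0, 0, 0, 0, 0, 0, 0, ⟨0, 0⟩, 0⟩, 0, 0⟩ 0 0)) (.pos 141 .mp ⟨⟨1574634361399160, 0, 0, 103087238600840, 0, 0, 0, 0, 0, ⟨0, 0⟩, 0⟩, 0, 0⟩ 0 0)) (.void 148 ⟨⟨9385552176232, 0, 0, 614447823768, 0, 0, 0, 0, 0, ⟨0, 0⟩, 0⟩, 0, 0⟩ 0 0))) (.cut .v 16777216 (.cut .v 8388608 (.cut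 .d 133154 (.pos 2 .pm ⟨⟨0, 0, 35735712663, 0, 0, 0, 0, 0, 0, ⟨0, 0⟩, 0⟩, 0, 0⟩ 0 0) (.cut .d 199731 (.pos 2 .pm ⟨⟨0, 0, 20708235356, 0, 0, 0, 0, 0, 0, ⟨0, 0⟩, 0⟩, 0, 0⟩ 0 0) (.pos 2 .pm ⟨⟨0, 0, 20877788, 0, 0, 0, 0, 0, 0, ⟨0, 0⟩, 0⟩, 0, 0⟩ 0 0))) (.pos 3 .pm ⟨⟨0, 0, 0, 0, 0, 0, 0, 0, 0, ⟨0, 0⟩, 0⟩, 0, 0⟩ 0 0)) (.cut .v 4294967296 (.cut .v 268435456 (.cut .v 67108864 (.cut .d 133154 (.cut .v 33554432 (.cut .d 66577 (.cut .d 33288 (.cut .v 25165824 (.cut .d 16644 (.cut .v 20971520 (.cut .d 8322 (.cut .v 18874368 (.cut .d 4161 (.cut .v 17825792 (.cut .s 16539648 (.pos 31 .pp ⟨⟨45707894384, 0, 0, 0, 0, 0, 0, 0, 0, ⟨0, 0⟩, 0⟩, 0, 0⟩ 0 0)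 (.pos 31 .pp ⟨⟨53758048528, 0, 0, 0, 0, 0, 0, 0, 0, ⟨0, 0⟩, 0⟩, 0, 0⟩ 0 0)) (.pos 32 .pp ⟨⟨60970093799, 0, 0, 0, 0, 0, 0, 0, 0, ⟨0, 0⟩, 0⟩, 0, 0⟩ 0 0)) (.pos 29 .pp ⟨⟨37832579198, 0, 0, 0, 0, 0, 0, 0, 0, ⟨0, 0⟩, 0⟩, 0, 0⟩ 0 0)) (.cut .d 4161 (.pos 30 .pp ⟨⟨82345730515, 0, 0, 0, 0, 0, 0, 0, 0, ⟨0, 0⟩, 0⟩, 0, 0⟩ 0 0) (.pos 30 .pp ⟨⟨62716479320, 0, 0, 0, 0, 0, 0, 0, 0, ⟨0, 0⟩, 0⟩, 0, 0⟩ 0 0))) (.pos 27 .pp ⟨⟨0, 0, 0, 0, 0, 0, 0, 0, 0, ⟨0, 0⟩, 0⟩, 4990194317, 0⟩ 0 0)) (.cut .d 8322 (.pos 28 .pp ⟨⟨0, 0, 0, 0, 0, 0, 0, 0, 0, ⟨0, 0⟩, 0⟩, 10369275197, 0⟩ 0 0) (.pos 28 .pp ⟨⟨0, 0, 0, 0, 0, 0, 0, 0, 0, ⟨0, 0⟩, 0⟩, 8021006796, 0⟩ 0 0))) (.pos 25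 .pp ⟨⟨0, 0, 0, 0, 0, 0, 0, 0, 0, ⟨0, 0⟩, 0⟩, 4883676412, 0⟩ 0 0)) (.cut .d 16644 (.pos 26 .pp ⟨⟨0, 0, 0, 0, 0, 0, 0, 0, 0, ⟨0, 0⟩, 0⟩, 13096723435, 0⟩ 0 0) (.pos 26 .pp ⟨⟨0, 0, 0, 0, 0, 0, 0, 0, 0, ⟨0, 0⟩, 0⟩, 9772576075, 0⟩ 0 0))) (.pos 24 .pp ⟨⟨0, 0, 0, 0, 0, 0, 0, 0, 0, ⟨0, 0⟩, 0⟩, 5139667549, 0⟩ 0 0)) (.pos 24 .pp ⟨⟨0, 0, 0, 0, 0, 0, 0, 0, 0, ⟨0, 0⟩, 0⟩, 0, 0⟩ 0 0)) (.cut .d 66577 (.cut .v 50331648 (.pos 128 .pp ⟨⟨0, 0, 0, 0, 0, 0, 0, 0, 0, ⟨0, 0⟩, 0⟩, 16764038003, 0⟩ 0 0) (.void 129 ⟨⟨0, 0, 0, 0, 0, 0, 0, 0, 0, ⟨0, 0⟩, 0⟩, 100000, 0⟩ 0 0)) (.pos 127 .pp ⟨⟨0, 0, 0, 0, 0, 0, 0, 0, 0, ⟨0, 0⟩, 0⟩, 11668162345, 0⟩ 0 0))) (.pos 126 .pp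 ⟨⟨0, 0, 0, 0, 0, 0, 0, 0, 0, ⟨0, 0⟩, 0⟩, 1455054618, 0⟩ 0 0)) (.void 134 ⟨⟨0, 0, 0, 52173, 0, 0, 0, 0, 0, ⟨0, 0⟩, 0⟩, 48959, 0⟩ 0 0)) (.void 141 ⟨⟨0, 0, 0, 0, 0, 0, 0, 0, 0, ⟨0, 0⟩, 0⟩, 100000, 0⟩ 0 0)) (.void 148 ⟨⟨0, 0, 0, 0, 0, 0, 0, 0, 0, ⟨0, 0⟩, 0⟩, 100000, 0⟩ 0 0)))),
    by decide +kernel⟩

def covers45 : cell.Covers Vale.Agent.P237.Petty.Cor.Grid.N14.table row45.1 :=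
  ⟨(.cut .d 0 (.cut .v 16777216 (.cut .v 8388608 (.pos 2 .mm ⟨⟨0, 0, 1677721600000000, 0, 0, 0, 0, 0, 0, ⟨0, 0⟩, 0⟩, 0, 0⟩ 0 0) (.cut .d (-8388608) (.void 3 ⟨⟨100004, 0, 0, 0, 0, 0, 0, 0, 0, ⟨0, 0⟩, 0⟩, 0, 0⟩ 0 0) (.pos 3 .mm ⟨⟨0, 0, 0, 0, 0, 439749994493, 0, 0, 0, ⟨0, 0⟩, 0⟩, 0, 0⟩ 0 0))) (.cut .v 4294967296 (.cut .v 268435456 (.cut .v 67108864 (.cut .v 33554432 (.cut .d (-8388608) (.void 24 ⟨⟨89526, 0, 7019, 3455, 0, 0, 0, 0, 0, ⟨0, 0⟩, 0⟩, 0, 0⟩ 0 0) (.cut .d (-4194304) (.void 24 ⟨⟨100000, 0, 0, 0, 0, 0, 0, 0, 0, ⟨0, 0⟩, 0⟩, 0, 0⟩ 0 0) (.cut .v 25165824 (.cut .d (-2097152) (.void 25 ⟨⟨100000, 0, 0, 0, 0, 0, 0, 0, 0, ⟨0, 0⟩, 0⟩, 0,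 0⟩ 0 0) (.pos 25 .mp ⟨⟨154459485059, 0, 0, 0, 0, 93363933760, 0, 0, 0, ⟨0, 0⟩, 0⟩, 0, 0⟩ 0 0)) (.void 26 ⟨⟨100000, 0, 0, 0, 0, 0, 0, 0, 0, ⟨0, 0⟩, 0⟩, 0, 0⟩ 0 0)))) (.pos 127 .mp ⟨⟨1677721599992947, 0, 0, 0, 0, 0, 0, 0, 0, ⟨0, 0⟩, 0⟩, 0, 0⟩ 0 0)) (.pos 134 .mp ⟨⟨1677721600008173, 0, 0, 0, 0, 0, 0, 0, 0, ⟨0, 0⟩, 0⟩, 0, 0⟩ 0 0)) (.void 141 ⟨⟨93791, 0, 0, 6190, 0, 0, 0, 0, 0, ⟨0, 0⟩, 0⟩, 0, 0⟩ 0 0)) (.void 148 ⟨⟨95192, 0, 0, 0, 0, 0, 0, 0, 0, ⟨0, 0⟩, 0⟩, 0, 0⟩ 0 0))) (.cut .v 16777216 (.cut .v 8388608 (.cut .d 107866 (.pos 2 .pm ⟨⟨0, 0, 52450734490, 0, 0, 0, 0, 0, 0, ⟨0, 0⟩, 0⟩, 0, 0⟩ 0 0) (.cut .d 161799 (.pos 2 .pm ⟨⟨0, 0, 38311860419,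 0, 0, 0, 0, 0, 0, ⟨0, 0⟩, 0⟩, 0, 0⟩ 0 0) (.pos 2 .pm ⟨⟨0, 0, 20815400, 0, 0, 0, 0, 0, 0, ⟨0, 0⟩, 0⟩, 0, 0⟩ 0 0))) (.pos 3 .pm ⟨⟨0, 0, 0, 0, 0, 0, 0, 0, 0, ⟨0, 0⟩, 0⟩, 0, 0⟩ 0 0)) (.cut .v 4294967296 (.cut .v 268435456 (.cut .v 67108864 (.cut .d 107866 (.cut .v 33554432 (.cut .d 53933 (.cut .d 26966 (.cut .v 25165824 (.cut .d 13483 (.cut .v 20971520 (.cut .d 6741 (.cut .v 18874368 (.cut .d 3370 (.cut .l 131821 (.cut .v 17825792 (.cut .d 1685 (.cut .v 17301504 (.cut .s 16588800 (.pos 33 .pp ⟨⟨62582860086, 0, 0, 0, 0, 0, 0, 0, 0, ⟨0, 0⟩, 0⟩, 0, 0⟩ 0 0) (.pos 33 .pp ⟨⟨76785791867, 0, 0, 0, 0, 0, 0, 0, 0, ⟨0, 0⟩, 0⟩, 0, 0⟩ 0 0)) (.pos 34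 .pp ⟨⟨83137916834, 0, 0, 0, 0, 0, 0, 0, 0, ⟨0, 0⟩, 0⟩, 0, 0⟩ 0 0)) (.pos 31 .pp ⟨⟨50182768530, 0, 0, 0, 0, 0, 0, 0, 0, ⟨0, 0⟩, 0⟩, 0, 0⟩ 0 0)) (.cut .d 1685 (.pos 32 .pp ⟨⟨119959398554, 0, 0, 0, 0, 0, 0, 0, 0, ⟨0, 0⟩, 0⟩, 0, 0⟩ 0 0) (.pos 32 .pp ⟨⟨77291039924, 0, 0, 0, 0, 0, 0, 0, 0, ⟨0, 0⟩, 0⟩, 0, 0⟩ 0 0))) (.pos 29 .pp ⟨⟨71858062257, 0, 0, 0, 0, 0, 0, 0, 0, ⟨0, 0⟩, 0⟩, 0, 0⟩ 0 0)) (.pos 29 .pp ⟨⟨52413579187, 0, 0, 0, 0, 0, 0, 0, 0, ⟨0, 0⟩, 0⟩, 0, 0⟩ 0 0)) (.cut .d 3370 (.pos 30 .pp ⟨⟨130715172804, 0, 0, 0, 0, 0, 0, 0, 0, ⟨0, 0⟩, 0⟩, 0, 0⟩ 0 0) (.cut .v 19922944 (.pos 59 .pp ⟨⟨77479583784, 0, 0, 0, 0, 0, 0, 0, 0, ⟨0, 0⟩, 0⟩, 0, 0⟩ 0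 0) (.pos 60 .pp ⟨⟨29894320631, 0, 0, 0, 0, 0, 0, 0, 0, ⟨0, 0⟩, 0⟩, 8317148179, 0⟩ 0 0)))) (.pos 27 .pp ⟨⟨0, 0, 0, 0, 0, 0, 0, 0, 0, ⟨0, 0⟩, 0⟩, 6917740632, 0⟩ 0 0)) (.cut .d 6741 (.pos 28 .pp ⟨⟨0, 0, 0, 0, 0, 0, 0, 0, 0, ⟨0, 0⟩, 0⟩, 15438169220, 0⟩ 0 0) (.cut .v 23068672 (.pos 63 .pp ⟨⟨0, 0, 0, 0, 0, 0, 0, 0, 0, ⟨0, 0⟩, 0⟩, 10247207742, 0⟩ 0 0) (.pos 64 .pp ⟨⟨0, 0, 0, 0, 0, 0, 0, 0, 0, ⟨0, 0⟩, 0⟩, 13700403122, 0⟩ 0 0)))) (.pos 25 .pp ⟨⟨0, 0, 0, 0, 0, 0, 0, 0, 0, ⟨0, 0⟩, 0⟩, 6777258653, 0⟩ 0 0)) (.cut .d 13483 (.pos 26 .pp ⟨⟨0, 0, 0, 0, 0, 0, 0, 0, 0, ⟨0, 0⟩, 0⟩, 20823259431, 0⟩ 0 0) (.pos 26 .pp ⟨⟨0, 0, 0, 0, 0, 0, 0, 0, 0, ⟨0, 0⟩, 0⟩,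 13922585206, 0⟩ 0 0))) (.pos 24 .pp ⟨⟨0, 0, 0, 0, 0, 0, 0, 0, 0, ⟨0, 0⟩, 0⟩, 7142415866, 0⟩ 0 0)) (.pos 24 .pp ⟨⟨0, 0, 0, 0, 0, 0, 0, 0, 0, ⟨0, 0⟩, 0⟩, 0, 0⟩ 0 0)) (.cut .d 53933 (.cut .v 50331648 (.cut .v 41943040 (.pos 130 .pp ⟨⟨0, 0, 0, 0, 0, 0, 0, 0, 0, ⟨0, 0⟩, 0⟩, 22319567989, 0⟩ 0 0) (.pos 131 .pp ⟨⟨0, 0, 0, 0, 0, 0, 0, 0, 0, ⟨0, 0⟩, 0⟩, 29775506094, 0⟩ 0 0)) (.void 129 ⟨⟨0, 0, 0, 0, 0, 0, 0, 0, 0, ⟨0, 0⟩, 0⟩, 100000, 0⟩ 0 0)) (.pos 127 .pp ⟨⟨0, 0, 0, 0, 0, 0, 0, 0, 0, ⟨0, 0⟩, 0⟩, 16441271417, 0⟩ 0 0))) (.pos 126 .pp ⟨⟨0, 0, 0, 0, 0, 0, 0, 0, 0, ⟨0, 0⟩, 0⟩, 2212003698, 0⟩ 0 0)) (.pos 134 .pp ⟨⟨0, 0, 0, 862302902229837, 0, 0, 0,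 0, 0, ⟨0, 0⟩, 0⟩, 815418697770162, 0⟩ 0 0)) (.void 141 ⟨⟨0, 0, 0, 0, 0, 0, 0, 0, 0, ⟨0, 0⟩, 0⟩, 100000, 0⟩ 0 0)) (.void 148 ⟨⟨0, 0, 0, 0, 0, 0, 0, 0, 0, ⟨0, 0⟩, 0⟩, 100000, 0⟩ 0 0)))),
    by decide +kernel⟩

def covers46 : cell.Covers Vale.Agent.P237.Petty.Cor.Grid.N14.table row46.1 :=
  ⟨(.cut .d 0 (.cut .v 16777216 (.cut .v 8388608 (.void 2 ⟨⟨0, 0, 114572, 0, 0, 0, 0, 0, 0, ⟨0, 0⟩, 0⟩, 0, 0⟩ 0 0) (.cut .d (-8388608) (.void 3 ⟨⟨100002, 0, 0, 0, 0, 0, 0, 0, 0, ⟨0, 0⟩, 0⟩, 0, 0⟩ 0 0) (.pos 3 .mm ⟨⟨0, 0, 0, 0, 0, 586857730160, 0, 0, 0, ⟨0, 0⟩, 0⟩, 0, 0⟩ 0 0))) (.cut .d (-8388608) (.void 147 ⟨⟨100000, 0, 0, 0, 0, 0, 0, 0, 0, ⟨0, 0⟩, 0⟩,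 0, 0⟩ 0 0) (.cut .v 4294967296 (.cut .v 268435456 (.cut .v 67108864 (.cut .v 33554432 (.cut .v 25165824 (.cut .d (-4194304) (.void 25 ⟨⟨100000, 0, 0, 0, 0, 0, 0, 0, 0, ⟨0, 0⟩, 0⟩, 0, 0⟩ 0 0) (.pos 25 .mp ⟨⟨216691765652, 0, 0, 0, 0, 266591077502, 0, 0, 0, ⟨0, 0⟩, 0⟩, 0, 0⟩ 0 0)) (.void 26 ⟨⟨100000, 0, 0, 0, 0, 0, 0, 0, 0, ⟨0, 0⟩, 0⟩, 0, 0⟩ 0 0)) (.void 127 ⟨⟨100000, 0, 0, 0, 0, 0, 0, 0, 0, ⟨0, 0⟩, 0⟩, 0, 0⟩ 0 0)) (.void 134 ⟨⟨100000, 0, 0, 0, 0, 0, 0, 0, 0, ⟨0, 0⟩, 0⟩, 0, 0⟩ 0 0)) (.void 141 ⟨⟨90850, 0, 0, 9030, 0, 0, 0, 0, 0, ⟨0, 0⟩, 0⟩, 0, 0⟩ 0 0)) (.cut .d (-4194304) (.void 148 ⟨⟨90840, 0, 4734, 4461, 0, 0, 0, 0, 0, ⟨0, 0⟩, 0⟩, 0,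 0⟩ 0 0) (.void 148 ⟨⟨89630, 0, 0, 10374, 0, 0, 0, 0, 0, ⟨0, 0⟩, 0⟩, 0, 0⟩ 0 0))))) (.cut .v 16777216 (.cut .v 8388608 (.cut .d 82729 (.pos 2 .pm ⟨⟨0, 0, 76751011620, 0, 0, 0, 0, 0, 0, ⟨0, 0⟩, 0⟩, 0, 0⟩ 0 0) (.cut .d 124093 (.pos 2 .pm ⟨⟨0, 0, 52929453029, 0, 0, 0, 0, 0, 0, ⟨0, 0⟩, 0⟩, 0, 0⟩ 0 0) (.pos 2 .pm ⟨⟨0, 0, 20732614, 0, 0, 0, 0, 0, 0, ⟨0, 0⟩, 0⟩, 0, 0⟩ 0 0))) (.pos 3 .pm ⟨⟨0, 0, 0, 0, 0, 0, 0, 0, 0, ⟨0, 0⟩, 0⟩, 0, 0⟩ 0 0)) (.cut .v 4294967296 (.cut .v 268435456 (.cut .v 67108864 (.cut .d 82729 (.cut .v 33554432 (.cut .d 41364 (.cut .d 20682 (.cut .v 25165824 (.cut .d 10341 (.cut .v 20971520 (.cut .d 5170 (.cut .v 18874368 (.cut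 .d 2585 (.cut .v 17825792 (.cut .s 16629760 (.pos 31 .pp ⟨⟨95351777920, 0, 0, 0, 0, 0, 0, 0, 0, ⟨0, 0⟩, 0⟩, 0, 0⟩ 0 0) (.cut .s 16637952 (.pos 31 .pp ⟨⟨108515134029, 0, 0, 0, 0, 0, 0, 0, 0, ⟨0, 0⟩, 0⟩, 0, 0⟩ 0 0) (.pos 31 .pp ⟨⟨118976006376, 0, 0, 0, 0, 0, 0, 0, 0, ⟨0, 0⟩, 0⟩, 0, 0⟩ 0 0))) (.pos 32 .pp ⟨⟨128282389162, 0, 0, 0, 0, 0, 0, 0, 0, ⟨0, 0⟩, 0⟩, 0, 0⟩ 0 0)) (.pos 29 .pp ⟨⟨78930673255, 0, 0, 0, 0, 0, 0, 0, 0, ⟨0, 0⟩, 0⟩, 0, 0⟩ 0 0)) (.cut .d 2585 (.pos 30 .pp ⟨⟨177193515433, 0, 0, 0, 0, 0, 0, 0, 0, ⟨0, 0⟩, 0⟩, 0, 0⟩ 0 0) (.pos 30 .pp ⟨⟨131217235256, 0, 0, 0, 0, 0, 0, 0, 0, ⟨0, 0⟩, 0⟩, 0, 0⟩ 0 0))) (.pos 27 .pp ⟨⟨0, 0, 0, 0, 0,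 0, 0, 0, 0, ⟨0, 0⟩, 0⟩, 10419760285, 0⟩ 0 0)) (.cut .d 5170 (.pos 28 .pp ⟨⟨0, 0, 0, 0, 0, 0, 0, 0, 0, ⟨0, 0⟩, 0⟩, 21933689389, 0⟩ 0 0) (.pos 28 .pp ⟨⟨0, 0, 0, 0, 0, 0, 0, 0, 0, ⟨0, 0⟩, 0⟩, 16788208008, 0⟩ 0 0))) (.pos 25 .pp ⟨⟨0, 0, 0, 0, 0, 0, 0, 0, 0, ⟨0, 0⟩, 0⟩, 10210452018, 0⟩ 0 0)) (.cut .d 10341 (.pos 26 .pp ⟨⟨0, 0, 0, 0, 0, 0, 0, 0, 0, ⟨0, 0⟩, 0⟩, 28201417340, 0⟩ 0 0) (.pos 26 .pp ⟨⟨0, 0, 0, 0, 0, 0, 0, 0, 0, ⟨0, 0⟩, 0⟩, 20488063279, 0⟩ 0 0))) (.pos 24 .pp ⟨⟨0, 0, 0, 0, 0, 0, 0, 0, 0, ⟨0, 0⟩, 0⟩, 10760227164, 0⟩ 0 0)) (.pos 24 .pp ⟨⟨0, 0, 0, 0, 0, 0, 0, 0, 0, ⟨0, 0⟩, 0⟩, 0, 0⟩ 0 0)) (.cut .d 41364 (.cut .v 50331648 (.cut .v 41943040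 (.pos 130 .pp ⟨⟨0, 0, 0, 0, 0, 0, 0, 0, 0, ⟨0, 0⟩, 0⟩, 32019586949, 0⟩ 0 0) (.pos 131 .pp ⟨⟨0, 0, 0, 0, 0, 0, 0, 0, 0, ⟨0, 0⟩, 0⟩, 53320986655, 0⟩ 0 0)) (.void 129 ⟨⟨0, 0, 0, 0, 0, 0, 0, 0, 0, ⟨0, 0⟩, 0⟩, 100000, 0⟩ 0 0)) (.pos 127 .pp ⟨⟨0, 0, 0, 0, 0, 0, 0, 0, 0, ⟨0, 0⟩, 0⟩, 24580956491, 0⟩ 0 0))) (.pos 126 .pp ⟨⟨0, 0, 0, 0, 0, 0, 0, 0, 0, ⟨0, 0⟩, 0⟩, 3519991333, 0⟩ 0 0)) (.pos 134 .pp ⟨⟨0, 0, 0, 863013583547273, 0, 0, 0, 0, 0, ⟨0, 0⟩, 0⟩, 814708016452729, 0⟩ 0 0)) (.void 141 ⟨⟨0, 0, 0, 0, 0, 0, 0, 0, 0, ⟨0, 0⟩, 0⟩, 100000, 0⟩ 0 0)) (.void 148 ⟨⟨0, 0, 0, 0, 0, 0, 0, 0, 0, ⟨0, 0⟩, 0⟩, 100000, 0⟩ 0 0)))),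
    by decide +kernel⟩

end Vale.Agent.P237.Petty.Cor.Grid.Tiny.N14
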