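import Vale.Agent.P237.Petty.Cor.Grid.Tiny.N14.Cov0
import Vale.Agent.P237.Petty.Cor.Grid.Tiny.N14.Cov1
import Vale.Agent.P237.Petty.Cor.Grid.Tiny.N14.Rows0
import Vale.Agent.P237.Petty.Cor.Grid.Tiny.N14.Rows1
import Vale.Agent.P237.Petty.Cor.Grid.Tiny.N14.Pieces0
import Vale.Agent.P237.Petty.Cor.Grid.Tiny.N14.Pieces1

/-!
# P237: the cell down to zero in dimension 14
-/

namespace Vale.Agent.P237.Petty.Cor.Grid.Tiny.N14

theorem pieces_ok : cell.pieces.all (pieceTOk cell.k.k.m) = true :=
  (congrArg (fun l => List.all l (pieceTOk cell.k.k.m)) (List.take_append_drop 78 cell.pieces)).symm.trans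
    (by rw [List.all_append, pieces0_ok, pieces1_ok]; rfl)

theorem rows_ok : cell.rows.all (cell.rowOk Vale.Agent.P237.Petty.Cor.Grid.N14.table) = true := by
  show List.all [row0, row1, row2, row3, row4, row5, row6, row7, row8, row9, row10, row11, row12, row13, row14, row15, row16, row17, row18, row19, row20, row21, row22, row23, row24, row25, row26, row27, row28, row29, row30, row31, row32, row33, row34, row35, row36, row37, row38, row39, row40, row41, row42, row43, row44, row45, row46] (cell.rowOk Vale.Agent.P237.Petty.Cor.Grid.N14.table) = true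
  simp only [List.all_cons, List.all_nil, row0_ok, row1_ok, row2_ok, row3_ok, row4_ok, row5_ok, row6_ok, row7_ok, row8_ok, row9_ok, row10_ok, row11_ok, row12_ok, row13_ok, row14_ok, row15_ok, row16_ok, row17_ok, row18_ok, row19_ok, row20_ok, row21_ok, row22_ok, row23_ok, row24_ok, row25_ok, row26_ok, row27_ok, row28_ok, row29_ok, row30_ok, row31_ok, row32_ok, row33_ok, row34_ok, row35_ok, row36_ok, row37_ok, row38_ok, row39_ok, row40_ok, row41_ok, row42_ok, row43_ok, row44_ok, row45_ok, row46_ok, Bool.and_self]

theorem covers : ∀ e ∈ cell.rows, cell.Covers Vale.Agent.P237.Petty.Cor.Grid.N14.table e.1 := by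
  simp only [cell, List.forall_mem_cons]
  exact ⟨covers0, covers1, covers2, covers3, covers4, covers5, covers6, covers7, covers8, covers9, covers10, covers11, covers12, covers13, covers14, covers15, covers16, covers17, covers18, covers19, covers20, covers21, covers22, covers23, covers24, covers25, covers26, covers27, covers28, covers29, covers30, covers31, covers32, covers33, covers34, covers35, covers36, covers37, covers38, covers39, covers40, covers41, covers42, covers43, covers44, covers45, covers46, List.forall_mem_nil _⟩

/-- From zero to `11 / 700`. -/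
theorem corCell : CorCell 12 0 ((11 : ℝ) / 700) := fun ell hl => by
  have h := CellT.corCell head_ok Vale.Agent.P237.Petty.Cor.Grid.N14.table_ok pieces_ok rows_ok mean_ok covers
  refine (show CorCell 12 0 ((263642 : ℝ) / 16777216) from ?_) ell ⟨hl.1, hl.2.trans (by norm_num)⟩
  simpa [cell, par, sR] using h

end Vale.Agent.P237.Petty.Cor.Grid.Tiny.N14
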