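import Vale.Agent.P237.Petty.Cor.Grid.Tiny.N14.Cert

/-!
# P237: a cell down to zero in dimension 14, subdivisions
-/

namespace Vale.Agent.P237.Petty.Cor.Grid.Tiny.N14

def covers0 : cell.Covers Vale.Agent.P237.Petty.Cor.Grid.N14.table row0.1 :=
  ⟨(.cut .d 0 (.cut .v 16777216 (.cut .v 8388608 (.cut .s 851968 (.cut .s 425984 (.cut .s 212992 (.cut .v 4194304 (.cut .v 2097152 (.void 6 ⟨⟨0, 0, 100000, 0, 0, 0, 0, 0, 0, ⟨0, 0⟩, 0⟩, 0, 0⟩ 0 0) (.pos 7 .mm ⟨⟨0, 0, 0, 0, 0, 0, 0, 0, 0, ⟨0, 0⟩, 0⟩, 0, 0⟩ 0 0)) (.cut .d (-8388608) (.pos 5 .mm ⟨⟨0, 0, 0, 0, 0, 0, 0, 0, 0, ⟨0, 0⟩, 0⟩, 0, 0⟩ 0 0) (.pos 5 .mm ⟨⟨0, 0, 0, 0, 0, 0, 0, 0, 0, ⟨0,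 0⟩, 0⟩, 0, 0⟩ 0 0))) (.void 2 ⟨⟨0, 0, 0, 0, 50000, 50000, 0, 0, 0, ⟨0, 0⟩, 0⟩, 0, 0⟩ 0 0)) (.void 2 ⟨⟨0, 0, 0, 0, 50000, 50000, 0, 0, 0, ⟨0, 0⟩, 0⟩, 0, 0⟩ 0 0)) (.void 2 ⟨⟨0, 0, 0, 0, 50000, 50000, 0, 0, 0, ⟨0, 0⟩, 0⟩, 0, 0⟩ 0 0)) (.cut .v 12582912 (.cut .d (-8388608) (.pos 10 .mm ⟨⟨0, 0, 0, 0, 0, 0, 0, 0, 0, ⟨0, 0⟩, 0⟩, 0, 0⟩ 0 0) (.cut .d (-4194304) (.cut .d (-6291456) (.pos 10 .mm ⟨⟨0, 0, 0, 0, 0, 0, 0, 0, 0, ⟨0, 0⟩, 0⟩, 0, 0⟩ 0 0) (.pos 10 .mm ⟨⟨0, 0, 0, 0, 0, 0, 0, 0, 0, ⟨0, 0⟩, 0⟩, 0, 0⟩ 0 0)) (.pos 10 .mm ⟨⟨0, 0, 0, 0, 0, 0, 0, 0, 0, ⟨0, 0⟩, 0⟩, 0, 0⟩ 0 0))) (.cut .d (-8388608) (.pos 11 .mm ⟨⟨0, 0, 0, 0, 0, 0, 0, 0, 0, ⟨0,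 0⟩, 0⟩, 0, 0⟩ 0 0) (.cut .d (-4194304) (.cut .v 14680064 (.cut .v 13631488 (.pos 16 .mm ⟨⟨0, 0, 0, 0, 0, 0, 0, 0, 0, ⟨0, 0⟩, 0⟩, 0, 0⟩ 0 0) (.pos 17 .mm ⟨⟨0, 0, 0, 0, 0, 0, 0, 0, 0, ⟨0, 0⟩, 0⟩, 0, 0⟩ 0 0)) (.pos 15 .mm ⟨⟨0, 0, 0, 0, 0, 0, 0, 0, 0, ⟨0, 0⟩, 0⟩, 0, 0⟩ 0 0)) (.cut .v 14680064 (.cut .d (-2097152) (.cut .s 851968 (.cut .v 13631488 (.cut .d (-3145728) (.cut .d (-3670016) (.pos 16 .mm ⟨⟨0, 0, 0, 0, 0, 0, 0, 0, 0, ⟨0, 0⟩, 0⟩, 0, 0⟩ 0 0) (.pos 16 .mm ⟨⟨0, 0, 0, 0, 0, 0, 0, 0, 0, ⟨0, 0⟩, 0⟩, 0, 0⟩ 0 0)) (.pos 16 .mm ⟨⟨0, 0, 0, 0, 0, 0, 0, 0, 0, ⟨0, 0⟩, 0⟩, 0, 0⟩ 0 0)) (.cut .d (-3145728) (.pos 17 .mm ⟨⟨0, 0, 0, 0, 0, 0, 0,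 0, 0, ⟨0, 0⟩, 0⟩, 0, 0⟩ 0 0) (.cut .d (-2621440) (.cut .d (-2883584) (.pos 17 .mm ⟨⟨0, 0, 0, 0, 0, 0, 0, 0, 0, ⟨0, 0⟩, 0⟩, 0, 0⟩ 0 0) (.pos 17 .mm ⟨⟨0, 0, 0, 0, 0, 0, 0, 0, 0, ⟨0, 0⟩, 0⟩, 0, 0⟩ 0 0)) (.pos 17 .mm ⟨⟨0, 0, 0, 0, 0, 0, 0, 0, 0, ⟨0, 0⟩, 0⟩, 0, 0⟩ 0 0)))) (.void 14 ⟨⟨0, 0, 0, 0, 0, 100000, 0, 0, 0, ⟨0, 0⟩, 0⟩, 0, 0⟩ 0 0)) (.pos 14 .mm ⟨⟨0, 0, 0, 0, 0, 0, 0, 0, 0, ⟨0, 0⟩, 0⟩, 0, 0⟩ 0 0)) (.cut .d (-2097152) (.pos 15 .mm ⟨⟨0, 0, 0, 0, 0, 0, 0, 0, 0, ⟨0, 0⟩, 0⟩, 0, 0⟩ 0 0) (.cut .d (-1048576) (.cut .v 15728640 (.pos 22 .mm ⟨⟨0, 0, 0, 0, 0, 0, 0, 0, 0, ⟨0, 0⟩, 0⟩, 0, 0⟩ 0 0) (.pos 23 .mm ⟨⟨0, 0, 0, 0, 0, 0, 0, 0, 0, ⟨0,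 0⟩, 0⟩, 0, 0⟩ 0 0)) (.pos 15 .mm ⟨⟨0, 0, 0, 0, 0, 243284, 0, 0, 0, ⟨0, 0⟩, 0⟩, 0, 0⟩ 0 0)))))))) (.cut .v 25165824 (.cut .v 20971520 (.cut .v 18874368 (.pos 29 .mp ⟨⟨1403134, 0, 0, 0, 0, 13092, 0, 0, 0, ⟨0, 0⟩, 0⟩, 0, 0⟩ 0 0) (.void 30 ⟨⟨0, 0, 0, 0, 0, 0, 100000, 0, 0, ⟨0, 0⟩, 0⟩, 0, 0⟩ 0 0)) (.void 28 ⟨⟨0, 0, 0, 0, 0, 0, 100000, 0, 0, ⟨0, 0⟩, 0⟩, 0, 0⟩ 0 0)) (.void 26 ⟨⟨0, 0, 0, 0, 0, 0, 100000, 0, 0, ⟨0, 0⟩, 0⟩, 0, 0⟩ 0 0))) (.cut .v 16777216 (.cut .v 8388608 (.cut .v 4194304 (.cut .v 2097152 (.void 6 ⟨⟨0, 0, 100000, 0, 0, 0, 0, 0, 0, ⟨0, 0⟩, 0⟩, 0, 0⟩ 0 0) (.pos 7 .pm ⟨⟨0, 0, 0, 0, 820891, 0, 0, 0, 0, ⟨0, 0⟩, 0⟩, 0, 0⟩ 0 0))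 (.pos 5 .pm ⟨⟨0, 0, 0, 0, 772713, 0, 0, 0, 0, ⟨0, 0⟩, 0⟩, 0, 0⟩ 0 0)) (.cut .v 12582912 (.pos 10 .pm ⟨⟨0, 0, 0, 0, 726249, 0, 0, 0, 0, ⟨0, 0⟩, 0⟩, 0, 0⟩ 0 0) (.pos 11 .pm ⟨⟨0, 0, 0, 0, 0, 0, 0, 0, 0, ⟨0, 0⟩, 0⟩, 0, 693090⟩ 0 0))) (.cut .v 25165824 (.cut .v 20971520 (.cut .v 18874368 (.cut .v 17825792 (.cut .v 17301504 (.cut .d 339486 (.cut .v 17039360 (.cut .s 851968 (.pos 35 .pp ⟨⟨755078, 0, 0, 0, 0, 0, 416140, 0, 0, ⟨0, 0⟩, 0⟩, 0, 127776⟩ 0 0) (.cut .s 1277952 (.pos 35 .pp ⟨⟨1447312, 0, 0, 0, 0, 0, 0, 0, 0, ⟨0, 0⟩, 0⟩, 0, 240384⟩ 0 0) (.cut .s 1490944 (.pos 35 .pp ⟨⟨1316854, 0, 0, 0, 0, 0, 0, 0, 0, ⟨0, 0⟩, 0⟩, 0, 264090⟩ 0 0)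 (.cut .d 169743 (.pos 35 .pp ⟨⟨1136798, 0, 0, 0, 0, 0, 0, 0, 0, ⟨0, 0⟩, 0⟩, 0, 293937⟩ 0 0) (.pos 35 .pp ⟨⟨1105878, 0, 0, 0, 0, 0, 0, 0, 0, ⟨0, 0⟩, 0⟩, 0, 388062⟩ 0 0))))) (.pos 36 .pp ⟨⟨1695092, 0, 0, 0, 0, 0, 0, 0, 0, ⟨0, 0⟩, 0⟩, 0, 138375⟩ 0 0)) (.pos 33 .pp ⟨⟨0, 0, 0, 0, 0, 0, 930072, 0, 0, ⟨0, 0⟩, 0⟩, 0, 1851840⟩ 0 0)) (.void 34 ⟨⟨0, 0, 0, 0, 0, 0, 100000, 0, 0, ⟨0, 0⟩, 0⟩, 0, 0⟩ 0 0)) (.void 32 ⟨⟨0, 0, 0, 0, 0, 0, 100000, 0, 0, ⟨0, 0⟩, 0⟩, 0, 0⟩ 0 0)) (.void 30 ⟨⟨0, 0, 0, 0, 0, 0, 0, 0, 0, ⟨0, 0⟩, 0⟩, 100000, 0⟩ 0 0)) (.void 28 ⟨⟨0, 0, 0, 0, 0, 0, 0, 0, 0, ⟨0, 0⟩, 0⟩, 100000, 0⟩ 0 0)) (.void 26 ⟨⟨0, 0, 0, 0, 0, 0, 0, 0, 0,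 ⟨0, 0⟩, 0⟩, 100000, 0⟩ 0 0)))),
    by decide +kernel⟩

def covers1 : cell.Covers Vale.Agent.P237.Petty.Cor.Grid.N14.table row1.1 :=
  ⟨(.cut .d 0 (.cut .v 16777216 (.cut .v 8388608 (.void 2 ⟨⟨0, 0, 0, 0, 50000, 50000, 0, 0, 0, ⟨0, 0⟩, 0⟩, 0, 0⟩ 0 0) (.cut .v 12582912 (.void 10 ⟨⟨0, 0, 0, 0, 50000, 50000, 0, 0, 0, ⟨0, 0⟩, 0⟩, 0, 0⟩ 0 0) (.cut .v 14680064 (.void 14 ⟨⟨0, 0, 0, 0, 0, 64287, 0, 0, 35713, ⟨0, 0⟩, 15100357⟩, 0, 0⟩ 0 0) (.cut .d (-8388608) (.void 15 ⟨⟨0, 0, 0, 0, 0, 100000, 0, 0, 0, ⟨0, 0⟩, 0⟩, 0, 0⟩ 0 0) (.cut .d (-4194304) (.void 15 ⟨⟨0, 0, 0, 0, 0, 100000, 0, 0, 0, ⟨0, 0⟩, 0⟩, 0, 0⟩ 0 0) (.cut .d (-2097152) (.void 15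 ⟨⟨0, 0, 0, 0, 0, 100000, 0, 0, 0, ⟨0, 0⟩, 0⟩, 0, 0⟩ 0 0) (.pos 15 .mm ⟨⟨0, 0, 0, 0, 0, 653328, 0, 0, 0, ⟨0, 0⟩, 0⟩, 0, 0⟩ 0 0))))))) (.cut .v 25165824 (.cut .v 20971520 (.cut .d (-8388608) (.void 27 ⟨⟨0, 0, 0, 0, 0, 100000, 0, 0, 0, ⟨0, 0⟩, 0⟩, 0, 0⟩ 0 0) (.cut .v 18874368 (.pos 29 .mp ⟨⟨1069214, 0, 0, 0, 0, 0, 0, 0, 0, ⟨0, 0⟩, 0⟩, 0, 0⟩ 0 0) (.void 30 ⟨⟨0, 0, 0, 0, 0, 0, 100000, 0, 0, ⟨0, 0⟩, 0⟩, 0, 0⟩ 0 0))) (.void 28 ⟨⟨0, 0, 0, 0, 0, 0, 100000, 0, 0, ⟨0, 0⟩, 0⟩, 0, 0⟩ 0 0)) (.void 26 ⟨⟨0, 0, 0, 0, 0, 0, 100000, 0, 0, ⟨0, 0⟩, 0⟩, 0, 0⟩ 0 0))) (.cut .v 16777216 (.cut .v 8388608 (.void 2 ⟨⟨0, 0, 0, 0, 100000, 0, 0, 0, 0, ⟨0, 0⟩,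 0⟩, 0, 0⟩ 0 0) (.cut .v 12582912 (.void 10 ⟨⟨0, 0, 0, 0, 100000, 0, 0, 0, 0, ⟨0, 0⟩, 0⟩, 0, 0⟩ 0 0) (.cut .v 14680064 (.void 14 ⟨⟨0, 0, 0, 0, 0, 0, 0, 0, 100000, ⟨0, 0⟩, 15100357⟩, 0, 0⟩ 0 0) (.pos 15 .pm ⟨⟨0, 0, 0, 0, 0, 0, 0, 0, 0, ⟨0, 0⟩, 0⟩, 0, 269264⟩ 0 0)))) (.cut .v 25165824 (.cut .v 20971520 (.cut .v 18874368 (.cut .d 765616 (.cut .v 17825792 (.cut .d 382808 (.cut .v 17301504 (.cut .s 2359296 (.cut .v 17039360 (.cut .d 191404 (.cut .l 131821 (.cut .v 16908288 (.cut .d 95702 (.cut .s 2031616 (.pos 37 .pp ⟨⟨982235, 0, 0, 0, 0, 0, 0, 0, 0, ⟨0, 0⟩, 0⟩, 0, 290578⟩ 0 0) (.cut .s 2195456 (.pos 37 .pp ⟨⟨870469, 0, 0, 0, 0, 0, 0,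 0, 0, ⟨0, 0⟩, 0⟩, 0, 299197⟩ 0 0) (.pos 37 .pp ⟨⟨796192, 0, 0, 0, 0, 0, 0, 0, 0, ⟨0, 0⟩, 0⟩, 0, 291204⟩ 0 0))) (.pos 37 .pp ⟨⟨739192, 0, 0, 0, 0, 0, 0, 0, 0, ⟨0, 0⟩, 0⟩, 0, 484827⟩ 0 0)) (.pos 38 .pp ⟨⟨1126426, 0, 0, 0, 0, 0, 0, 0, 0, ⟨0, 0⟩, 0⟩, 0, 251361⟩ 0 0)) (.pos 35 .pp ⟨⟨832101, 0, 0, 0, 0, 0, 0, 0, 0, ⟨0, 0⟩, 0⟩, 0, 252613⟩ 0 0)) (.cut .s 2031616 (.pos 35 .pp ⟨⟨964832, 0, 0, 0, 0, 0, 0, 0, 0, ⟨0, 0⟩, 0⟩, 0, 393750⟩ 0 0) (.pos 35 .pp ⟨⟨739070, 0, 0, 0, 0, 0, 0, 0, 0, ⟨0, 0⟩, 0⟩, 0, 417414⟩ 0 0))) (.pos 36 .pp ⟨⟨1256542, 0, 0, 0, 0, 0, 0, 0, 0, ⟨0, 0⟩, 0⟩, 0, 205655⟩ 0 0)) (.cut .v 17039360 (.cut .s 2686976 (.cut .d 191404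 (.cut .s 2523136 (.cut .s 2441216 (.pos 35 .pp ⟨⟨729781, 0, 0, 0, 0, 0, 0, 0, 0, ⟨0, 0⟩, 0⟩, 0, 300388⟩ 0 0) (.pos 35 .pp ⟨⟨699330, 0, 0, 0, 0, 0, 0, 0, 0, ⟨0, 0⟩, 0⟩, 0, 291215⟩ 0 0)) (.pos 35 .pp ⟨⟨640338, 0, 0, 0, 0, 0, 0, 0, 0, ⟨0, 0⟩, 0⟩, 0, 277051⟩ 0 0)) (.pos 35 .pp ⟨⟨546518, 0, 0, 0, 0, 0, 0, 0, 0, ⟨0, 0⟩, 0⟩, 0, 403899⟩ 0 0)) (.cut .s 2850816 (.pos 35 .pp ⟨⟨580156, 0, 0, 0, 0, 0, 0, 0, 0, ⟨0, 0⟩, 0⟩, 0, 259393⟩ 0 0) (.pos 35 .pp ⟨⟨537837, 0, 0, 0, 0, 0, 0, 0, 0, ⟨0, 0⟩, 0⟩, 0, 233995⟩ 0 0))) (.pos 36 .pp ⟨⟨811892, 0, 0, 0, 0, 0, 0, 0, 0, ⟨0, 0⟩, 0⟩, 0, 291803⟩ 0 0))) (.void 34 ⟨⟨84621, 0, 0, 0, 0, 0, 0, 0, 0, ⟨0, 0⟩, 0⟩,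 0, 15379⟩ 0 0)) (.void 31 ⟨⟨0, 0, 0, 0, 0, 0, 682, 0, 0, ⟨0, 0⟩, 0⟩, 0, 99318⟩ 0 0)) (.void 32 ⟨⟨0, 0, 0, 0, 0, 0, 100000, 0, 0, ⟨0, 0⟩, 0⟩, 0, 0⟩ 0 0)) (.void 29 ⟨⟨0, 0, 0, 0, 0, 0, 682, 0, 0, ⟨0, 0⟩, 0⟩, 0, 99318⟩ 0 0)) (.void 30 ⟨⟨0, 0, 0, 0, 0, 0, 100000, 0, 0, ⟨0, 0⟩, 0⟩, 0, 0⟩ 0 0)) (.void 28 ⟨⟨0, 0, 0, 0, 0, 0, 0, 0, 0, ⟨0, 0⟩, 0⟩, 100000, 0⟩ 0 0)) (.void 26 ⟨⟨0, 0, 0, 0, 0, 0, 0, 0, 0, ⟨0, 0⟩, 0⟩, 100000, 0⟩ 0 0)))),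
    by decide +kernel⟩

def covers2 : cell.Covers Vale.Agent.P237.Petty.Cor.Grid.N14.table row2.1 :=
  ⟨(.cut .d 0 (.cut .v 16777216 (.cut .v 8388608 (.void 2 ⟨⟨0, 0, 0, 0, 50000, 50000, 0, 0, 0, ⟨0, 0⟩, 0⟩, 0, 0⟩ 0 0) (.cut .v 12582912 (.void 10 ⟨⟨0, 0, 0, 0, 0, 61015, 0, 0, 38985, ⟨0, 0⟩, 13128881⟩, 0, 0⟩ 0 0) (.cut .d (-8388608) (.void 11 ⟨⟨0, 0, 0, 0, 0, 100000, 0, 0, 0, ⟨0, 0⟩, 0⟩, 0, 0⟩ 0 0) (.cut .d (-4194304) (.void 11 ⟨⟨0, 0, 0, 0, 0, 100000, 0, 0, 0, ⟨0, 0⟩, 0⟩, 0, 0⟩ 0 0) (.cut .v 14680064 (.pos 14 .mm ⟨⟨0, 0, 0, 0, 0, 2828410, 0, 0, 0, ⟨0, 0⟩, 0⟩, 0, 0⟩ 0 0) (.cut .d (-2097152) (.void 15 ⟨⟨0, 0, 0, 0, 0, 100000, 0, 0,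 0, ⟨0, 0⟩, 0⟩, 0, 0⟩ 0 0) (.cut .d (-1048576) (.void 15 ⟨⟨0, 0, 0, 0, 0, 100000, 0, 0, 0, ⟨0, 0⟩, 0⟩, 0, 0⟩ 0 0) (.cut .d (-524288) (.void 15 ⟨⟨0, 0, 0, 0, 0, 100000, 0, 0, 0, ⟨0, 0⟩, 0⟩, 0, 0⟩ 0 0) (.cut .d (-262144) (.pos 15 .mm ⟨⟨0, 0, 0, 0, 0, 2780499, 0, 0, 0, ⟨0, 0⟩, 0⟩, 0, 0⟩ 0 0) (.pos 15 .mm ⟨⟨0, 0, 0, 0, 0, 479793, 0, 0, 0, ⟨0, 0⟩, 0⟩, 0, 0⟩ 0 0)))))))))) (.cut .v 25165824 (.cut .d (-8388608) (.void 25 ⟨⟨0, 0, 0, 0, 0, 100000, 0, 0, 0, ⟨0, 0⟩, 0⟩, 0, 0⟩ 0 0) (.cut .d (-4194304) (.void 25 ⟨⟨0, 0, 0, 0, 0, 100000, 0, 0, 0, ⟨0, 0⟩, 0⟩, 0, 0⟩ 0 0) (.cut .v 20971520 (.cut .d (-2097152) (.void 27 ⟨⟨0, 0, 0, 0, 0, 100000, 0,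 0, 0, ⟨0, 0⟩, 0⟩, 0, 0⟩ 0 0) (.cut .d (-1048576) (.void 27 ⟨⟨0, 0, 0, 0, 0, 100000, 0, 0, 0, ⟨0, 0⟩, 0⟩, 0, 0⟩ 0 0) (.cut .d (-524288) (.void 27 ⟨⟨0, 0, 0, 0, 0, 100000, 0, 0, 0, ⟨0, 0⟩, 0⟩, 0, 0⟩ 0 0) (.cut .v 18874368 (.cut .d (-262144) (.pos 29 .mp ⟨⟨688070, 0, 0, 0, 0, 2379090, 0, 0, 0, ⟨0, 0⟩, 0⟩, 0, 0⟩ 0 0) (.cut .d (-131072) (.pos 29 .mp ⟨⟨688070, 0, 0, 0, 0, 200733, 0, 0, 0, ⟨0, 0⟩, 0⟩, 0, 0⟩ 0 0) (.pos 29 .mp ⟨⟨601382, 0, 0, 0, 0, 61601, 0, 0, 0, ⟨0, 0⟩, 0⟩, 0, 0⟩ 0 0))) (.void 30 ⟨⟨100000, 0, 0, 0, 0, 0, 0, 0, 0, ⟨0, 0⟩, 0⟩, 0, 0⟩ 0 0))))) (.void 28 ⟨⟨0, 0, 0, 0, 0, 0, 100000, 0, 0, ⟨0, 0⟩, 0⟩, 0, 0⟩ 0 0)))) (.void 26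 ⟨⟨0, 0, 0, 0, 0, 0, 100000, 0, 0, ⟨0, 0⟩, 0⟩, 0, 0⟩ 0 0))) (.cut .v 16777216 (.cut .v 8388608 (.void 2 ⟨⟨0, 0, 0, 0, 100000, 0, 0, 0, 0, ⟨0, 0⟩, 0⟩, 0, 0⟩ 0 0) (.cut .v 12582912 (.void 10 ⟨⟨0, 0, 0, 0, 0, 0, 0, 0, 100000, ⟨0, 0⟩, 13128881⟩, 0, 0⟩ 0 0) (.cut .v 14680064 (.pos 14 .pm ⟨⟨0, 0, 0, 0, 0, 0, 0, 0, 1494553, ⟨0, 0⟩, 15100357⟩, 0, 0⟩ 0 0) (.cut .d 1173738 (.cut .d 586869 (.cut .s 3407872 (.pos 15 .pm ⟨⟨0, 0, 0, 0, 0, 0, 0, 0, 0, ⟨0, 0⟩, 0⟩, 0, 229956⟩ 0 0) (.cut .v 15728640 (.pos 22 .pm ⟨⟨0, 0, 0, 0, 0, 0, 0, 0, 0, ⟨0, 0⟩, 0⟩, 0, 451886⟩ 0 0) (.cut .d 293434 (.pos 23 .pm ⟨⟨0, 0, 0, 0, 0, 0, 0, 0, 0, ⟨0, 0⟩, 0⟩, 0, 162255⟩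 0 0) (.pos 23 .pm ⟨⟨0, 0, 0, 0, 0, 0, 0, 0, 0, ⟨0, 0⟩, 0⟩, 0, 520749⟩ 0 0)))) (.void 15 ⟨⟨0, 0, 0, 0, 0, 0, 0, 0, 0, ⟨0, 0⟩, 0⟩, 0, 100000⟩ 0 0)) (.void 15 ⟨⟨0, 0, 0, 0, 0, 0, 0, 0, 0, ⟨0, 0⟩, 0⟩, 0, 100000⟩ 0 0))))) (.cut .v 25165824 (.cut .v 20971520 (.cut .v 18874368 (.cut .d 1173738 (.cut .d 586869 (.cut .v 17825792 (.cut .v 17301504 (.cut .d 293434 (.cut .s 3407872 (.cut .s 3211264 (.pos 33 .pp ⟨⟨426751, 0, 0, 0, 0, 0, 0, 0, 0, ⟨0, 0⟩, 0⟩, 0, 210617⟩ 0 0) (.cut .s 3309568 (.pos 33 .pp ⟨⟨354787, 0, 0, 0, 0, 0, 0, 0, 0, ⟨0, 0⟩, 0⟩, 0, 201754⟩ 0 0) (.pos 33 .pp ⟨⟨307324, 0, 0, 0, 0, 0, 0, 0, 0, ⟨0, 0⟩, 0⟩, 0, 191004⟩ 0 0))) (.cut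 .d 146717 (.cut .s 3604480 (.pos 33 .pp ⟨⟨278109, 0, 0, 0, 0, 0, 0, 0, 0, ⟨0, 0⟩, 0⟩, 0, 151954⟩ 0 0) (.pos 33 .pp ⟨⟨229394, 0, 0, 0, 0, 0, 0, 0, 0, ⟨0, 0⟩, 0⟩, 0, 124982⟩ 0 0)) (.pos 33 .pp ⟨⟨102777, 0, 0, 0, 0, 0, 0, 0, 0, ⟨0, 0⟩, 0⟩, 0, 213841⟩ 0 0))) (.pos 33 .pp ⟨⟨30010, 0, 0, 0, 0, 0, 0, 0, 0, ⟨0, 0⟩, 0⟩, 0, 428764⟩ 0 0)) (.void 34 ⟨⟨81266, 0, 0, 0, 0, 0, 0, 0, 0, ⟨0, 0⟩, 0⟩, 0, 18734⟩ 0 0)) (.void 32 ⟨⟨0, 0, 0, 0, 0, 0, 100000, 0, 0, ⟨0, 0⟩, 0⟩, 0, 0⟩ 0 0)) (.void 29 ⟨⟨0, 0, 0, 0, 0, 0, 1622, 0, 0, ⟨0, 0⟩, 0⟩, 0, 98378⟩ 0 0)) (.void 29 ⟨⟨0, 0, 0, 0, 0, 0, 1622, 0, 0, ⟨0, 0⟩, 0⟩, 0, 98378⟩ 0 0)) (.void 30 ⟨⟨0, 0, 0, 0, 0,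 0, 100000, 0, 0, ⟨0, 0⟩, 0⟩, 0, 0⟩ 0 0)) (.void 28 ⟨⟨0, 0, 0, 0, 0, 0, 0, 0, 0, ⟨0, 0⟩, 0⟩, 20383, 79617⟩ 0 0)) (.void 26 ⟨⟨0, 0, 0, 0, 0, 0, 0, 0, 0, ⟨0, 0⟩, 0⟩, 100000, 0⟩ 0 0)))),
    by decide +kernel⟩

def covers3 : cell.Covers Vale.Agent.P237.Petty.Cor.Grid.N14.table row3.1 :=
  ⟨(.cut .d 0 (.cut .v 16777216 (.cut .v 8388608 (.void 2 ⟨⟨0, 0, 0, 0, 50000, 50000, 0, 0, 0, ⟨0, 0⟩, 0⟩, 0, 0⟩ 0 0) (.cut .v 12582912 (.void 10 ⟨⟨0, 0, 0, 0, 0, 61015, 0, 0, 38985, ⟨0, 0⟩, 13128881⟩, 0, 0⟩ 0 0) (.cut .d (-8388608) (.void 11 ⟨⟨0, 0, 0, 0, 0, 100000, 0, 0, 0, ⟨0, 0⟩, 0⟩, 0, 0⟩ 0 0) (.cut .d (-4194304) (.void 11 ⟨⟨0, 0, 0, 0, 0, 100000,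 0, 0, 0, ⟨0, 0⟩, 0⟩, 0, 0⟩ 0 0) (.cut .d (-2097152) (.void 11 ⟨⟨0, 0, 0, 0, 0, 100000, 0, 0, 0, ⟨0, 0⟩, 0⟩, 0, 0⟩ 0 0) (.cut .v 14680064 (.pos 14 .mm ⟨⟨0, 0, 0, 0, 0, 2957475, 0, 0, 0, ⟨0, 0⟩, 0⟩, 0, 0⟩ 0 0) (.cut .d (-1048576) (.void 15 ⟨⟨0, 0, 0, 0, 0, 100000, 0, 0, 0, ⟨0, 0⟩, 0⟩, 0, 0⟩ 0 0) (.cut .d (-524288) (.void 15 ⟨⟨0, 0, 0, 0, 0, 100000, 0, 0, 0, ⟨0, 0⟩, 0⟩, 0, 0⟩ 0 0) (.cut .d (-262144) (.void 15 ⟨⟨0, 0, 0, 0, 0, 100000, 0, 0, 0, ⟨0, 0⟩, 0⟩, 0, 0⟩ 0 0) (.cut .v 15728640 (.pos 22 .mm ⟨⟨0, 0, 0, 0, 0, 454551, 0, 0, 0, ⟨0, 0⟩, 0⟩, 0, 0⟩ 0 0) (.cut .v 16252928 (.pos 41 .mm ⟨⟨0, 0, 0, 0, 0, 844691, 0, 0, 0, ⟨0, 0⟩, 0⟩, 0, 0⟩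 0 0) (.cut .d (-131072) (.cut .s 4161536 (.pos 42 .mm ⟨⟨0, 0, 0, 0, 0, 878264, 0, 0, 0, ⟨0, 0⟩, 0⟩, 0, 0⟩ 0 0) (.pos 42 .mm ⟨⟨0, 0, 0, 0, 0, 1401349, 0, 0, 0, ⟨0, 0⟩, 0⟩, 0, 0⟩ 0 0)) (.cut .s 4161536 (.pos 42 .mm ⟨⟨0, 0, 0, 0, 0, 599395, 0, 0, 0, ⟨0, 0⟩, 0⟩, 0, 0⟩ 0 0) (.cut .s 4341760 (.pos 42 .mm ⟨⟨0, 0, 0, 0, 0, 822633, 0, 0, 0, ⟨0, 0⟩, 0⟩, 0, 0⟩ 0 0) (.pos 42 .mm ⟨⟨0, 0, 0, 0, 0, 1057951, 0, 0, 0, ⟨0, 0⟩, 0⟩, 0, 0⟩ 0 0))))))))))))))) (.cut .v 25165824 (.cut .d (-8388608) (.void 25 ⟨⟨0, 0, 0, 0, 0, 100000, 0, 0, 0, ⟨0, 0⟩, 0⟩, 0, 0⟩ 0 0) (.cut .d (-4194304) (.void 25 ⟨⟨0, 0, 0, 0, 0, 100000, 0, 0, 0, ⟨0, 0⟩, 0⟩, 0, 0⟩ 0 0) (.cut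 .d (-2097152) (.void 25 ⟨⟨0, 0, 0, 0, 0, 100000, 0, 0, 0, ⟨0, 0⟩, 0⟩, 0, 0⟩ 0 0) (.cut .v 20971520 (.cut .d (-1048576) (.void 27 ⟨⟨0, 0, 0, 0, 0, 100000, 0, 0, 0, ⟨0, 0⟩, 0⟩, 0, 0⟩ 0 0) (.cut .d (-524288) (.void 27 ⟨⟨0, 0, 0, 0, 0, 100000, 0, 0, 0, ⟨0, 0⟩, 0⟩, 0, 0⟩ 0 0) (.cut .v 18874368 (.cut .d (-262144) (.void 29 ⟨⟨0, 0, 0, 0, 0, 100000, 0, 0, 0, ⟨0, 0⟩, 0⟩, 0, 0⟩ 0 0) (.cut .v 17825792 (.cut .v 17301504 (.cut .v 17039360 (.cut .d (-131072) (.cut .s 4161536 (.pos 35 .mp ⟨⟨238690, 0, 0, 0, 0, 765864, 0, 0, 0, ⟨0, 0⟩, 0⟩, 0, 0⟩ 0 0) (.pos 35 .mp ⟨⟨194613, 0, 0, 0, 0, 1474261, 0, 0, 0, ⟨0, 0⟩, 0⟩, 0, 0⟩ 0 0)) (.cut .v 16908288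 (.cut .s 4161536 (.cut .s 3981312 (.pos 37 .mp ⟨⟨377255, 0, 0, 0, 0, 268835, 0, 0, 0, ⟨0, 0⟩, 0⟩, 0, 0⟩ 0 0) (.pos 37 .mp ⟨⟨312442, 0, 0, 0, 0, 472355, 0, 0, 0, ⟨0, 0⟩, 0⟩, 0, 0⟩ 0 0)) (.cut .s 4341760 (.pos 37 .mp ⟨⟨263477, 0, 0, 0, 0, 699715, 0, 0, 0, ⟨0, 0⟩, 0⟩, 0, 0⟩ 0 0) (.pos 37 .mp ⟨⟨240671, 0, 0, 0, 0, 943293, 0, 0, 0, ⟨0, 0⟩, 0⟩, 0, 0⟩ 0 0))) (.pos 38 .mp ⟨⟨1193310, 0, 0, 0, 0, 0, 0, 0, 0, ⟨0, 0⟩, 0⟩, 0, 0⟩ 0 0))) (.pos 36 .mp ⟨⟨1941428, 0, 0, 0, 0, 0, 0, 0, 0, ⟨0, 0⟩, 0⟩, 0, 0⟩ 0 0)) (.void 34 ⟨⟨100000, 0, 0, 0, 0, 0, 0, 0, 0, ⟨0, 0⟩, 0⟩, 0, 0⟩ 0 0)) (.void 32 ⟨⟨100000, 0, 0, 0, 0, 0, 0, 0, 0, ⟨0, 0⟩, 0⟩, 0, 0⟩ 0 0)))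 (.void 30 ⟨⟨100000, 0, 0, 0, 0, 0, 0, 0, 0, ⟨0, 0⟩, 0⟩, 0, 0⟩ 0 0)))) (.void 28 ⟨⟨0, 0, 0, 0, 0, 0, 100000, 0, 0, ⟨0, 0⟩, 0⟩, 0, 0⟩ 0 0))))) (.void 26 ⟨⟨0, 0, 0, 0, 0, 0, 100000, 0, 0, ⟨0, 0⟩, 0⟩, 0, 0⟩ 0 0))) (.cut .v 16777216 (.cut .v 8388608 (.void 2 ⟨⟨0, 0, 0, 0, 100000, 0, 0, 0, 0, ⟨0, 0⟩, 0⟩, 0, 0⟩ 0 0) (.cut .v 12582912 (.void 10 ⟨⟨0, 0, 0, 0, 0, 0, 0, 0, 100000, ⟨0, 0⟩, 13128881⟩, 0, 0⟩ 0 0) (.cut .d 1603392 (.cut .d 801696 (.cut .v 14680064 (.pos 14 .pm ⟨⟨0, 0, 0, 0, 0, 0, 0, 0, 0, ⟨0, 0⟩, 0⟩, 0, 1062386⟩ 0 0) (.cut .d 400848 (.cut .v 15728640 (.cut .s 4161536 (.pos 22 .pm ⟨⟨0, 0, 0, 0, 0, 0, 0, 0, 0, ⟨0, 0⟩, 0⟩, 0, 423266⟩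 0 0) (.pos 22 .pm ⟨⟨0, 0, 0, 0, 0, 0, 0, 0, 0, ⟨0, 0⟩, 0⟩, 0, 432958⟩ 0 0)) (.cut .d 200424 (.pos 23 .pm ⟨⟨0, 0, 0, 0, 0, 0, 0, 0, 0, ⟨0, 0⟩, 0⟩, 0, 185572⟩ 0 0) (.cut .l 131821 (.void 23 ⟨⟨0, 0, 0, 0, 0, 0, 0, 0, 0, ⟨0, 0⟩, 0⟩, 0, 100000⟩ 0 0) (.cut .v 16252928 (.cut .s 4161536 (.pos 41 .pm ⟨⟨0, 0, 0, 0, 0, 0, 0, 0, 0, ⟨0, 0⟩, 0⟩, 0, 417455⟩ 0 0) (.pos 41 .pm ⟨⟨0, 0, 0, 0, 0, 0, 0, 0, 0, ⟨0, 0⟩, 0⟩, 0, 497920⟩ 0 0)) (.cut .s 4161536 (.pos 42 .pm ⟨⟨0, 0, 0, 0, 0, 0, 0, 0, 0, ⟨0, 0⟩, 0⟩, 0, 345018⟩ 0 0) (.pos 42 .pm ⟨⟨0, 0, 0, 0, 0, 0, 0, 0, 0, ⟨0, 0⟩, 0⟩, 0, 406107⟩ 0 0)))))) (.void 15 ⟨⟨0, 0, 0, 0, 0, 0, 0, 0, 0, ⟨0, 0⟩, 0⟩, 0,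 100000⟩ 0 0))) (.void 11 ⟨⟨0, 0, 0, 0, 0, 0, 0, 0, 0, ⟨0, 0⟩, 0⟩, 0, 100000⟩ 0 0)) (.void 11 ⟨⟨0, 0, 0, 0, 0, 0, 0, 0, 0, ⟨0, 0⟩, 0⟩, 0, 100000⟩ 0 0)))) (.cut .v 25165824 (.cut .v 20971520 (.cut .d 1603392 (.cut .v 18874368 (.cut .d 801696 (.cut .d 400848 (.cut .v 17825792 (.cut .d 200424 (.pos 31 .pp ⟨⟨186337, 0, 0, 0, 0, 0, 0, 0, 0, ⟨0, 0⟩, 0⟩, 0, 124878⟩ 0 0) (.pos 31 .pp ⟨⟨0, 0, 0, 0, 0, 0, 0, 0, 0, ⟨0, 0⟩, 0⟩, 0, 257609⟩ 0 0)) (.void 32 ⟨⟨100000, 0, 0, 0, 0, 0, 0, 0, 0, ⟨0, 0⟩, 0⟩, 0, 0⟩ 0 0)) (.void 29 ⟨⟨4297, 0, 0, 0, 0, 0, 0, 0, 0, ⟨0, 0⟩, 0⟩, 0, 95703⟩ 0 0)) (.void 29 ⟨⟨0, 0, 0, 0, 0, 0, 2501, 0, 0, ⟨0, 0⟩, 0⟩, 0, 97499⟩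 0 0)) (.void 30 ⟨⟨0, 0, 0, 0, 0, 0, 0, 0, 0, ⟨0, 0⟩, 0⟩, 20506, 79494⟩ 0 0)) (.void 27 ⟨⟨0, 0, 0, 0, 0, 0, 0, 0, 0, ⟨0, 0⟩, 0⟩, 392, 99608⟩ 0 0)) (.void 28 ⟨⟨0, 0, 0, 0, 0, 0, 0, 0, 0, ⟨0, 0⟩, 0⟩, 20506, 79494⟩ 0 0)) (.void 26 ⟨⟨0, 0, 0, 0, 0, 0, 0, 0, 0, ⟨0, 0⟩, 0⟩, 100000, 0⟩ 0 0)))),
    by decide +kernel⟩

def covers4 : cell.Covers Vale.Agent.P237.Petty.Cor.Grid.N14.table row4.1 :=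
  ⟨(.cut .d 0 (.cut .v 16777216 (.cut .v 8388608 (.void 2 ⟨⟨0, 0, 0, 0, 50000, 50000, 0, 0, 0, ⟨0, 0⟩, 0⟩, 0, 0⟩ 0 0) (.cut .d (-8388608) (.void 3 ⟨⟨0, 0, 0, 0, 0, 100000, 0, 0, 0, ⟨0, 0⟩, 0⟩, 0, 0⟩ 0 0) (.cut .v 12582912 (.pos 10 .mm ⟨⟨0, 0, 0, 0, 0, 18182809, 0, 0, 82116, ⟨0, 0⟩, 13128881⟩, 0, 0⟩ 0 0) (.cut .d (-4194304) (.void 11 ⟨⟨0, 0, 0, 0, 0, 100000, 0, 0, 0, ⟨0, 0⟩, 0⟩, 0, 0⟩ 0 0) (.cut .d (-2097152) (.void 11 ⟨⟨0, 0, 0, 0, 0, 100000, 0, 0, 0, ⟨0, 0⟩, 0⟩, 0, 0⟩ 0 0) (.cut .d (-1048576) (.void 11 ⟨⟨0, 0, 0, 0, 0, 100000, 0, 0, 0, ⟨0, 0⟩, 0⟩, 0, 0⟩ 0 0) (.cut .v 14680064 (.pos 14 .mm ⟨⟨0, 0, 0, 0, 0, 2816882, 0, 0, 0, ⟨0,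 0⟩, 0⟩, 0, 0⟩ 0 0) (.cut .d (-524288) (.void 15 ⟨⟨0, 0, 0, 0, 0, 100000, 0, 0, 0, ⟨0, 0⟩, 0⟩, 0, 0⟩ 0 0) (.cut .d (-262144) (.void 15 ⟨⟨0, 0, 0, 0, 0, 100000, 0, 0, 0, ⟨0, 0⟩, 0⟩, 0, 0⟩ 0 0) (.cut .d (-131072) (.pos 15 .mm ⟨⟨0, 0, 0, 0, 0, 2953493, 0, 0, 0, ⟨0, 0⟩, 0⟩, 0, 0⟩ 0 0) (.cut .v 15728640 (.pos 22 .mm ⟨⟨0, 0, 0, 0, 0, 799273, 0, 0, 0, ⟨0, 0⟩, 0⟩, 0, 0⟩ 0 0) (.cut .v 16252928 (.pos 41 .mm ⟨⟨0, 0, 0, 0, 0, 1472687, 0, 0, 0, ⟨0, 0⟩, 0⟩, 0, 0⟩ 0 0) (.cut .s 4882432 (.cut .s 4702208 (.pos 42 .mm ⟨⟨0, 0, 0, 0, 0, 1335560, 0, 0, 0, ⟨0, 0⟩, 0⟩, 0, 0⟩ 0 0) (.pos 42 .mm ⟨⟨0, 0, 0, 0, 0, 1665534, 0, 0, 0, ⟨0, 0⟩, 0⟩, 0, 0⟩ 0 0)) (.cut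 .d (-65536) (.pos 42 .mm ⟨⟨0, 0, 0, 0, 0, 2442661, 0, 0, 0, ⟨0, 0⟩, 0⟩, 0, 0⟩ 0 0) (.cut .s 5062656 (.pos 42 .mm ⟨⟨0, 0, 0, 0, 0, 1938535, 0, 0, 0, ⟨0, 0⟩, 0⟩, 0, 0⟩ 0 0) (.pos 42 .mm ⟨⟨0, 0, 0, 0, 0, 2317382, 0, 0, 0, ⟨0, 0⟩, 0⟩, 0, 0⟩ 0 0)))))))))))))))) (.cut .v 25165824 (.cut .d (-8388608) (.void 25 ⟨⟨0, 0, 0, 0, 0, 100000, 0, 0, 0, ⟨0, 0⟩, 0⟩, 0, 0⟩ 0 0) (.cut .d (-4194304) (.void 25 ⟨⟨0, 0, 0, 0, 0, 100000, 0, 0, 0, ⟨0, 0⟩, 0⟩, 0, 0⟩ 0 0) (.cut .d (-2097152) (.void 25 ⟨⟨0, 0, 0, 0, 0, 100000, 0, 0, 0, ⟨0, 0⟩, 0⟩, 0, 0⟩ 0 0) (.cut .v 20971520 (.cut .d (-1048576) (.void 27 ⟨⟨0, 0, 0, 0, 0, 100000, 0, 0, 0, ⟨0, 0⟩, 0⟩, 0, 0⟩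 0 0) (.cut .d (-524288) (.void 27 ⟨⟨0, 0, 0, 0, 0, 100000, 0, 0, 0, ⟨0, 0⟩, 0⟩, 0, 0⟩ 0 0) (.cut .d (-262144) (.void 27 ⟨⟨0, 0, 0, 0, 0, 100000, 0, 0, 0, ⟨0, 0⟩, 0⟩, 0, 0⟩ 0 0) (.cut .v 18874368 (.cut .v 17825792 (.cut .v 17301504 (.cut .v 17039360 (.cut .d (-131072) (.cut .s 4882432 (.pos 35 .mp ⟨⟨227801, 0, 0, 0, 0, 2430678, 0, 0, 0, ⟨0, 0⟩, 0⟩, 0, 0⟩ 0 0) (.pos 35 .mp ⟨⟨348175, 0, 0, 0, 0, 3508364, 0, 0, 0, ⟨0, 0⟩, 0⟩, 0, 0⟩ 0 0)) (.cut .v 16908288 (.cut .s 4882432 (.cut .s 4702208 (.pos 37 .mp ⟨⟨293666, 0, 0, 0, 0, 1169113, 0, 0, 0, ⟨0, 0⟩, 0⟩, 0, 0⟩ 0 0) (.cut .s 4792320 (.pos 37 .mp ⟨⟨377207, 0, 0, 0, 0, 1303215, 0, 0, 0,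 ⟨0, 0⟩, 0⟩, 0, 0⟩ 0 0) (.pos 37 .mp ⟨⟨376323, 0, 0, 0, 0, 1456071, 0, 0, 0, ⟨0, 0⟩, 0⟩, 0, 0⟩ 0 0))) (.cut .d (-65536) (.cut .s 5062656 (.pos 37 .mp ⟨⟨206179, 0, 0, 0, 0, 2087816, 0, 0, 0, ⟨0, 0⟩, 0⟩, 0, 0⟩ 0 0) (.pos 37 .mp ⟨⟨293170, 0, 0, 0, 0, 2442735, 0, 0, 0, ⟨0, 0⟩, 0⟩, 0, 0⟩ 0 0)) (.cut .s 5062656 (.pos 37 .mp ⟨⟨337564, 0, 0, 0, 0, 1661236, 0, 0, 0, ⟨0, 0⟩, 0⟩, 0, 0⟩ 0 0) (.pos 37 .mp ⟨⟨458086, 0, 0, 0, 0, 1934116, 0, 0, 0, ⟨0, 0⟩, 0⟩, 0, 0⟩ 0 0)))) (.pos 38 .mp ⟨⟨2740029, 0, 0, 0, 0, 0, 0, 0, 0, ⟨0, 0⟩, 0⟩, 0, 0⟩ 0 0))) (.pos 36 .mp ⟨⟨4357379, 0, 0, 0, 0, 0, 0, 0, 0, ⟨0, 0⟩, 0⟩, 0, 0⟩ 0 0)) (.void 34 ⟨⟨100000, 0, 0, 0, 0,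 0, 0, 0, 0, ⟨0, 0⟩, 0⟩, 0, 0⟩ 0 0)) (.void 32 ⟨⟨100000, 0, 0, 0, 0, 0, 0, 0, 0, ⟨0, 0⟩, 0⟩, 0, 0⟩ 0 0)) (.void 30 ⟨⟨100000, 0, 0, 0, 0, 0, 0, 0, 0, ⟨0, 0⟩, 0⟩, 0, 0⟩ 0 0))))) (.void 28 ⟨⟨100000, 0, 0, 0, 0, 0, 0, 0, 0, ⟨0, 0⟩, 0⟩, 0, 0⟩ 0 0))))) (.void 26 ⟨⟨0, 0, 0, 0, 0, 0, 100000, 0, 0, ⟨0, 0⟩, 0⟩, 0, 0⟩ 0 0))) (.cut .v 16777216 (.cut .v 8388608 (.void 2 ⟨⟨0, 0, 0, 0, 100000, 0, 0, 0, 0, ⟨0, 0⟩, 0⟩, 0, 0⟩ 0 0) (.cut .v 12582912 (.pos 10 .pm ⟨⟨0, 0, 0, 0, 0, 0, 0, 0, 7020521, ⟨0, 0⟩, 13128881⟩, 0, 0⟩ 0 0) (.cut .d 2163058 (.cut .d 1081529 (.cut .d 540764 (.cut .v 14680064 (.pos 14 .pm ⟨⟨0, 0, 0, 0, 0, 0, 0, 0, 0, ⟨0, 0⟩, 0⟩, 0,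 883971⟩ 0 0) (.cut .v 15728640 (.cut .d 270382 (.pos 22 .pm ⟨⟨0, 0, 0, 0, 0, 0, 0, 0, 0, ⟨0, 0⟩, 0⟩, 0, 245663⟩ 0 0) (.cut .d 405573 (.pos 22 .pm ⟨⟨0, 0, 0, 0, 0, 0, 0, 0, 0, ⟨0, 0⟩, 0⟩, 0, 863952⟩ 0 0) (.pos 22 .pm ⟨⟨0, 0, 0, 0, 0, 0, 0, 0, 0, ⟨0, 0⟩, 0⟩, 0, 6023164⟩ 0 0))) (.cut .d 270382 (.pos 23 .pm ⟨⟨0, 0, 0, 0, 0, 0, 0, 0, 0, ⟨0, 0⟩, 0⟩, 0, 163006⟩ 0 0) (.cut .d 405573 (.pos 23 .pm ⟨⟨0, 0, 0, 0, 0, 0, 0, 0, 0, ⟨0, 0⟩, 0⟩, 0, 570461⟩ 0 0) (.pos 23 .pm ⟨⟨0, 0, 0, 0, 0, 0, 0, 0, 0, ⟨0, 0⟩, 0⟩, 0, 6018900⟩ 0 0))))) (.void 11 ⟨⟨0, 0, 0, 0, 0, 0, 0, 0, 0, ⟨0, 0⟩, 0⟩, 0, 100000⟩ 0 0)) (.void 11 ⟨⟨0, 0, 0, 0, 0, 0, 0, 0, 0, ⟨0, 0⟩,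 0⟩, 0, 100000⟩ 0 0)) (.void 11 ⟨⟨0, 0, 0, 0, 0, 0, 0, 0, 0, ⟨0, 0⟩, 0⟩, 0, 100000⟩ 0 0)))) (.cut .v 25165824 (.cut .v 20971520 (.cut .d 2163058 (.cut .d 1081529 (.cut .v 18874368 (.cut .d 540764 (.cut .d 270382 (.cut .s 4882432 (.pos 29 .pp ⟨⟨789630, 0, 0, 0, 0, 0, 0, 0, 0, ⟨0, 0⟩, 0⟩, 0, 140784⟩ 0 0) (.pos 29 .pp ⟨⟨1180216, 0, 0, 0, 0, 0, 0, 0, 0, ⟨0, 0⟩, 0⟩, 0, 119602⟩ 0 0)) (.pos 29 .pp ⟨⟨38656, 0, 0, 0, 0, 0, 0, 0, 0, ⟨0, 0⟩, 0⟩, 0, 473416⟩ 0 0)) (.void 29 ⟨⟨5737, 0, 0, 0, 0, 0, 0, 0, 0, ⟨0, 0⟩, 0⟩, 0, 94263⟩ 0 0)) (.void 30 ⟨⟨0, 0, 0, 0, 0, 0, 100000, 0, 0, ⟨0, 0⟩, 0⟩, 0, 0⟩ 0 0)) (.void 27 ⟨⟨0, 0, 0, 0, 0, 0, 0, 0, 0, ⟨0,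 0⟩, 0⟩, 529, 99471⟩ 0 0)) (.void 27 ⟨⟨0, 0, 0, 0, 0, 0, 0, 0, 0, ⟨0, 0⟩, 0⟩, 0, 100000⟩ 0 0)) (.void 28 ⟨⟨0, 0, 0, 0, 0, 0, 0, 0, 0, ⟨0, 0⟩, 0⟩, 20228, 79772⟩ 0 0)) (.void 26 ⟨⟨0, 0, 0, 0, 0, 0, 0, 0, 0, ⟨0, 0⟩, 0⟩, 20228, 79772⟩ 0 0)))),
    by decide +kernel⟩

def covers5 : cell.Covers Vale.Agent.P237.Petty.Cor.Grid.N14.table row5.1 :=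
  ⟨(.cut .d 0 (.cut .v 16777216 (.cut .v 8388608 (.void 2 ⟨⟨0, 0, 0, 0, 50000, 50000, 0, 0, 0, ⟨0, 0⟩, 0⟩, 0, 0⟩ 0 0) (.cut .d (-8388608) (.void 3 ⟨⟨0, 0, 0, 0, 0, 100000, 0, 0, 0, ⟨0, 0⟩, 0⟩, 0, 0⟩ 0 0) (.cut .d (-4194304) (.void 3 ⟨⟨0, 0, 0, 0, 0, 100000, 0, 0, 0, ⟨0, 0⟩, 0⟩, 0, 0⟩ 0 0) (.cut .v 12582912 (.pos 10 .mm ⟨⟨0, 0, 0, 0, 0, 14159976, 0, 0, 0, ⟨0, 0⟩, 0⟩, 0, 0⟩ 0 0) (.cut .d (-2097152) (.void 11 ⟨⟨0, 0, 0, 0, 0, 100000, 0, 0, 0, ⟨0, 0⟩, 0⟩, 0, 0⟩ 0 0) (.cut .d (-1048576) (.void 11 ⟨⟨0, 0, 0, 0, 0, 100000, 0, 0, 0, ⟨0, 0⟩, 0⟩, 0, 0⟩ 0 0) (.cut .v 14680064 (.pos 14 .mm ⟨⟨0, 0, 0, 0, 0, 5626299, 0, 0, 0, ⟨0, 0⟩, 0⟩, 0, 0⟩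 0 0) (.cut .d (-524288) (.void 15 ⟨⟨0, 0, 0, 0, 0, 100000, 0, 0, 0, ⟨0, 0⟩, 0⟩, 0, 0⟩ 0 0) (.cut .d (-262144) (.void 15 ⟨⟨0, 0, 0, 0, 0, 100000, 0, 0, 0, ⟨0, 0⟩, 0⟩, 0, 0⟩ 0 0) (.cut .d (-131072) (.void 15 ⟨⟨0, 0, 0, 0, 0, 100000, 0, 0, 0, ⟨0, 0⟩, 0⟩, 0, 0⟩ 0 0) (.cut .v 15728640 (.pos 22 .mm ⟨⟨0, 0, 0, 0, 0, 1577165, 0, 0, 0, ⟨0, 0⟩, 0⟩, 0, 0⟩ 0 0) (.cut .v 16252928 (.pos 41 .mm ⟨⟨0, 0, 0, 0, 0, 2947257, 0, 0, 0, ⟨0, 0⟩, 0⟩, 0, 0⟩ 0 0) (.cut .s 5636096 (.cut .v 16515072 (.pos 43 .mm ⟨⟨0, 0, 0, 0, 0, 2878985, 0, 0, 0, ⟨0, 0⟩, 0⟩, 0, 0⟩ 0 0) (.cut .s 5439488 (.cut .s 5341184 (.pos 44 .mm ⟨⟨0, 0, 0, 0, 0, 2741549, 0, 0, 0, ⟨0, 0⟩,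 0⟩, 0, 0⟩ 0 0) (.pos 44 .mm ⟨⟨0, 0, 0, 0, 0, 2996551, 0, 0, 0, ⟨0, 0⟩, 0⟩, 0, 0⟩ 0 0)) (.cut .s 5537792 (.pos 44 .mm ⟨⟨0, 0, 0, 0, 0, 3280552, 0, 0, 0, ⟨0, 0⟩, 0⟩, 0, 0⟩ 0 0) (.pos 44 .mm ⟨⟨0, 0, 0, 0, 0, 3593236, 0, 0, 0, ⟨0, 0⟩, 0⟩, 0, 0⟩ 0 0)))) (.cut .d (-65536) (.pos 42 .mm ⟨⟨0, 0, 0, 0, 0, 5051268, 0, 0, 0, ⟨0, 0⟩, 0⟩, 0, 0⟩ 0 0) (.cut .s 5832704 (.pos 42 .mm ⟨⟨0, 0, 0, 0, 0, 3984249, 0, 0, 0, ⟨0, 0⟩, 0⟩, 0, 0⟩ 0 0) (.pos 42 .mm ⟨⟨0, 0, 0, 0, 0, 4767965, 0, 0, 0, ⟨0, 0⟩, 0⟩, 0, 0⟩ 0 0)))))))))))))))) (.cut .v 25165824 (.cut .d (-8388608) (.void 25 ⟨⟨0, 0, 0, 0, 0, 100000, 0, 0, 0, ⟨0, 0⟩, 0⟩, 0, 0⟩ 0 0) (.cut .d (-4194304)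 (.void 25 ⟨⟨0, 0, 0, 0, 0, 100000, 0, 0, 0, ⟨0, 0⟩, 0⟩, 0, 0⟩ 0 0) (.cut .d (-2097152) (.void 25 ⟨⟨0, 0, 0, 0, 0, 100000, 0, 0, 0, ⟨0, 0⟩, 0⟩, 0, 0⟩ 0 0) (.cut .v 20971520 (.cut .d (-1048576) (.void 27 ⟨⟨0, 0, 0, 0, 0, 100000, 0, 0, 0, ⟨0, 0⟩, 0⟩, 0, 0⟩ 0 0) (.cut .d (-524288) (.void 27 ⟨⟨0, 0, 0, 0, 0, 100000, 0, 0, 0, ⟨0, 0⟩, 0⟩, 0, 0⟩ 0 0) (.cut .d (-262144) (.void 27 ⟨⟨0, 0, 0, 0, 0, 100000, 0, 0, 0, ⟨0, 0⟩, 0⟩, 0, 0⟩ 0 0) (.cut .v 18874368 (.cut .d (-131072) (.void 29 ⟨⟨0, 0, 0, 0, 0, 100000, 0, 0, 0, ⟨0, 0⟩, 0⟩, 0, 0⟩ 0 0) (.cut .v 17825792 (.cut .v 17301504 (.cut .v 17039360 (.cut .v 16908288 (.cut .s 5636096 (.cut .d (-65536)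 (.cut .s 5439488 (.pos 37 .mp ⟨⟨412444, 0, 0, 0, 0, 2879642, 0, 0, 0, ⟨0, 0⟩, 0⟩, 0, 0⟩ 0 0) (.cut .s 5537792 (.pos 37 .mp ⟨⟨583032, 0, 0, 0, 0, 3089619, 0, 0, 0, ⟨0, 0⟩, 0⟩, 0, 0⟩ 0 0) (.pos 37 .mp ⟨⟨689289, 0, 0, 0, 0, 3334139, 0, 0, 0, ⟨0, 0⟩, 0⟩, 0, 0⟩ 0 0))) (.cut .v 16842752 (.cut .l 131821 (.cut .s 5439488 (.cut .s 5341184 (.pos 39 .mp ⟨⟨755573, 0, 0, 0, 0, 2025872, 0, 0, 0, ⟨0, 0⟩, 0⟩, 0, 0⟩ 0 0) (.pos 39 .mp ⟨⟨772445, 0, 0, 0, 0, 2253579, 0, 0, 0, ⟨0, 0⟩, 0⟩, 0, 0⟩ 0 0)) (.cut .s 5537792 (.pos 39 .mp ⟨⟨807405, 0, 0, 0, 0, 2495170, 0, 0, 0, ⟨0, 0⟩, 0⟩, 0, 0⟩ 0 0) (.pos 39 .mp ⟨⟨864910, 0, 0, 0, 0, 2746221, 0, 0, 0, ⟨0, 0⟩,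 0⟩, 0, 0⟩ 0 0))) (.pos 39 .mp ⟨⟨829351, 0, 0, 0, 0, 1833577, 0, 0, 0, ⟨0, 0⟩, 0⟩, 0, 0⟩ 0 0)) (.pos 40 .mp ⟨⟨3587754, 0, 0, 0, 0, 0, 0, 0, 0, ⟨0, 0⟩, 0⟩, 0, 0⟩ 0 0))) (.cut .d (-65536) (.cut .d (-98304) (.pos 37 .mp ⟨⟨907782, 0, 0, 0, 0, 4785120, 0, 0, 0, ⟨0, 0⟩, 0⟩, 0, 0⟩ 0 0) (.cut .s 5832704 (.pos 37 .mp ⟨⟨809795, 0, 0, 0, 0, 3808014, 0, 0, 0, ⟨0, 0⟩, 0⟩, 0, 0⟩ 0 0) (.pos 37 .mp ⟨⟨1094429, 0, 0, 0, 0, 4407293, 0, 0, 0, ⟨0, 0⟩, 0⟩, 0, 0⟩ 0 0))) (.cut .v 16842752 (.cut .l 131821 (.cut .s 5832704 (.cut .s 5734400 (.pos 39 .mp ⟨⟨999898, 0, 0, 0, 0, 2960377, 0, 0, 0, ⟨0, 0⟩, 0⟩, 0, 0⟩ 0 0) (.pos 39 .mp ⟨⟨1153371, 0, 0, 0, 0, 3184604,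 0, 0, 0, ⟨0, 0⟩, 0⟩, 0, 0⟩ 0 0)) (.cut .s 5931008 (.pos 39 .mp ⟨⟨1322163, 0, 0, 0, 0, 3420725, 0, 0, 0, ⟨0, 0⟩, 0⟩, 0, 0⟩ 0 0) (.pos 39 .mp ⟨⟨1506531, 0, 0, 0, 0, 3667738, 0, 0, 0, ⟨0, 0⟩, 0⟩, 0, 0⟩ 0 0))) (.pos 39 .mp ⟨⟨1461713, 0, 0, 0, 0, 2488617, 0, 0, 0, ⟨0, 0⟩, 0⟩, 0, 0⟩ 0 0)) (.pos 40 .mp ⟨⟨4937448, 0, 0, 0, 0, 0, 0, 0, 0, ⟨0, 0⟩, 0⟩, 0, 0⟩ 0 0)))) (.pos 38 .mp ⟨⟨5313954, 0, 0, 0, 0, 0, 0, 0, 0, ⟨0, 0⟩, 0⟩, 0, 0⟩ 0 0)) (.pos 36 .mp ⟨⟨5973224, 0, 0, 0, 0, 0, 0, 0, 0, ⟨0, 0⟩, 0⟩, 0, 0⟩ 0 0)) (.void 34 ⟨⟨100000, 0, 0, 0, 0, 0, 0, 0, 0, ⟨0, 0⟩, 0⟩, 0, 0⟩ 0 0)) (.void 32 ⟨⟨100000, 0, 0, 0, 0, 0, 0, 0, 0, ⟨0, 0⟩, 0⟩, 0, 0⟩ 0 0)))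 (.void 30 ⟨⟨100000, 0, 0, 0, 0, 0, 0, 0, 0, ⟨0, 0⟩, 0⟩, 0, 0⟩ 0 0))))) (.void 28 ⟨⟨100000, 0, 0, 0, 0, 0, 0, 0, 0, ⟨0, 0⟩, 0⟩, 0, 0⟩ 0 0))))) (.void 26 ⟨⟨100000, 0, 0, 0, 0, 0, 0, 0, 0, ⟨0, 0⟩, 0⟩, 0, 0⟩ 0 0))) (.cut .v 16777216 (.cut .v 8388608 (.void 2 ⟨⟨0, 0, 0, 0, 100000, 0, 0, 0, 0, ⟨0, 0⟩, 0⟩, 0, 0⟩ 0 0) (.cut .d 2819450 (.cut .d 1409725 (.cut .v 12582912 (.pos 10 .pm ⟨⟨0, 0, 0, 0, 0, 0, 0, 0, 0, ⟨0, 0⟩, 0⟩, 0, 2244565⟩ 0 0) (.cut .d 704862 (.cut .v 14680064 (.pos 14 .pm ⟨⟨0, 0, 0, 0, 0, 0, 0, 0, 0, ⟨0, 0⟩, 0⟩, 0, 931108⟩ 0 0) (.cut .d 352431 (.pos 15 .pm ⟨⟨0, 0, 0, 0, 0, 0, 0, 0, 0, ⟨0, 0⟩, 0⟩, 0, 216576⟩ 0 0) (.pos 15 .pm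 ⟨⟨0, 0, 0, 0, 0, 0, 0, 0, 0, ⟨0, 0⟩, 0⟩, 0, 1240772⟩ 0 0))) (.void 11 ⟨⟨0, 0, 0, 0, 0, 0, 0, 0, 0, ⟨0, 0⟩, 0⟩, 0, 100000⟩ 0 0))) (.void 3 ⟨⟨0, 0, 0, 0, 0, 0, 0, 0, 0, ⟨0, 0⟩, 0⟩, 0, 100000⟩ 0 0)) (.void 3 ⟨⟨0, 0, 0, 0, 0, 0, 0, 0, 0, ⟨0, 0⟩, 0⟩, 0, 100000⟩ 0 0))) (.cut .v 25165824 (.cut .d 2819450 (.cut .v 20971520 (.cut .d 1409725 (.cut .d 704862 (.cut .v 18874368 (.cut .d 352431 (.cut .s 5636096 (.pos 29 .pp ⟨⟨1786156, 0, 0, 0, 0, 0, 0, 0, 0, ⟨0, 0⟩, 0⟩, 0, 151333⟩ 0 0) (.pos 29 .pp ⟨⟨2736115, 0, 0, 0, 0, 0, 0, 0, 0, ⟨0, 0⟩, 0⟩, 0, 125484⟩ 0 0)) (.pos 29 .pp ⟨⟨248731, 0, 0, 0, 0, 0, 0, 0, 0, ⟨0, 0⟩, 0⟩, 0, 796120⟩ 0 0)) (.void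 30 ⟨⟨73157, 0, 0, 0, 0, 0, 0, 0, 0, ⟨0, 0⟩, 0⟩, 0, 26843⟩ 0 0)) (.void 27 ⟨⟨0, 0, 0, 0, 0, 0, 7866, 0, 0, ⟨0, 0⟩, 0⟩, 0, 92134⟩ 0 0)) (.void 27 ⟨⟨0, 0, 0, 0, 0, 0, 0, 0, 0, ⟨0, 0⟩, 0⟩, 0, 100000⟩ 0 0)) (.void 28 ⟨⟨0, 0, 0, 0, 0, 0, 0, 0, 0, ⟨0, 0⟩, 0⟩, 19659, 80341⟩ 0 0)) (.void 25 ⟨⟨0, 0, 0, 0, 0, 0, 0, 0, 0, ⟨0, 0⟩, 0⟩, 617, 99383⟩ 0 0)) (.void 26 ⟨⟨0, 0, 0, 0, 0, 0, 0, 0, 0, ⟨0, 0⟩, 0⟩, 19659, 80341⟩ 0 0)))),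
    by decide +kernel⟩

def covers6 : cell.Covers Vale.Agent.P237.Petty.Cor.Grid.N14.table row6.1 :=
  ⟨(.cut .d 0 (.cut .v 16777216 (.cut .d (-8388608) (.void 1 ⟨⟨0, 0, 0, 0, 0, 100000, 0, 0, 0, ⟨0, 0⟩, 0⟩, 0, 0⟩ 0 0) (.cut .d (-4194304) (.void 1 ⟨⟨0, 0, 0, 0, 0, 100000, 0, 0, 0, ⟨0, 0⟩, 0⟩, 0, 0⟩ 0 0) (.cut .d (-2097152) (.void 1 ⟨⟨0, 0, 0, 0, 0, 100000, 0, 0, 0, ⟨0, 0⟩, 0⟩, 0, 0⟩ 0 0) (.cut .d (-1048576) (.void 1 ⟨⟨0, 0, 0, 0, 0, 100000, 0, 0, 0, ⟨0, 0⟩, 0⟩, 0, 0⟩ 0 0) (.cut .d (-524288) (.void 1 ⟨⟨0, 0, 0, 0, 0, 100000, 0, 0, 0, ⟨0, 0⟩, 0⟩, 0, 0⟩ 0 0) (.cut .d (-262144) (.void 1 ⟨⟨0, 0, 0, 0, 0, 100000, 0, 0, 0, ⟨0, 0⟩, 0⟩,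 0, 0⟩ 0 0) (.cut .d (-131072) (.void 1 ⟨⟨0, 0, 0, 0, 0, 100000, 0, 0, 0, ⟨0, 0⟩, 0⟩, 0, 0⟩ 0 0) (.cut .v 8388608 (.cut .v 4194304 (.void 4 ⟨⟨0, 0, 100000, 0, 0, 0, 0, 0, 0, ⟨0, 0⟩, 0⟩, 0, 0⟩ 0 0) (.void 5 ⟨⟨0, 0, 0, 0, 0, 0, 0, 0, 100000, ⟨0, 0⟩, 9975792⟩, 0, 0⟩ 0 0)) (.cut .v 12582912 (.pos 10 .mm ⟨⟨0, 0, 0, 0, 0, 1184374, 0, 0, 0, ⟨0, 0⟩, 0⟩, 0, 0⟩ 0 0) (.cut .v 14680064 (.pos 14 .mm ⟨⟨0, 0, 0, 0, 0, 2747631, 0, 0, 0, ⟨0, 0⟩, 0⟩, 0, 0⟩ 0 0) (.cut .v 15728640 (.pos 22 .mm ⟨⟨0, 0, 0, 0, 0, 3805671, 0, 0, 0, ⟨0, 0⟩, 0⟩, 0, 0⟩ 0 0) (.cut .v 16252928 (.pos 41 .mm ⟨⟨0, 0, 0, 0, 0, 6029893, 0, 0, 0, ⟨0, 0⟩, 0⟩, 0, 0⟩ 0 0) (.cut .s 6422528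 (.cut .d (-65536) (.pos 42 .mm ⟨⟨0, 0, 0, 0, 0, 7179058, 0, 0, 0, ⟨0, 0⟩, 0⟩, 0, 0⟩ 0 0) (.cut .s 6225920 (.pos 42 .mm ⟨⟨0, 0, 0, 0, 0, 5691478, 0, 0, 0, ⟨0, 0⟩, 0⟩, 0, 0⟩ 0 0) (.cut .s 6324224 (.pos 42 .mm ⟨⟨0, 0, 0, 0, 0, 6425453, 0, 0, 0, ⟨0, 0⟩, 0⟩, 0, 0⟩ 0 0) (.pos 42 .mm ⟨⟨0, 0, 0, 0, 0, 6963314, 0, 0, 0, ⟨0, 0⟩, 0⟩, 0, 0⟩ 0 0)))) (.cut .d (-65536) (.pos 42 .mm ⟨⟨0, 0, 0, 0, 0, 9852381, 0, 0, 0, ⟨0, 0⟩, 0⟩, 0, 0⟩ 0 0) (.cut .l 131821 (.cut .d (-32768) (.pos 42 .mm ⟨⟨0, 0, 0, 0, 0, 9750947, 0, 0, 0, ⟨0, 0⟩, 0⟩, 0, 0⟩ 0 0) (.cut .s 6619136 (.pos 42 .mm ⟨⟨0, 0, 0, 0, 0, 7748037, 0, 0, 0, ⟨0, 0⟩, 0⟩, 0, 0⟩ 0 0) (.pos 42 .mm ⟨⟨0,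 0, 0, 0, 0, 9110364, 0, 0, 0, ⟨0, 0⟩, 0⟩, 0, 0⟩ 0 0))) (.pos 42 .mm ⟨⟨0, 0, 0, 0, 0, 7509518, 0, 0, 0, ⟨0, 0⟩, 0⟩, 0, 0⟩ 0 0)))))))))))))))) (.cut .v 25165824 (.cut .d (-8388608) (.void 25 ⟨⟨0, 0, 0, 0, 0, 100000, 0, 0, 0, ⟨0, 0⟩, 0⟩, 0, 0⟩ 0 0) (.cut .d (-4194304) (.void 25 ⟨⟨0, 0, 0, 0, 0, 100000, 0, 0, 0, ⟨0, 0⟩, 0⟩, 0, 0⟩ 0 0) (.cut .d (-2097152) (.void 25 ⟨⟨0, 0, 0, 0, 0, 100000, 0, 0, 0, ⟨0, 0⟩, 0⟩, 0, 0⟩ 0 0) (.cut .v 20971520 (.cut .d (-1048576) (.void 27 ⟨⟨0, 0, 0, 0, 0, 100000, 0, 0, 0, ⟨0, 0⟩, 0⟩, 0, 0⟩ 0 0) (.cut .d (-524288) (.void 27 ⟨⟨0, 0, 0, 0, 0, 100000, 0, 0, 0, ⟨0, 0⟩, 0⟩, 0, 0⟩ 0 0) (.cut .d (-262144) (.void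 27 ⟨⟨0, 0, 0, 0, 0, 100000, 0, 0, 0, ⟨0, 0⟩, 0⟩, 0, 0⟩ 0 0) (.cut .v 18874368 (.cut .d (-131072) (.void 29 ⟨⟨0, 0, 0, 0, 0, 100000, 0, 0, 0, ⟨0, 0⟩, 0⟩, 0, 0⟩ 0 0) (.cut .v 17825792 (.cut .v 17301504 (.cut .v 17039360 (.cut .v 16908288 (.cut .d (-65536) (.cut .d (-98304) (.void 37 ⟨⟨0, 0, 0, 0, 0, 100000, 0, 0, 0, ⟨0, 0⟩, 0⟩, 0, 0⟩ 0 0) (.cut .l 131821 (.void 37 ⟨⟨0, 0, 0, 0, 0, 100000, 0, 0, 0, ⟨0, 0⟩, 0⟩, 0, 0⟩ 0 0) (.cut .l 197731 (.pos 37 .mp ⟨⟨1462469, 0, 0, 0, 0, 11013173, 0, 0, 0, ⟨0, 0⟩, 0⟩, 0, 0⟩ 0 0) (.cut .s 6422528 (.cut .s 6225920 (.pos 37 .mp ⟨⟨1440074, 0, 0, 0, 0, 5051615, 0, 0, 0, ⟨0, 0⟩, 0⟩, 0, 0⟩ 0 0) (.pos 37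 .mp ⟨⟨1862231, 0, 0, 0, 0, 5735860, 0, 0, 0, ⟨0, 0⟩, 0⟩, 0, 0⟩ 0 0)) (.cut .s 6619136 (.cut .s 6520832 (.pos 37 .mp ⟨⟨2378432, 0, 0, 0, 0, 5985774, 0, 0, 0, ⟨0, 0⟩, 0⟩, 0, 0⟩ 0 0) (.pos 37 .mp ⟨⟨2672867, 0, 0, 0, 0, 6350451, 0, 0, 0, ⟨0, 0⟩, 0⟩, 0, 0⟩ 0 0)) (.pos 37 .mp ⟨⟨2992135, 0, 0, 0, 0, 7316740, 0, 0, 0, ⟨0, 0⟩, 0⟩, 0, 0⟩ 0 0)))))) (.cut .s 6422528 (.cut .v 16842752 (.cut .s 6225920 (.cut .s 6127616 (.pos 39 .mp ⟨⟨1710599, 0, 0, 0, 0, 3931690, 0, 0, 0, ⟨0, 0⟩, 0⟩, 0, 0⟩ 0 0) (.cut .s 6176768 (.pos 39 .mp ⟨⟨2053443, 0, 0, 0, 0, 3942444, 0, 0, 0, ⟨0, 0⟩, 0⟩, 0, 0⟩ 0 0) (.pos 39 .mp ⟨⟨2098137, 0, 0, 0, 0, 4124178, 0, 0, 0, ⟨0,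 0⟩, 0⟩, 0, 0⟩ 0 0))) (.cut .s 6324224 (.cut .s 6275072 (.pos 39 .mp ⟨⟨2151658, 0, 0, 0, 0, 4309891, 0, 0, 0, ⟨0, 0⟩, 0⟩, 0, 0⟩ 0 0) (.pos 39 .mp ⟨⟨2215076, 0, 0, 0, 0, 4498480, 0, 0, 0, ⟨0, 0⟩, 0⟩, 0, 0⟩ 0 0)) (.cut .s 6373376 (.pos 39 .mp ⟨⟨2322192, 0, 0, 0, 0, 4658010, 0, 0, 0, ⟨0, 0⟩, 0⟩, 0, 0⟩ 0 0) (.pos 39 .mp ⟨⟨2462850, 0, 0, 0, 0, 4797530, 0, 0, 0, ⟨0, 0⟩, 0⟩, 0, 0⟩ 0 0)))) (.pos 40 .mp ⟨⟨6828581, 0, 0, 0, 0, 0, 0, 0, 0, ⟨0, 0⟩, 0⟩, 0, 0⟩ 0 0)) (.cut .s 6619136 (.cut .v 16842752 (.cut .s 6520832 (.cut .d (-32768) (.pos 39 .mp ⟨⟨2216045, 0, 0, 0, 0, 5724201, 0, 0, 0, ⟨0, 0⟩, 0⟩, 0, 0⟩ 0 0) (.cut .s 6471680 (.pos 39 .mp ⟨⟨2716467,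 0, 0, 0, 0, 4784863, 0, 0, 0, ⟨0, 0⟩, 0⟩, 0, 0⟩ 0 0) (.pos 39 .mp ⟨⟨2841019, 0, 0, 0, 0, 4959238, 0, 0, 0, ⟨0, 0⟩, 0⟩, 0, 0⟩ 0 0))) (.cut .l 131821 (.cut .d (-32768) (.pos 39 .mp ⟨⟨2565498, 0, 0, 0, 0, 6298804, 0, 0, 0, ⟨0, 0⟩, 0⟩, 0, 0⟩ 0 0) (.cut .s 6569984 (.pos 39 .mp ⟨⟨2934334, 0, 0, 0, 0, 5157652, 0, 0, 0, ⟨0, 0⟩, 0⟩, 0, 0⟩ 0 0) (.pos 39 .mp ⟨⟨3087619, 0, 0, 0, 0, 5328764, 0, 0, 0, ⟨0, 0⟩, 0⟩, 0, 0⟩ 0 0))) (.pos 39 .mp ⟨⟨3019910, 0, 0, 0, 0, 5079765, 0, 0, 0, ⟨0, 0⟩, 0⟩, 0, 0⟩ 0 0))) (.pos 40 .mp ⟨⟨8089691, 0, 0, 0, 0, 0, 0, 0, 0, ⟨0, 0⟩, 0⟩, 0, 0⟩ 0 0)) (.cut .v 16842752 (.cut .s 6717440 (.cut .l 131821 (.cut .d (-32768)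 (.pos 39 .mp ⟨⟨2880974, 0, 0, 0, 0, 6707502, 0, 0, 0, ⟨0, 0⟩, 0⟩, 0, 0⟩ 0 0) (.cut .s 6668288 (.pos 39 .mp ⟨⟨3255295, 0, 0, 0, 0, 5497261, 0, 0, 0, ⟨0, 0⟩, 0⟩, 0, 0⟩ 0 0) (.pos 39 .mp ⟨⟨3438191, 0, 0, 0, 0, 5662144, 0, 0, 0, ⟨0, 0⟩, 0⟩, 0, 0⟩ 0 0))) (.pos 39 .mp ⟨⟨3366034, 0, 0, 0, 0, 5396126, 0, 0, 0, ⟨0, 0⟩, 0⟩, 0, 0⟩ 0 0)) (.cut .d (-32768) (.pos 39 .mp ⟨⟨3148115, 0, 0, 0, 0, 6882466, 0, 0, 0, ⟨0, 0⟩, 0⟩, 0, 0⟩ 0 0) (.cut .s 6766592 (.pos 39 .mp ⟨⟨3687569, 0, 0, 0, 0, 5792469, 0, 0, 0, ⟨0, 0⟩, 0⟩, 0, 0⟩ 0 0) (.pos 39 .mp ⟨⟨3908439, 0, 0, 0, 0, 5943613, 0, 0, 0, ⟨0, 0⟩, 0⟩, 0, 0⟩ 0 0)))) (.pos 40 .mp ⟨⟨9352682, 0, 0, 0, 0, 0,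 0, 0, 0, ⟨0, 0⟩, 0⟩, 0, 0⟩ 0 0))))) (.cut .s 6422528 (.pos 38 .mp ⟨⟨8330728, 0, 0, 0, 0, 0, 0, 0, 0, ⟨0, 0⟩, 0⟩, 0, 0⟩ 0 0) (.pos 38 .mp ⟨⟨10684903, 0, 0, 0, 0, 0, 0, 0, 0, ⟨0, 0⟩, 0⟩, 0, 0⟩ 0 0))) (.pos 36 .mp ⟨⟨10979709, 0, 0, 0, 0, 0, 0, 0, 0, ⟨0, 0⟩, 0⟩, 0, 0⟩ 0 0)) (.void 34 ⟨⟨100000, 0, 0, 0, 0, 0, 0, 0, 0, ⟨0, 0⟩, 0⟩, 0, 0⟩ 0 0)) (.void 32 ⟨⟨100000, 0, 0, 0, 0, 0, 0, 0, 0, ⟨0, 0⟩, 0⟩, 0, 0⟩ 0 0))) (.void 30 ⟨⟨100000, 0, 0, 0, 0, 0, 0, 0, 0, ⟨0, 0⟩, 0⟩, 0, 0⟩ 0 0))))) (.void 28 ⟨⟨100000, 0, 0, 0, 0, 0, 0, 0, 0, ⟨0, 0⟩, 0⟩, 0, 0⟩ 0 0))))) (.void 26 ⟨⟨100000, 0, 0, 0, 0, 0, 0, 0, 0, ⟨0, 0⟩, 0⟩, 0, 0⟩ 0 0))) (.cut .v 16777216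 (.cut .d 3707415 (.cut .d 1853707 (.cut .d 926853 (.cut .v 8388608 (.cut .v 4194304 (.void 4 ⟨⟨0, 0, 50000, 0, 50000, 0, 0, 0, 0, ⟨0, 0⟩, 0⟩, 0, 0⟩ 0 0) (.void 5 ⟨⟨0, 0, 0, 0, 0, 0, 0, 0, 100000, ⟨0, 0⟩, 9975792⟩, 0, 0⟩ 0 0)) (.cut .v 12582912 (.pos 10 .pm ⟨⟨0, 0, 0, 0, 0, 0, 0, 0, 0, ⟨0, 0⟩, 0⟩, 0, 1135305⟩ 0 0) (.cut .v 14680064 (.pos 14 .pm ⟨⟨0, 0, 0, 0, 0, 0, 0, 0, 0, ⟨0, 0⟩, 0⟩, 0, 756583⟩ 0 0) (.pos 15 .pm ⟨⟨0, 0, 0, 0, 0, 0, 0, 0, 0, ⟨0, 0⟩, 0⟩, 0, 367142⟩ 0 0)))) (.void 1 ⟨⟨0, 0, 0, 0, 0, 0, 0, 0, 0, ⟨0, 0⟩, 0⟩, 0, 100000⟩ 0 0)) (.void 1 ⟨⟨0, 0, 0, 0, 0, 0, 0, 0, 0, ⟨0, 0⟩, 0⟩, 0, 100000⟩ 0 0)) (.void 1 ⟨⟨0, 0, 0, 0, 0,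 0, 0, 0, 0, ⟨0, 0⟩, 0⟩, 0, 100000⟩ 0 0)) (.cut .v 25165824 (.cut .d 3707415 (.cut .v 20971520 (.cut .d 1853707 (.cut .d 926853 (.cut .v 18874368 (.cut .d 463426 (.cut .d 231713 (.cut .s 6422528 (.pos 29 .pp ⟨⟨4176429, 0, 0, 0, 0, 0, 0, 0, 0, ⟨0, 0⟩, 0⟩, 0, 32192⟩ 0 0) (.pos 29 .pp ⟨⟨5946836, 0, 0, 0, 0, 0, 0, 0, 0, ⟨0, 0⟩, 0⟩, 10288, 0⟩ 0 0)) (.pos 29 .pp ⟨⟨2913566, 0, 0, 0, 0, 0, 0, 0, 0, ⟨0, 0⟩, 0⟩, 0, 430118⟩ 0 0)) (.pos 29 .pp ⟨⟨1146398, 0, 0, 0, 0, 0, 0, 0, 0, ⟨0, 0⟩, 0⟩, 0, 1354084⟩ 0 0)) (.pos 30 .pp ⟨⟨13159245, 0, 0, 0, 0, 0, 0, 0, 0, ⟨0, 0⟩, 0⟩, 0, 2434507⟩ 0 0)) (.void 27 ⟨⟨0, 0, 0, 0, 0, 0, 0, 0, 0, ⟨0, 0⟩, 0⟩, 1463,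 98537⟩ 0 0)) (.void 27 ⟨⟨0, 0, 0, 0, 0, 0, 0, 0, 0, ⟨0, 0⟩, 0⟩, 0, 100000⟩ 0 0)) (.void 28 ⟨⟨0, 0, 0, 0, 0, 0, 0, 0, 0, ⟨0, 0⟩, 0⟩, 18948, 81052⟩ 0 0)) (.void 25 ⟨⟨0, 0, 0, 0, 0, 0, 0, 0, 0, ⟨0, 0⟩, 0⟩, 0, 100000⟩ 0 0)) (.void 26 ⟨⟨0, 0, 0, 0, 0, 0, 0, 0, 0, ⟨0, 0⟩, 0⟩, 18948, 81052⟩ 0 0)))),
    by decide +kernel⟩

def covers7 : cell.Covers Vale.Agent.P237.Petty.Cor.Grid.N14.table row7.1 :=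
  ⟨(.cut .d 0 (.cut .v 16777216 (.cut .d (-8388608) (.void 1 ⟨⟨0, 0, 0, 0, 0, 100000, 0, 0, 0, ⟨0, 0⟩, 0⟩, 0, 0⟩ 0 0) (.cut .d (-4194304) (.void 1 ⟨⟨0, 0, 0, 0, 0, 100000, 0, 0, 0, ⟨0, 0⟩, 0⟩, 0, 0⟩ 0 0) (.cut .d (-2097152) (.void 1 ⟨⟨0, 0, 0, 0, 0, 100000, 0, 0, 0, ⟨0, 0⟩, 0⟩, 0, 0⟩ 0 0) (.cut .d (-1048576) (.void 1 ⟨⟨0, 0, 0, 0, 0, 100000, 0, 0, 0, ⟨0, 0⟩, 0⟩, 0, 0⟩ 0 0) (.cut .d (-524288) (.void 1 ⟨⟨0, 0, 0, 0, 0, 100000, 0, 0, 0, ⟨0, 0⟩, 0⟩, 0, 0⟩ 0 0) (.cut .d (-262144) (.void 1 ⟨⟨0, 0, 0, 0, 0, 100000, 0, 0, 0, ⟨0, 0⟩, 0⟩, 0, 0⟩ 0 0) (.cut .d (-131072) (.void 1 ⟨⟨0, 0, 0, 0, 0, 100000, 0, 0, 0, ⟨0, 0⟩, 0⟩, 0, 0⟩ 0 0) (.cut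 .v 8388608 (.cut .v 4194304 (.void 4 ⟨⟨0, 0, 100000, 0, 0, 0, 0, 0, 0, ⟨0, 0⟩, 0⟩, 0, 0⟩ 0 0) (.pos 5 .mm ⟨⟨0, 0, 0, 0, 0, 7504279, 0, 0, 733498, ⟨0, 0⟩, 9975792⟩, 0, 0⟩ 0 0)) (.cut .v 12582912 (.pos 10 .mm ⟨⟨0, 0, 0, 0, 0, 4937678, 0, 0, 0, ⟨0, 0⟩, 0⟩, 0, 0⟩ 0 0) (.cut .d (-65536) (.pos 11 .mm ⟨⟨0, 0, 0, 0, 0, 16956621, 0, 0, 0, ⟨0, 0⟩, 0⟩, 0, 0⟩ 0 0) (.cut .v 14680064 (.pos 14 .mm ⟨⟨0, 0, 0, 0, 0, 6585021, 0, 0, 0, ⟨0, 0⟩, 0⟩, 0, 0⟩ 0 0) (.cut .v 15728640 (.pos 22 .mm ⟨⟨0, 0, 0, 0, 0, 7811381, 0, 0, 0, ⟨0, 0⟩, 0⟩, 0, 0⟩ 0 0) (.cut .v 16252928 (.pos 41 .mm ⟨⟨0, 0, 0, 0, 0, 8491926, 0, 0, 0, ⟨0, 0⟩, 0⟩, 0, 0⟩ 0 0) (.cut .v 16515072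 (.pos 43 .mm ⟨⟨0, 0, 0, 0, 0, 11270017, 0, 0, 0, ⟨0, 0⟩, 0⟩, 0, 0⟩ 0 0) (.cut .v 16646144 (.pos 49 .mm ⟨⟨0, 0, 0, 0, 0, 12355044, 0, 0, 0, ⟨0, 0⟩, 0⟩, 0, 0⟩ 0 0) (.cut .s 7176192 (.cut .s 6995968 (.pos 50 .mm ⟨⟨0, 0, 0, 0, 0, 10735396, 0, 0, 0, ⟨0, 0⟩, 0⟩, 0, 0⟩ 0 0) (.pos 50 .mm ⟨⟨0, 0, 0, 0, 0, 12307538, 0, 0, 0, ⟨0, 0⟩, 0⟩, 0, 0⟩ 0 0)) (.cut .s 7356416 (.pos 50 .mm ⟨⟨0, 0, 0, 0, 0, 14149914, 0, 0, 0, ⟨0, 0⟩, 0⟩, 0, 0⟩ 0 0) (.pos 50 .mm ⟨⟨0, 0, 0, 0, 0, 16262247, 0, 0, 0, ⟨0, 0⟩, 0⟩, 0, 0⟩ 0 0)))))))))))))))))) (.cut .v 25165824 (.cut .d (-8388608) (.void 25 ⟨⟨0, 0, 0, 0, 0, 100000, 0, 0, 0, ⟨0, 0⟩, 0⟩, 0, 0⟩ 0 0) (.cut .d (-4194304)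 (.void 25 ⟨⟨0, 0, 0, 0, 0, 100000, 0, 0, 0, ⟨0, 0⟩, 0⟩, 0, 0⟩ 0 0) (.cut .d (-2097152) (.void 25 ⟨⟨0, 0, 0, 0, 0, 100000, 0, 0, 0, ⟨0, 0⟩, 0⟩, 0, 0⟩ 0 0) (.cut .v 20971520 (.cut .d (-1048576) (.void 27 ⟨⟨0, 0, 0, 0, 0, 100000, 0, 0, 0, ⟨0, 0⟩, 0⟩, 0, 0⟩ 0 0) (.cut .d (-524288) (.void 27 ⟨⟨0, 0, 0, 0, 0, 100000, 0, 0, 0, ⟨0, 0⟩, 0⟩, 0, 0⟩ 0 0) (.cut .d (-262144) (.void 27 ⟨⟨0, 0, 0, 0, 0, 100000, 0, 0, 0, ⟨0, 0⟩, 0⟩, 0, 0⟩ 0 0) (.cut .v 18874368 (.cut .d (-131072) (.void 29 ⟨⟨0, 0, 0, 0, 0, 100000, 0, 0, 0, ⟨0, 0⟩, 0⟩, 0, 0⟩ 0 0) (.cut .v 17825792 (.cut .v 17301504 (.cut .v 17039360 (.cut .d (-65536) (.cut .s 7176192 (.cut .d (-98304)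 (.void 35 ⟨⟨0, 0, 0, 0, 0, 100000, 0, 0, 0, ⟨0, 0⟩, 0⟩, 0, 0⟩ 0 0) (.cut .d (-81920) (.void 35 ⟨⟨0, 0, 0, 0, 0, 100000, 0, 0, 0, ⟨0, 0⟩, 0⟩, 0, 0⟩ 0 0) (.cut .d (-73728) (.void 35 ⟨⟨0, 0, 0, 0, 0, 100000, 0, 0, 0, ⟨0, 0⟩, 0⟩, 0, 0⟩ 0 0) (.cut .s 6995968 (.pos 35 .mp ⟨⟨4362307, 0, 0, 0, 0, 7530374, 0, 0, 0, ⟨0, 0⟩, 0⟩, 0, 0⟩ 0 0) (.cut .s 7086080 (.pos 35 .mp ⟨⟨4943358, 0, 0, 0, 0, 7705613, 0, 0, 0, ⟨0, 0⟩, 0⟩, 0, 0⟩ 0 0) (.pos 35 .mp ⟨⟨5356815, 0, 0, 0, 0, 8549495, 0, 0, 0, ⟨0, 0⟩, 0⟩, 0, 0⟩ 0 0)))))) (.pos 35 .mp ⟨⟨5506022, 0, 0, 0, 0, 27199968, 0, 0, 0, ⟨0, 0⟩, 0⟩, 0, 0⟩ 0 0)) (.cut .v 16908288 (.cut .s 7176192 (.cut .s 6995968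 (.cut .v 16842752 (.cut .s 6905856 (.cut .s 6860800 (.pos 39 .mp ⟨⟨3771138, 0, 0, 0, 0, 6549675, 0, 0, 0, ⟨0, 0⟩, 0⟩, 0, 0⟩ 0 0) (.cut .s 6883328 (.pos 39 .mp ⟨⟨4279010, 0, 0, 0, 0, 6264127, 0, 0, 0, ⟨0, 0⟩, 0⟩, 0, 0⟩ 0 0) (.pos 39 .mp ⟨⟨4335641, 0, 0, 0, 0, 6375151, 0, 0, 0, ⟨0, 0⟩, 0⟩, 0, 0⟩ 0 0))) (.cut .d (-32768) (.pos 39 .mp ⟨⟨3868140, 0, 0, 0, 0, 7632604, 0, 0, 0, ⟨0, 0⟩, 0⟩, 0, 0⟩ 0 0) (.cut .s 6950912 (.pos 39 .mp ⟨⟨4407669, 0, 0, 0, 0, 6480960, 0, 0, 0, ⟨0, 0⟩, 0⟩, 0, 0⟩ 0 0) (.pos 39 .mp ⟨⟨4540341, 0, 0, 0, 0, 6702817, 0, 0, 0, ⟨0, 0⟩, 0⟩, 0, 0⟩ 0 0)))) (.pos 40 .mp ⟨⟨8967739, 0, 0, 0, 0, 2039254, 0, 0, 0, ⟨0, 0⟩, 0⟩,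 0, 0⟩ 0 0)) (.cut .v 16842752 (.cut .s 7086080 (.cut .d (-32768) (.cut .s 7041024 (.pos 39 .mp ⟨⟨4257474, 0, 0, 0, 0, 7728667, 0, 0, 0, ⟨0, 0⟩, 0⟩, 0, 0⟩ 0 0) (.pos 39 .mp ⟨⟨4463609, 0, 0, 0, 0, 7919166, 0, 0, 0, ⟨0, 0⟩, 0⟩, 0, 0⟩ 0 0)) (.cut .s 7041024 (.pos 39 .mp ⟨⟨4685044, 0, 0, 0, 0, 6928778, 0, 0, 0, ⟨0, 0⟩, 0⟩, 0, 0⟩ 0 0) (.pos 39 .mp ⟨⟨4868011, 0, 0, 0, 0, 7131056, 0, 0, 0, ⟨0, 0⟩, 0⟩, 0, 0⟩ 0 0))) (.cut .d (-32768) (.cut .s 7131136 (.pos 39 .mp ⟨⟨4677487, 0, 0, 0, 0, 8117904, 0, 0, 0, ⟨0, 0⟩, 0⟩, 0, 0⟩ 0 0) (.pos 39 .mp ⟨⟨4899184, 0, 0, 0, 0, 8324814, 0, 0, 0, ⟨0, 0⟩, 0⟩, 0, 0⟩ 0 0)) (.cut .s 7131136 (.pos 39 .mp ⟨⟨5095834,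 0, 0, 0, 0, 7302284, 0, 0, 0, ⟨0, 0⟩, 0⟩, 0, 0⟩ 0 0) (.cut .s 7153664 (.pos 39 .mp ⟨⟨5475800, 0, 0, 0, 0, 7261565, 0, 0, 0, ⟨0, 0⟩, 0⟩, 0, 0⟩ 0 0) (.pos 39 .mp ⟨⟨5580547, 0, 0, 0, 0, 7369660, 0, 0, 0, ⟨0, 0⟩, 0⟩, 0, 0⟩ 0 0))))) (.pos 40 .mp ⟨⟨10333412, 0, 0, 0, 0, 2112186, 0, 0, 0, ⟨0, 0⟩, 0⟩, 0, 0⟩ 0 0))) (.cut .s 7356416 (.cut .v 16842752 (.cut .s 7266304 (.cut .d (-32768) (.cut .s 7221248 (.pos 39 .mp ⟨⟨5128776, 0, 0, 0, 0, 8539824, 0, 0, 0, ⟨0, 0⟩, 0⟩, 0, 0⟩ 0 0) (.pos 39 .mp ⟨⟨5366342, 0, 0, 0, 0, 8762858, 0, 0, 0, ⟨0, 0⟩, 0⟩, 0, 0⟩ 0 0)) (.cut .l 131821 (.cut .v 16809984 (.cut .d (-16384) (.pos 51 .mp ⟨⟨5112323, 0, 0, 0, 0,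 8785683, 0, 0, 0, ⟨0, 0⟩, 0⟩, 0, 0⟩ 0 0) (.cut .s 7221248 (.pos 51 .mp ⟨⟨5574106, 0, 0, 0, 0, 7635407, 0, 0, 0, ⟨0, 0⟩, 0⟩, 0, 0⟩ 0 0) (.pos 51 .mp ⟨⟨5798373, 0, 0, 0, 0, 7859088, 0, 0, 0, ⟨0, 0⟩, 0⟩, 0, 0⟩ 0 0))) (.pos 52 .mp ⟨⟨9625202, 0, 0, 0, 0, 3870978, 0, 0, 0, ⟨0, 0⟩, 0⟩, 0, 0⟩ 0 0)) (.pos 39 .mp ⟨⟨5483961, 0, 0, 0, 0, 7359828, 0, 0, 0, ⟨0, 0⟩, 0⟩, 0, 0⟩ 0 0))) (.cut .d (-32768) (.cut .s 7311360 (.pos 39 .mp ⟨⟨5611964, 0, 0, 0, 0, 8993836, 0, 0, 0, ⟨0, 0⟩, 0⟩, 0, 0⟩ 0 0) (.pos 39 .mp ⟨⟨5865723, 0, 0, 0, 0, 9232673, 0, 0, 0, ⟨0, 0⟩, 0⟩, 0, 0⟩ 0 0)) (.cut .l 131821 (.cut .v 16809984 (.cut .d (-16384) (.pos 51 .mp ⟨⟨5596094,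 0, 0, 0, 0, 9259468, 0, 0, 0, ⟨0, 0⟩, 0⟩, 0, 0⟩ 0 0) (.cut .s 7311360 (.pos 51 .mp ⟨⟨6041759, 0, 0, 0, 0, 8078829, 0, 0, 0, ⟨0, 0⟩, 0⟩, 0, 0⟩ 0 0) (.pos 51 .mp ⟨⟨6305494, 0, 0, 0, 0, 8293164, 0, 0, 0, ⟨0, 0⟩, 0⟩, 0, 0⟩ 0 0))) (.pos 52 .mp ⟨⟨10386194, 0, 0, 0, 0, 4003664, 0, 0, 0, ⟨0, 0⟩, 0⟩, 0, 0⟩ 0 0)) (.pos 39 .mp ⟨⟨5986599, 0, 0, 0, 0, 7759273, 0, 0, 0, ⟨0, 0⟩, 0⟩, 0, 0⟩ 0 0)))) (.pos 40 .mp ⟨⟨12002505, 0, 0, 0, 0, 2099864, 0, 0, 0, ⟨0, 0⟩, 0⟩, 0, 0⟩ 0 0)) (.cut .v 16842752 (.cut .s 7446528 (.cut .d (-32768) (.cut .s 7401472 (.pos 39 .mp ⟨⟨6127703, 0, 0, 0, 0, 9479277, 0, 0, 0, ⟨0, 0⟩, 0⟩, 0, 0⟩ 0 0) (.pos 39 .mp ⟨⟨6397990, 0,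 0, 0, 0, 9733554, 0, 0, 0, ⟨0, 0⟩, 0⟩, 0, 0⟩ 0 0)) (.cut .l 131821 (.cut .v 16809984 (.cut .d (-16384) (.pos 51 .mp ⟨⟨6112533, 0, 0, 0, 0, 9774951, 0, 0, 0, ⟨0, 0⟩, 0⟩, 0, 0⟩ 0 0) (.cut .s 7401472 (.pos 51 .mp ⟨⟨6590819, 0, 0, 0, 0, 8500590, 0, 0, 0, ⟨0, 0⟩, 0⟩, 0, 0⟩ 0 0) (.pos 51 .mp ⟨⟨6898992, 0, 0, 0, 0, 8699570, 0, 0, 0, ⟨0, 0⟩, 0⟩, 0, 0⟩ 0 0))) (.pos 52 .mp ⟨⟨11269960, 0, 0, 0, 0, 4064333, 0, 0, 0, ⟨0, 0⟩, 0⟩, 0, 0⟩ 0 0)) (.pos 39 .mp ⟨⟨6520156, 0, 0, 0, 0, 8172618, 0, 0, 0, ⟨0, 0⟩, 0⟩, 0, 0⟩ 0 0))) (.cut .d (-32768) (.cut .s 7491584 (.pos 39 .mp ⟨⟨6676673, 0, 0, 0, 0, 10002975, 0, 0, 0, ⟨0, 0⟩, 0⟩, 0, 0⟩ 0 0) (.pos 39 .mp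 ⟨⟨6963841, 0, 0, 0, 0, 10289152, 0, 0, 0, ⟨0, 0⟩, 0⟩, 0, 0⟩ 0 0)) (.cut .s 7491584 (.cut .s 7469056 (.pos 39 .mp ⟨⟨7385865, 0, 0, 0, 0, 8673096, 0, 0, 0, ⟨0, 0⟩, 0⟩, 0, 0⟩ 0 0) (.pos 39 .mp ⟨⟨7564284, 0, 0, 0, 0, 8758968, 0, 0, 0, ⟨0, 0⟩, 0⟩, 0, 0⟩ 0 0)) (.pos 39 .mp ⟨⟨7523205, 0, 0, 0, 0, 9176623, 0, 0, 0, ⟨0, 0⟩, 0⟩, 0, 0⟩ 0 0)))) (.pos 40 .mp ⟨⟨14102154, 0, 0, 0, 0, 1854414, 0, 0, 0, ⟨0, 0⟩, 0⟩, 0, 0⟩ 0 0)))) (.pos 38 .mp ⟨⟨14558792, 0, 0, 0, 0, 0, 0, 0, 0, ⟨0, 0⟩, 0⟩, 0, 0⟩ 0 0))) (.pos 36 .mp ⟨⟨17765709, 0, 0, 0, 0, 0, 0, 0, 0, ⟨0, 0⟩, 0⟩, 0, 0⟩ 0 0)) (.void 34 ⟨⟨100000, 0, 0, 0, 0, 0, 0, 0, 0, ⟨0, 0⟩, 0⟩, 0, 0⟩ 0 0)) (.void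 32 ⟨⟨100000, 0, 0, 0, 0, 0, 0, 0, 0, ⟨0, 0⟩, 0⟩, 0, 0⟩ 0 0))) (.void 30 ⟨⟨100000, 0, 0, 0, 0, 0, 0, 0, 0, ⟨0, 0⟩, 0⟩, 0, 0⟩ 0 0))))) (.void 28 ⟨⟨100000, 0, 0, 0, 0, 0, 0, 0, 0, ⟨0, 0⟩, 0⟩, 0, 0⟩ 0 0))))) (.void 26 ⟨⟨100000, 0, 0, 0, 0, 0, 0, 0, 0, ⟨0, 0⟩, 0⟩, 0, 0⟩ 0 0))) (.cut .v 16777216 (.cut .d 4569939 (.cut .d 2284969 (.cut .d 1142484 (.cut .v 8388608 (.cut .v 4194304 (.void 4 ⟨⟨0, 0, 100000, 0, 0, 0, 0, 0, 0, ⟨0, 0⟩, 0⟩, 0, 0⟩ 0 0) (.pos 5 .pm ⟨⟨0, 0, 0, 0, 0, 0, 0, 0, 681044, ⟨0, 0⟩, 9975792⟩, 0, 0⟩ 0 0)) (.cut .v 12582912 (.pos 10 .pm ⟨⟨0, 0, 0, 0, 0, 0, 0, 0, 0, ⟨0, 0⟩, 0⟩, 0, 146207⟩ 0 0) (.pos 11 .pm ⟨⟨0, 0, 0, 0, 0,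 0, 0, 0, 0, ⟨0, 0⟩, 0⟩, 0, 0⟩ 0 0))) (.void 1 ⟨⟨0, 0, 0, 0, 0, 0, 0, 0, 0, ⟨0, 0⟩, 0⟩, 0, 100000⟩ 0 0)) (.void 1 ⟨⟨0, 0, 0, 0, 0, 0, 0, 0, 0, ⟨0, 0⟩, 0⟩, 0, 100000⟩ 0 0)) (.void 1 ⟨⟨0, 0, 0, 0, 0, 0, 0, 0, 0, ⟨0, 0⟩, 0⟩, 0, 100000⟩ 0 0)) (.cut .v 25165824 (.cut .d 4569939 (.cut .v 20971520 (.cut .d 2284969 (.cut .d 1142484 (.cut .v 18874368 (.cut .d 571242 (.cut .v 17825792 (.cut .s 7176192 (.pos 31 .pp ⟨⟨6707045, 0, 0, 0, 0, 0, 0, 0, 0, ⟨0, 0⟩, 0⟩, 0, 95217⟩ 0 0) (.pos 31 .pp ⟨⟨9344283, 0, 0, 0, 0, 0, 0, 0, 0, ⟨0, 0⟩, 0⟩, 0, 42613⟩ 0 0)) (.pos 32 .pp ⟨⟨11524046, 0, 0, 0, 0, 0, 0, 0, 0, ⟨0, 0⟩, 0⟩, 0, 0⟩ 0 0)) (.pos 29 .pp ⟨⟨1883942,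 0, 0, 0, 0, 0, 0, 0, 0, ⟨0, 0⟩, 0⟩, 0, 561124⟩ 0 0)) (.cut .d 571242 (.pos 30 .pp ⟨⟨27530223, 0, 0, 0, 0, 0, 0, 0, 0, ⟨0, 0⟩, 0⟩, 0, 0⟩ 0 0) (.pos 30 .pp ⟨⟨14705154, 0, 0, 0, 0, 0, 0, 0, 0, ⟨0, 0⟩, 0⟩, 0, 4912916⟩ 0 0))) (.void 27 ⟨⟨0, 0, 0, 0, 0, 0, 0, 0, 0, ⟨0, 0⟩, 0⟩, 0, 100000⟩ 0 0)) (.void 27 ⟨⟨0, 0, 0, 0, 0, 0, 0, 0, 0, ⟨0, 0⟩, 0⟩, 0, 100000⟩ 0 0)) (.void 28 ⟨⟨0, 0, 0, 0, 0, 0, 100000, 0, 0, ⟨0, 0⟩, 0⟩, 0, 0⟩ 0 0)) (.void 25 ⟨⟨0, 0, 0, 0, 0, 0, 0, 0, 0, ⟨0, 0⟩, 0⟩, 0, 100000⟩ 0 0)) (.void 26 ⟨⟨0, 0, 0, 0, 0, 0, 0, 0, 0, ⟨0, 0⟩, 0⟩, 18241, 81759⟩ 0 0)))),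
    by decide +kernel⟩

def covers8 : cell.Covers Vale.Agent.P237.Petty.Cor.Grid.N14.table row8.1 :=
  ⟨(.cut .d 0 (.cut .v 16777216 (.cut .d (-8388608) (.void 1 ⟨⟨0, 0, 0, 0, 0, 100000, 0, 0, 0, ⟨0, 0⟩, 0⟩, 0, 0⟩ 0 0) (.cut .d (-4194304) (.void 1 ⟨⟨0, 0, 0, 0, 0, 100000, 0, 0, 0, ⟨0, 0⟩, 0⟩, 0, 0⟩ 0 0) (.cut .d (-2097152) (.void 1 ⟨⟨0, 0, 0, 0, 0, 100000, 0, 0, 0, ⟨0, 0⟩, 0⟩, 0, 0⟩ 0 0) (.cut .d (-1048576) (.void 1 ⟨⟨0, 0, 0, 0, 0, 100000, 0, 0, 0, ⟨0, 0⟩, 0⟩, 0, 0⟩ 0 0) (.cut .d (-524288) (.void 1 ⟨⟨0, 0, 0, 0, 0, 100000, 0, 0, 0, ⟨0, 0⟩, 0⟩, 0, 0⟩ 0 0) (.cut .d (-262144) (.void 1 ⟨⟨0, 0, 0, 0, 0, 100000, 0, 0, 0, ⟨0, 0⟩, 0⟩,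 0, 0⟩ 0 0) (.cut .d (-131072) (.void 1 ⟨⟨0, 0, 0, 0, 0, 100000, 0, 0, 0, ⟨0, 0⟩, 0⟩, 0, 0⟩ 0 0) (.cut .d (-65536) (.void 1 ⟨⟨0, 0, 0, 0, 0, 100000, 0, 0, 0, ⟨0, 0⟩, 0⟩, 0, 0⟩ 0 0) (.cut .v 8388608 (.cut .v 4194304 (.void 4 ⟨⟨0, 0, 100000, 0, 0, 0, 0, 0, 0, ⟨0, 0⟩, 0⟩, 0, 0⟩ 0 0) (.pos 5 .mm ⟨⟨0, 0, 0, 0, 0, 7171612, 0, 0, 0, ⟨0, 0⟩, 0⟩, 0, 0⟩ 0 0)) (.cut .v 12582912 (.pos 10 .mm ⟨⟨0, 0, 0, 0, 0, 10281250, 0, 0, 0, ⟨0, 0⟩, 0⟩, 0, 0⟩ 0 0) (.cut .v 14680064 (.pos 14 .mm ⟨⟨0, 0, 0, 0, 0, 12861222, 0, 0, 0, ⟨0, 0⟩, 0⟩, 0, 0⟩ 0 0) (.cut .v 15728640 (.pos 22 .mm ⟨⟨0, 0, 0, 0, 0, 14407496, 0, 0, 0, ⟨0, 0⟩, 0⟩, 0, 0⟩ 0 0) (.cut .v 16252928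 (.pos 41 .mm ⟨⟨0, 0, 0, 0, 0, 15250025, 0, 0, 0, ⟨0, 0⟩, 0⟩, 0, 0⟩ 0 0) (.cut .v 16515072 (.pos 43 .mm ⟨⟨0, 0, 0, 0, 0, 19075290, 0, 0, 0, ⟨0, 0⟩, 0⟩, 0, 0⟩ 0 0) (.cut .v 16646144 (.pos 49 .mm ⟨⟨0, 0, 0, 0, 0, 20316315, 0, 0, 0, ⟨0, 0⟩, 0⟩, 0, 0⟩ 0 0) (.cut .v 16711680 (.pos 55 .mm ⟨⟨0, 0, 0, 0, 0, 20948127, 0, 0, 0, ⟨0, 0⟩, 0⟩, 0, 0⟩ 0 0) (.cut .s 7798784 (.cut .s 7667712 (.pos 56 .mm ⟨⟨0, 0, 0, 0, 0, 18388416, 0, 0, 0, ⟨0, 0⟩, 0⟩, 0, 0⟩ 0 0) (.pos 56 .mm ⟨⟨0, 0, 0, 0, 0, 20197638, 0, 0, 0, ⟨0, 0⟩, 0⟩, 0, 0⟩ 0 0)) (.cut .s 7929856 (.pos 56 .mm ⟨⟨0, 0, 0, 0, 0, 22231810, 0, 0, 0, ⟨0, 0⟩, 0⟩, 0, 0⟩ 0 0) (.pos 56 .mm ⟨⟨0, 0, 0, 0,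 0, 24494449, 0, 0, 0, ⟨0, 0⟩, 0⟩, 0, 0⟩ 0 0))))))))))))))))))) (.cut .v 25165824 (.cut .d (-8388608) (.void 25 ⟨⟨0, 0, 0, 0, 0, 100000, 0, 0, 0, ⟨0, 0⟩, 0⟩, 0, 0⟩ 0 0) (.cut .d (-4194304) (.void 25 ⟨⟨0, 0, 0, 0, 0, 100000, 0, 0, 0, ⟨0, 0⟩, 0⟩, 0, 0⟩ 0 0) (.cut .d (-2097152) (.void 25 ⟨⟨0, 0, 0, 0, 0, 100000, 0, 0, 0, ⟨0, 0⟩, 0⟩, 0, 0⟩ 0 0) (.cut .v 20971520 (.cut .d (-1048576) (.void 27 ⟨⟨0, 0, 0, 0, 0, 100000, 0, 0, 0, ⟨0, 0⟩, 0⟩, 0, 0⟩ 0 0) (.cut .d (-524288) (.void 27 ⟨⟨0, 0, 0, 0, 0, 100000, 0, 0, 0, ⟨0, 0⟩, 0⟩, 0, 0⟩ 0 0) (.cut .d (-262144) (.void 27 ⟨⟨0, 0, 0, 0, 0, 100000, 0, 0, 0, ⟨0, 0⟩, 0⟩, 0, 0⟩ 0 0) (.cut .v 18874368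 (.cut .d (-131072) (.void 29 ⟨⟨0, 0, 0, 0, 0, 100000, 0, 0, 0, ⟨0, 0⟩, 0⟩, 0, 0⟩ 0 0) (.cut .d (-65536) (.void 29 ⟨⟨0, 0, 0, 0, 0, 100000, 0, 0, 0, ⟨0, 0⟩, 0⟩, 0, 0⟩ 0 0) (.cut .v 17825792 (.cut .v 17301504 (.cut .v 17039360 (.cut .v 16908288 (.cut .s 7798784 (.cut .s 7667712 (.cut .v 16842752 (.cut .s 7602176 (.cut .d (-32768) (.pos 39 .mp ⟨⟨7256843, 0, 0, 0, 0, 10776956, 0, 0, 0, ⟨0, 0⟩, 0⟩, 0, 0⟩ 0 0) (.cut .s 7569408 (.pos 39 .mp ⟨⟨7998112, 0, 0, 0, 0, 9195818, 0, 0, 0, ⟨0, 0⟩, 0⟩, 0, 0⟩ 0 0) (.pos 39 .mp ⟨⟨8149457, 0, 0, 0, 0, 9421185, 0, 0, 0, ⟨0, 0⟩, 0⟩, 0, 0⟩ 0 0))) (.cut .d (-32768) (.pos 39 .mp ⟨⟨7708529, 0, 0, 0, 0, 11093982,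 0, 0, 0, ⟨0, 0⟩, 0⟩, 0, 0⟩ 0 0) (.cut .s 7634944 (.pos 39 .mp ⟨⟨8309832, 0, 0, 0, 0, 9649498, 0, 0, 0, ⟨0, 0⟩, 0⟩, 0, 0⟩ 0 0) (.pos 39 .mp ⟨⟨8479903, 0, 0, 0, 0, 9879990, 0, 0, 0, ⟨0, 0⟩, 0⟩, 0, 0⟩ 0 0)))) (.pos 40 .mp ⟨⟨13132251, 0, 0, 0, 0, 4727756, 0, 0, 0, ⟨0, 0⟩, 0⟩, 0, 0⟩ 0 0)) (.cut .s 7733248 (.cut .v 16842752 (.cut .d (-32768) (.pos 39 .mp ⟨⟨8183421, 0, 0, 0, 0, 11460081, 0, 0, 0, ⟨0, 0⟩, 0⟩, 0, 0⟩ 0 0) (.cut .s 7700480 (.pos 39 .mp ⟨⟨8722157, 0, 0, 0, 0, 10042928, 0, 0, 0, ⟨0, 0⟩, 0⟩, 0, 0⟩ 0 0) (.pos 39 .mp ⟨⟨8980677, 0, 0, 0, 0, 10200256, 0, 0, 0, ⟨0, 0⟩, 0⟩, 0, 0⟩ 0 0))) (.pos 40 .mp ⟨⟨11812643, 0, 0, 0, 0, 7271989,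 0, 0, 0, ⟨0, 0⟩, 0⟩, 0, 0⟩ 0 0)) (.cut .v 16842752 (.cut .d (-32768) (.pos 39 .mp ⟨⟨8681887, 0, 0, 0, 0, 11851218, 0, 0, 0, ⟨0, 0⟩, 0⟩, 0, 0⟩ 0 0) (.cut .l 131821 (.cut .d (-16384) (.pos 39 .mp ⟨⟨9132648, 0, 0, 0, 0, 11159718, 0, 0, 0, ⟨0, 0⟩, 0⟩, 0, 0⟩ 0 0) (.cut .s 7766016 (.pos 39 .mp ⟨⟨9145762, 0, 0, 0, 0, 10433383, 0, 0, 0, ⟨0, 0⟩, 0⟩, 0, 0⟩ 0 0) (.pos 39 .mp ⟨⟨9396773, 0, 0, 0, 0, 10624148, 0, 0, 0, ⟨0, 0⟩, 0⟩, 0, 0⟩ 0 0))) (.pos 39 .mp ⟨⟨9360118, 0, 0, 0, 0, 9873319, 0, 0, 0, ⟨0, 0⟩, 0⟩, 0, 0⟩ 0 0))) (.pos 40 .mp ⟨⟨12349243, 0, 0, 0, 0, 7593266, 0, 0, 0, ⟨0, 0⟩, 0⟩, 0, 0⟩ 0 0)))) (.cut .s 7929856 (.cut .s 7864320 (.cut .v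 16842752 (.cut .d (-32768) (.cut .s 7831552 (.pos 39 .mp ⟨⟨9204309, 0, 0, 0, 0, 11867108, 0, 0, 0, ⟨0, 0⟩, 0⟩, 0, 0⟩ 0 0) (.pos 39 .mp ⟨⟨9474627, 0, 0, 0, 0, 12072945, 0, 0, 0, ⟨0, 0⟩, 0⟩, 0, 0⟩ 0 0)) (.cut .l 131821 (.cut .d (-16384) (.pos 39 .mp ⟨⟨9635006, 0, 0, 0, 0, 11605114, 0, 0, 0, ⟨0, 0⟩, 0⟩, 0, 0⟩ 0 0) (.cut .s 7831552 (.pos 39 .mp ⟨⟨9671609, 0, 0, 0, 0, 10800742, 0, 0, 0, ⟨0, 0⟩, 0⟩, 0, 0⟩ 0 0) (.pos 39 .mp ⟨⟨9952701, 0, 0, 0, 0, 10982869, 0, 0, 0, ⟨0, 0⟩, 0⟩, 0, 0⟩ 0 0))) (.pos 39 .mp ⟨⟨9913871, 0, 0, 0, 0, 10227344, 0, 0, 0, ⟨0, 0⟩, 0⟩, 0, 0⟩ 0 0))) (.pos 40 .mp ⟨⟨12964987, 0, 0, 0, 0, 7875737, 0, 0, 0, ⟨0, 0⟩, 0⟩, 0,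 0⟩ 0 0)) (.cut .v 16842752 (.cut .d (-32768) (.cut .s 7897088 (.pos 39 .mp ⟨⟨9751082, 0, 0, 0, 0, 12284557, 0, 0, 0, ⟨0, 0⟩, 0⟩, 0, 0⟩ 0 0) (.pos 39 .mp ⟨⟨10033727, 0, 0, 0, 0, 12501883, 0, 0, 0, ⟨0, 0⟩, 0⟩, 0, 0⟩ 0 0)) (.cut .l 131821 (.cut .d (-16384) (.pos 39 .mp ⟨⟨10183246, 0, 0, 0, 0, 12041349, 0, 0, 0, ⟨0, 0⟩, 0⟩, 0, 0⟩ 0 0) (.cut .s 7897088 (.pos 39 .mp ⟨⟨10240103, 0, 0, 0, 0, 11170467, 0, 0, 0, ⟨0, 0⟩, 0⟩, 0, 0⟩ 0 0) (.pos 39 .mp ⟨⟨10533868, 0, 0, 0, 0, 11363470, 0, 0, 0, ⟨0, 0⟩, 0⟩, 0, 0⟩ 0 0))) (.pos 39 .mp ⟨⟨10492775, 0, 0, 0, 0, 10591217, 0, 0, 0, ⟨0, 0⟩, 0⟩, 0, 0⟩ 0 0))) (.pos 40 .mp ⟨⟨13669622, 0, 0, 0, 0, 8107329,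 0, 0, 0, ⟨0, 0⟩, 0⟩, 0, 0⟩ 0 0))) (.cut .s 7995392 (.cut .v 16842752 (.cut .d (-32768) (.cut .s 7962624 (.pos 39 .mp ⟨⟨10322614, 0, 0, 0, 0, 12724859, 0, 0, 0, ⟨0, 0⟩, 0⟩, 0, 0⟩ 0 0) (.pos 39 .mp ⟨⟨10617795, 0, 0, 0, 0, 12953419, 0, 0, 0, ⟨0, 0⟩, 0⟩, 0, 0⟩ 0 0)) (.cut .l 131821 (.cut .d (-16384) (.pos 39 .mp ⟨⟨10780641, 0, 0, 0, 0, 12463200, 0, 0, 0, ⟨0, 0⟩, 0⟩, 0, 0⟩ 0 0) (.cut .s 7962624 (.pos 39 .mp ⟨⟨10834049, 0, 0, 0, 0, 11561812, 0, 0, 0, ⟨0, 0⟩, 0⟩, 0, 0⟩ 0 0) (.pos 39 .mp ⟨⟨11140702, 0, 0, 0, 0, 11765423, 0, 0, 0, ⟨0, 0⟩, 0⟩, 0, 0⟩ 0 0))) (.pos 39 .mp ⟨⟨11097257, 0, 0, 0, 0, 10962918, 0, 0, 0, ⟨0, 0⟩, 0⟩, 0, 0⟩ 0 0))) (.pos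 40 .mp ⟨⟨23212557, 0, 0, 0, 0, 0, 0, 0, 0, ⟨0, 0⟩, 0⟩, 0, 0⟩ 0 0)) (.cut .v 16842752 (.cut .d (-32768) (.cut .s 8028160 (.pos 39 .mp ⟨⟨10919325, 0, 0, 0, 0, 13187495, 0, 0, 0, ⟨0, 0⟩, 0⟩, 0, 0⟩ 0 0) (.pos 39 .mp ⟨⟨11227258, 0, 0, 0, 0, 13437496, 0, 0, 0, ⟨0, 0⟩, 0⟩, 0, 0⟩ 0 0)) (.cut .l 131821 (.cut .d (-16384) (.pos 39 .mp ⟨⟨11430454, 0, 0, 0, 0, 12865389, 0, 0, 0, ⟨0, 0⟩, 0⟩, 0, 0⟩ 0 0) (.cut .s 8028160 (.pos 39 .mp ⟨⟨11453882, 0, 0, 0, 0, 11974232, 0, 0, 0, ⟨0, 0⟩, 0⟩, 0, 0⟩ 0 0) (.pos 39 .mp ⟨⟨11773647, 0, 0, 0, 0, 12188165, 0, 0, 0, ⟨0, 0⟩, 0⟩, 0, 0⟩ 0 0))) (.pos 39 .mp ⟨⟨11727759, 0, 0, 0, 0, 11340430, 0, 0, 0, ⟨0, 0⟩, 0⟩,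 0, 0⟩ 0 0))) (.pos 40 .mp ⟨⟨24149197, 0, 0, 0, 0, 0, 0, 0, 0, ⟨0, 0⟩, 0⟩, 0, 0⟩ 0 0))))) (.pos 38 .mp ⟨⟨21474445, 0, 0, 0, 0, 0, 0, 0, 0, ⟨0, 0⟩, 0⟩, 0, 0⟩ 0 0)) (.pos 36 .mp ⟨⟨23669467, 0, 0, 0, 0, 0, 0, 0, 0, ⟨0, 0⟩, 0⟩, 0, 0⟩ 0 0)) (.void 34 ⟨⟨100000, 0, 0, 0, 0, 0, 0, 0, 0, ⟨0, 0⟩, 0⟩, 0, 0⟩ 0 0)) (.void 32 ⟨⟨100000, 0, 0, 0, 0, 0, 0, 0, 0, ⟨0, 0⟩, 0⟩, 0, 0⟩ 0 0)))) (.void 30 ⟨⟨100000, 0, 0, 0, 0, 0, 0, 0, 0, ⟨0, 0⟩, 0⟩, 0, 0⟩ 0 0))))) (.void 28 ⟨⟨100000, 0, 0, 0, 0, 0, 0, 0, 0, ⟨0, 0⟩, 0⟩, 0, 0⟩ 0 0))))) (.void 26 ⟨⟨100000, 0, 0, 0, 0, 0, 0, 0, 0, ⟨0, 0⟩, 0⟩, 0, 0⟩ 0 0))) (.cut .v 16777216 (.cut .d 5355487 (.cut .d 2677743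 (.cut .d 1338871 (.cut .v 8388608 (.cut .v 4194304 (.void 4 ⟨⟨0, 0, 100000, 0, 0, 0, 0, 0, 0, ⟨0, 0⟩, 0⟩, 0, 0⟩ 0 0) (.pos 5 .pm ⟨⟨0, 0, 0, 0, 0, 0, 0, 0, 0, ⟨0, 0⟩, 0⟩, 0, 0⟩ 0 0)) (.cut .v 12582912 (.pos 10 .pm ⟨⟨0, 0, 0, 0, 0, 0, 0, 0, 0, ⟨0, 0⟩, 0⟩, 0, 0⟩ 0 0) (.pos 11 .pm ⟨⟨0, 0, 0, 0, 0, 0, 0, 0, 0, ⟨0, 0⟩, 0⟩, 0, 0⟩ 0 0))) (.void 1 ⟨⟨0, 0, 0, 0, 0, 0, 0, 0, 0, ⟨0, 0⟩, 0⟩, 0, 100000⟩ 0 0)) (.void 1 ⟨⟨0, 0, 0, 0, 0, 0, 0, 0, 0, ⟨0, 0⟩, 0⟩, 0, 100000⟩ 0 0)) (.void 1 ⟨⟨0, 0, 0, 0, 0, 0, 0, 0, 0, ⟨0, 0⟩, 0⟩, 0, 100000⟩ 0 0)) (.cut .v 25165824 (.cut .d 5355487 (.cut .d 2677743 (.cut .d 1338871 (.cut .v 20971520 (.cut .d 669435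 (.cut .v 18874368 (.cut .v 17825792 (.cut .s 7798784 (.pos 31 .pp ⟨⟨12048148, 0, 0, 0, 0, 0, 0, 0, 0, ⟨0, 0⟩, 0⟩, 0, 15289⟩ 0 0) (.pos 31 .pp ⟨⟨13977518, 0, 0, 0, 0, 0, 0, 0, 0, ⟨0, 0⟩, 0⟩, 118988, 0⟩ 0 0)) (.pos 32 .pp ⟨⟨16953048, 0, 0, 0, 0, 0, 0, 0, 0, ⟨0, 0⟩, 0⟩, 0, 0⟩ 0 0)) (.pos 30 .pp ⟨⟨23548238, 0, 0, 0, 0, 0, 0, 0, 0, ⟨0, 0⟩, 0⟩, 0, 0⟩ 0 0)) (.cut .v 18874368 (.pos 29 .pp ⟨⟨0, 0, 0, 0, 0, 0, 0, 0, 0, ⟨0, 0⟩, 0⟩, 0, 761254⟩ 0 0) (.pos 30 .pp ⟨⟨9418802, 0, 0, 0, 0, 0, 0, 0, 0, ⟨0, 0⟩, 0⟩, 0, 482381⟩ 0 0))) (.cut .d 669435 (.void 28 ⟨⟨0, 0, 0, 0, 0, 0, 0, 0, 0, ⟨0, 0⟩, 0⟩, 100000, 0⟩ 0 0) (.cut .d 1004153 (.pos 28 .pp ⟨⟨38069650,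 0, 0, 0, 0, 0, 0, 0, 0, ⟨0, 0⟩, 0⟩, 0, 0⟩ 0 0) (.pos 28 .pp ⟨⟨12717992, 0, 0, 0, 0, 0, 22652848, 0, 0, ⟨0, 0⟩, 0⟩, 0, 0⟩ 0 0)))) (.void 25 ⟨⟨0, 0, 0, 0, 0, 0, 0, 0, 0, ⟨0, 0⟩, 0⟩, 2446, 97554⟩ 0 0)) (.void 25 ⟨⟨0, 0, 0, 0, 0, 0, 0, 0, 0, ⟨0, 0⟩, 0⟩, 0, 100000⟩ 0 0)) (.void 25 ⟨⟨0, 0, 0, 0, 0, 0, 0, 0, 0, ⟨0, 0⟩, 0⟩, 0, 100000⟩ 0 0)) (.void 26 ⟨⟨0, 0, 0, 0, 0, 0, 0, 0, 0, ⟨0, 0⟩, 0⟩, 17717, 82283⟩ 0 0)))),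
    by decide +kernel⟩

def covers9 : cell.Covers Vale.Agent.P237.Petty.Cor.Grid.N14.table row9.1 :=
  ⟨(.cut .d 0 (.cut .v 16777216 (.cut .d (-8388608) (.void 1 ⟨⟨0, 0, 0, 0, 0, 100000, 0, 0, 0, ⟨0, 0⟩, 0⟩, 0, 0⟩ 0 0) (.cut .d (-4194304) (.void 1 ⟨⟨0, 0, 0, 0, 0, 100000, 0, 0, 0, ⟨0, 0⟩, 0⟩, 0, 0⟩ 0 0) (.cut .d (-2097152) (.void 1 ⟨⟨0, 0, 0, 0, 0, 100000, 0, 0, 0, ⟨0, 0⟩, 0⟩, 0, 0⟩ 0 0) (.cut .d (-1048576) (.void 1 ⟨⟨0, 0, 0, 0, 0, 100000, 0, 0, 0, ⟨0, 0⟩, 0⟩, 0, 0⟩ 0 0) (.cut .d (-524288) (.void 1 ⟨⟨0, 0, 0, 0, 0, 100000, 0, 0, 0, ⟨0, 0⟩, 0⟩, 0, 0⟩ 0 0) (.cut .d (-262144) (.void 1 ⟨⟨0, 0, 0, 0, 0, 100000, 0, 0, 0, ⟨0, 0⟩, 0⟩,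 0, 0⟩ 0 0) (.cut .d (-131072) (.void 1 ⟨⟨0, 0, 0, 0, 0, 100000, 0, 0, 0, ⟨0, 0⟩, 0⟩, 0, 0⟩ 0 0) (.cut .d (-65536) (.void 1 ⟨⟨0, 0, 0, 0, 0, 100000, 0, 0, 0, ⟨0, 0⟩, 0⟩, 0, 0⟩ 0 0) (.cut .v 8388608 (.cut .v 4194304 (.void 4 ⟨⟨0, 0, 100000, 0, 0, 0, 0, 0, 0, ⟨0, 0⟩, 0⟩, 0, 0⟩ 0 0) (.pos 5 .mm ⟨⟨0, 0, 0, 0, 0, 11449562, 0, 0, 0, ⟨0, 0⟩, 0⟩, 0, 0⟩ 0 0)) (.cut .v 12582912 (.pos 10 .mm ⟨⟨0, 0, 0, 0, 0, 16292746, 0, 0, 0, ⟨0, 0⟩, 0⟩, 0, 0⟩ 0 0) (.cut .d (-32768) (.pos 11 .mm ⟨⟨0, 0, 0, 0, 0, 34916738, 0, 0, 0, ⟨0, 0⟩, 0⟩, 0, 0⟩ 0 0) (.cut .l 131821 (.cut .d (-16384) (.pos 11 .mm ⟨⟨0, 0, 0, 0, 0, 34853200, 0, 0, 0, ⟨0, 0⟩, 0⟩, 0, 0⟩ 0 0)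 (.cut .v 14680064 (.pos 14 .mm ⟨⟨0, 0, 0, 0, 0, 19431299, 0, 0, 0, ⟨0, 0⟩, 0⟩, 0, 0⟩ 0 0) (.cut .v 15728640 (.pos 22 .mm ⟨⟨0, 0, 0, 0, 0, 21371387, 0, 0, 0, ⟨0, 0⟩, 0⟩, 0, 0⟩ 0 0) (.cut .v 16252928 (.pos 41 .mm ⟨⟨0, 0, 0, 0, 0, 22404143, 0, 0, 0, ⟨0, 0⟩, 0⟩, 0, 0⟩ 0 0) (.cut .v 16515072 (.pos 43 .mm ⟨⟨0, 0, 0, 0, 0, 22936199, 0, 0, 0, ⟨0, 0⟩, 0⟩, 0, 0⟩ 0 0) (.cut .v 16646144 (.pos 49 .mm ⟨⟨0, 0, 0, 0, 0, 24232452, 0, 0, 0, ⟨0, 0⟩, 0⟩, 0, 0⟩ 0 0) (.cut .v 16711680 (.pos 55 .mm ⟨⟨0, 0, 0, 0, 0, 28367828, 0, 0, 0, ⟨0, 0⟩, 0⟩, 0, 0⟩ 0 0) (.cut .v 16744448 (.pos 61 .mm ⟨⟨0, 0, 0, 0, 0, 29439187, 0, 0, 0, ⟨0, 0⟩, 0⟩, 0, 0⟩ 0 0) (.cut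 .l 65910 (.cut .d (-8192) (.pos 62 .mm ⟨⟨0, 0, 0, 0, 0, 34850221, 0, 0, 0, ⟨0, 0⟩, 0⟩, 0, 0⟩ 0 0) (.cut .v 16760832 (.pos 65 .mm ⟨⟨0, 0, 0, 0, 0, 29449037, 0, 0, 0, ⟨0, 0⟩, 0⟩, 0, 0⟩ 0 0) (.cut .l 32955 (.cut .d (-4096) (.pos 66 .mm ⟨⟨0, 0, 0, 0, 0, 34848707, 0, 0, 0, ⟨0, 0⟩, 0⟩, 0, 0⟩ 0 0) (.cut .v 16769024 (.pos 67 .mm ⟨⟨0, 0, 0, 0, 0, 29454085, 0, 0, 0, ⟨0, 0⟩, 0⟩, 0, 0⟩ 0 0) (.cut .l 16477 (.cut .d (-2048) (.pos 68 .mm ⟨⟨0, 0, 0, 0, 0, 34848153, 0, 0, 0, ⟨0, 0⟩, 0⟩, 0, 0⟩ 0 0) (.cut .v 16773120 (.pos 69 .mm ⟨⟨0, 0, 0, 0, 0, 29456916, 0, 0, 0, ⟨0, 0⟩, 0⟩, 0, 0⟩ 0 0) (.cut .l 8238 (.cut .d (-1024) (.pos 70 .mm ⟨⟨0, 0, 0, 0, 0,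 34848183, 0, 0, 0, ⟨0, 0⟩, 0⟩, 0, 0⟩ 0 0) (.cut .v 16775168 (.pos 71 .mm ⟨⟨0, 0, 0, 0, 0, 29458933, 0, 0, 0, ⟨0, 0⟩, 0⟩, 0, 0⟩ 0 0) (.cut .l 4119 (.cut .d (-512) (.pos 72 .mm ⟨⟨0, 0, 0, 0, 0, 34847994, 0, 0, 0, ⟨0, 0⟩, 0⟩, 0, 0⟩ 0 0) (.cut .v 16776192 (.pos 73 .mm ⟨⟨0, 0, 0, 0, 0, 29461032, 0, 0, 0, ⟨0, 0⟩, 0⟩, 0, 0⟩ 0 0) (.cut .l 2059 (.cut .s 8323072 (.cut .s 8192000 (.pos 74 .mm ⟨⟨0, 0, 0, 0, 0, 27007406, 0, 0, 0, ⟨0, 0⟩, 0⟩, 0, 0⟩ 0 0) (.pos 74 .mm ⟨⟨0, 0, 0, 0, 0, 29748181, 0, 0, 0, ⟨0, 0⟩, 0⟩, 0, 0⟩ 0 0)) (.cut .s 8454144 (.pos 74 .mm ⟨⟨0, 0, 0, 0, 0, 32802163, 0, 0, 0, ⟨0, 0⟩, 0⟩, 0, 0⟩ 0 0) (.pos 74 .mm ⟨⟨0, 0, 0, 0, 0,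 36173716, 0, 0, 0, ⟨0, 0⟩, 0⟩, 0, 0⟩ 0 0))) (.pos 74 .mm ⟨⟨0, 0, 0, 0, 0, 25282429, 0, 0, 0, ⟨0, 0⟩, 0⟩, 0, 0⟩ 0 0)))) (.pos 72 .mm ⟨⟨0, 0, 0, 0, 0, 25283701, 0, 0, 0, ⟨0, 0⟩, 0⟩, 0, 0⟩ 0 0)))) (.pos 70 .mm ⟨⟨0, 0, 0, 0, 0, 25290387, 0, 0, 0, ⟨0, 0⟩, 0⟩, 0, 0⟩ 0 0)))) (.pos 68 .mm ⟨⟨0, 0, 0, 0, 0, 25303241, 0, 0, 0, ⟨0, 0⟩, 0⟩, 0, 0⟩ 0 0)))) (.pos 66 .mm ⟨⟨0, 0, 0, 0, 0, 25329726, 0, 0, 0, ⟨0, 0⟩, 0⟩, 0, 0⟩ 0 0)))) (.pos 62 .mm ⟨⟨0, 0, 0, 0, 0, 25383213, 0, 0, 0, ⟨0, 0⟩, 0⟩, 0, 0⟩ 0 0)))))))))) (.pos 11 .mm ⟨⟨0, 0, 0, 0, 0, 25490124, 0, 0, 0, ⟨0, 0⟩, 0⟩, 0, 0⟩ 0 0))))))))))))) (.cut .v 25165824 (.cut .d (-8388608) (.void 25 ⟨⟨0,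 0, 0, 0, 0, 100000, 0, 0, 0, ⟨0, 0⟩, 0⟩, 0, 0⟩ 0 0) (.cut .d (-4194304) (.void 25 ⟨⟨0, 0, 0, 0, 0, 100000, 0, 0, 0, ⟨0, 0⟩, 0⟩, 0, 0⟩ 0 0) (.cut .v 20971520 (.cut .d (-2097152) (.void 27 ⟨⟨0, 0, 0, 0, 0, 100000, 0, 0, 0, ⟨0, 0⟩, 0⟩, 0, 0⟩ 0 0) (.cut .d (-1048576) (.void 27 ⟨⟨0, 0, 0, 0, 0, 100000, 0, 0, 0, ⟨0, 0⟩, 0⟩, 0, 0⟩ 0 0) (.cut .d (-524288) (.void 27 ⟨⟨0, 0, 0, 0, 0, 100000, 0, 0, 0, ⟨0, 0⟩, 0⟩, 0, 0⟩ 0 0) (.cut .v 18874368 (.cut .d (-262144) (.void 29 ⟨⟨0, 0, 0, 0, 0, 100000, 0, 0, 0, ⟨0, 0⟩, 0⟩, 0, 0⟩ 0 0) (.cut .d (-131072) (.void 29 ⟨⟨0, 0, 0, 0, 0, 100000, 0, 0, 0, ⟨0, 0⟩, 0⟩, 0, 0⟩ 0 0) (.cut .d (-65536) (.void 29 ⟨⟨0,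 0, 0, 0, 0, 100000, 0, 0, 0, ⟨0, 0⟩, 0⟩, 0, 0⟩ 0 0) (.cut .v 17825792 (.cut .v 17301504 (.cut .v 17039360 (.cut .v 16908288 (.cut .s 8323072 (.cut .s 8192000 (.cut .s 8126464 (.cut .v 16842752 (.cut .d (-32768) (.pos 39 .mp ⟨⟨11542131, 0, 0, 0, 0, 14159857, 0, 0, 0, ⟨0, 0⟩, 0⟩, 0, 0⟩ 0 0) (.cut .l 131821 (.cut .d (-16384) (.pos 39 .mp ⟨⟨12126441, 0, 0, 0, 0, 13265961, 0, 0, 0, ⟨0, 0⟩, 0⟩, 0, 0⟩ 0 0) (.cut .s 8093696 (.pos 39 .mp ⟨⟨12100884, 0, 0, 0, 0, 12407711, 0, 0, 0, ⟨0, 0⟩, 0⟩, 0, 0⟩ 0 0) (.pos 39 .mp ⟨⟨12435579, 0, 0, 0, 0, 12617483, 0, 0, 0, ⟨0, 0⟩, 0⟩, 0, 0⟩ 0 0))) (.pos 39 .mp ⟨⟨12387543, 0, 0, 0, 0, 11769336, 0, 0, 0,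 ⟨0, 0⟩, 0⟩, 0, 0⟩ 0 0))) (.pos 40 .mp ⟨⟨25164357, 0, 0, 0, 0, 0, 0, 0, 0, ⟨0, 0⟩, 0⟩, 0, 0⟩ 0 0)) (.cut .v 16842752 (.cut .d (-32768) (.pos 39 .mp ⟨⟨12193146, 0, 0, 0, 0, 14679530, 0, 0, 0, ⟨0, 0⟩, 0⟩, 0, 0⟩ 0 0) (.cut .l 131821 (.cut .d (-16384) (.pos 39 .mp ⟨⟨12825578, 0, 0, 0, 0, 13712295, 0, 0, 0, ⟨0, 0⟩, 0⟩, 0, 0⟩ 0 0) (.cut .s 8159232 (.pos 39 .mp ⟨⟨12778229, 0, 0, 0, 0, 12835352, 0, 0, 0, ⟨0, 0⟩, 0⟩, 0, 0⟩ 0 0) (.pos 39 .mp ⟨⟨13128903, 0, 0, 0, 0, 13061235, 0, 0, 0, ⟨0, 0⟩, 0⟩, 0, 0⟩ 0 0))) (.pos 39 .mp ⟨⟨13078666, 0, 0, 0, 0, 12170912, 0, 0, 0, ⟨0, 0⟩, 0⟩, 0, 0⟩ 0 0))) (.pos 40 .mp ⟨⟨26177677, 0, 0, 0, 0, 0, 0, 0, 0, ⟨0,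 0⟩, 0⟩, 0, 0⟩ 0 0))) (.cut .v 16842752 (.cut .s 8257536 (.cut .d (-32768) (.pos 39 .mp ⟨⟨12875472, 0, 0, 0, 0, 15250030, 0, 0, 0, ⟨0, 0⟩, 0⟩, 0, 0⟩ 0 0) (.cut .l 131821 (.cut .d (-16384) (.pos 39 .mp ⟨⟨13575200, 0, 0, 0, 0, 14161950, 0, 0, 0, ⟨0, 0⟩, 0⟩, 0, 0⟩ 0 0) (.cut .s 8224768 (.pos 39 .mp ⟨⟨13487672, 0, 0, 0, 0, 13295049, 0, 0, 0, ⟨0, 0⟩, 0⟩, 0, 0⟩ 0 0) (.pos 39 .mp ⟨⟨13854609, 0, 0, 0, 0, 13536706, 0, 0, 0, ⟨0, 0⟩, 0⟩, 0, 0⟩ 0 0))) (.pos 39 .mp ⟨⟨13802163, 0, 0, 0, 0, 12593813, 0, 0, 0, ⟨0, 0⟩, 0⟩, 0, 0⟩ 0 0))) (.cut .d (-32768) (.pos 39 .mp ⟨⟨13589662, 0, 0, 0, 0, 15865286, 0, 0, 0, ⟨0, 0⟩, 0⟩, 0, 0⟩ 0 0) (.cut .l 131821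 (.cut .d (-16384) (.pos 39 .mp ⟨⟨13641787, 0, 0, 0, 0, 16035200, 0, 0, 0, ⟨0, 0⟩, 0⟩, 0, 0⟩ 0 0) (.cut .s 8290304 (.pos 39 .mp ⟨⟨14229786, 0, 0, 0, 0, 13786114, 0, 0, 0, ⟨0, 0⟩, 0⟩, 0, 0⟩ 0 0) (.pos 39 .mp ⟨⟨14613279, 0, 0, 0, 0, 14043180, 0, 0, 0, ⟨0, 0⟩, 0⟩, 0, 0⟩ 0 0))) (.pos 39 .mp ⟨⟨14558615, 0, 0, 0, 0, 13035211, 0, 0, 0, ⟨0, 0⟩, 0⟩, 0, 0⟩ 0 0)))) (.pos 40 .mp ⟨⟨27494004, 0, 0, 0, 0, 0, 0, 0, 0, ⟨0, 0⟩, 0⟩, 0, 0⟩ 0 0))) (.cut .s 8454144 (.cut .v 16842752 (.cut .s 8388608 (.cut .d (-32768) (.pos 39 .mp ⟨⟨14336289, 0, 0, 0, 0, 16523887, 0, 0, 0, ⟨0, 0⟩, 0⟩, 0, 0⟩ 0 0) (.cut .l 131821 (.cut .d (-16384) (.pos 39 .mp ⟨⟨14390618,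 0, 0, 0, 0, 16702424, 0, 0, 0, ⟨0, 0⟩, 0⟩, 0, 0⟩ 0 0) (.cut .s 8355840 (.pos 39 .mp ⟨⟨15005162, 0, 0, 0, 0, 14307807, 0, 0, 0, ⟨0, 0⟩, 0⟩, 0, 0⟩ 0 0) (.pos 39 .mp ⟨⟨15427473, 0, 0, 0, 0, 14553986, 0, 0, 0, ⟨0, 0⟩, 0⟩, 0, 0⟩ 0 0))) (.pos 39 .mp ⟨⟨15348623, 0, 0, 0, 0, 13492289, 0, 0, 0, ⟨0, 0⟩, 0⟩, 0, 0⟩ 0 0))) (.cut .d (-32768) (.pos 39 .mp ⟨⟨15115946, 0, 0, 0, 0, 17227087, 0, 0, 0, ⟨0, 0⟩, 0⟩, 0, 0⟩ 0 0) (.cut .s 8421376 (.pos 39 .mp ⟨⟨15995034, 0, 0, 0, 0, 14695731, 0, 0, 0, ⟨0, 0⟩, 0⟩, 0, 0⟩ 0 0) (.pos 39 .mp ⟨⟨16416964, 0, 0, 0, 0, 14977062, 0, 0, 0, ⟨0, 0⟩, 0⟩, 0, 0⟩ 0 0)))) (.pos 40 .mp ⟨⟨29779563, 0, 0, 0, 0, 0, 0, 0, 0,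 ⟨0, 0⟩, 0⟩, 0, 0⟩ 0 0)) (.cut .v 16842752 (.cut .d (-32768) (.pos 39 .mp ⟨⟨15929243, 0, 0, 0, 0, 19304677, 0, 0, 0, ⟨0, 0⟩, 0⟩, 0, 0⟩ 0 0) (.cut .l 131821 (.cut .v 16809984 (.cut .d (-16384) (.pos 51 .mp ⟨⟨15907429, 0, 0, 0, 0, 19246275, 0, 0, 0, ⟨0, 0⟩, 0⟩, 0, 0⟩ 0 0) (.cut .l 65910 (.cut .d (-8192) (.pos 51 .mp ⟨⟨15937293, 0, 0, 0, 0, 19759470, 0, 0, 0, ⟨0, 0⟩, 0⟩, 0, 0⟩ 0 0) (.cut .v 16793600 (.cut .l 32955 (.cut .d (-4096) (.pos 57 .mp ⟨⟨15912299, 0, 0, 0, 0, 19748494, 0, 0, 0, ⟨0, 0⟩, 0⟩, 0, 0⟩ 0 0) (.cut .v 16785408 (.cut .l 16477 (.cut .d (-2048) (.pos 75 .mp ⟨⟨15899891, 0, 0, 0, 0, 19742987, 0, 0, 0, ⟨0, 0⟩, 0⟩, 0, 0⟩ 0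 0) (.cut .v 16781312 (.cut .l 8238 (.cut .d (-1024) (.pos 77 .mp ⟨⟨15893705, 0, 0, 0, 0, 19740353, 0, 0, 0, ⟨0, 0⟩, 0⟩, 0, 0⟩ 0 0) (.cut .v 16779264 (.cut .l 4119 (.cut .d (-512) (.pos 79 .mp ⟨⟨15890616, 0, 0, 0, 0, 19738935, 0, 0, 0, ⟨0, 0⟩, 0⟩, 0, 0⟩ 0 0) (.cut .v 16778240 (.cut .l 2059 (.cut .s 8519680 (.cut .s 8486912 (.pos 81 .mp ⟨⟨16986054, 0, 0, 0, 0, 14999017, 0, 0, 0, ⟨0, 0⟩, 0⟩, 0, 0⟩ 0 0) (.pos 81 .mp ⟨⟨17502847, 0, 0, 0, 0, 15200942, 0, 0, 0, ⟨0, 0⟩, 0⟩, 0, 0⟩ 0 0)) (.cut .s 8552448 (.pos 81 .mp ⟨⟨18040381, 0, 0, 0, 0, 15395082, 0, 0, 0, ⟨0, 0⟩, 0⟩, 0, 0⟩ 0 0) (.pos 81 .mp ⟨⟨18599439, 0, 0, 0, 0, 15580371, 0, 0, 0, ⟨0,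 0⟩, 0⟩, 0, 0⟩ 0 0))) (.pos 81 .mp ⟨⟨17616811, 0, 0, 0, 0, 13777983, 0, 0, 0, ⟨0, 0⟩, 0⟩, 0, 0⟩ 0 0)) (.pos 82 .mp ⟨⟨30400185, 0, 0, 0, 0, 0, 0, 0, 0, ⟨0, 0⟩, 0⟩, 0, 0⟩ 0 0))) (.pos 79 .mp ⟨⟨17621653, 0, 0, 0, 0, 13776215, 0, 0, 0, ⟨0, 0⟩, 0⟩, 0, 0⟩ 0 0)) (.pos 80 .mp ⟨⟨30404867, 0, 0, 0, 0, 0, 0, 0, 0, ⟨0, 0⟩, 0⟩, 0, 0⟩ 0 0))) (.pos 77 .mp ⟨⟨17631360, 0, 0, 0, 0, 13773862, 0, 0, 0, ⟨0, 0⟩, 0⟩, 0, 0⟩ 0 0)) (.pos 78 .mp ⟨⟨30410638, 0, 0, 0, 0, 0, 0, 0, 0, ⟨0, 0⟩, 0⟩, 0, 0⟩ 0 0))) (.pos 75 .mp ⟨⟨17650797, 0, 0, 0, 0, 13768985, 0, 0, 0, ⟨0, 0⟩, 0⟩, 0, 0⟩ 0 0)) (.pos 76 .mp ⟨⟨30419852, 0, 0, 0, 0, 0, 0, 0, 0, ⟨0, 0⟩, 0⟩, 0, 0⟩ 0 0)))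 (.pos 57 .mp ⟨⟨17689758, 0, 0, 0, 0, 13759375, 0, 0, 0, ⟨0, 0⟩, 0⟩, 0, 0⟩ 0 0)) (.pos 58 .mp ⟨⟨30437714, 0, 0, 0, 0, 0, 0, 0, 0, ⟨0, 0⟩, 0⟩, 0, 0⟩ 0 0))) (.pos 51 .mp ⟨⟨17768077, 0, 0, 0, 0, 13739932, 0, 0, 0, ⟨0, 0⟩, 0⟩, 0, 0⟩ 0 0))) (.pos 52 .mp ⟨⟨31888431, 0, 0, 0, 0, 0, 0, 0, 0, ⟨0, 0⟩, 0⟩, 0, 0⟩ 0 0)) (.pos 39 .mp ⟨⟨17926311, 0, 0, 0, 0, 13699518, 0, 0, 0, ⟨0, 0⟩, 0⟩, 0, 0⟩ 0 0))) (.pos 40 .mp ⟨⟨32225600, 0, 0, 0, 0, 0, 0, 0, 0, ⟨0, 0⟩, 0⟩, 0, 0⟩ 0 0)))) (.pos 38 .mp ⟨⟨30097761, 0, 0, 0, 0, 0, 0, 0, 0, ⟨0, 0⟩, 0⟩, 0, 0⟩ 0 0)) (.pos 36 .mp ⟨⟨32268208, 0, 0, 0, 0, 0, 0, 0, 0, ⟨0, 0⟩, 0⟩, 0, 0⟩ 0 0)) (.void 34 ⟨⟨100000, 0, 0,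 0, 0, 0, 0, 0, 0, ⟨0, 0⟩, 0⟩, 0, 0⟩ 0 0)) (.void 32 ⟨⟨100000, 0, 0, 0, 0, 0, 0, 0, 0, ⟨0, 0⟩, 0⟩, 0, 0⟩ 0 0))))) (.void 30 ⟨⟨100000, 0, 0, 0, 0, 0, 0, 0, 0, ⟨0, 0⟩, 0⟩, 0, 0⟩ 0 0))))) (.void 28 ⟨⟨100000, 0, 0, 0, 0, 0, 0, 0, 0, ⟨0, 0⟩, 0⟩, 0, 0⟩ 0 0)))) (.void 26 ⟨⟨100000, 0, 0, 0, 0, 0, 0, 0, 0, ⟨0, 0⟩, 0⟩, 0, 0⟩ 0 0))) (.cut .v 16777216 (.cut .d 6369880 (.cut .d 3184940 (.cut .d 1592470 (.cut .v 8388608 (.cut .v 4194304 (.void 4 ⟨⟨0, 0, 100000, 0, 0, 0, 0, 0, 0, ⟨0, 0⟩, 0⟩, 0, 0⟩ 0 0) (.pos 5 .pm ⟨⟨0, 0, 0, 0, 0, 0, 0, 0, 0, ⟨0, 0⟩, 0⟩, 0, 0⟩ 0 0)) (.cut .v 12582912 (.pos 10 .pm ⟨⟨0, 0, 0, 0, 0, 0, 0, 0, 0, ⟨0, 0⟩, 0⟩, 0, 0⟩ 0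 0) (.pos 11 .pm ⟨⟨0, 0, 0, 0, 0, 0, 0, 0, 0, ⟨0, 0⟩, 0⟩, 0, 0⟩ 0 0))) (.void 1 ⟨⟨0, 0, 0, 0, 0, 0, 0, 0, 0, ⟨0, 0⟩, 0⟩, 0, 100000⟩ 0 0)) (.void 1 ⟨⟨0, 0, 0, 0, 0, 0, 0, 0, 0, ⟨0, 0⟩, 0⟩, 0, 100000⟩ 0 0)) (.void 1 ⟨⟨0, 0, 0, 0, 0, 0, 0, 0, 0, ⟨0, 0⟩, 0⟩, 0, 100000⟩ 0 0)) (.cut .d 6369880 (.cut .v 25165824 (.cut .d 3184940 (.cut .d 1592470 (.cut .v 20971520 (.cut .d 796235 (.cut .v 18874368 (.cut .d 398117 (.cut .s 8323072 (.pos 29 .pp ⟨⟨18837782, 0, 0, 0, 0, 0, 0, 0, 0, ⟨0, 0⟩, 0⟩, 219601, 0⟩ 0 0) (.pos 29 .pp ⟨⟨22936325, 0, 0, 0, 0, 0, 0, 0, 0, ⟨0, 0⟩, 0⟩, 244199, 0⟩ 0 0)) (.pos 29 .pp ⟨⟨12736267, 0, 0, 0, 0, 0, 0, 0, 0, ⟨0, 0⟩,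 0⟩, 0, 388533⟩ 0 0)) (.cut .d 398117 (.pos 30 .pp ⟨⟨36894583, 0, 0, 0, 0, 0, 0, 0, 0, ⟨0, 0⟩, 0⟩, 0, 0⟩ 0 0) (.pos 30 .pp ⟨⟨24737140, 0, 0, 0, 0, 0, 0, 0, 0, ⟨0, 0⟩, 0⟩, 0, 331253⟩ 0 0))) (.pos 27 .pp ⟨⟨12413439, 0, 0, 0, 0, 0, 0, 0, 0, ⟨0, 0⟩, 0⟩, 0, 465494⟩ 0 0)) (.cut .d 796235 (.pos 28 .pp ⟨⟨55942933, 0, 0, 0, 0, 0, 0, 0, 0, ⟨0, 0⟩, 0⟩, 0, 0⟩ 0 0) (.cut .l 131821 (.void 28 ⟨⟨0, 0, 0, 0, 0, 0, 0, 0, 0, ⟨0, 0⟩, 0⟩, 1843, 98157⟩ 0 0) (.cut .v 23068672 (.cut .d 1194352 (.cut .s 8323072 (.pos 63 .pp ⟨⟨24572563, 0, 0, 0, 0, 0, 4059003, 0, 0, ⟨0, 0⟩, 0⟩, 0, 0⟩ 0 0) (.pos 63 .pp ⟨⟨28080322, 0, 0, 0, 0, 0, 769346, 0, 0, ⟨0, 0⟩, 0⟩, 0,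 0⟩ 0 0)) (.pos 63 .pp ⟨⟨0, 0, 0, 0, 0, 0, 25636974, 0, 0, ⟨0, 0⟩, 0⟩, 0, 0⟩ 0 0)) (.cut .s 8323072 (.void 64 ⟨⟨0, 0, 0, 0, 0, 0, 100000, 0, 0, ⟨0, 0⟩, 0⟩, 0, 0⟩ 0 0) (.cut .l 197731 (.void 64 ⟨⟨0, 0, 0, 0, 0, 0, 100000, 0, 0, ⟨0, 0⟩, 0⟩, 0, 0⟩ 0 0) (.cut .d 1194352 (.cut .v 24117248 (.cut .s 8454144 (.pos 85 .pp ⟨⟨0, 0, 0, 0, 0, 0, 6984095, 0, 0, ⟨0, 0⟩, 0⟩, 3426719, 0⟩ 0 0) (.pos 85 .pp ⟨⟨0, 0, 0, 0, 0, 0, 1470915, 0, 0, ⟨0, 0⟩, 0⟩, 3850929, 0⟩ 0 0)) (.void 86 ⟨⟨0, 0, 0, 0, 0, 0, 0, 0, 0, ⟨0, 0⟩, 0⟩, 100000, 0⟩ 0 0)) (.cut .d 1393411 (.cut .v 24117248 (.cut .s 8454144 (.pos 85 .pp ⟨⟨0, 0, 0, 0, 0, 0, 45340076, 0, 0, ⟨0, 0⟩, 0⟩,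 0, 0⟩ 0 0) (.pos 85 .pp ⟨⟨0, 0, 0, 0, 0, 0, 9459924, 0, 0, ⟨0, 0⟩, 0⟩, 2925786, 0⟩ 0 0)) (.pos 86 .pp ⟨⟨0, 0, 0, 0, 0, 0, 18246348, 0, 0, ⟨0, 0⟩, 0⟩, 3297552, 0⟩ 0 0)) (.pos 64 .pp ⟨⟨0, 0, 0, 0, 0, 0, 50138822, 0, 0, ⟨0, 0⟩, 0⟩, 0, 0⟩ 0 0))))))))) (.void 25 ⟨⟨0, 0, 0, 0, 0, 0, 0, 0, 0, ⟨0, 0⟩, 0⟩, 0, 100000⟩ 0 0)) (.void 25 ⟨⟨0, 0, 0, 0, 0, 0, 0, 0, 0, ⟨0, 0⟩, 0⟩, 0, 100000⟩ 0 0)) (.void 26 ⟨⟨0, 0, 0, 0, 0, 0, 100000, 0, 0, ⟨0, 0⟩, 0⟩, 0, 0⟩ 0 0)) (.void 24 ⟨⟨0, 0, 0, 0, 0, 0, 0, 0, 0, ⟨0, 0⟩, 0⟩, 0, 100000⟩ 0 0)))),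
    by decide +kernel⟩

def covers10 : cell.Covers Vale.Agent.P237.Petty.Cor.Grid.N14.table row10.1 :=
  ⟨(.cut .d 0 (.cut .v 16777216 (.cut .d (-8388608) (.void 1 ⟨⟨0, 0, 0, 0, 0, 100000, 0, 0, 0, ⟨0, 0⟩, 0⟩, 0, 0⟩ 0 0) (.cut .d (-4194304) (.void 1 ⟨⟨0, 0, 0, 0, 0, 100000, 0, 0, 0, ⟨0, 0⟩, 0⟩, 0, 0⟩ 0 0) (.cut .d (-2097152) (.void 1 ⟨⟨0, 0, 0, 0, 0, 100000, 0, 0, 0, ⟨0, 0⟩, 0⟩, 0, 0⟩ 0 0) (.cut .d (-1048576) (.void 1 ⟨⟨0, 0, 0, 0, 0, 100000, 0, 0, 0, ⟨0, 0⟩, 0⟩, 0, 0⟩ 0 0) (.cut .d (-524288) (.void 1 ⟨⟨0, 0, 0, 0, 0, 100000, 0, 0, 0, ⟨0, 0⟩, 0⟩, 0, 0⟩ 0 0) (.cut .d (-262144) (.void 1 ⟨⟨0, 0, 0, 0, 0, 100000, 0, 0, 0, ⟨0, 0⟩, 0⟩,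 0, 0⟩ 0 0) (.cut .d (-131072) (.void 1 ⟨⟨0, 0, 0, 0, 0, 100000, 0, 0, 0, ⟨0, 0⟩, 0⟩, 0, 0⟩ 0 0) (.cut .d (-65536) (.void 1 ⟨⟨0, 0, 0, 0, 0, 100000, 0, 0, 0, ⟨0, 0⟩, 0⟩, 0, 0⟩ 0 0) (.cut .v 8388608 (.cut .v 4194304 (.void 4 ⟨⟨0, 0, 100000, 0, 0, 0, 0, 0, 0, ⟨0, 0⟩, 0⟩, 0, 0⟩ 0 0) (.pos 5 .mm ⟨⟨0, 0, 0, 0, 0, 17119536, 0, 0, 0, ⟨0, 0⟩, 0⟩, 0, 0⟩ 0 0)) (.cut .s 8814592 (.pos 3 .mm ⟨⟨0, 0, 0, 0, 0, 41179516, 0, 0, 0, ⟨0, 0⟩, 0⟩, 0, 0⟩ 0 0) (.pos 3 .mm ⟨⟨0, 0, 0, 0, 0, 48275978, 0, 0, 0, ⟨0, 0⟩, 0⟩, 0, 0⟩ 0 0))))))))))) (.cut .v 25165824 (.cut .d (-8388608) (.void 25 ⟨⟨0, 0, 0, 0, 0, 100000, 0, 0, 0, ⟨0, 0⟩, 0⟩, 0, 0⟩ 0 0) (.cut .d (-4194304)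 (.void 25 ⟨⟨0, 0, 0, 0, 0, 100000, 0, 0, 0, ⟨0, 0⟩, 0⟩, 0, 0⟩ 0 0) (.cut .v 20971520 (.cut .d (-2097152) (.void 27 ⟨⟨0, 0, 0, 0, 0, 100000, 0, 0, 0, ⟨0, 0⟩, 0⟩, 0, 0⟩ 0 0) (.cut .d (-1048576) (.void 27 ⟨⟨0, 0, 0, 0, 0, 100000, 0, 0, 0, ⟨0, 0⟩, 0⟩, 0, 0⟩ 0 0) (.cut .d (-524288) (.void 27 ⟨⟨0, 0, 0, 0, 0, 100000, 0, 0, 0, ⟨0, 0⟩, 0⟩, 0, 0⟩ 0 0) (.cut .v 18874368 (.cut .d (-262144) (.void 29 ⟨⟨0, 0, 0, 0, 0, 100000, 0, 0, 0, ⟨0, 0⟩, 0⟩, 0, 0⟩ 0 0) (.cut .d (-131072) (.void 29 ⟨⟨0, 0, 0, 0, 0, 100000, 0, 0, 0, ⟨0, 0⟩, 0⟩, 0, 0⟩ 0 0) (.cut .d (-65536) (.void 29 ⟨⟨0, 0, 0, 0, 0, 100000, 0, 0, 0, ⟨0, 0⟩, 0⟩, 0, 0⟩ 0 0) (.cut .v 17825792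 (.cut .v 17301504 (.cut .v 17039360 (.cut .v 16908288 (.cut .s 8814592 (.cut .d (-32768) (.cut .s 8699904 (.pos 37 .mp ⟨⟨17840460, 0, 0, 0, 0, 21234343, 0, 0, 0, ⟨0, 0⟩, 0⟩, 0, 0⟩ 0 0) (.pos 37 .mp ⟨⟨19497044, 0, 0, 0, 0, 22458185, 0, 0, 0, ⟨0, 0⟩, 0⟩, 0, 0⟩ 0 0)) (.cut .v 16842752 (.cut .s 8699904 (.cut .l 131821 (.cut .d (-16384) (.pos 39 .mp ⟨⟨17721866, 0, 0, 0, 0, 21202514, 0, 0, 0, ⟨0, 0⟩, 0⟩, 0, 0⟩ 0 0) (.cut .v 16809984 (.cut .s 8642560 (.pos 51 .mp ⟨⟨18714431, 0, 0, 0, 0, 16615188, 0, 0, 0, ⟨0, 0⟩, 0⟩, 0, 0⟩ 0 0) (.cut .s 8671232 (.pos 51 .mp ⟨⟨20125313, 0, 0, 0, 0, 16075647, 0, 0, 0, ⟨0, 0⟩, 0⟩, 0, 0⟩ 0 0) (.pos 51 .mp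 ⟨⟨20477059, 0, 0, 0, 0, 16381929, 0, 0, 0, ⟨0, 0⟩, 0⟩, 0, 0⟩ 0 0))) (.pos 52 .mp ⟨⟨33126408, 0, 0, 0, 0, 0, 0, 0, 0, ⟨0, 0⟩, 0⟩, 0, 0⟩ 0 0))) (.pos 39 .mp ⟨⟨19591443, 0, 0, 0, 0, 15222386, 0, 0, 0, ⟨0, 0⟩, 0⟩, 0, 0⟩ 0 0)) (.cut .s 8757248 (.cut .s 8728576 (.pos 39 .mp ⟨⟨20703871, 0, 0, 0, 0, 16894649, 0, 0, 0, ⟨0, 0⟩, 0⟩, 0, 0⟩ 0 0) (.pos 39 .mp ⟨⟨21067754, 0, 0, 0, 0, 17228324, 0, 0, 0, ⟨0, 0⟩, 0⟩, 0, 0⟩ 0 0)) (.cut .s 8785920 (.pos 39 .mp ⟨⟨21449352, 0, 0, 0, 0, 17558802, 0, 0, 0, ⟨0, 0⟩, 0⟩, 0, 0⟩ 0 0) (.pos 39 .mp ⟨⟨21849594, 0, 0, 0, 0, 17884862, 0, 0, 0, ⟨0, 0⟩, 0⟩, 0, 0⟩ 0 0)))) (.pos 40 .mp ⟨⟨34779677, 0, 0, 0, 0, 0, 0,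 0, 0, ⟨0, 0⟩, 0⟩, 0, 0⟩ 0 0))) (.cut .d (-32768) (.cut .s 8929280 (.pos 37 .mp ⟨⟨21288680, 0, 0, 0, 0, 23846109, 0, 0, 0, ⟨0, 0⟩, 0⟩, 0, 0⟩ 0 0) (.pos 37 .mp ⟨⟨23215887, 0, 0, 0, 0, 25415333, 0, 0, 0, ⟨0, 0⟩, 0⟩, 0, 0⟩ 0 0)) (.cut .v 16842752 (.cut .s 8929280 (.cut .s 8871936 (.cut .s 8843264 (.pos 39 .mp ⟨⟨22269423, 0, 0, 0, 0, 18205260, 0, 0, 0, ⟨0, 0⟩, 0⟩, 0, 0⟩ 0 0) (.pos 39 .mp ⟨⟨22709785, 0, 0, 0, 0, 18518733, 0, 0, 0, ⟨0, 0⟩, 0⟩, 0, 0⟩ 0 0)) (.cut .s 8900608 (.pos 39 .mp ⟨⟨23171639, 0, 0, 0, 0, 18823994, 0, 0, 0, ⟨0, 0⟩, 0⟩, 0, 0⟩ 0 0) (.pos 39 .mp ⟨⟨23655952, 0, 0, 0, 0, 19119735, 0, 0, 0, ⟨0, 0⟩, 0⟩, 0, 0⟩ 0 0))) (.cut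 .s 8986624 (.cut .s 8957952 (.pos 39 .mp ⟨⟨24166465, 0, 0, 0, 0, 19401214, 0, 0, 0, ⟨0, 0⟩, 0⟩, 0, 0⟩ 0 0) (.pos 39 .mp ⟨⟨24695861, 0, 0, 0, 0, 19677316, 0, 0, 0, ⟨0, 0⟩, 0⟩, 0, 0⟩ 0 0)) (.cut .s 9015296 (.pos 39 .mp ⟨⟨25253438, 0, 0, 0, 0, 19936425, 0, 0, 0, ⟨0, 0⟩, 0⟩, 0, 0⟩ 0 0) (.pos 39 .mp ⟨⟨25837433, 0, 0, 0, 0, 20180554, 0, 0, 0, ⟨0, 0⟩, 0⟩, 0, 0⟩ 0 0)))) (.pos 40 .mp ⟨⟨39994621, 0, 0, 0, 0, 0, 0, 0, 0, ⟨0, 0⟩, 0⟩, 0, 0⟩ 0 0)))) (.pos 38 .mp ⟨⟨40888580, 0, 0, 0, 0, 0, 0, 0, 0, ⟨0, 0⟩, 0⟩, 0, 0⟩ 0 0)) (.pos 36 .mp ⟨⟨43897660, 0, 0, 0, 0, 0, 0, 0, 0, ⟨0, 0⟩, 0⟩, 0, 0⟩ 0 0)) (.void 34 ⟨⟨100000, 0, 0, 0, 0, 0, 0, 0, 0, ⟨0, 0⟩,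 0⟩, 0, 0⟩ 0 0)) (.void 32 ⟨⟨100000, 0, 0, 0, 0, 0, 0, 0, 0, ⟨0, 0⟩, 0⟩, 0, 0⟩ 0 0))))) (.void 30 ⟨⟨100000, 0, 0, 0, 0, 0, 0, 0, 0, ⟨0, 0⟩, 0⟩, 0, 0⟩ 0 0))))) (.void 28 ⟨⟨100000, 0, 0, 0, 0, 0, 0, 0, 0, ⟨0, 0⟩, 0⟩, 0, 0⟩ 0 0)))) (.void 26 ⟨⟨100000, 0, 0, 0, 0, 0, 0, 0, 0, ⟨0, 0⟩, 0⟩, 0, 0⟩ 0 0))) (.cut .v 16777216 (.cut .d 7450590 (.cut .d 3725295 (.cut .v 8388608 (.cut .v 4194304 (.void 4 ⟨⟨0, 0, 66667, 0, 0, 0, 0, 0, 0, ⟨0, 0⟩, 0⟩, 0, 33333⟩ 0 0) (.pos 5 .pm ⟨⟨0, 0, 0, 0, 0, 0, 0, 0, 0, ⟨0, 0⟩, 0⟩, 0, 0⟩ 0 0)) (.pos 3 .pm ⟨⟨0, 0, 0, 0, 0, 0, 0, 0, 0, ⟨0, 0⟩, 0⟩, 0, 0⟩ 0 0)) (.void 1 ⟨⟨0, 0, 0, 0, 0, 0, 0, 0, 0, ⟨0, 0⟩, 0⟩, 0, 100000⟩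 0 0)) (.void 1 ⟨⟨0, 0, 0, 0, 0, 0, 0, 0, 0, ⟨0, 0⟩, 0⟩, 0, 100000⟩ 0 0)) (.cut .d 7450590 (.cut .d 3725295 (.cut .v 25165824 (.cut .d 1862647 (.cut .v 20971520 (.cut .d 931323 (.cut .d 465661 (.cut .v 18874368 (.cut .s 8814592 (.pos 29 .pp ⟨⟨27469003, 0, 0, 0, 0, 0, 0, 0, 0, ⟨0, 0⟩, 0⟩, 235519, 0⟩ 0 0) (.pos 29 .pp ⟨⟨32057166, 0, 0, 0, 0, 0, 0, 0, 0, ⟨0, 0⟩, 0⟩, 289185, 0⟩ 0 0)) (.pos 30 .pp ⟨⟨47689560, 0, 0, 0, 0, 0, 0, 0, 0, ⟨0, 0⟩, 0⟩, 0, 0⟩ 0 0)) (.pos 27 .pp ⟨⟨26440061, 0, 0, 0, 0, 0, 0, 0, 0, ⟨0, 0⟩, 0⟩, 0, 375263⟩ 0 0)) (.pos 27 .pp ⟨⟨0, 0, 0, 0, 0, 0, 0, 0, 0, ⟨0, 0⟩, 0⟩, 0, 855968⟩ 0 0)) (.cut .d 931323 (.cut .v 23068672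 (.pos 63 .pp ⟨⟨54953347, 0, 0, 0, 0, 0, 0, 0, 0, ⟨0, 0⟩, 0⟩, 0, 0⟩ 0 0) (.pos 64 .pp ⟨⟨0, 0, 0, 0, 0, 0, 0, 0, 0, ⟨0, 0⟩, 0⟩, 8685409, 0⟩ 0 0)) (.cut .v 23068672 (.pos 63 .pp ⟨⟨8417576, 0, 0, 0, 0, 0, 880552, 0, 0, ⟨0, 0⟩, 0⟩, 1835914, 0⟩ 0 0) (.cut .l 131821 (.void 64 ⟨⟨0, 0, 0, 0, 0, 0, 100000, 0, 0, ⟨0, 0⟩, 0⟩, 0, 0⟩ 0 0) (.cut .d 1396985 (.cut .d 1164154 (.pos 64 .pp ⟨⟨0, 0, 0, 0, 0, 0, 0, 0, 0, ⟨0, 0⟩, 0⟩, 5054876, 0⟩ 0 0) (.cut .v 24117248 (.pos 85 .pp ⟨⟨0, 0, 0, 0, 0, 0, 657343, 0, 0, ⟨0, 0⟩, 0⟩, 3326044, 0⟩ 0 0) (.cut .s 8814592 (.cut .d 1280569 (.pos 86 .pp ⟨⟨0, 0, 0, 0, 0, 0, 174082, 0, 0, ⟨0, 0⟩, 0⟩, 4719604, 0⟩ 0 0)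 (.cut .l 197731 (.void 86 ⟨⟨0, 0, 0, 0, 0, 0, 27540, 0, 0, ⟨0, 0⟩, 0⟩, 0, 72460⟩ 0 0) (.cut .l 230686 (.pos 86 .pp ⟨⟨0, 0, 0, 0, 0, 0, 64137140, 0, 0, ⟨0, 0⟩, 0⟩, 0, 0⟩ 0 0) (.cut .l 247164 (.pos 86 .pp ⟨⟨0, 0, 0, 0, 0, 0, 19376983, 0, 0, ⟨0, 0⟩, 0⟩, 3688997, 0⟩ 0 0) (.cut .v 24641536 (.cut .s 8699904 (.pos 89 .pp ⟨⟨0, 0, 0, 0, 0, 0, 11865473, 0, 0, ⟨0, 0⟩, 0⟩, 3475556, 0⟩ 0 0) (.pos 89 .pp ⟨⟨0, 0, 0, 0, 0, 0, 575373, 0, 0, ⟨0, 0⟩, 0⟩, 3775608, 0⟩ 0 0)) (.cut .l 255403 (.pos 90 .pp ⟨⟨0, 0, 0, 0, 0, 0, 12084499, 0, 0, ⟨0, 0⟩, 0⟩, 3964752, 0⟩ 0 0) (.cut .s 8699904 (.cut .d 1338777 (.pos 90 .pp ⟨⟨0, 0, 0, 0, 0, 0, 12169794, 0, 0, ⟨0,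 0⟩, 0⟩, 4043983, 0⟩ 0 0) (.pos 90 .pp ⟨⟨0, 0, 0, 0, 0, 0, 16180479, 0, 0, ⟨0, 0⟩, 0⟩, 3712122, 0⟩ 0 0)) (.cut .s 8757248 (.cut .v 24903680 (.pos 93 .pp ⟨⟨0, 0, 0, 0, 0, 0, 10923865, 0, 0, ⟨0, 0⟩, 0⟩, 3902630, 0⟩ 0 0) (.cut .s 8728576 (.pos 94 .pp ⟨⟨0, 0, 0, 0, 0, 0, 14409014, 0, 0, ⟨0, 0⟩, 0⟩, 4011154, 0⟩ 0 0) (.cut .s 8742912 (.pos 94 .pp ⟨⟨0, 0, 0, 0, 0, 0, 12205894, 0, 0, ⟨0, 0⟩, 0⟩, 4101803, 0⟩ 0 0) (.pos 94 .pp ⟨⟨0, 0, 0, 0, 0, 0, 12003715, 0, 0, ⟨0, 0⟩, 0⟩, 4155066, 0⟩ 0 0)))) (.pos 90 .pp ⟨⟨0, 0, 0, 0, 0, 0, 91922, 0, 0, ⟨0, 0⟩, 0⟩, 5095291, 0⟩ 0 0))))))))) (.pos 86 .pp ⟨⟨0, 0, 0, 0, 0, 0, 384454, 0, 0, ⟨0, 0⟩, 0⟩, 4546376,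 0⟩ 0 0)))) (.cut .s 8814592 (.cut .s 8699904 (.pos 64 .pp ⟨⟨0, 0, 0, 0, 0, 0, 53591446, 0, 0, ⟨0, 0⟩, 0⟩, 0, 0⟩ 0 0) (.cut .v 24117248 (.pos 85 .pp ⟨⟨0, 0, 0, 0, 0, 0, 0, 0, 0, ⟨0, 0⟩, 0⟩, 0, 901651⟩ 0 0) (.cut .s 8757248 (.cut .s 8728576 (.pos 86 .pp ⟨⟨0, 0, 0, 0, 0, 0, 58776602, 0, 0, ⟨0, 0⟩, 0⟩, 0, 0⟩ 0 0) (.cut .s 8742912 (.pos 86 .pp ⟨⟨0, 0, 0, 0, 0, 0, 59257212, 0, 0, ⟨0, 0⟩, 0⟩, 0, 0⟩ 0 0) (.cut .d 1629816 (.cut .v 24641536 (.pos 89 .pp ⟨⟨0, 0, 0, 0, 0, 0, 2167762, 0, 0, ⟨0, 0⟩, 0⟩, 0, 0⟩ 0 0) (.pos 90 .pp ⟨⟨0, 0, 0, 0, 0, 0, 15563049, 0, 0, ⟨0, 0⟩, 0⟩, 3635411, 0⟩ 0 0)) (.void 86 ⟨⟨0, 0, 0, 0, 0, 0, 0, 0, 0, ⟨0, 0⟩, 0⟩,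 0, 100000⟩ 0 0)))) (.pos 86 .pp ⟨⟨0, 0, 0, 0, 0, 0, 746082, 0, 0, ⟨0, 0⟩, 0⟩, 3523569, 0⟩ 0 0)))) (.pos 64 .pp ⟨⟨0, 0, 0, 0, 0, 0, 2207635, 0, 0, ⟨0, 0⟩, 0⟩, 0, 0⟩ 0 0))))))) (.void 25 ⟨⟨0, 0, 0, 0, 0, 0, 0, 0, 0, ⟨0, 0⟩, 0⟩, 0, 100000⟩ 0 0)) (.cut .d 1862647 (.cut .v 29360128 (.cut .d 931323 (.void 97 ⟨⟨0, 0, 0, 0, 0, 0, 0, 0, 0, ⟨0, 0⟩, 0⟩, 100000, 0⟩ 0 0) (.cut .v 27262976 (.cut .l 131821 (.void 99 ⟨⟨0, 0, 0, 0, 0, 0, 0, 0, 0, ⟨0, 0⟩, 0⟩, 16749, 83251⟩ 0 0) (.cut .l 197731 (.void 99 ⟨⟨0, 0, 0, 0, 0, 0, 100000, 0, 0, ⟨0, 0⟩, 0⟩, 0, 0⟩ 0 0) (.cut .d 1396985 (.cut .s 8814592 (.cut .v 26214400 (.pos 101 .pp ⟨⟨0, 0, 0, 0, 0, 0, 0,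 0, 0, ⟨0, 0⟩, 0⟩, 8389122, 0⟩ 0 0) (.void 102 ⟨⟨0, 0, 0, 0, 0, 0, 0, 0, 0, ⟨0, 0⟩, 0⟩, 100000, 0⟩ 0 0)) (.pos 99 .pp ⟨⟨0, 0, 0, 0, 0, 0, 0, 0, 0, ⟨0, 0⟩, 0⟩, 6387628, 0⟩ 0 0)) (.cut .l 230686 (.pos 99 .pp ⟨⟨0, 0, 0, 0, 0, 0, 33597793, 0, 0, ⟨0, 0⟩, 0⟩, 4053665, 0⟩ 0 0) (.cut .d 1629816 (.cut .v 26214400 (.cut .l 247164 (.pos 101 .pp ⟨⟨0, 0, 0, 0, 0, 0, 19187994, 0, 0, ⟨0, 0⟩, 0⟩, 4028526, 0⟩ 0 0) (.cut .s 8814592 (.cut .d 1513400 (.cut .v 25690112 (.cut .d 1455192 (.cut .s 8699904 (.void 103 ⟨⟨0, 0, 0, 0, 0, 0, 100000, 0, 0, ⟨0, 0⟩, 0⟩, 0, 0⟩ 0 0) (.cut .s 8757248 (.pos 103 .pp ⟨⟨0, 0, 0, 0, 0, 0, 17524604, 0, 0, ⟨0, 0⟩, 0⟩, 3976716,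 0⟩ 0 0) (.cut .l 255403 (.pos 103 .pp ⟨⟨0, 0, 0, 0, 0, 0, 17227061, 0, 0, ⟨0, 0⟩, 0⟩, 4156205, 0⟩ 0 0) (.cut .l 259522 (.pos 103 .pp ⟨⟨0, 0, 0, 0, 0, 0, 17146724, 0, 0, ⟨0, 0⟩, 0⟩, 4162457, 0⟩ 0 0) (.cut .l 261582 (.pos 103 .pp ⟨⟨0, 0, 0, 0, 0, 0, 17106871, 0, 0, ⟨0, 0⟩, 0⟩, 4165559, 0⟩ 0 0) (.cut .v 25427968 (.cut .l 262612 (.pos 105 .pp ⟨⟨0, 0, 0, 0, 0, 0, 14556684, 0, 0, ⟨0, 0⟩, 0⟩, 4108542, 0⟩ 0 0) (.cut .d 1426088 (.cut .s 8785920 (.cut .v 25296896 (.pos 107 .pp ⟨⟨0, 0, 0, 0, 0, 0, 14210471, 0, 0, ⟨0, 0⟩, 0⟩, 4092896, 0⟩ 0 0) (.pos 108 .pp ⟨⟨0, 0, 0, 0, 0, 0, 15098514, 0, 0, ⟨0, 0⟩, 0⟩, 4190632, 0⟩ 0 0)) (.pos 105 .pp ⟨⟨0,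 0, 0, 0, 0, 0, 25029, 0, 0, ⟨0, 0⟩, 0⟩, 5348798, 0⟩ 0 0)) (.cut .s 8785920 (.pos 105 .pp ⟨⟨0, 0, 0, 0, 0, 0, 16559618, 0, 0, ⟨0, 0⟩, 0⟩, 4004960, 0⟩ 0 0) (.pos 105 .pp ⟨⟨0, 0, 0, 0, 0, 0, 14673011, 0, 0, ⟨0, 0⟩, 0⟩, 4125248, 0⟩ 0 0)))) (.cut .s 8785920 (.void 106 ⟨⟨0, 0, 0, 0, 0, 0, 100000, 0, 0, ⟨0, 0⟩, 0⟩, 0, 0⟩ 0 0) (.cut .d 1426088 (.void 106 ⟨⟨0, 0, 0, 0, 0, 0, 0, 0, 0, ⟨0, 0⟩, 0⟩, 100000, 0⟩ 0 0) (.cut .s 8800256 (.pos 106 .pp ⟨⟨0, 0, 0, 0, 0, 0, 16440886, 0, 0, ⟨0, 0⟩, 0⟩, 4212420, 0⟩ 0 0) (.cut .v 25559040 (.pos 109 .pp ⟨⟨0, 0, 0, 0, 0, 0, 14606240, 0, 0, ⟨0, 0⟩, 0⟩, 4272890, 0⟩ 0 0) (.void 110 ⟨⟨0, 0, 0, 0, 0, 0, 0, 0,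 0, ⟨0, 0⟩, 0⟩, 100000, 0⟩ 0 0))))))))))) (.pos 103 .pp ⟨⟨0, 0, 0, 0, 0, 0, 67464772, 0, 0, ⟨0, 0⟩, 0⟩, 0, 0⟩ 0 0)) (.void 104 ⟨⟨0, 0, 0, 0, 0, 0, 100000, 0, 0, ⟨0, 0⟩, 0⟩, 0, 0⟩ 0 0)) (.pos 101 .pp ⟨⟨0, 0, 0, 0, 0, 0, 68640779, 0, 0, ⟨0, 0⟩, 0⟩, 0, 0⟩ 0 0)) (.cut .s 8929280 (.cut .d 1513400 (.cut .l 255403 (.pos 101 .pp ⟨⟨0, 0, 0, 0, 0, 0, 19770053, 0, 0, ⟨0, 0⟩, 0⟩, 4437378, 0⟩ 0 0) (.cut .v 25690112 (.cut .s 8871936 (.cut .s 8843264 (.cut .v 25427968 (.pos 105 .pp ⟨⟨0, 0, 0, 0, 0, 0, 511266, 0, 0, ⟨0, 0⟩, 0⟩, 4243295, 0⟩ 0 0) (.cut .d 1455192 (.pos 106 .pp ⟨⟨0, 0, 0, 0, 0, 0, 13430269, 0, 0, ⟨0, 0⟩, 0⟩, 4445168, 0⟩ 0 0) (.cut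 .v 25559040 (.pos 109 .pp ⟨⟨0, 0, 0, 0, 0, 0, 32184087, 0, 0, ⟨0, 0⟩, 0⟩, 0, 0⟩ 0 0) (.pos 110 .pp ⟨⟨0, 0, 0, 0, 0, 0, 16282213, 0, 0, ⟨0, 0⟩, 0⟩, 4249834, 0⟩ 0 0)))) (.pos 103 .pp ⟨⟨0, 0, 0, 0, 0, 0, 459696, 0, 0, ⟨0, 0⟩, 0⟩, 4458916, 0⟩ 0 0)) (.pos 103 .pp ⟨⟨0, 0, 0, 0, 0, 0, 438247, 0, 0, ⟨0, 0⟩, 0⟩, 4591976, 0⟩ 0 0)) (.cut .d 1455192 (.pos 104 .pp ⟨⟨0, 0, 0, 0, 0, 0, 0, 0, 0, ⟨0, 0⟩, 0⟩, 9526013, 0⟩ 0 0) (.cut .s 8871936 (.cut .v 25952256 (.cut .d 1484296 (.pos 111 .pp ⟨⟨0, 0, 0, 0, 0, 0, 15516847, 0, 0, ⟨0, 0⟩, 0⟩, 4499396, 0⟩ 0 0) (.pos 111 .pp ⟨⟨0, 0, 0, 0, 0, 0, 17255041, 0, 0, ⟨0, 0⟩, 0⟩, 4343733, 0⟩ 0 0)) (.void 112 ⟨⟨0,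 0, 0, 0, 0, 0, 100000, 0, 0, ⟨0, 0⟩, 0⟩, 0, 0⟩ 0 0)) (.pos 104 .pp ⟨⟨0, 0, 0, 0, 0, 0, 13455780, 0, 0, ⟨0, 0⟩, 0⟩, 4737736, 0⟩ 0 0))))) (.cut .s 8871936 (.pos 101 .pp ⟨⟨0, 0, 0, 0, 0, 0, 70760223, 0, 0, ⟨0, 0⟩, 0⟩, 0, 0⟩ 0 0) (.cut .v 25690112 (.pos 103 .pp ⟨⟨0, 0, 0, 0, 0, 0, 2248720, 0, 0, ⟨0, 0⟩, 0⟩, 0, 0⟩ 0 0) (.pos 104 .pp ⟨⟨0, 0, 0, 0, 0, 0, 19132909, 0, 0, ⟨0, 0⟩, 0⟩, 4339159, 0⟩ 0 0)))) (.pos 101 .pp ⟨⟨0, 0, 0, 0, 0, 0, 384899, 0, 0, ⟨0, 0⟩, 0⟩, 4917947, 0⟩ 0 0)))) (.cut .d 1513400 (.pos 102 .pp ⟨⟨0, 0, 0, 0, 0, 0, 0, 0, 0, ⟨0, 0⟩, 0⟩, 10691262, 0⟩ 0 0) (.cut .s 8814592 (.void 102 ⟨⟨0, 0, 0, 0, 0, 0, 100000, 0, 0, ⟨0, 0⟩,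 0⟩, 0, 0⟩ 0 0) (.cut .s 8929280 (.pos 102 .pp ⟨⟨0, 0, 0, 0, 0, 0, 21988730, 0, 0, ⟨0, 0⟩, 0⟩, 4728005, 0⟩ 0 0) (.cut .v 26738688 (.pos 115 .pp ⟨⟨0, 0, 0, 0, 0, 0, 14119468, 0, 0, ⟨0, 0⟩, 0⟩, 4964796, 0⟩ 0 0) (.pos 116 .pp ⟨⟨0, 0, 0, 0, 0, 0, 19548320, 0, 0, ⟨0, 0⟩, 0⟩, 5427875, 0⟩ 0 0)))))) (.cut .v 26214400 (.pos 101 .pp ⟨⟨0, 0, 0, 0, 0, 0, 45314337, 0, 0, ⟨0, 0⟩, 0⟩, 0, 0⟩ 0 0) (.cut .s 8814592 (.void 102 ⟨⟨0, 0, 0, 0, 0, 0, 100000, 0, 0, ⟨0, 0⟩, 0⟩, 0, 0⟩ 0 0) (.pos 102 .pp ⟨⟨0, 0, 0, 0, 0, 0, 29036304, 0, 0, ⟨0, 0⟩, 0⟩, 4290299, 0⟩ 0 0)))))))) (.void 100 ⟨⟨0, 0, 0, 0, 0, 0, 100000, 0, 0, ⟨0, 0⟩, 0⟩, 0, 0⟩ 0 0))) (.void 98 ⟨⟨0,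 0, 0, 0, 0, 0, 0, 0, 0, ⟨0, 0⟩, 0⟩, 100000, 0⟩ 0 0)) (.pos 26 .pp ⟨⟨0, 0, 0, 0, 0, 0, 107053513, 0, 0, ⟨0, 0⟩, 0⟩, 0, 0⟩ 0 0))) (.void 24 ⟨⟨0, 0, 0, 0, 0, 0, 0, 0, 0, ⟨0, 0⟩, 0⟩, 0, 100000⟩ 0 0)) (.void 24 ⟨⟨0, 0, 0, 0, 0, 0, 0, 0, 0, ⟨0, 0⟩, 0⟩, 0, 100000⟩ 0 0)))),
    by decide +kernel⟩

def covers11 : cell.Covers Vale.Agent.P237.Petty.Cor.Grid.N14.table row11.1 :=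
  ⟨(.cut .d 0 (.cut .v 16777216 (.cut .d (-8388608) (.void 1 ⟨⟨0, 0, 0, 0, 0, 100000, 0, 0, 0, ⟨0, 0⟩, 0⟩, 0, 0⟩ 0 0) (.cut .d (-4194304) (.void 1 ⟨⟨0, 0, 0, 0, 0, 100000, 0, 0, 0, ⟨0, 0⟩, 0⟩, 0, 0⟩ 0 0) (.cut .d (-2097152) (.void 1 ⟨⟨0, 0, 0, 0, 0, 100000, 0, 0, 0, ⟨0, 0⟩, 0⟩, 0, 0⟩ 0 0) (.cut .d (-1048576) (.void 1 ⟨⟨0, 0, 0, 0, 0, 100000, 0, 0, 0, ⟨0, 0⟩, 0⟩, 0, 0⟩ 0 0) (.cut .d (-524288) (.void 1 ⟨⟨0, 0, 0, 0, 0, 100000, 0, 0, 0, ⟨0, 0⟩, 0⟩, 0, 0⟩ 0 0) (.cut .d (-262144) (.void 1 ⟨⟨0, 0, 0, 0, 0, 100000, 0, 0, 0, ⟨0, 0⟩, 0⟩, 0, 0⟩ 0 0) (.cut .d (-131072) (.void 1 ⟨⟨0, 0, 0, 0, 0, 100000, 0, 0, 0, ⟨0, 0⟩, 0⟩, 0, 0⟩ 0 0) (.cut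 .d (-65536) (.void 1 ⟨⟨0, 0, 0, 0, 0, 100000, 0, 0, 0, ⟨0, 0⟩, 0⟩, 0, 0⟩ 0 0) (.cut .v 8388608 (.cut .v 4194304 (.void 4 ⟨⟨0, 0, 100000, 0, 0, 0, 0, 0, 0, ⟨0, 0⟩, 0⟩, 0, 0⟩ 0 0) (.pos 5 .mm ⟨⟨0, 0, 0, 0, 0, 23616398, 0, 0, 0, ⟨0, 0⟩, 0⟩, 0, 0⟩ 0 0)) (.cut .d (-32768) (.pos 3 .mm ⟨⟨0, 0, 0, 0, 0, 74832192, 0, 0, 0, ⟨0, 0⟩, 0⟩, 0, 0⟩ 0 0) (.cut .l 131821 (.cut .d (-16384) (.pos 3 .mm ⟨⟨0, 0, 0, 0, 0, 74826493, 0, 0, 0, ⟨0, 0⟩, 0⟩, 0, 0⟩ 0 0) (.cut .l 65910 (.cut .d (-8192) (.pos 3 .mm ⟨⟨0, 0, 0, 0, 0, 74823771, 0, 0, 0, ⟨0, 0⟩, 0⟩, 0, 0⟩ 0 0) (.cut .v 12582912 (.pos 10 .mm ⟨⟨0, 0, 0, 0, 0, 34106007, 0, 0, 0, ⟨0, 0⟩, 0⟩, 0, 0⟩ 0 0)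 (.cut .v 14680064 (.pos 14 .mm ⟨⟨0, 0, 0, 0, 0, 40552332, 0, 0, 0, ⟨0, 0⟩, 0⟩, 0, 0⟩ 0 0) (.cut .v 15728640 (.pos 22 .mm ⟨⟨0, 0, 0, 0, 0, 44054197, 0, 0, 0, ⟨0, 0⟩, 0⟩, 0, 0⟩ 0 0) (.cut .v 16252928 (.pos 41 .mm ⟨⟨0, 0, 0, 0, 0, 45874806, 0, 0, 0, ⟨0, 0⟩, 0⟩, 0, 0⟩ 0 0) (.cut .v 16515072 (.pos 43 .mm ⟨⟨0, 0, 0, 0, 0, 46802529, 0, 0, 0, ⟨0, 0⟩, 0⟩, 0, 0⟩ 0 0) (.cut .v 16646144 (.pos 49 .mm ⟨⟨0, 0, 0, 0, 0, 47270745, 0, 0, 0, ⟨0, 0⟩, 0⟩, 0, 0⟩ 0 0) (.cut .v 16711680 (.pos 55 .mm ⟨⟨0, 0, 0, 0, 0, 54003937, 0, 0, 0, ⟨0, 0⟩, 0⟩, 0, 0⟩ 0 0) (.cut .v 16744448 (.pos 61 .mm ⟨⟨0, 0, 0, 0, 0, 59108337, 0, 0, 0, ⟨0, 0⟩, 0⟩, 0, 0⟩ 0 0) (.cut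 .v 16760832 (.pos 65 .mm ⟨⟨0, 0, 0, 0, 0, 60909661, 0, 0, 0, ⟨0, 0⟩, 0⟩, 0, 0⟩ 0 0) (.cut .l 32955 (.cut .d (-4096) (.pos 66 .mm ⟨⟨0, 0, 0, 0, 0, 74822347, 0, 0, 0, ⟨0, 0⟩, 0⟩, 0, 0⟩ 0 0) (.cut .v 16769024 (.pos 67 .mm ⟨⟨0, 0, 0, 0, 0, 60929676, 0, 0, 0, ⟨0, 0⟩, 0⟩, 0, 0⟩ 0 0) (.cut .l 16477 (.cut .d (-2048) (.pos 68 .mm ⟨⟨0, 0, 0, 0, 0, 74822147, 0, 0, 0, ⟨0, 0⟩, 0⟩, 0, 0⟩ 0 0) (.cut .v 16773120 (.pos 69 .mm ⟨⟨0, 0, 0, 0, 0, 60940113, 0, 0, 0, ⟨0, 0⟩, 0⟩, 0, 0⟩ 0 0) (.cut .l 8238 (.cut .d (-1024) (.pos 70 .mm ⟨⟨0, 0, 0, 0, 0, 74822815, 0, 0, 0, ⟨0, 0⟩, 0⟩, 0, 0⟩ 0 0) (.cut .v 16775168 (.pos 71 .mm ⟨⟨0, 0, 0, 0, 0, 60946167, 0,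 0, 0, ⟨0, 0⟩, 0⟩, 0, 0⟩ 0 0) (.cut .l 4119 (.cut .d (-512) (.pos 72 .mm ⟨⟨0, 0, 0, 0, 0, 74822637, 0, 0, 0, ⟨0, 0⟩, 0⟩, 0, 0⟩ 0 0) (.cut .v 16776192 (.pos 73 .mm ⟨⟨0, 0, 0, 0, 0, 60950619, 0, 0, 0, ⟨0, 0⟩, 0⟩, 0, 0⟩ 0 0) (.cut .l 2059 (.cut .s 9306112 (.cut .s 9175040 (.pos 74 .mm ⟨⟨0, 0, 0, 0, 0, 54874974, 0, 0, 0, ⟨0, 0⟩, 0⟩, 0, 0⟩ 0 0) (.pos 74 .mm ⟨⟨0, 0, 0, 0, 0, 59870153, 0, 0, 0, ⟨0, 0⟩, 0⟩, 0, 0⟩ 0 0)) (.cut .s 9437184 (.pos 74 .mm ⟨⟨0, 0, 0, 0, 0, 65441246, 0, 0, 0, ⟨0, 0⟩, 0⟩, 0, 0⟩ 0 0) (.pos 74 .mm ⟨⟨0, 0, 0, 0, 0, 71595015, 0, 0, 0, ⟨0, 0⟩, 0⟩, 0, 0⟩ 0 0))) (.pos 74 .mm ⟨⟨0, 0, 0, 0, 0, 56628597, 0, 0, 0, ⟨0, 0⟩, 0⟩,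 0, 0⟩ 0 0)))) (.pos 72 .mm ⟨⟨0, 0, 0, 0, 0, 56629153, 0, 0, 0, ⟨0, 0⟩, 0⟩, 0, 0⟩ 0 0)))) (.pos 70 .mm ⟨⟨0, 0, 0, 0, 0, 56635954, 0, 0, 0, ⟨0, 0⟩, 0⟩, 0, 0⟩ 0 0)))) (.pos 68 .mm ⟨⟨0, 0, 0, 0, 0, 56648844, 0, 0, 0, ⟨0, 0⟩, 0⟩, 0, 0⟩ 0 0)))) (.pos 66 .mm ⟨⟨0, 0, 0, 0, 0, 56675690, 0, 0, 0, ⟨0, 0⟩, 0⟩, 0, 0⟩ 0 0)))))))))))) (.pos 3 .mm ⟨⟨0, 0, 0, 0, 0, 56730094, 0, 0, 0, ⟨0, 0⟩, 0⟩, 0, 0⟩ 0 0))) (.pos 3 .mm ⟨⟨0, 0, 0, 0, 0, 56838813, 0, 0, 0, ⟨0, 0⟩, 0⟩, 0, 0⟩ 0 0)))))))))))) (.cut .v 25165824 (.cut .d (-8388608) (.void 25 ⟨⟨0, 0, 0, 0, 0, 100000, 0, 0, 0, ⟨0, 0⟩, 0⟩, 0, 0⟩ 0 0) (.cut .v 20971520 (.cut .d (-4194304) (.void 27 ⟨⟨0, 0,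 0, 0, 0, 100000, 0, 0, 0, ⟨0, 0⟩, 0⟩, 0, 0⟩ 0 0) (.cut .d (-2097152) (.void 27 ⟨⟨100000, 0, 0, 0, 0, 0, 0, 0, 0, ⟨0, 0⟩, 0⟩, 0, 0⟩ 0 0) (.cut .d (-1048576) (.void 27 ⟨⟨100000, 0, 0, 0, 0, 0, 0, 0, 0, ⟨0, 0⟩, 0⟩, 0, 0⟩ 0 0) (.cut .v 18874368 (.cut .d (-524288) (.void 29 ⟨⟨100000, 0, 0, 0, 0, 0, 0, 0, 0, ⟨0, 0⟩, 0⟩, 0, 0⟩ 0 0) (.cut .d (-262144) (.void 29 ⟨⟨100000, 0, 0, 0, 0, 0, 0, 0, 0, ⟨0, 0⟩, 0⟩, 0, 0⟩ 0 0) (.cut .d (-131072) (.void 29 ⟨⟨0, 0, 0, 0, 0, 100000, 0, 0, 0, ⟨0, 0⟩, 0⟩, 0, 0⟩ 0 0) (.cut .d (-65536) (.void 29 ⟨⟨0, 0, 0, 0, 0, 100000, 0, 0, 0, ⟨0, 0⟩, 0⟩, 0, 0⟩ 0 0) (.cut .v 17825792 (.cut .v 17301504 (.cut .v 17039360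 (.cut .v 16908288 (.cut .d (-32768) (.cut .v 16842752 (.cut .d (-49152) (.void 39 ⟨⟨0, 0, 0, 0, 0, 100000, 0, 0, 0, ⟨0, 0⟩, 0⟩, 0, 0⟩ 0 0) (.cut .d (-40960) (.void 39 ⟨⟨0, 0, 0, 0, 0, 100000, 0, 0, 0, ⟨0, 0⟩, 0⟩, 0, 0⟩ 0 0) (.cut .d (-36864) (.pos 39 .mp ⟨⟨25120462, 0, 0, 0, 0, 44960238, 0, 0, 0, ⟨0, 0⟩, 0⟩, 0, 0⟩ 0 0) (.cut .v 16809984 (.pos 51 .mp ⟨⟨0, 0, 0, 0, 0, 76563642, 0, 0, 0, ⟨0, 0⟩, 0⟩, 0, 0⟩ 0 0) (.cut .l 131821 (.void 52 ⟨⟨100000, 0, 0, 0, 0, 0, 0, 0, 0, ⟨0, 0⟩, 0⟩, 0, 0⟩ 0 0) (.cut .l 197731 (.void 52 ⟨⟨0, 0, 0, 0, 0, 100000, 0, 0, 0, ⟨0, 0⟩, 0⟩, 0, 0⟩ 0 0) (.cut .s 9306112 (.pos 52 .mp ⟨⟨25164186, 0, 0, 0, 0, 30288622,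 0, 0, 0, ⟨0, 0⟩, 0⟩, 0, 0⟩ 0 0) (.cut .s 9437184 (.pos 52 .mp ⟨⟨30489174, 0, 0, 0, 0, 29864952, 0, 0, 0, ⟨0, 0⟩, 0⟩, 0, 0⟩ 0 0) (.pos 52 .mp ⟨⟨33499480, 0, 0, 0, 0, 31985644, 0, 0, 0, ⟨0, 0⟩, 0⟩, 0, 0⟩ 0 0))))))))) (.pos 40 .mp ⟨⟨59674875, 0, 0, 0, 0, 0, 0, 0, 0, ⟨0, 0⟩, 0⟩, 0, 0⟩ 0 0)) (.cut .s 9306112 (.cut .v 16842752 (.cut .s 9175040 (.cut .s 9109504 (.cut .s 9076736 (.pos 39 .mp ⟨⟨26385873, 0, 0, 0, 0, 20548300, 0, 0, 0, ⟨0, 0⟩, 0⟩, 0, 0⟩ 0 0) (.cut .s 9093120 (.pos 39 .mp ⟨⟨27401266, 0, 0, 0, 0, 20105772, 0, 0, 0, ⟨0, 0⟩, 0⟩, 0, 0⟩ 0 0) (.pos 39 .mp ⟨⟨27616093, 0, 0, 0, 0, 20376943, 0, 0, 0, ⟨0, 0⟩, 0⟩, 0, 0⟩ 0 0))) (.cut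 .l 131821 (.cut .d (-16384) (.pos 39 .mp ⟨⟨26859123, 0, 0, 0, 0, 24806492, 0, 0, 0, ⟨0, 0⟩, 0⟩, 0, 0⟩ 0 0) (.cut .s 9142272 (.pos 39 .mp ⟨⟨27363673, 0, 0, 0, 0, 21428362, 0, 0, 0, ⟨0, 0⟩, 0⟩, 0, 0⟩ 0 0) (.cut .s 9158656 (.pos 39 .mp ⟨⟨27999114, 0, 0, 0, 0, 21549240, 0, 0, 0, ⟨0, 0⟩, 0⟩, 0, 0⟩ 0 0) (.pos 39 .mp ⟨⟨28281391, 0, 0, 0, 0, 21763483, 0, 0, 0, ⟨0, 0⟩, 0⟩, 0, 0⟩ 0 0)))) (.pos 39 .mp ⟨⟨27969547, 0, 0, 0, 0, 20602814, 0, 0, 0, ⟨0, 0⟩, 0⟩, 0, 0⟩ 0 0))) (.cut .s 9240576 (.cut .s 9207808 (.cut .s 9191424 (.pos 39 .mp ⟨⟨28783498, 0, 0, 0, 0, 21740008, 0, 0, 0, ⟨0, 0⟩, 0⟩, 0, 0⟩ 0 0) (.pos 39 .mp ⟨⟨29038131, 0, 0, 0, 0, 22010817,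 0, 0, 0, ⟨0, 0⟩, 0⟩, 0, 0⟩ 0 0)) (.cut .s 9224192 (.pos 39 .mp ⟨⟨29385906, 0, 0, 0, 0, 22172576, 0, 0, 0, ⟨0, 0⟩, 0⟩, 0, 0⟩ 0 0) (.pos 39 .mp ⟨⟨29737355, 0, 0, 0, 0, 22337661, 0, 0, 0, ⟨0, 0⟩, 0⟩, 0, 0⟩ 0 0))) (.cut .s 9273344 (.cut .s 9256960 (.pos 39 .mp ⟨⟨30092499, 0, 0, 0, 0, 22506042, 0, 0, 0, ⟨0, 0⟩, 0⟩, 0, 0⟩ 0 0) (.pos 39 .mp ⟨⟨30451357, 0, 0, 0, 0, 22677692, 0, 0, 0, ⟨0, 0⟩, 0⟩, 0, 0⟩ 0 0)) (.cut .s 9289728 (.pos 39 .mp ⟨⟨30813950, 0, 0, 0, 0, 22852580, 0, 0, 0, ⟨0, 0⟩, 0⟩, 0, 0⟩ 0 0) (.cut .s 9297920 (.pos 39 .mp ⟨⟨31192893, 0, 0, 0, 0, 22871217, 0, 0, 0, ⟨0, 0⟩, 0⟩, 0, 0⟩ 0 0) (.pos 39 .mp ⟨⟨31349730, 0, 0, 0, 0, 22995665,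 0, 0, 0, ⟨0, 0⟩, 0⟩, 0, 0⟩ 0 0)))))) (.pos 40 .mp ⟨⟨46714836, 0, 0, 0, 0, 0, 0, 0, 0, ⟨0, 0⟩, 0⟩, 0, 0⟩ 0 0)) (.cut .s 9437184 (.cut .v 16842752 (.cut .s 9371648 (.cut .s 9338880 (.cut .v 16809984 (.cut .s 9322496 (.pos 51 .mp ⟨⟨30940281, 0, 0, 0, 0, 24028664, 0, 0, 0, ⟨0, 0⟩, 0⟩, 0, 0⟩ 0 0) (.pos 51 .mp ⟨⟨31195361, 0, 0, 0, 0, 24375640, 0, 0, 0, ⟨0, 0⟩, 0⟩, 0, 0⟩ 0 0)) (.pos 52 .mp ⟨⟨37441761, 0, 0, 0, 0, 16241679, 0, 0, 0, ⟨0, 0⟩, 0⟩, 0, 0⟩ 0 0)) (.cut .l 131821 (.cut .d (-16384) (.pos 39 .mp ⟨⟨31416467, 0, 0, 0, 0, 26553807, 0, 0, 0, ⟨0, 0⟩, 0⟩, 0, 0⟩ 0 0) (.cut .s 9355264 (.pos 39 .mp ⟨⟨31917934, 0, 0, 0, 0, 24009430, 0, 0,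 0, ⟨0, 0⟩, 0⟩, 0, 0⟩ 0 0) (.pos 39 .mp ⟨⟨32293970, 0, 0, 0, 0, 24207428, 0, 0, 0, ⟨0, 0⟩, 0⟩, 0, 0⟩ 0 0))) (.pos 39 .mp ⟨⟨32251253, 0, 0, 0, 0, 23537460, 0, 0, 0, ⟨0, 0⟩, 0⟩, 0, 0⟩ 0 0))) (.cut .s 9404416 (.cut .l 131821 (.cut .d (-16384) (.pos 39 .mp ⟨⟨32158982, 0, 0, 0, 0, 27008423, 0, 0, 0, ⟨0, 0⟩, 0⟩, 0, 0⟩ 0 0) (.cut .s 9388032 (.pos 39 .mp ⟨⟨32673780, 0, 0, 0, 0, 24408601, 0, 0, 0, ⟨0, 0⟩, 0⟩, 0, 0⟩ 0 0) (.pos 39 .mp ⟨⟨33057387, 0, 0, 0, 0, 24612917, 0, 0, 0, ⟨0, 0⟩, 0⟩, 0, 0⟩ 0 0))) (.pos 39 .mp ⟨⟨33017132, 0, 0, 0, 0, 23939141, 0, 0, 0, ⟨0, 0⟩, 0⟩, 0, 0⟩ 0 0)) (.cut .l 131821 (.cut .d (-16384) (.pos 39 .mp ⟨⟨32915867, 0,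 0, 0, 0, 27484314, 0, 0, 0, ⟨0, 0⟩, 0⟩, 0, 0⟩ 0 0) (.cut .s 9420800 (.pos 39 .mp ⟨⟨33444811, 0, 0, 0, 0, 24820345, 0, 0, 0, ⟨0, 0⟩, 0⟩, 0, 0⟩ 0 0) (.pos 39 .mp ⟨⟨33836073, 0, 0, 0, 0, 25030851, 0, 0, 0, ⟨0, 0⟩, 0⟩, 0, 0⟩ 0 0))) (.pos 39 .mp ⟨⟨33798389, 0, 0, 0, 0, 24345693, 0, 0, 0, ⟨0, 0⟩, 0⟩, 0, 0⟩ 0 0)))) (.pos 40 .mp ⟨⟨52094696, 0, 0, 0, 0, 0, 0, 0, 0, ⟨0, 0⟩, 0⟩, 0, 0⟩ 0 0)) (.cut .v 16842752 (.cut .s 9502720 (.cut .s 9469952 (.cut .l 131821 (.cut .d (-16384) (.pos 39 .mp ⟨⟨33687278, 0, 0, 0, 0, 27981840, 0, 0, 0, ⟨0, 0⟩, 0⟩, 0, 0⟩ 0 0) (.cut .s 9453568 (.pos 39 .mp ⟨⟨34231197, 0, 0, 0, 0, 25244403, 0, 0, 0, ⟨0, 0⟩, 0⟩, 0,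 0⟩ 0 0) (.pos 39 .mp ⟨⟨34630203, 0, 0, 0, 0, 25460966, 0, 0, 0, ⟨0, 0⟩, 0⟩, 0, 0⟩ 0 0))) (.pos 39 .mp ⟨⟨34595200, 0, 0, 0, 0, 24756449, 0, 0, 0, ⟨0, 0⟩, 0⟩, 0, 0⟩ 0 0)) (.cut .l 131821 (.cut .d (-16384) (.pos 39 .mp ⟨⟨34473375, 0, 0, 0, 0, 28501365, 0, 0, 0, ⟨0, 0⟩, 0⟩, 0, 0⟩ 0 0) (.cut .s 9486336 (.pos 39 .mp ⟨⟨35033115, 0, 0, 0, 0, 25680507, 0, 0, 0, ⟨0, 0⟩, 0⟩, 0, 0⟩ 0 0) (.pos 39 .mp ⟨⟨35439954, 0, 0, 0, 0, 25902991, 0, 0, 0, ⟨0, 0⟩, 0⟩, 0, 0⟩ 0 0))) (.pos 39 .mp ⟨⟨35407743, 0, 0, 0, 0, 25170737, 0, 0, 0, ⟨0, 0⟩, 0⟩, 0, 0⟩ 0 0))) (.cut .s 9535488 (.cut .l 131821 (.cut .d (-16384) (.pos 39 .mp ⟨⟨35274319, 0, 0, 0, 0, 29043263,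 0, 0, 0, ⟨0, 0⟩, 0⟩, 0, 0⟩ 0 0) (.cut .s 9519104 (.pos 39 .mp ⟨⟨35850742, 0, 0, 0, 0, 26128382, 0, 0, 0, ⟨0, 0⟩, 0⟩, 0, 0⟩ 0 0) (.pos 39 .mp ⟨⟨36265504, 0, 0, 0, 0, 26356645, 0, 0, 0, ⟨0, 0⟩, 0⟩, 0, 0⟩ 0 0))) (.pos 39 .mp ⟨⟨36236199, 0, 0, 0, 0, 25587885, 0, 0, 0, ⟨0, 0⟩, 0⟩, 0, 0⟩ 0 0)) (.cut .l 131821 (.cut .d (-16384) (.pos 39 .mp ⟨⟨36090274, 0, 0, 0, 0, 29607910, 0, 0, 0, ⟨0, 0⟩, 0⟩, 0, 0⟩ 0 0) (.cut .s 9551872 (.pos 39 .mp ⟨⟨36684262, 0, 0, 0, 0, 26587744, 0, 0, 0, ⟨0, 0⟩, 0⟩, 0, 0⟩ 0 0) (.pos 39 .mp ⟨⟨37107039, 0, 0, 0, 0, 26821642, 0, 0, 0, ⟨0, 0⟩, 0⟩, 0, 0⟩ 0 0))) (.pos 39 .mp ⟨⟨37080753, 0, 0, 0, 0, 26007217, 0, 0, 0, ⟨0,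 0⟩, 0⟩, 0, 0⟩ 0 0)))) (.pos 40 .mp ⟨⟨56478963, 0, 0, 0, 0, 0, 0, 0, 0, ⟨0, 0⟩, 0⟩, 0, 0⟩ 0 0))))) (.pos 38 .mp ⟨⟨55999144, 0, 0, 0, 0, 0, 0, 0, 0, ⟨0, 0⟩, 0⟩, 0, 0⟩ 0 0)) (.pos 36 .mp ⟨⟨60213372, 0, 0, 0, 0, 0, 0, 0, 0, ⟨0, 0⟩, 0⟩, 0, 0⟩ 0 0)) (.void 34 ⟨⟨100000, 0, 0, 0, 0, 0, 0, 0, 0, ⟨0, 0⟩, 0⟩, 0, 0⟩ 0 0)) (.void 32 ⟨⟨100000, 0, 0, 0, 0, 0, 0, 0, 0, ⟨0, 0⟩, 0⟩, 0, 0⟩ 0 0)))))) (.void 30 ⟨⟨100000, 0, 0, 0, 0, 0, 0, 0, 0, ⟨0, 0⟩, 0⟩, 0, 0⟩ 0 0))))) (.void 28 ⟨⟨100000, 0, 0, 0, 0, 0, 0, 0, 0, ⟨0, 0⟩, 0⟩, 0, 0⟩ 0 0))) (.void 26 ⟨⟨100000, 0, 0, 0, 0, 0, 0, 0, 0, ⟨0, 0⟩, 0⟩, 0, 0⟩ 0 0))) (.cut .v 16777216 (.cut .d 7172869 (.cut .d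 3586434 (.cut .v 8388608 (.cut .v 4194304 (.void 4 ⟨⟨0, 0, 66667, 0, 0, 0, 0, 0, 0, ⟨0, 0⟩, 0⟩, 0, 33333⟩ 0 0) (.pos 5 .pm ⟨⟨0, 0, 0, 0, 0, 0, 0, 0, 0, ⟨0, 0⟩, 0⟩, 0, 0⟩ 0 0)) (.pos 3 .pm ⟨⟨0, 0, 0, 0, 0, 0, 0, 0, 0, ⟨0, 0⟩, 0⟩, 0, 0⟩ 0 0)) (.void 1 ⟨⟨0, 0, 0, 0, 0, 0, 0, 0, 0, ⟨0, 0⟩, 0⟩, 0, 100000⟩ 0 0)) (.void 1 ⟨⟨0, 0, 0, 0, 0, 0, 0, 0, 0, ⟨0, 0⟩, 0⟩, 0, 100000⟩ 0 0)) (.cut .d 7172869 (.cut .d 3586434 (.cut .v 25165824 (.cut .d 1793217 (.cut .v 20971520 (.cut .d 896608 (.cut .d 448304 (.cut .v 18874368 (.cut .s 9306112 (.pos 29 .pp ⟨⟨40683615, 0, 0, 0, 0, 0, 0, 0, 0, ⟨0, 0⟩, 0⟩, 0, 3699⟩ 0 0) (.cut .s 9437184 (.pos 29 .pp ⟨⟨32577579,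 0, 0, 0, 0, 0, 0, 0, 0, ⟨0, 0⟩, 0⟩, 1683961, 0⟩ 0 0) (.pos 29 .pp ⟨⟨35645048, 0, 0, 0, 0, 0, 0, 0, 0, ⟨0, 0⟩, 0⟩, 1819563, 0⟩ 0 0))) (.pos 30 .pp ⟨⟨65204762, 0, 0, 0, 0, 0, 0, 0, 0, ⟨0, 0⟩, 0⟩, 0, 0⟩ 0 0)) (.pos 27 .pp ⟨⟨35997676, 0, 0, 0, 0, 0, 0, 0, 0, ⟨0, 0⟩, 0⟩, 0, 331181⟩ 0 0)) (.pos 27 .pp ⟨⟨0, 0, 0, 0, 0, 0, 0, 0, 0, ⟨0, 0⟩, 0⟩, 0, 831697⟩ 0 0)) (.cut .d 896608 (.cut .v 23068672 (.cut .d 448304 (.void 63 ⟨⟨0, 0, 0, 0, 0, 0, 0, 0, 0, ⟨0, 0⟩, 0⟩, 100000, 0⟩ 0 0) (.pos 63 .pp ⟨⟨65728539, 0, 0, 0, 0, 0, 0, 0, 0, ⟨0, 0⟩, 0⟩, 0, 0⟩ 0 0)) (.pos 64 .pp ⟨⟨0, 0, 0, 0, 0, 0, 0, 0, 0, ⟨0, 0⟩, 0⟩, 9674658, 0⟩ 0 0)) (.cut .v 23068672 (.pos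 63 .pp ⟨⟨0, 0, 0, 0, 0, 0, 648876, 0, 0, ⟨0, 0⟩, 0⟩, 4300551, 0⟩ 0 0) (.cut .d 1344912 (.pos 64 .pp ⟨⟨0, 0, 0, 0, 0, 0, 388245, 0, 0, ⟨0, 0⟩, 0⟩, 5954031, 0⟩ 0 0) (.pos 64 .pp ⟨⟨0, 0, 0, 0, 0, 0, 2188235, 0, 0, ⟨0, 0⟩, 0⟩, 0, 0⟩ 0 0))))) (.pos 25 .pp ⟨⟨0, 0, 0, 0, 0, 0, 0, 0, 0, ⟨0, 0⟩, 0⟩, 0, 898233⟩ 0 0)) (.cut .l 131821 (.void 26 ⟨⟨0, 0, 0, 0, 0, 0, 100000, 0, 0, ⟨0, 0⟩, 0⟩, 0, 0⟩ 0 0) (.cut .d 1793217 (.cut .v 29360128 (.cut .d 896608 (.void 97 ⟨⟨0, 0, 0, 0, 0, 0, 0, 0, 0, ⟨0, 0⟩, 0⟩, 100000, 0⟩ 0 0) (.cut .d 1344912 (.pos 97 .pp ⟨⟨0, 0, 0, 0, 0, 0, 0, 0, 0, ⟨0, 0⟩, 0⟩, 9375066, 0⟩ 0 0) (.cut .s 9306112 (.cut .l 197731 (.pos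 97 .pp ⟨⟨0, 0, 0, 0, 0, 0, 36485277, 0, 0, ⟨0, 0⟩, 0⟩, 5628748, 0⟩ 0 0) (.cut .v 27262976 (.cut .d 1569064 (.pos 99 .pp ⟨⟨0, 0, 0, 0, 0, 0, 16883, 0, 0, ⟨0, 0⟩, 0⟩, 6311661, 0⟩ 0 0) (.pos 99 .pp ⟨⟨0, 0, 0, 0, 0, 0, 4707958, 0, 0, ⟨0, 0⟩, 0⟩, 5512812, 0⟩ 0 0)) (.cut .d 1569064 (.void 100 ⟨⟨0, 0, 0, 0, 0, 0, 0, 0, 0, ⟨0, 0⟩, 0⟩, 100000, 0⟩ 0 0) (.cut .v 28311552 (.cut .d 1681140 (.pos 119 .pp ⟨⟨0, 0, 0, 0, 0, 0, 0, 0, 0, ⟨0, 0⟩, 0⟩, 10810528, 0⟩ 0 0) (.pos 119 .pp ⟨⟨0, 0, 0, 0, 0, 0, 23008858, 0, 0, ⟨0, 0⟩, 0⟩, 5749832, 0⟩ 0 0)) (.pos 120 .pp ⟨⟨0, 0, 0, 0, 0, 0, 0, 0, 0, ⟨0, 0⟩, 0⟩, 15571551, 0⟩ 0 0))))) (.pos 97 .pp ⟨⟨0, 0, 0, 0,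 0, 0, 103177, 0, 0, ⟨0, 0⟩, 0⟩, 7635785, 0⟩ 0 0)))) (.void 98 ⟨⟨0, 0, 0, 0, 0, 0, 0, 0, 0, ⟨0, 0⟩, 0⟩, 100000, 0⟩ 0 0)) (.cut .d 2689825 (.cut .d 2241521 (.cut .l 197731 (.pos 26 .pp ⟨⟨0, 0, 0, 0, 0, 0, 135630359, 0, 0, ⟨0, 0⟩, 0⟩, 0, 0⟩ 0 0) (.cut .v 29360128 (.cut .v 27262976 (.pos 99 .pp ⟨⟨0, 0, 0, 0, 0, 0, 49651586, 0, 0, ⟨0, 0⟩, 0⟩, 0, 0⟩ 0 0) (.cut .s 9306112 (.pos 100 .pp ⟨⟨0, 0, 0, 0, 0, 0, 34448681, 0, 0, ⟨0, 0⟩, 0⟩, 4961297, 0⟩ 0 0) (.pos 100 .pp ⟨⟨0, 0, 0, 0, 0, 0, 110980, 0, 0, ⟨0, 0⟩, 0⟩, 7055239, 0⟩ 0 0))) (.cut .v 31457280 (.pos 123 .pp ⟨⟨0, 0, 0, 0, 0, 0, 31431863, 0, 0, ⟨0, 0⟩, 0⟩, 7132138, 0⟩ 0 0) (.pos 124 .pp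 ⟨⟨0, 0, 0, 0, 0, 0, 0, 0, 0, ⟨0, 0⟩, 0⟩, 22429111, 0⟩ 0 0)))) (.pos 26 .pp ⟨⟨0, 0, 0, 0, 0, 0, 72268939, 0, 0, ⟨0, 0⟩, 0⟩, 2529186, 0⟩ 0 0)) (.pos 26 .pp ⟨⟨0, 0, 0, 0, 0, 0, 100234386, 0, 0, ⟨0, 0⟩, 0⟩, 0, 8273231⟩ 0 0))))) (.void 24 ⟨⟨0, 0, 0, 0, 0, 0, 0, 0, 0, ⟨0, 0⟩, 0⟩, 0, 100000⟩ 0 0)) (.void 24 ⟨⟨0, 0, 0, 0, 0, 0, 0, 0, 0, ⟨0, 0⟩, 0⟩, 0, 100000⟩ 0 0)))),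
    by decide +kernel⟩

def covers12 : cell.Covers Vale.Agent.P237.Petty.Cor.Grid.N14.table row12.1 :=
  ⟨(.cut .d 0 (.cut .v 16777216 (.cut .d (-8388608) (.void 1 ⟨⟨0, 0, 0, 0, 0, 100000, 0, 0, 0, ⟨0, 0⟩, 0⟩, 0, 0⟩ 0 0) (.cut .d (-4194304) (.void 1 ⟨⟨0, 0, 0, 0, 0, 100000, 0, 0, 0, ⟨0, 0⟩, 0⟩, 0, 0⟩ 0 0) (.cut .d (-2097152) (.void 1 ⟨⟨0, 0, 0, 0, 0, 100000, 0, 0, 0, ⟨0, 0⟩, 0⟩, 0, 0⟩ 0 0) (.cut .d (-1048576) (.void 1 ⟨⟨0, 0, 0, 0, 0, 100000, 0, 0, 0, ⟨0, 0⟩, 0⟩, 0, 0⟩ 0 0) (.cut .d (-524288) (.void 1 ⟨⟨0, 0, 0, 0, 0, 100000, 0, 0, 0, ⟨0, 0⟩, 0⟩, 0, 0⟩ 0 0) (.cut .d (-262144) (.void 1 ⟨⟨0, 0, 0, 0, 0, 100000, 0, 0, 0, ⟨0, 0⟩, 0⟩,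 0, 0⟩ 0 0) (.cut .d (-131072) (.void 1 ⟨⟨0, 0, 0, 0, 0, 100000, 0, 0, 0, ⟨0, 0⟩, 0⟩, 0, 0⟩ 0 0) (.cut .d (-65536) (.void 1 ⟨⟨0, 0, 0, 0, 0, 100000, 0, 0, 0, ⟨0, 0⟩, 0⟩, 0, 0⟩ 0 0) (.cut .v 8388608 (.cut .v 4194304 (.void 4 ⟨⟨0, 0, 100000, 0, 0, 0, 0, 0, 0, ⟨0, 0⟩, 0⟩, 0, 0⟩ 0 0) (.pos 5 .mm ⟨⟨0, 0, 373892, 0, 0, 33041962, 0, 0, 0, ⟨0, 0⟩, 0⟩, 0, 0⟩ 0 0)) (.cut .d (-32768) (.pos 3 .mm ⟨⟨0, 0, 0, 0, 0, 110393315, 0, 0, 0, ⟨0, 0⟩, 0⟩, 0, 0⟩ 0 0) (.cut .v 12582912 (.pos 10 .mm ⟨⟨0, 0, 0, 0, 0, 49463868, 0, 0, 0, ⟨0, 0⟩, 0⟩, 0, 0⟩ 0 0) (.cut .v 14680064 (.pos 14 .mm ⟨⟨0, 0, 0, 0, 0, 58865784, 0, 0, 0, ⟨0, 0⟩, 0⟩, 0, 0⟩ 0 0) (.cut .v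 15728640 (.pos 22 .mm ⟨⟨0, 0, 0, 0, 0, 63898877, 0, 0, 0, ⟨0, 0⟩, 0⟩, 0, 0⟩ 0 0) (.cut .v 16252928 (.pos 41 .mm ⟨⟨0, 0, 0, 0, 0, 66498458, 0, 0, 0, ⟨0, 0⟩, 0⟩, 0, 0⟩ 0 0) (.cut .v 16515072 (.pos 43 .mm ⟨⟨0, 0, 0, 0, 0, 79991571, 0, 0, 0, ⟨0, 0⟩, 0⟩, 0, 0⟩ 0 0) (.cut .v 16646144 (.pos 49 .mm ⟨⟨0, 0, 0, 0, 0, 85204029, 0, 0, 0, ⟨0, 0⟩, 0⟩, 0, 0⟩ 0 0) (.cut .v 16711680 (.pos 55 .mm ⟨⟨0, 0, 0, 0, 0, 87829017, 0, 0, 0, ⟨0, 0⟩, 0⟩, 0, 0⟩ 0 0) (.cut .s 9830400 (.cut .s 9699328 (.pos 56 .mm ⟨⟨0, 0, 0, 0, 0, 79379287, 0, 0, 0, ⟨0, 0⟩, 0⟩, 0, 0⟩ 0 0) (.pos 56 .mm ⟨⟨0, 0, 0, 0, 0, 86508108, 0, 0, 0, ⟨0, 0⟩, 0⟩, 0, 0⟩ 0 0)) (.cut .s 9961472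 (.pos 56 .mm ⟨⟨0, 0, 0, 0, 0, 94494851, 0, 0, 0, ⟨0, 0⟩, 0⟩, 0, 0⟩ 0 0) (.pos 56 .mm ⟨⟨0, 0, 0, 0, 0, 103364063, 0, 0, 0, ⟨0, 0⟩, 0⟩, 0, 0⟩ 0 0)))))))))))))))))))) (.cut .v 33554432 (.cut .v 25165824 (.cut .d (-8388608) (.void 25 ⟨⟨0, 0, 0, 0, 0, 100000, 0, 0, 0, ⟨0, 0⟩, 0⟩, 0, 0⟩ 0 0) (.cut .v 20971520 (.cut .d (-4194304) (.void 27 ⟨⟨0, 0, 0, 0, 0, 100000, 0, 0, 0, ⟨0, 0⟩, 0⟩, 0, 0⟩ 0 0) (.cut .v 18874368 (.cut .d (-2097152) (.void 29 ⟨⟨100000, 0, 0, 0, 0, 0, 0, 0, 0, ⟨0, 0⟩, 0⟩, 0, 0⟩ 0 0) (.cut .v 17825792 (.cut .d (-1048576) (.void 31 ⟨⟨100000, 0, 0, 0, 0, 0, 0, 0, 0, ⟨0, 0⟩, 0⟩, 0, 0⟩ 0 0) (.cut .d (-524288) (.void 31 ⟨⟨100000,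 0, 0, 0, 0, 0, 0, 0, 0, ⟨0, 0⟩, 0⟩, 0, 0⟩ 0 0) (.cut .d (-262144) (.void 31 ⟨⟨100000, 0, 0, 0, 0, 0, 0, 0, 0, ⟨0, 0⟩, 0⟩, 0, 0⟩ 0 0) (.cut .d (-131072) (.void 31 ⟨⟨100000, 0, 0, 0, 0, 0, 0, 0, 0, ⟨0, 0⟩, 0⟩, 0, 0⟩ 0 0) (.cut .d (-65536) (.void 31 ⟨⟨0, 0, 0, 0, 0, 100000, 0, 0, 0, ⟨0, 0⟩, 0⟩, 0, 0⟩ 0 0) (.cut .v 17301504 (.cut .v 17039360 (.cut .d (-32768) (.cut .v 16908288 (.cut .s 9830400 (.pos 37 .mp ⟨⟨36924003, 0, 0, 0, 0, 87267487, 0, 0, 0, ⟨0, 0⟩, 0⟩, 0, 0⟩ 0 0) (.void 37 ⟨⟨0, 0, 0, 0, 0, 100000, 0, 0, 0, ⟨0, 0⟩, 0⟩, 0, 0⟩ 0 0)) (.void 38 ⟨⟨100000, 0, 0, 0, 0, 0, 0, 0, 0, ⟨0, 0⟩, 0⟩, 0, 0⟩ 0 0)) (.cut .v 16908288 (.cut .s 9830400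 (.cut .s 9699328 (.cut .v 16842752 (.cut .s 9633792 (.cut .s 9601024 (.cut .d (-16384) (.pos 39 .mp ⟨⟨37138759, 0, 0, 0, 0, 28734768, 0, 0, 0, ⟨0, 0⟩, 0⟩, 0, 0⟩ 0 0) (.cut .s 9584640 (.pos 39 .mp ⟨⟨37524052, 0, 0, 0, 0, 27114614, 0, 0, 0, ⟨0, 0⟩, 0⟩, 0, 0⟩ 0 0) (.pos 39 .mp ⟨⟨37966170, 0, 0, 0, 0, 27271984, 0, 0, 0, ⟨0, 0⟩, 0⟩, 0, 0⟩ 0 0))) (.cut .s 9617408 (.cut .s 9609216 (.pos 39 .mp ⟨⟨38663708, 0, 0, 0, 0, 26986320, 0, 0, 0, ⟨0, 0⟩, 0⟩, 0, 0⟩ 0 0) (.pos 39 .mp ⟨⟨38885838, 0, 0, 0, 0, 27079313, 0, 0, 0, ⟨0, 0⟩, 0⟩, 0, 0⟩ 0 0)) (.cut .s 9625600 (.pos 39 .mp ⟨⟨39109161, 0, 0, 0, 0, 27173544, 0, 0, 0, ⟨0, 0⟩, 0⟩, 0, 0⟩ 0 0) (.pos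 39 .mp ⟨⟨39333680, 0, 0, 0, 0, 27269008, 0, 0, 0, ⟨0, 0⟩, 0⟩, 0, 0⟩ 0 0)))) (.cut .s 9666560 (.cut .s 9650176 (.cut .s 9641984 (.pos 39 .mp ⟨⟨39559399, 0, 0, 0, 0, 27365701, 0, 0, 0, ⟨0, 0⟩, 0⟩, 0, 0⟩ 0 0) (.pos 39 .mp ⟨⟨39786321, 0, 0, 0, 0, 27463616, 0, 0, 0, ⟨0, 0⟩, 0⟩, 0, 0⟩ 0 0)) (.cut .s 9658368 (.pos 39 .mp ⟨⟨40014451, 0, 0, 0, 0, 27562750, 0, 0, 0, ⟨0, 0⟩, 0⟩, 0, 0⟩ 0 0) (.pos 39 .mp ⟨⟨40243790, 0, 0, 0, 0, 27663097, 0, 0, 0, ⟨0, 0⟩, 0⟩, 0, 0⟩ 0 0))) (.cut .s 9682944 (.cut .d (-16384) (.pos 39 .mp ⟨⟨39541583, 0, 0, 0, 0, 29733773, 0, 0, 0, ⟨0, 0⟩, 0⟩, 0, 0⟩ 0 0) (.cut .s 9674752 (.pos 39 .mp ⟨⟨39920956, 0, 0, 0, 0, 28474724,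 0, 0, 0, ⟨0, 0⟩, 0⟩, 0, 0⟩ 0 0) (.pos 39 .mp ⟨⟨40167120, 0, 0, 0, 0, 28549328, 0, 0, 0, ⟨0, 0⟩, 0⟩, 0, 0⟩ 0 0))) (.cut .d (-16384) (.pos 39 .mp ⟨⟨39917262, 0, 0, 0, 0, 30081727, 0, 0, 0, ⟨0, 0⟩, 0⟩, 0, 0⟩ 0 0) (.cut .s 9691136 (.pos 39 .mp ⟨⟨40414058, 0, 0, 0, 0, 28625923, 0, 0, 0, ⟨0, 0⟩, 0⟩, 0, 0⟩ 0 0) (.pos 39 .mp ⟨⟨40653183, 0, 0, 0, 0, 28718199, 0, 0, 0, ⟨0, 0⟩, 0⟩, 0, 0⟩ 0 0)))))) (.pos 40 .mp ⟨⟨61553582, 0, 0, 0, 0, 0, 0, 0, 0, ⟨0, 0⟩, 0⟩, 0, 0⟩ 0 0)) (.cut .v 16842752 (.cut .s 9764864 (.cut .s 9732096 (.cut .s 9715712 (.cut .d (-16384) (.pos 39 .mp ⟨⟨40302095, 0, 0, 0, 0, 30428394, 0, 0, 0, ⟨0, 0⟩, 0⟩, 0, 0⟩ 0 0) (.cut .s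 9707520 (.pos 39 .mp ⟨⟨40884790, 0, 0, 0, 0, 28825716, 0, 0, 0, ⟨0, 0⟩, 0⟩, 0, 0⟩ 0 0) (.pos 39 .mp ⟨⟨41117595, 0, 0, 0, 0, 28934584, 0, 0, 0, ⟨0, 0⟩, 0⟩, 0, 0⟩ 0 0))) (.cut .d (-16384) (.pos 39 .mp ⟨⟨40696358, 0, 0, 0, 0, 30773345, 0, 0, 0, ⟨0, 0⟩, 0⟩, 0, 0⟩ 0 0) (.cut .s 9723904 (.pos 39 .mp ⟨⟨41351603, 0, 0, 0, 0, 29044802, 0, 0, 0, ⟨0, 0⟩, 0⟩, 0, 0⟩ 0 0) (.pos 39 .mp ⟨⟨41586817, 0, 0, 0, 0, 29156369, 0, 0, 0, ⟨0, 0⟩, 0⟩, 0, 0⟩ 0 0)))) (.cut .s 9748480 (.cut .d (-16384) (.cut .s 9740288 (.pos 39 .mp ⟨⟨41270092, 0, 0, 0, 0, 30512599, 0, 0, 0, ⟨0, 0⟩, 0⟩, 0, 0⟩ 0 0) (.pos 39 .mp ⟨⟨41476090, 0, 0, 0, 0, 30680114, 0, 0, 0, ⟨0, 0⟩,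 0⟩, 0, 0⟩ 0 0)) (.cut .s 9740288 (.pos 39 .mp ⟨⟨41823241, 0, 0, 0, 0, 29269283, 0, 0, 0, ⟨0, 0⟩, 0⟩, 0, 0⟩ 0 0) (.pos 39 .mp ⟨⟨42060879, 0, 0, 0, 0, 29383543, 0, 0, 0, ⟨0, 0⟩, 0⟩, 0, 0⟩ 0 0))) (.cut .d (-16384) (.cut .s 9756672 (.pos 39 .mp ⟨⟨41684598, 0, 0, 0, 0, 30846964, 0, 0, 0, ⟨0, 0⟩, 0⟩, 0, 0⟩ 0 0) (.pos 39 .mp ⟨⟨41895650, 0, 0, 0, 0, 31013093, 0, 0, 0, ⟨0, 0⟩, 0⟩, 0, 0⟩ 0 0)) (.cut .s 9756672 (.pos 39 .mp ⟨⟨42299734, 0, 0, 0, 0, 29499146, 0, 0, 0, ⟨0, 0⟩, 0⟩, 0, 0⟩ 0 0) (.pos 39 .mp ⟨⟨42539809, 0, 0, 0, 0, 29616091, 0, 0, 0, ⟨0, 0⟩, 0⟩, 0, 0⟩ 0 0))))) (.cut .s 9797632 (.cut .s 9781248 (.cut .d (-16384) (.cut .s 9773056 (.pos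 39 .mp ⟨⟨42109281, 0, 0, 0, 0, 31178449, 0, 0, 0, ⟨0, 0⟩, 0⟩, 0, 0⟩ 0 0) (.pos 39 .mp ⟨⟨42325525, 0, 0, 0, 0, 31342975, 0, 0, 0, ⟨0, 0⟩, 0⟩, 0, 0⟩ 0 0)) (.cut .s 9773056 (.pos 39 .mp ⟨⟨42781109, 0, 0, 0, 0, 29734376, 0, 0, 0, ⟨0, 0⟩, 0⟩, 0, 0⟩ 0 0) (.cut .s 9777152 (.pos 39 .mp ⟨⟨42888424, 0, 0, 0, 0, 29970672, 0, 0, 0, ⟨0, 0⟩, 0⟩, 0, 0⟩ 0 0) (.pos 39 .mp ⟨⟨43015042, 0, 0, 0, 0, 30022868, 0, 0, 0, ⟨0, 0⟩, 0⟩, 0, 0⟩ 0 0)))) (.cut .d (-16384) (.cut .s 9789440 (.pos 39 .mp ⟨⟨42544418, 0, 0, 0, 0, 31506618, 0, 0, 0, ⟨0, 0⟩, 0⟩, 0, 0⟩ 0 0) (.pos 39 .mp ⟨⟨42765994, 0, 0, 0, 0, 31669322, 0, 0, 0, ⟨0, 0⟩, 0⟩, 0, 0⟩ 0 0)) (.cut .v 16809984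 (.cut .s 9789440 (.pos 51 .mp ⟨⟨43079035, 0, 0, 0, 0, 30231883, 0, 0, 0, ⟨0, 0⟩, 0⟩, 0, 0⟩ 0 0) (.pos 51 .mp ⟨⟨43323093, 0, 0, 0, 0, 30355607, 0, 0, 0, ⟨0, 0⟩, 0⟩, 0, 0⟩ 0 0)) (.pos 52 .mp ⟨⟨64183418, 0, 0, 0, 0, 0, 0, 0, 0, ⟨0, 0⟩, 0⟩, 0, 0⟩ 0 0)))) (.cut .s 9814016 (.cut .d (-16384) (.cut .s 9805824 (.pos 39 .mp ⟨⟨42990289, 0, 0, 0, 0, 31831031, 0, 0, 0, ⟨0, 0⟩, 0⟩, 0, 0⟩ 0 0) (.pos 39 .mp ⟨⟨43217337, 0, 0, 0, 0, 31991691, 0, 0, 0, ⟨0, 0⟩, 0⟩, 0, 0⟩ 0 0)) (.cut .v 16809984 (.cut .s 9805824 (.pos 51 .mp ⟨⟨43568385, 0, 0, 0, 0, 30480671, 0, 0, 0, ⟨0, 0⟩, 0⟩, 0, 0⟩ 0 0) (.cut .s 9809920 (.pos 51 .mp ⟨⟨43927602, 0, 0, 0, 0, 30380105,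 0, 0, 0, ⟨0, 0⟩, 0⟩, 0, 0⟩ 0 0) (.pos 51 .mp ⟨⟨44039453, 0, 0, 0, 0, 30459741, 0, 0, 0, ⟨0, 0⟩, 0⟩, 0, 0⟩ 0 0))) (.pos 52 .mp ⟨⟨64815685, 0, 0, 0, 0, 0, 0, 0, 0, ⟨0, 0⟩, 0⟩, 0, 0⟩ 0 0))) (.cut .d (-16384) (.cut .s 9822208 (.pos 39 .mp ⟨⟨43447173, 0, 0, 0, 0, 32151247, 0, 0, 0, ⟨0, 0⟩, 0⟩, 0, 0⟩ 0 0) (.pos 39 .mp ⟨⟨43679833, 0, 0, 0, 0, 32309641, 0, 0, 0, ⟨0, 0⟩, 0⟩, 0, 0⟩ 0 0)) (.cut .v 16809984 (.cut .l 131821 (.cut .d (-8192) (.pos 51 .mp ⟨⟨43632041, 0, 0, 0, 0, 31952212, 0, 0, 0, ⟨0, 0⟩, 0⟩, 0, 0⟩ 0 0) (.cut .s 9822208 (.pos 51 .mp ⟨⟨43753469, 0, 0, 0, 0, 31137908, 0, 0, 0, ⟨0, 0⟩, 0⟩, 0, 0⟩ 0 0) (.pos 51 .mp ⟨⟨44007146, 0, 0,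 0, 0, 31259147, 0, 0, 0, ⟨0, 0⟩, 0⟩, 0, 0⟩ 0 0))) (.pos 51 .mp ⟨⟨43517359, 0, 0, 0, 0, 30961601, 0, 0, 0, ⟨0, 0⟩, 0⟩, 0, 0⟩ 0 0)) (.pos 52 .mp ⟨⟨65457134, 0, 0, 0, 0, 0, 0, 0, 0, ⟨0, 0⟩, 0⟩, 0, 0⟩ 0 0)))))) (.pos 40 .mp ⟨⟨66451198, 0, 0, 0, 0, 0, 0, 0, 0, ⟨0, 0⟩, 0⟩, 0, 0⟩ 0 0))) (.cut .s 9961472 (.cut .v 16842752 (.cut .s 9895936 (.cut .s 9863168 (.cut .s 9846784 (.cut .d (-16384) (.cut .s 9838592 (.pos 39 .mp ⟨⟨43915352, 0, 0, 0, 0, 32466819, 0, 0, 0, ⟨0, 0⟩, 0⟩, 0, 0⟩ 0 0) (.pos 39 .mp ⟨⟨44153764, 0, 0, 0, 0, 32622725, 0, 0, 0, ⟨0, 0⟩, 0⟩, 0, 0⟩ 0 0)) (.cut .v 16809984 (.cut .l 131821 (.cut .d (-8192) (.pos 51 .mp ⟨⟨44100732,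 0, 0, 0, 0, 32268452, 0, 0, 0, ⟨0, 0⟩, 0⟩, 0, 0⟩ 0 0) (.cut .s 9838592 (.pos 51 .mp ⟨⟨44261320, 0, 0, 0, 0, 31382915, 0, 0, 0, ⟨0, 0⟩, 0⟩, 0, 0⟩ 0 0) (.pos 51 .mp ⟨⟨44515979, 0, 0, 0, 0, 31509241, 0, 0, 0, ⟨0, 0⟩, 0⟩, 0, 0⟩ 0 0))) (.pos 51 .mp ⟨⟨44010856, 0, 0, 0, 0, 31237086, 0, 0, 0, ⟨0, 0⟩, 0⟩, 0, 0⟩ 0 0)) (.pos 52 .mp ⟨⟨66107818, 0, 0, 0, 0, 0, 0, 0, 0, ⟨0, 0⟩, 0⟩, 0, 0⟩ 0 0))) (.cut .d (-16384) (.cut .s 9854976 (.pos 39 .mp ⟨⟨44395105, 0, 0, 0, 0, 32777301, 0, 0, 0, ⟨0, 0⟩, 0⟩, 0, 0⟩ 0 0) (.pos 39 .mp ⟨⟨44639410, 0, 0, 0, 0, 32930493, 0, 0, 0, ⟨0, 0⟩, 0⟩, 0, 0⟩ 0 0)) (.cut .v 16809984 (.cut .l 131821 (.cut .d (-8192) (.pos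 51 .mp ⟨⟨44581102, 0, 0, 0, 0, 32579388, 0, 0, 0, ⟨0, 0⟩, 0⟩, 0, 0⟩ 0 0) (.cut .s 9854976 (.pos 51 .mp ⟨⟨44767980, 0, 0, 0, 0, 31643185, 0, 0, 0, ⟨0, 0⟩, 0⟩, 0, 0⟩ 0 0) (.pos 51 .mp ⟨⟨45019790, 0, 0, 0, 0, 31780790, 0, 0, 0, ⟨0, 0⟩, 0⟩, 0, 0⟩ 0 0))) (.pos 51 .mp ⟨⟨44509148, 0, 0, 0, 0, 31515284, 0, 0, 0, ⟨0, 0⟩, 0⟩, 0, 0⟩ 0 0)) (.pos 52 .mp ⟨⟨66767791, 0, 0, 0, 0, 0, 0, 0, 0, ⟨0, 0⟩, 0⟩, 0, 0⟩ 0 0)))) (.cut .d (-16384) (.cut .d (-24576) (.pos 39 .mp ⟨⟨44655540, 0, 0, 0, 0, 35090125, 0, 0, 0, ⟨0, 0⟩, 0⟩, 0, 0⟩ 0 0) (.cut .l 131821 (.void 39 ⟨⟨0, 0, 0, 0, 0, 100000, 0, 0, 0, ⟨0, 0⟩, 0⟩, 0, 0⟩ 0 0) (.cut .s 9879552 (.pos 39 .mp ⟨⟨45748888,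 0, 0, 0, 0, 31462595, 0, 0, 0, ⟨0, 0⟩, 0⟩, 0, 0⟩ 0 0) (.pos 39 .mp ⟨⟨46266444, 0, 0, 0, 0, 31735288, 0, 0, 0, ⟨0, 0⟩, 0⟩, 0, 0⟩ 0 0)))) (.cut .v 16809984 (.cut .l 131821 (.cut .s 9879552 (.cut .d (-8192) (.pos 51 .mp ⟨⟨45073431, 0, 0, 0, 0, 32884569, 0, 0, 0, ⟨0, 0⟩, 0⟩, 0, 0⟩ 0 0) (.cut .s 9871360 (.pos 51 .mp ⟨⟨45272847, 0, 0, 0, 0, 31919746, 0, 0, 0, ⟨0, 0⟩, 0⟩, 0, 0⟩ 0 0) (.pos 51 .mp ⟨⟨45527157, 0, 0, 0, 0, 32060050, 0, 0, 0, ⟨0, 0⟩, 0⟩, 0, 0⟩ 0 0))) (.cut .d (-8192) (.pos 51 .mp ⟨⟨45578003, 0, 0, 0, 0, 33183541, 0, 0, 0, ⟨0, 0⟩, 0⟩, 0, 0⟩ 0 0) (.cut .s 9887744 (.pos 51 .mp ⟨⟨45782723, 0, 0, 0, 0, 32201701, 0, 0, 0, ⟨0, 0⟩,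 0⟩, 0, 0⟩ 0 0) (.pos 51 .mp ⟨⟨46039548, 0, 0, 0, 0, 32344696, 0, 0, 0, ⟨0, 0⟩, 0⟩, 0, 0⟩ 0 0)))) (.pos 51 .mp ⟨⟨45298240, 0, 0, 0, 0, 31459999, 0, 0, 0, ⟨0, 0⟩, 0⟩, 0, 0⟩ 0 0)) (.pos 52 .mp ⟨⟨67816886, 0, 0, 0, 0, 0, 0, 0, 0, ⟨0, 0⟩, 0⟩, 0, 0⟩ 0 0)))) (.cut .s 9928704 (.cut .d (-16384) (.cut .d (-24576) (.pos 39 .mp ⟨⟨45673659, 0, 0, 0, 0, 35731627, 0, 0, 0, ⟨0, 0⟩, 0⟩, 0, 0⟩ 0 0) (.cut .l 131821 (.void 39 ⟨⟨0, 0, 0, 0, 0, 100000, 0, 0, 0, ⟨0, 0⟩, 0⟩, 0, 0⟩ 0 0) (.cut .s 9912320 (.pos 39 .mp ⟨⟨46789132, 0, 0, 0, 0, 32013170, 0, 0, 0, ⟨0, 0⟩, 0⟩, 0, 0⟩ 0 0) (.pos 39 .mp ⟨⟨47316983, 0, 0, 0, 0, 32296222, 0, 0, 0, ⟨0, 0⟩, 0⟩, 0, 0⟩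 0 0)))) (.cut .v 16809984 (.cut .l 131821 (.cut .s 9912320 (.cut .d (-8192) (.pos 51 .mp ⟨⟨46095100, 0, 0, 0, 0, 33475849, 0, 0, 0, ⟨0, 0⟩, 0⟩, 0, 0⟩ 0 0) (.cut .s 9904128 (.pos 51 .mp ⟨⟨46297638, 0, 0, 0, 0, 32489033, 0, 0, 0, ⟨0, 0⟩, 0⟩, 0, 0⟩ 0 0) (.pos 51 .mp ⟨⟨46556995, 0, 0, 0, 0, 32634710, 0, 0, 0, ⟨0, 0⟩, 0⟩, 0, 0⟩ 0 0))) (.cut .d (-8192) (.pos 51 .mp ⟨⟨46625008, 0, 0, 0, 0, 33761032, 0, 0, 0, ⟨0, 0⟩, 0⟩, 0, 0⟩ 0 0) (.cut .s 9920512 (.pos 51 .mp ⟨⟨46817623, 0, 0, 0, 0, 32781725, 0, 0, 0, ⟨0, 0⟩, 0⟩, 0, 0⟩ 0 0) (.pos 51 .mp ⟨⟨47079527, 0, 0, 0, 0, 32930075, 0, 0, 0, ⟨0, 0⟩, 0⟩, 0, 0⟩ 0 0)))) (.pos 51 .mp ⟨⟨46322919, 0, 0,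 0, 0, 32023269, 0, 0, 0, ⟨0, 0⟩, 0⟩, 0, 0⟩ 0 0)) (.pos 52 .mp ⟨⟨69193667, 0, 0, 0, 0, 0, 0, 0, 0, ⟨0, 0⟩, 0⟩, 0, 0⟩ 0 0))) (.cut .d (-16384) (.cut .d (-24576) (.pos 39 .mp ⟨⟨46711982, 0, 0, 0, 0, 36402645, 0, 0, 0, ⟨0, 0⟩, 0⟩, 0, 0⟩ 0 0) (.cut .l 131821 (.void 39 ⟨⟨0, 0, 0, 0, 0, 100000, 0, 0, 0, ⟨0, 0⟩, 0⟩, 0, 0⟩ 0 0) (.cut .s 9945088 (.pos 39 .mp ⟨⟨47850030, 0, 0, 0, 0, 32584427, 0, 0, 0, ⟨0, 0⟩, 0⟩, 0, 0⟩ 0 0) (.pos 39 .mp ⟨⟨48388306, 0, 0, 0, 0, 32877762, 0, 0, 0, ⟨0, 0⟩, 0⟩, 0, 0⟩ 0 0)))) (.cut .v 16809984 (.cut .l 131821 (.cut .s 9945088 (.cut .d (-8192) (.pos 51 .mp ⟨⟨47168010, 0, 0, 0, 0, 34038627, 0, 0, 0, ⟨0, 0⟩, 0⟩, 0,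 0⟩ 0 0) (.cut .s 9936896 (.pos 51 .mp ⟨⟨47342711, 0, 0, 0, 0, 33079759, 0, 0, 0, ⟨0, 0⟩, 0⟩, 0, 0⟩ 0 0) (.pos 51 .mp ⟨⟨47604170, 0, 0, 0, 0, 33235637, 0, 0, 0, ⟨0, 0⟩, 0⟩, 0, 0⟩ 0 0))) (.cut .d (-8192) (.pos 51 .mp ⟨⟨47724395, 0, 0, 0, 0, 34308169, 0, 0, 0, ⟨0, 0⟩, 0⟩, 0, 0⟩ 0 0) (.cut .s 9953280 (.pos 51 .mp ⟨⟨47863740, 0, 0, 0, 0, 33397986, 0, 0, 0, ⟨0, 0⟩, 0⟩, 0, 0⟩ 0 0) (.pos 51 .mp ⟨⟨48123578, 0, 0, 0, 0, 33563328, 0, 0, 0, ⟨0, 0⟩, 0⟩, 0, 0⟩ 0 0)))) (.pos 51 .mp ⟨⟨47366760, 0, 0, 0, 0, 32596117, 0, 0, 0, ⟨0, 0⟩, 0⟩, 0, 0⟩ 0 0)) (.pos 52 .mp ⟨⟨70608506, 0, 0, 0, 0, 0, 0, 0, 0, ⟨0, 0⟩, 0⟩, 0, 0⟩ 0 0))))) (.pos 40 .mp ⟨⟨71782836,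 0, 0, 0, 0, 0, 0, 0, 0, ⟨0, 0⟩, 0⟩, 0, 0⟩ 0 0)) (.cut .v 16842752 (.cut .s 10027008 (.cut .s 9994240 (.cut .d (-16384) (.cut .d (-24576) (.pos 39 .mp ⟨⟨47770762, 0, 0, 0, 0, 37103682, 0, 0, 0, ⟨0, 0⟩, 0⟩, 0, 0⟩ 0 0) (.cut .l 131821 (.void 39 ⟨⟨0, 0, 0, 0, 0, 100000, 0, 0, 0, ⟨0, 0⟩, 0⟩, 0, 0⟩ 0 0) (.cut .s 9977856 (.pos 39 .mp ⟨⟨47441894, 0, 0, 0, 0, 35939933, 0, 0, 0, ⟨0, 0⟩, 0⟩, 0, 0⟩ 0 0) (.pos 39 .mp ⟨⟨47983262, 0, 0, 0, 0, 36259387, 0, 0, 0, ⟨0, 0⟩, 0⟩, 0, 0⟩ 0 0)))) (.cut .v 16809984 (.cut .l 131821 (.cut .s 9977856 (.cut .d (-8192) (.pos 51 .mp ⟨⟨48294448, 0, 0, 0, 0, 34569190, 0, 0, 0, ⟨0, 0⟩, 0⟩, 0, 0⟩ 0 0) (.cut .s 9969664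 (.pos 51 .mp ⟨⟨48383666, 0, 0, 0, 0, 33731696, 0, 0, 0, ⟨0, 0⟩, 0⟩, 0, 0⟩ 0 0) (.pos 51 .mp ⟨⟨48643989, 0, 0, 0, 0, 33903123, 0, 0, 0, ⟨0, 0⟩, 0⟩, 0, 0⟩ 0 0))) (.cut .s 9986048 (.pos 51 .mp ⟨⟨49285059, 0, 0, 0, 0, 33566624, 0, 0, 0, ⟨0, 0⟩, 0⟩, 0, 0⟩ 0 0) (.pos 51 .mp ⟨⟨49559829, 0, 0, 0, 0, 33719303, 0, 0, 0, ⟨0, 0⟩, 0⟩, 0, 0⟩ 0 0))) (.pos 51 .mp ⟨⟨48430017, 0, 0, 0, 0, 33177622, 0, 0, 0, ⟨0, 0⟩, 0⟩, 0, 0⟩ 0 0)) (.pos 52 .mp ⟨⟨72061857, 0, 0, 0, 0, 0, 0, 0, 0, ⟨0, 0⟩, 0⟩, 0, 0⟩ 0 0))) (.cut .d (-16384) (.cut .d (-24576) (.pos 39 .mp ⟨⟨48850258, 0, 0, 0, 0, 37835248, 0, 0, 0, ⟨0, 0⟩, 0⟩, 0, 0⟩ 0 0) (.cut .l 131821 (.void 39 ⟨⟨0,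 0, 0, 0, 0, 100000, 0, 0, 0, ⟨0, 0⟩, 0⟩, 0, 0⟩ 0 0) (.cut .s 10010624 (.pos 39 .mp ⟨⟨48553240, 0, 0, 0, 0, 36540675, 0, 0, 0, ⟨0, 0⟩, 0⟩, 0, 0⟩ 0 0) (.pos 39 .mp ⟨⟨49134343, 0, 0, 0, 0, 36816243, 0, 0, 0, ⟨0, 0⟩, 0⟩, 0, 0⟩ 0 0)))) (.cut .v 16809984 (.cut .l 131821 (.cut .s 10010624 (.cut .s 10002432 (.pos 51 .mp ⟨⟨49835929, 0, 0, 0, 0, 33873007, 0, 0, 0, ⟨0, 0⟩, 0⟩, 0, 0⟩ 0 0) (.pos 51 .mp ⟨⟨50113364, 0, 0, 0, 0, 34027729, 0, 0, 0, ⟨0, 0⟩, 0⟩, 0, 0⟩ 0 0)) (.cut .s 10018816 (.pos 51 .mp ⟨⟨50392137, 0, 0, 0, 0, 34183464, 0, 0, 0, ⟨0, 0⟩, 0⟩, 0, 0⟩ 0 0) (.pos 51 .mp ⟨⟨50672253, 0, 0, 0, 0, 34340202, 0, 0, 0, ⟨0, 0⟩, 0⟩, 0, 0⟩ 0 0)))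 (.pos 51 .mp ⟨⟨49512945, 0, 0, 0, 0, 33766859, 0, 0, 0, ⟨0, 0⟩, 0⟩, 0, 0⟩ 0 0)) (.pos 52 .mp ⟨⟨73554184, 0, 0, 0, 0, 0, 0, 0, 0, ⟨0, 0⟩, 0⟩, 0, 0⟩ 0 0)))) (.cut .s 10059776 (.cut .d (-16384) (.cut .s 10043392 (.pos 39 .mp ⟨⟨49601666, 0, 0, 0, 0, 37811720, 0, 0, 0, ⟨0, 0⟩, 0⟩, 0, 0⟩ 0 0) (.pos 39 .mp ⟨⟨50154622, 0, 0, 0, 0, 38196385, 0, 0, 0, ⟨0, 0⟩, 0⟩, 0, 0⟩ 0 0)) (.cut .v 16809984 (.cut .l 131821 (.cut .s 10043392 (.cut .s 10035200 (.pos 51 .mp ⟨⟨50953717, 0, 0, 0, 0, 34497939, 0, 0, 0, ⟨0, 0⟩, 0⟩, 0, 0⟩ 0 0) (.pos 51 .mp ⟨⟨51236532, 0, 0, 0, 0, 34656666, 0, 0, 0, ⟨0, 0⟩, 0⟩, 0, 0⟩ 0 0)) (.cut .s 10051584 (.pos 51 .mp ⟨⟨51520703,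 0, 0, 0, 0, 34816377, 0, 0, 0, ⟨0, 0⟩, 0⟩, 0, 0⟩ 0 0) (.pos 51 .mp ⟨⟨51806234, 0, 0, 0, 0, 34977065, 0, 0, 0, ⟨0, 0⟩, 0⟩, 0, 0⟩ 0 0))) (.pos 51 .mp ⟨⟨50615807, 0, 0, 0, 0, 34362897, 0, 0, 0, ⟨0, 0⟩, 0⟩, 0, 0⟩ 0 0)) (.pos 52 .mp ⟨⟨75085962, 0, 0, 0, 0, 0, 0, 0, 0, ⟨0, 0⟩, 0⟩, 0, 0⟩ 0 0))) (.cut .s 10076160 (.cut .d (-16384) (.pos 39 .mp ⟨⟨50712849, 0, 0, 0, 0, 38589085, 0, 0, 0, ⟨0, 0⟩, 0⟩, 0, 0⟩ 0 0) (.cut .s 10067968 (.pos 39 .mp ⟨⟨52315903, 0, 0, 0, 0, 34867580, 0, 0, 0, ⟨0, 0⟩, 0⟩, 0, 0⟩ 0 0) (.pos 39 .mp ⟨⟨52605261, 0, 0, 0, 0, 35033902, 0, 0, 0, ⟨0, 0⟩, 0⟩, 0, 0⟩ 0 0))) (.cut .d (-16384) (.pos 39 .mp ⟨⟨51276383, 0, 0, 0, 0,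 38989888, 0, 0, 0, ⟨0, 0⟩, 0⟩, 0, 0⟩ 0 0) (.cut .s 10084352 (.pos 39 .mp ⟨⟨52895997, 0, 0, 0, 0, 35201472, 0, 0, 0, ⟨0, 0⟩, 0⟩, 0, 0⟩ 0 0) (.pos 39 .mp ⟨⟨53170991, 0, 0, 0, 0, 35398197, 0, 0, 0, ⟨0, 0⟩, 0⟩, 0, 0⟩ 0 0)))))) (.pos 40 .mp ⟨⟨77530410, 0, 0, 0, 0, 0, 0, 0, 0, ⟨0, 0⟩, 0⟩, 0, 0⟩ 0 0)))) (.pos 38 .mp ⟨⟨73707231, 0, 0, 0, 0, 0, 0, 0, 0, ⟨0, 0⟩, 0⟩, 0, 0⟩ 0 0))) (.pos 36 .mp ⟨⟨82228543, 0, 0, 0, 0, 0, 0, 0, 0, ⟨0, 0⟩, 0⟩, 0, 0⟩ 0 0)) (.void 34 ⟨⟨100000, 0, 0, 0, 0, 0, 0, 0, 0, ⟨0, 0⟩, 0⟩, 0, 0⟩ 0 0))))))) (.void 32 ⟨⟨100000, 0, 0, 0, 0, 0, 0, 0, 0, ⟨0, 0⟩, 0⟩, 0, 0⟩ 0 0))) (.void 30 ⟨⟨100000, 0, 0, 0, 0, 0, 0, 0, 0, ⟨0, 0⟩,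 0⟩, 0, 0⟩ 0 0))) (.void 28 ⟨⟨100000, 0, 0, 0, 0, 0, 0, 0, 0, ⟨0, 0⟩, 0⟩, 0, 0⟩ 0 0))) (.void 26 ⟨⟨100000, 0, 0, 0, 0, 0, 0, 0, 0, ⟨0, 0⟩, 0⟩, 0, 0⟩ 0 0)) (.void 127 ⟨⟨100000, 0, 0, 0, 0, 0, 0, 0, 0, ⟨0, 0⟩, 0⟩, 0, 0⟩ 0 0))) (.cut .v 16777216 (.cut .d 6320185 (.cut .v 8388608 (.cut .v 4194304 (.void 4 ⟨⟨0, 0, 66667, 0, 0, 0, 0, 0, 0, ⟨0, 0⟩, 0⟩, 0, 33333⟩ 0 0) (.pos 5 .pm ⟨⟨0, 0, 333641, 0, 0, 0, 0, 0, 0, ⟨0, 0⟩, 0⟩, 0, 0⟩ 0 0)) (.pos 3 .pm ⟨⟨0, 0, 0, 0, 0, 0, 0, 0, 0, ⟨0, 0⟩, 0⟩, 0, 0⟩ 0 0)) (.void 1 ⟨⟨0, 0, 0, 0, 0, 0, 0, 0, 0, ⟨0, 0⟩, 0⟩, 0, 100000⟩ 0 0)) (.cut .d 6320185 (.cut .v 33554432 (.cut .d 3160092 (.cut .v 25165824 (.cut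 .d 1580046 (.cut .v 20971520 (.cut .d 790023 (.cut .d 395011 (.cut .v 18874368 (.cut .v 17825792 (.cut .s 9830400 (.pos 31 .pp ⟨⟨34369863, 0, 0, 0, 0, 0, 0, 0, 0, ⟨0, 0⟩, 0⟩, 2491597, 0⟩ 0 0) (.pos 31 .pp ⟨⟨41080740, 0, 0, 0, 0, 0, 0, 0, 0, ⟨0, 0⟩, 0⟩, 2895897, 0⟩ 0 0)) (.pos 32 .pp ⟨⟨70218377, 0, 0, 0, 0, 0, 0, 0, 0, ⟨0, 0⟩, 0⟩, 0, 0⟩ 0 0)) (.pos 30 .pp ⟨⟨90144398, 0, 0, 0, 0, 0, 0, 0, 0, ⟨0, 0⟩, 0⟩, 0, 0⟩ 0 0)) (.pos 27 .pp ⟨⟨51561852, 0, 0, 0, 0, 0, 0, 0, 0, ⟨0, 0⟩, 0⟩, 0, 170314⟩ 0 0)) (.pos 27 .pp ⟨⟨0, 0, 0, 0, 0, 0, 0, 0, 0, ⟨0, 0⟩, 0⟩, 0, 772928⟩ 0 0)) (.cut .d 790023 (.cut .v 23068672 (.cut .d 395011 (.void 63 ⟨⟨0, 0, 0,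 0, 0, 0, 0, 0, 0, ⟨0, 0⟩, 0⟩, 100000, 0⟩ 0 0) (.pos 63 .pp ⟨⟨91544830, 0, 0, 0, 0, 0, 0, 0, 0, ⟨0, 0⟩, 0⟩, 0, 0⟩ 0 0)) (.pos 64 .pp ⟨⟨0, 0, 0, 0, 0, 0, 0, 0, 0, ⟨0, 0⟩, 0⟩, 13528623, 0⟩ 0 0)) (.pos 28 .pp ⟨⟨0, 0, 0, 0, 0, 0, 527548, 0, 0, ⟨0, 0⟩, 0⟩, 7289894, 0⟩ 0 0))) (.pos 25 .pp ⟨⟨0, 0, 0, 0, 0, 0, 0, 0, 0, ⟨0, 0⟩, 0⟩, 0, 834763⟩ 0 0)) (.cut .d 1580046 (.cut .v 29360128 (.cut .d 790023 (.void 97 ⟨⟨0, 0, 0, 0, 0, 0, 0, 0, 0, ⟨0, 0⟩, 0⟩, 100000, 0⟩ 0 0) (.cut .d 1185034 (.pos 97 .pp ⟨⟨0, 0, 0, 0, 0, 0, 0, 0, 0, ⟨0, 0⟩, 0⟩, 12610790, 0⟩ 0 0) (.pos 97 .pp ⟨⟨0, 0, 0, 0, 0, 0, 101744, 0, 0, ⟨0, 0⟩, 0⟩, 9523328, 0⟩ 0 0))) (.pos 98 .pp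 ⟨⟨0, 0, 0, 0, 0, 0, 0, 0, 0, ⟨0, 0⟩, 0⟩, 28045359, 0⟩ 0 0)) (.cut .v 29360128 (.pos 97 .pp ⟨⟨0, 0, 0, 0, 0, 0, 444825, 0, 0, ⟨0, 0⟩, 0⟩, 7068313, 0⟩ 0 0) (.cut .d 2370069 (.pos 98 .pp ⟨⟨0, 0, 0, 0, 0, 0, 0, 0, 0, ⟨0, 0⟩, 0⟩, 10727485, 0⟩ 0 0) (.pos 98 .pp ⟨⟨0, 0, 0, 0, 0, 0, 23830781, 0, 0, ⟨0, 0⟩, 0⟩, 7516649, 0⟩ 0 0))))) (.cut .v 25165824 (.pos 25 .pp ⟨⟨0, 0, 0, 0, 0, 0, 0, 0, 0, ⟨0, 0⟩, 0⟩, 0, 80198264⟩ 0 0) (.pos 26 .pp ⟨⟨0, 0, 0, 0, 0, 0, 0, 0, 0, ⟨0, 0⟩, 0⟩, 0, 78144378⟩ 0 0))) (.cut .v 50331648 (.cut .d 3160092 (.cut .d 1580046 (.void 128 ⟨⟨0, 0, 0, 0, 0, 0, 0, 0, 0, ⟨0, 0⟩, 0⟩, 100000, 0⟩ 0 0) (.cut .d 2370069 (.pos 128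 .pp ⟨⟨0, 0, 0, 0, 0, 0, 0, 0, 0, ⟨0, 0⟩, 0⟩, 22087551, 0⟩ 0 0) (.cut .v 41943040 (.pos 130 .pp ⟨⟨0, 0, 0, 0, 0, 0, 66237442, 0, 0, ⟨0, 0⟩, 0⟩, 10742300, 0⟩ 0 0) (.void 131 ⟨⟨0, 0, 0, 0, 0, 0, 0, 0, 0, ⟨0, 0⟩, 0⟩, 100000, 0⟩ 0 0)))) (.pos 128 .pp ⟨⟨0, 0, 0, 0, 0, 0, 170412274, 0, 0, ⟨0, 0⟩, 0⟩, 4803284, 0⟩ 0 0)) (.void 129 ⟨⟨0, 0, 0, 0, 0, 0, 100000, 0, 0, ⟨0, 0⟩, 0⟩, 0, 0⟩ 0 0))) (.void 126 ⟨⟨0, 0, 0, 0, 0, 0, 59604, 0, 0, ⟨0, 0⟩, 0⟩, 0, 40396⟩ 0 0)))),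
    by decide +kernel⟩

def covers13 : cell.Covers Vale.Agent.P237.Petty.Cor.Grid.N14.table row13.1 :=
  ⟨(.cut .d 0 (.cut .v 16777216 (.cut .d (-8388608) (.void 1 ⟨⟨0, 0, 0, 0, 0, 100000, 0, 0, 0, ⟨0, 0⟩, 0⟩, 0, 0⟩ 0 0) (.cut .d (-4194304) (.void 1 ⟨⟨0, 0, 0, 0, 0, 100000, 0, 0, 0, ⟨0, 0⟩, 0⟩, 0, 0⟩ 0 0) (.cut .d (-2097152) (.void 1 ⟨⟨0, 0, 0, 0, 0, 100000, 0, 0, 0, ⟨0, 0⟩, 0⟩, 0, 0⟩ 0 0) (.cut .d (-1048576) (.void 1 ⟨⟨0, 0, 0, 0, 0, 100000, 0, 0, 0, ⟨0, 0⟩, 0⟩, 0, 0⟩ 0 0) (.cut .d (-524288) (.void 1 ⟨⟨0, 0, 0, 0, 0, 100000, 0, 0, 0, ⟨0, 0⟩, 0⟩, 0, 0⟩ 0 0) (.cut .d (-262144) (.void 1 ⟨⟨0, 0, 0, 0, 0, 100000, 0, 0, 0, ⟨0, 0⟩, 0⟩,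 0, 0⟩ 0 0) (.cut .d (-131072) (.void 1 ⟨⟨0, 0, 0, 0, 0, 100000, 0, 0, 0, ⟨0, 0⟩, 0⟩, 0, 0⟩ 0 0) (.cut .d (-65536) (.void 1 ⟨⟨0, 0, 0, 0, 0, 100000, 0, 0, 0, ⟨0, 0⟩, 0⟩, 0, 0⟩ 0 0) (.cut .d (-32768) (.void 1 ⟨⟨0, 0, 0, 0, 0, 100000, 0, 0, 0, ⟨0, 0⟩, 0⟩, 0, 0⟩ 0 0) (.cut .v 8388608 (.cut .v 4194304 (.void 4 ⟨⟨0, 0, 100000, 0, 0, 0, 0, 0, 0, ⟨0, 0⟩, 0⟩, 0, 0⟩ 0 0) (.pos 5 .mm ⟨⟨0, 0, 1095849, 0, 0, 45533311, 0, 0, 0, ⟨0, 0⟩, 0⟩, 0, 0⟩ 0 0)) (.cut .s 10289152 (.pos 3 .mm ⟨⟨0, 0, 0, 0, 0, 115042084, 0, 0, 0, ⟨0, 0⟩, 0⟩, 0, 0⟩ 0 0) (.pos 3 .mm ⟨⟨0, 0, 0, 0, 0, 131130477, 0, 0, 0, ⟨0, 0⟩, 0⟩, 0, 0⟩ 0 0)))))))))))) (.cut .v 33554432 (.cut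 .v 25165824 (.cut .d (-8388608) (.void 25 ⟨⟨0, 0, 0, 0, 0, 100000, 0, 0, 0, ⟨0, 0⟩, 0⟩, 0, 0⟩ 0 0) (.cut .v 20971520 (.cut .d (-4194304) (.void 27 ⟨⟨100000, 0, 0, 0, 0, 0, 0, 0, 0, ⟨0, 0⟩, 0⟩, 0, 0⟩ 0 0) (.cut .v 18874368 (.cut .d (-2097152) (.void 29 ⟨⟨100000, 0, 0, 0, 0, 0, 0, 0, 0, ⟨0, 0⟩, 0⟩, 0, 0⟩ 0 0) (.cut .v 17825792 (.cut .d (-1048576) (.void 31 ⟨⟨100000, 0, 0, 0, 0, 0, 0, 0, 0, ⟨0, 0⟩, 0⟩, 0, 0⟩ 0 0) (.cut .v 17301504 (.cut .d (-524288) (.void 33 ⟨⟨100000, 0, 0, 0, 0, 0, 0, 0, 0, ⟨0, 0⟩, 0⟩, 0, 0⟩ 0 0) (.cut .v 17039360 (.cut .d (-262144) (.void 35 ⟨⟨100000, 0, 0, 0, 0, 0, 0, 0, 0, ⟨0, 0⟩, 0⟩, 0, 0⟩ 0 0) (.cut .d (-131072)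 (.void 35 ⟨⟨100000, 0, 0, 0, 0, 0, 0, 0, 0, ⟨0, 0⟩, 0⟩, 0, 0⟩ 0 0) (.cut .d (-65536) (.void 35 ⟨⟨0, 0, 0, 0, 0, 100000, 0, 0, 0, ⟨0, 0⟩, 0⟩, 0, 0⟩ 0 0) (.cut .d (-32768) (.void 35 ⟨⟨0, 0, 0, 0, 0, 100000, 0, 0, 0, ⟨0, 0⟩, 0⟩, 0, 0⟩ 0 0) (.cut .v 16908288 (.cut .s 10289152 (.cut .s 10190848 (.cut .v 16842752 (.cut .s 10141696 (.cut .s 10117120 (.cut .d (-16384) (.pos 39 .mp ⟨⟨51842395, 0, 0, 0, 0, 39819330, 0, 0, 0, ⟨0, 0⟩, 0⟩, 0, 0⟩ 0 0) (.cut .s 10104832 (.pos 39 .mp ⟨⟨53626753, 0, 0, 0, 0, 35431045, 0, 0, 0, ⟨0, 0⟩, 0⟩, 0, 0⟩ 0 0) (.cut .s 10110976 (.pos 39 .mp ⟨⟨53802931, 0, 0, 0, 0, 35883565, 0, 0, 0, ⟨0, 0⟩, 0⟩, 0, 0⟩ 0 0)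 (.pos 39 .mp ⟨⟨53992507, 0, 0, 0, 0, 36024546, 0, 0, 0, ⟨0, 0⟩, 0⟩, 0, 0⟩ 0 0)))) (.cut .d (-16384) (.cut .s 10129408 (.pos 39 .mp ⟨⟨52709566, 0, 0, 0, 0, 39627006, 0, 0, 0, ⟨0, 0⟩, 0⟩, 0, 0⟩ 0 0) (.pos 39 .mp ⟨⟨53148178, 0, 0, 0, 0, 39839026, 0, 0, 0, ⟨0, 0⟩, 0⟩, 0, 0⟩ 0 0)) (.cut .v 16809984 (.cut .l 131821 (.cut .d (-8192) (.pos 51 .mp ⟨⟨52783196, 0, 0, 0, 0, 39874519, 0, 0, 0, ⟨0, 0⟩, 0⟩, 0, 0⟩ 0 0) (.cut .s 10129408 (.pos 51 .mp ⟨⟨53866840, 0, 0, 0, 0, 36707889, 0, 0, 0, ⟨0, 0⟩, 0⟩, 0, 0⟩ 0 0) (.pos 51 .mp ⟨⟨54351146, 0, 0, 0, 0, 36851917, 0, 0, 0, ⟨0, 0⟩, 0⟩, 0, 0⟩ 0 0))) (.pos 51 .mp ⟨⟨54048290, 0, 0, 0, 0, 35727581, 0, 0,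 0, ⟨0, 0⟩, 0⟩, 0, 0⟩ 0 0)) (.pos 52 .mp ⟨⟨79151064, 0, 0, 0, 0, 0, 0, 0, 0, ⟨0, 0⟩, 0⟩, 0, 0⟩ 0 0)))) (.cut .s 10166272 (.cut .d (-16384) (.cut .s 10153984 (.pos 39 .mp ⟨⟨53590164, 0, 0, 0, 0, 40056232, 0, 0, 0, ⟨0, 0⟩, 0⟩, 0, 0⟩ 0 0) (.pos 39 .mp ⟨⟨54035540, 0, 0, 0, 0, 40278658, 0, 0, 0, ⟨0, 0⟩, 0⟩, 0, 0⟩ 0 0)) (.cut .v 16809984 (.cut .l 131821 (.cut .d (-8192) (.pos 51 .mp ⟨⟨53661576, 0, 0, 0, 0, 40317573, 0, 0, 0, ⟨0, 0⟩, 0⟩, 0, 0⟩ 0 0) (.cut .s 10153984 (.pos 51 .mp ⟨⟨54800934, 0, 0, 0, 0, 37062183, 0, 0, 0, ⟨0, 0⟩, 0⟩, 0, 0⟩ 0 0) (.pos 51 .mp ⟨⟨55253589, 0, 0, 0, 0, 37277652, 0, 0, 0, ⟨0, 0⟩, 0⟩, 0, 0⟩ 0 0))) (.pos 51 .mp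 ⟨⟨54948989, 0, 0, 0, 0, 36191767, 0, 0, 0, ⟨0, 0⟩, 0⟩, 0, 0⟩ 0 0)) (.pos 52 .mp ⟨⟨80271955, 0, 0, 0, 0, 0, 0, 0, 0, ⟨0, 0⟩, 0⟩, 0, 0⟩ 0 0))) (.cut .d (-16384) (.cut .s 10178560 (.pos 39 .mp ⟨⟨54484322, 0, 0, 0, 0, 40506340, 0, 0, 0, ⟨0, 0⟩, 0⟩, 0, 0⟩ 0 0) (.pos 39 .mp ⟨⟨54936526, 0, 0, 0, 0, 40739313, 0, 0, 0, ⟨0, 0⟩, 0⟩, 0, 0⟩ 0 0)) (.cut .v 16809984 (.cut .l 131821 (.cut .d (-8192) (.pos 51 .mp ⟨⟨54553469, 0, 0, 0, 0, 40781591, 0, 0, 0, ⟨0, 0⟩, 0⟩, 0, 0⟩ 0 0) (.cut .v 16793600 (.cut .s 10178560 (.pos 57 .mp ⟨⟨55591447, 0, 0, 0, 0, 37663090, 0, 0, 0, ⟨0, 0⟩, 0⟩, 0, 0⟩ 0 0) (.cut .s 10184704 (.pos 57 .mp ⟨⟨56496827, 0, 0, 0, 0,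 37129534, 0, 0, 0, ⟨0, 0⟩, 0⟩, 0, 0⟩ 0 0) (.pos 57 .mp ⟨⟨56694846, 0, 0, 0, 0, 37287221, 0, 0, 0, ⟨0, 0⟩, 0⟩, 0, 0⟩ 0 0))) (.pos 58 .mp ⟨⟨81327232, 0, 0, 0, 0, 0, 0, 0, 0, ⟨0, 0⟩, 0⟩, 0, 0⟩ 0 0))) (.pos 51 .mp ⟨⟨55863556, 0, 0, 0, 0, 36666472, 0, 0, 0, ⟨0, 0⟩, 0⟩, 0, 0⟩ 0 0)) (.pos 52 .mp ⟨⟨81419278, 0, 0, 0, 0, 0, 0, 0, 0, ⟨0, 0⟩, 0⟩, 0, 0⟩ 0 0))))) (.pos 40 .mp ⟨⟨84101045, 0, 0, 0, 0, 0, 0, 0, 0, ⟨0, 0⟩, 0⟩, 0, 0⟩ 0 0)) (.cut .v 16842752 (.cut .s 10240000 (.cut .s 10215424 (.cut .d (-16384) (.cut .s 10203136 (.pos 39 .mp ⟨⟨55392171, 0, 0, 0, 0, 40977612, 0, 0, 0, ⟨0, 0⟩, 0⟩, 0, 0⟩ 0 0) (.pos 39 .mp ⟨⟨55851271, 0, 0, 0, 0, 41221273,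 0, 0, 0, ⟨0, 0⟩, 0⟩, 0, 0⟩ 0 0)) (.cut .v 16809984 (.cut .l 131821 (.cut .s 10203136 (.cut .s 10196992 (.pos 51 .mp ⟨⟨56807769, 0, 0, 0, 0, 37551027, 0, 0, 0, ⟨0, 0⟩, 0⟩, 0, 0⟩ 0 0) (.pos 51 .mp ⟨⟨57042072, 0, 0, 0, 0, 37666813, 0, 0, 0, ⟨0, 0⟩, 0⟩, 0, 0⟩ 0 0)) (.cut .s 10209280 (.pos 51 .mp ⟨⟨57277269, 0, 0, 0, 0, 37783517, 0, 0, 0, ⟨0, 0⟩, 0⟩, 0, 0⟩ 0 0) (.pos 51 .mp ⟨⟨57513361, 0, 0, 0, 0, 37901136, 0, 0, 0, ⟨0, 0⟩, 0⟩, 0, 0⟩ 0 0))) (.pos 51 .mp ⟨⟨56792128, 0, 0, 0, 0, 37151176, 0, 0, 0, ⟨0, 0⟩, 0⟩, 0, 0⟩ 0 0)) (.pos 52 .mp ⟨⟨82593277, 0, 0, 0, 0, 0, 0, 0, 0, ⟨0, 0⟩, 0⟩, 0, 0⟩ 0 0))) (.cut .d (-16384) (.cut .s 10227712 (.pos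 39 .mp ⟨⟨56313845, 0, 0, 0, 0, 41470331, 0, 0, 0, ⟨0, 0⟩, 0⟩, 0, 0⟩ 0 0) (.pos 39 .mp ⟨⟨56779910, 0, 0, 0, 0, 41724824, 0, 0, 0, ⟨0, 0⟩, 0⟩, 0, 0⟩ 0 0)) (.cut .v 16809984 (.cut .l 131821 (.cut .s 10227712 (.cut .s 10221568 (.pos 51 .mp ⟨⟨57750353, 0, 0, 0, 0, 38019665, 0, 0, 0, ⟨0, 0⟩, 0⟩, 0, 0⟩ 0 0) (.pos 51 .mp ⟨⟨57988244, 0, 0, 0, 0, 38139102, 0, 0, 0, ⟨0, 0⟩, 0⟩, 0, 0⟩ 0 0)) (.cut .s 10233856 (.pos 51 .mp ⟨⟨58227039, 0, 0, 0, 0, 38259443, 0, 0, 0, ⟨0, 0⟩, 0⟩, 0, 0⟩ 0 0) (.pos 51 .mp ⟨⟨58466738, 0, 0, 0, 0, 38380685, 0, 0, 0, ⟨0, 0⟩, 0⟩, 0, 0⟩ 0 0))) (.pos 51 .mp ⟨⟨57734843, 0, 0, 0, 0, 37645353, 0, 0, 0, ⟨0, 0⟩, 0⟩, 0, 0⟩ 0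 0)) (.pos 52 .mp ⟨⟨83794203, 0, 0, 0, 0, 0, 0, 0, 0, ⟨0, 0⟩, 0⟩, 0, 0⟩ 0 0)))) (.cut .d (-16384) (.cut .d (-24576) (.pos 39 .mp ⟨⟨57673411, 0, 0, 0, 0, 44457915, 0, 0, 0, ⟨0, 0⟩, 0⟩, 0, 0⟩ 0 0) (.cut .l 131821 (.void 39 ⟨⟨0, 0, 0, 0, 0, 100000, 0, 0, 0, ⟨0, 0⟩, 0⟩, 0, 0⟩ 0 0) (.cut .v 16809984 (.pos 51 .mp ⟨⟨50827874, 0, 0, 0, 0, 51655094, 0, 0, 0, ⟨0, 0⟩, 0⟩, 0, 0⟩ 0 0) (.cut .s 10264576 (.pos 52 .mp ⟨⟨59624657, 0, 0, 0, 0, 38336068, 0, 0, 0, ⟨0, 0⟩, 0⟩, 0, 0⟩ 0 0) (.pos 52 .mp ⟨⟨60613415, 0, 0, 0, 0, 38820963, 0, 0, 0, ⟨0, 0⟩, 0⟩, 0, 0⟩ 0 0))))) (.cut .l 131821 (.cut .v 16809984 (.cut .s 10264576 (.cut .s 10252288 (.cut .s 10246144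 (.pos 51 .mp ⟨⟨58707345, 0, 0, 0, 0, 38502823, 0, 0, 0, ⟨0, 0⟩, 0⟩, 0, 0⟩ 0 0) (.pos 51 .mp ⟨⟨58948861, 0, 0, 0, 0, 38625855, 0, 0, 0, ⟨0, 0⟩, 0⟩, 0, 0⟩ 0 0)) (.cut .s 10258432 (.pos 51 .mp ⟨⟨59191289, 0, 0, 0, 0, 38749777, 0, 0, 0, ⟨0, 0⟩, 0⟩, 0, 0⟩ 0 0) (.pos 51 .mp ⟨⟨59434631, 0, 0, 0, 0, 38874585, 0, 0, 0, ⟨0, 0⟩, 0⟩, 0, 0⟩ 0 0))) (.cut .s 10276864 (.cut .s 10270720 (.pos 51 .mp ⟨⟨59678889, 0, 0, 0, 0, 39000276, 0, 0, 0, ⟨0, 0⟩, 0⟩, 0, 0⟩ 0 0) (.pos 51 .mp ⟨⟨59924066, 0, 0, 0, 0, 39126846, 0, 0, 0, ⟨0, 0⟩, 0⟩, 0, 0⟩ 0 0)) (.cut .d (-8192) (.pos 51 .mp ⟨⟨58737791, 0, 0, 0, 0, 42424375, 0, 0, 0, ⟨0, 0⟩, 0⟩, 0, 0⟩ 0 0) (.cut .s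 10283008 (.pos 51 .mp ⟨⟨59669567, 0, 0, 0, 0, 39944045, 0, 0, 0, ⟨0, 0⟩, 0⟩, 0, 0⟩ 0 0) (.pos 51 .mp ⟨⟨59918716, 0, 0, 0, 0, 40067292, 0, 0, 0, ⟨0, 0⟩, 0⟩, 0, 0⟩ 0 0))))) (.pos 52 .mp ⟨⟨90692491, 0, 0, 0, 0, 0, 0, 0, 0, ⟨0, 0⟩, 0⟩, 0, 0⟩ 0 0)) (.cut .s 10264576 (.pos 39 .mp ⟨⟨58941273, 0, 0, 0, 0, 37843708, 0, 0, 0, ⟨0, 0⟩, 0⟩, 0, 0⟩ 0 0) (.pos 39 .mp ⟨⟨59916372, 0, 0, 0, 0, 38350021, 0, 0, 0, ⟨0, 0⟩, 0⟩, 0, 0⟩ 0 0))))) (.pos 40 .mp ⟨⟨89070929, 0, 0, 0, 0, 0, 0, 0, 0, ⟨0, 0⟩, 0⟩, 0, 0⟩ 0 0))) (.cut .s 10387456 (.cut .v 16842752 (.cut .s 10338304 (.cut .d (-16384) (.cut .d (-24576) (.pos 39 .mp ⟨⟨59606810, 0, 0, 0, 0, 45662978, 0,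 0, 0, ⟨0, 0⟩, 0⟩, 0, 0⟩ 0 0) (.cut .l 131821 (.void 39 ⟨⟨0, 0, 0, 0, 0, 100000, 0, 0, 0, ⟨0, 0⟩, 0⟩, 0, 0⟩ 0 0) (.cut .v 16809984 (.pos 51 .mp ⟨⟨52300598, 0, 0, 0, 0, 53454116, 0, 0, 0, ⟨0, 0⟩, 0⟩, 0, 0⟩ 0 0) (.cut .s 10313728 (.pos 52 .mp ⟨⟨61617082, 0, 0, 0, 0, 39321759, 0, 0, 0, ⟨0, 0⟩, 0⟩, 0, 0⟩ 0 0) (.pos 52 .mp ⟨⟨62635810, 0, 0, 0, 0, 39838357, 0, 0, 0, ⟨0, 0⟩, 0⟩, 0, 0⟩ 0 0))))) (.cut .l 131821 (.cut .v 16809984 (.cut .s 10313728 (.cut .s 10301440 (.cut .d (-8192) (.pos 51 .mp ⟨⟨59220313, 0, 0, 0, 0, 42706025, 0, 0, 0, ⟨0, 0⟩, 0⟩, 0, 0⟩ 0 0) (.cut .s 10295296 (.pos 51 .mp ⟨⟨60168129, 0, 0, 0, 0, 40192639, 0, 0, 0, ⟨0, 0⟩,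 0⟩, 0, 0⟩ 0 0) (.pos 51 .mp ⟨⟨60417796, 0, 0, 0, 0, 40320105, 0, 0, 0, ⟨0, 0⟩, 0⟩, 0, 0⟩ 0 0))) (.cut .d (-8192) (.pos 51 .mp ⟨⟨59706419, 0, 0, 0, 0, 42993326, 0, 0, 0, ⟨0, 0⟩, 0⟩, 0, 0⟩ 0 0) (.cut .s 10307584 (.pos 51 .mp ⟨⟨60667708, 0, 0, 0, 0, 40449710, 0, 0, 0, ⟨0, 0⟩, 0⟩, 0, 0⟩ 0 0) (.pos 51 .mp ⟨⟨60917856, 0, 0, 0, 0, 40581473, 0, 0, 0, ⟨0, 0⟩, 0⟩, 0, 0⟩ 0 0)))) (.cut .s 10326016 (.cut .d (-8192) (.pos 51 .mp ⟨⟨60196127, 0, 0, 0, 0, 43286319, 0, 0, 0, ⟨0, 0⟩, 0⟩, 0, 0⟩ 0 0) (.cut .s 10319872 (.pos 51 .mp ⟨⟨61168229, 0, 0, 0, 0, 40715413, 0, 0, 0, ⟨0, 0⟩, 0⟩, 0, 0⟩ 0 0) (.pos 51 .mp ⟨⟨61418818, 0, 0, 0, 0, 40851550, 0, 0, 0,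 ⟨0, 0⟩, 0⟩, 0, 0⟩ 0 0))) (.cut .d (-8192) (.pos 51 .mp ⟨⟨60689456, 0, 0, 0, 0, 43585040, 0, 0, 0, ⟨0, 0⟩, 0⟩, 0, 0⟩ 0 0) (.cut .s 10332160 (.pos 51 .mp ⟨⟨61669612, 0, 0, 0, 0, 40989904, 0, 0, 0, ⟨0, 0⟩, 0⟩, 0, 0⟩ 0 0) (.pos 51 .mp ⟨⟨61920603, 0, 0, 0, 0, 41130495, 0, 0, 0, ⟨0, 0⟩, 0⟩, 0, 0⟩ 0 0))))) (.pos 52 .mp ⟨⟨93355942, 0, 0, 0, 0, 0, 0, 0, 0, ⟨0, 0⟩, 0⟩, 0, 0⟩ 0 0)) (.cut .s 10313728 (.pos 39 .mp ⟨⟨60906094, 0, 0, 0, 0, 38864140, 0, 0, 0, ⟨0, 0⟩, 0⟩, 0, 0⟩ 0 0) (.pos 39 .mp ⟨⟨61910586, 0, 0, 0, 0, 39385531, 0, 0, 0, ⟨0, 0⟩, 0⟩, 0, 0⟩ 0 0)))) (.cut .d (-16384) (.cut .d (-24576) (.pos 39 .mp ⟨⟨61598695, 0, 0, 0, 0, 46958575,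 0, 0, 0, ⟨0, 0⟩, 0⟩, 0, 0⟩ 0 0) (.cut .l 131821 (.void 39 ⟨⟨0, 0, 0, 0, 0, 100000, 0, 0, 0, ⟨0, 0⟩, 0⟩, 0, 0⟩ 0 0) (.cut .v 16809984 (.pos 51 .mp ⟨⟨54024020, 0, 0, 0, 0, 55050464, 0, 0, 0, ⟨0, 0⟩, 0⟩, 0, 0⟩ 0 0) (.cut .s 10362880 (.pos 52 .mp ⟨⟨63669750, 0, 0, 0, 0, 40370655, 0, 0, 0, ⟨0, 0⟩, 0⟩, 0, 0⟩ 0 0) (.pos 52 .mp ⟨⟨64719058, 0, 0, 0, 0, 40918546, 0, 0, 0, ⟨0, 0⟩, 0⟩, 0, 0⟩ 0 0))))) (.cut .l 131821 (.cut .v 16809984 (.cut .s 10362880 (.cut .s 10350592 (.cut .d (-8192) (.pos 51 .mp ⟨⟨61186423, 0, 0, 0, 0, 43889528, 0, 0, 0, ⟨0, 0⟩, 0⟩, 0, 0⟩ 0 0) (.cut .s 10344448 (.pos 51 .mp ⟨⟨62171779, 0, 0, 0, 0, 41273344, 0, 0, 0, ⟨0,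 0⟩, 0⟩, 0, 0⟩ 0 0) (.pos 51 .mp ⟨⟨62423132, 0, 0, 0, 0, 41418470, 0, 0, 0, ⟨0, 0⟩, 0⟩, 0, 0⟩ 0 0))) (.cut .d (-8192) (.pos 51 .mp ⟨⟨61687047, 0, 0, 0, 0, 44199822, 0, 0, 0, ⟨0, 0⟩, 0⟩, 0, 0⟩ 0 0) (.cut .s 10356736 (.pos 51 .mp ⟨⟨62674650, 0, 0, 0, 0, 41565893, 0, 0, 0, ⟨0, 0⟩, 0⟩, 0, 0⟩ 0 0) (.pos 51 .mp ⟨⟨62926323, 0, 0, 0, 0, 41715634, 0, 0, 0, ⟨0, 0⟩, 0⟩, 0, 0⟩ 0 0)))) (.cut .s 10375168 (.cut .d (-8192) (.pos 51 .mp ⟨⟨62191347, 0, 0, 0, 0, 44515961, 0, 0, 0, ⟨0, 0⟩, 0⟩, 0, 0⟩ 0 0) (.cut .s 10369024 (.pos 51 .mp ⟨⟨63178142, 0, 0, 0, 0, 41867714, 0, 0, 0, ⟨0, 0⟩, 0⟩, 0, 0⟩ 0 0) (.pos 51 .mp ⟨⟨63430096, 0, 0, 0, 0, 42022154, 0,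 0, 0, ⟨0, 0⟩, 0⟩, 0, 0⟩ 0 0))) (.cut .s 10381312 (.cut .s 10378240 (.pos 51 .mp ⟨⟨64108695, 0, 0, 0, 0, 41454659, 0, 0, 0, ⟨0, 0⟩, 0⟩, 0, 0⟩ 0 0) (.pos 51 .mp ⟨⟨64247061, 0, 0, 0, 0, 41515000, 0, 0, 0, ⟨0, 0⟩, 0⟩, 0, 0⟩ 0 0)) (.pos 51 .mp ⟨⟨64496990, 0, 0, 0, 0, 41551149, 0, 0, 0, ⟨0, 0⟩, 0⟩, 0, 0⟩ 0 0)))) (.pos 52 .mp ⟨⟨96094936, 0, 0, 0, 0, 0, 0, 0, 0, ⟨0, 0⟩, 0⟩, 0, 0⟩ 0 0)) (.cut .s 10362880 (.pos 39 .mp ⟨⟨62929998, 0, 0, 0, 0, 39913659, 0, 0, 0, ⟨0, 0⟩, 0⟩, 0, 0⟩ 0 0) (.pos 39 .mp ⟨⟨63964483, 0, 0, 0, 0, 40447983, 0, 0, 0, ⟨0, 0⟩, 0⟩, 0, 0⟩ 0 0))))) (.pos 40 .mp ⟨⟨94358539, 0, 0, 0, 0, 0, 0, 0, 0, ⟨0, 0⟩, 0⟩, 0, 0⟩ 0 0)) (.cut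 .v 16842752 (.cut .s 10436608 (.cut .d (-16384) (.cut .d (-24576) (.pos 39 .mp ⟨⟨63650255, 0, 0, 0, 0, 48347129, 0, 0, 0, ⟨0, 0⟩, 0⟩, 0, 0⟩ 0 0) (.cut .l 131821 (.void 39 ⟨⟨0, 0, 0, 0, 0, 100000, 0, 0, 0, ⟨0, 0⟩, 0⟩, 0, 0⟩ 0 0) (.cut .s 10412032 (.cut .s 10399744 (.pos 39 .mp ⟨⟨63375746, 0, 0, 0, 0, 44720129, 0, 0, 0, ⟨0, 0⟩, 0⟩, 0, 0⟩ 0 0) (.pos 39 .mp ⟨⟨63916179, 0, 0, 0, 0, 44995449, 0, 0, 0, ⟨0, 0⟩, 0⟩, 0, 0⟩ 0 0)) (.pos 39 .mp ⟨⟨64201837, 0, 0, 0, 0, 46409510, 0, 0, 0, ⟨0, 0⟩, 0⟩, 0, 0⟩ 0 0)))) (.cut .l 131821 (.cut .v 16809984 (.cut .s 10412032 (.cut .s 10399744 (.cut .s 10393600 (.pos 51 .mp ⟨⟨64760067, 0, 0, 0, 0, 41693702,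 0, 0, 0, ⟨0, 0⟩, 0⟩, 0, 0⟩ 0 0) (.pos 51 .mp ⟨⟨65024110, 0, 0, 0, 0, 41837057, 0, 0, 0, ⟨0, 0⟩, 0⟩, 0, 0⟩ 0 0)) (.cut .s 10405888 (.pos 51 .mp ⟨⟨65289122, 0, 0, 0, 0, 41981210, 0, 0, 0, ⟨0, 0⟩, 0⟩, 0, 0⟩ 0 0) (.pos 51 .mp ⟨⟨65555105, 0, 0, 0, 0, 42126157, 0, 0, 0, ⟨0, 0⟩, 0⟩, 0, 0⟩ 0 0))) (.cut .s 10424320 (.cut .s 10418176 (.pos 51 .mp ⟨⟨65822062, 0, 0, 0, 0, 42271893, 0, 0, 0, ⟨0, 0⟩, 0⟩, 0, 0⟩ 0 0) (.pos 51 .mp ⟨⟨66089995, 0, 0, 0, 0, 42418415, 0, 0, 0, ⟨0, 0⟩, 0⟩, 0, 0⟩ 0 0)) (.cut .s 10430464 (.pos 51 .mp ⟨⟨66358906, 0, 0, 0, 0, 42565719, 0, 0, 0, ⟨0, 0⟩, 0⟩, 0, 0⟩ 0 0) (.pos 51 .mp ⟨⟨66628800, 0, 0, 0, 0, 42713799, 0, 0, 0,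 ⟨0, 0⟩, 0⟩, 0, 0⟩ 0 0)))) (.pos 52 .mp ⟨⟨98906998, 0, 0, 0, 0, 0, 0, 0, 0, ⟨0, 0⟩, 0⟩, 0, 0⟩ 0 0)) (.cut .s 10412032 (.pos 39 .mp ⟨⟨65014196, 0, 0, 0, 0, 40987963, 0, 0, 0, ⟨0, 0⟩, 0⟩, 0, 0⟩ 0 0) (.pos 39 .mp ⟨⟨66079294, 0, 0, 0, 0, 41533055, 0, 0, 0, ⟨0, 0⟩, 0⟩, 0, 0⟩ 0 0)))) (.cut .d (-16384) (.cut .d (-24576) (.pos 39 .mp ⟨⟨65762721, 0, 0, 0, 0, 49831134, 0, 0, 0, ⟨0, 0⟩, 0⟩, 0, 0⟩ 0 0) (.cut .l 131821 (.void 39 ⟨⟨0, 0, 0, 0, 0, 100000, 0, 0, 0, ⟨0, 0⟩, 0⟩, 0, 0⟩ 0 0) (.cut .s 10461184 (.pos 39 .mp ⟨⟨65254361, 0, 0, 0, 0, 47081101, 0, 0, 0, ⟨0, 0⟩, 0⟩, 0, 0⟩ 0 0) (.pos 39 .mp ⟨⟨66322178, 0, 0, 0, 0, 47769175, 0, 0, 0, ⟨0, 0⟩,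 0⟩, 0, 0⟩ 0 0)))) (.cut .l 131821 (.cut .v 16809984 (.cut .s 10461184 (.cut .d (-8192) (.pos 51 .mp ⟨⟨65295400, 0, 0, 0, 0, 47352622, 0, 0, 0, ⟨0, 0⟩, 0⟩, 0, 0⟩ 0 0) (.cut .v 16793600 (.cut .l 65910 (.cut .d (-4096) (.pos 57 .mp ⟨⟨65316566, 0, 0, 0, 0, 47159845, 0, 0, 0, ⟨0, 0⟩, 0⟩, 0, 0⟩ 0 0) (.cut .s 10448896 (.cut .s 10442752 (.pos 57 .mp ⟨⟨66462804, 0, 0, 0, 0, 43507210, 0, 0, 0, ⟨0, 0⟩, 0⟩, 0, 0⟩ 0 0) (.pos 57 .mp ⟨⟨66755693, 0, 0, 0, 0, 43632399, 0, 0, 0, ⟨0, 0⟩, 0⟩, 0, 0⟩ 0 0)) (.pos 57 .mp ⟨⟨66798883, 0, 0, 0, 0, 44251936, 0, 0, 0, ⟨0, 0⟩, 0⟩, 0, 0⟩ 0 0))) (.pos 57 .mp ⟨⟨66639503, 0, 0, 0, 0, 42644552, 0, 0, 0, ⟨0, 0⟩, 0⟩,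 0, 0⟩ 0 0)) (.pos 58 .mp ⟨⟨95748837, 0, 0, 0, 0, 0, 0, 0, 0, ⟨0, 0⟩, 0⟩, 0, 0⟩ 0 0))) (.cut .d (-8192) (.pos 51 .mp ⟨⟨66360359, 0, 0, 0, 0, 48091289, 0, 0, 0, ⟨0, 0⟩, 0⟩, 0, 0⟩ 0 0) (.cut .v 16793600 (.cut .l 65910 (.cut .d (-4096) (.pos 57 .mp ⟨⟨66380104, 0, 0, 0, 0, 47897851, 0, 0, 0, ⟨0, 0⟩, 0⟩, 0, 0⟩ 0 0) (.cut .s 10473472 (.pos 57 .mp ⟨⟨67339659, 0, 0, 0, 0, 44576284, 0, 0, 0, ⟨0, 0⟩, 0⟩, 0, 0⟩ 0 0) (.pos 57 .mp ⟨⟨67851508, 0, 0, 0, 0, 44959283, 0, 0, 0, ⟨0, 0⟩, 0⟩, 0, 0⟩ 0 0))) (.pos 57 .mp ⟨⟨67724357, 0, 0, 0, 0, 43213124, 0, 0, 0, ⟨0, 0⟩, 0⟩, 0, 0⟩ 0 0)) (.pos 58 .mp ⟨⟨97231941, 0, 0, 0, 0, 0, 0, 0, 0, ⟨0, 0⟩, 0⟩, 0, 0⟩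 0 0)))) (.pos 52 .mp ⟨⟨101789721, 0, 0, 0, 0, 0, 0, 0, 0, ⟨0, 0⟩, 0⟩, 0, 0⟩ 0 0)) (.pos 39 .mp ⟨⟨68256287, 0, 0, 0, 0, 40809582, 0, 0, 0, ⟨0, 0⟩, 0⟩, 0, 0⟩ 0 0)))) (.pos 40 .mp ⟨⟨99943565, 0, 0, 0, 0, 0, 0, 0, 0, ⟨0, 0⟩, 0⟩, 0, 0⟩ 0 0)))) (.pos 38 .mp ⟨⟨95614442, 0, 0, 0, 0, 0, 0, 0, 0, ⟨0, 0⟩, 0⟩, 0, 0⟩ 0 0)))))) (.pos 36 .mp ⟨⟨110740145, 0, 0, 0, 0, 0, 0, 0, 0, ⟨0, 0⟩, 0⟩, 0, 0⟩ 0 0))) (.void 34 ⟨⟨100000, 0, 0, 0, 0, 0, 0, 0, 0, ⟨0, 0⟩, 0⟩, 0, 0⟩ 0 0))) (.void 32 ⟨⟨100000, 0, 0, 0, 0, 0, 0, 0, 0, ⟨0, 0⟩, 0⟩, 0, 0⟩ 0 0))) (.void 30 ⟨⟨100000, 0, 0, 0, 0, 0, 0, 0, 0, ⟨0, 0⟩, 0⟩, 0, 0⟩ 0 0))) (.void 28 ⟨⟨100000, 0, 0, 0, 0, 0, 0,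 0, 0, ⟨0, 0⟩, 0⟩, 0, 0⟩ 0 0))) (.void 26 ⟨⟨100000, 0, 0, 0, 0, 0, 0, 0, 0, ⟨0, 0⟩, 0⟩, 0, 0⟩ 0 0)) (.void 127 ⟨⟨100000, 0, 0, 0, 0, 0, 0, 0, 0, ⟨0, 0⟩, 0⟩, 0, 0⟩ 0 0))) (.cut .v 16777216 (.cut .v 8388608 (.cut .v 4194304 (.void 4 ⟨⟨0, 0, 66667, 0, 0, 0, 0, 0, 0, ⟨0, 0⟩, 0⟩, 0, 33333⟩ 0 0) (.pos 5 .pm ⟨⟨0, 0, 1049328, 0, 0, 0, 0, 0, 0, ⟨0, 0⟩, 0⟩, 0, 0⟩ 0 0)) (.pos 3 .pm ⟨⟨0, 0, 0, 0, 0, 0, 0, 0, 0, ⟨0, 0⟩, 0⟩, 0, 0⟩ 0 0)) (.cut .d 5556092 (.cut .v 33554432 (.cut .d 2778046 (.cut .v 25165824 (.cut .d 1389023 (.cut .v 20971520 (.cut .d 694511 (.cut .d 347255 (.cut .v 18874368 (.cut .v 17825792 (.pos 31 .pp ⟨⟨69510748, 0, 0, 0, 0,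 0, 0, 0, 0, ⟨0, 0⟩, 0⟩, 1108882, 0⟩ 0 0) (.pos 32 .pp ⟨⟨93207074, 0, 0, 0, 0, 0, 0, 0, 0, ⟨0, 0⟩, 0⟩, 0, 0⟩ 0 0)) (.pos 30 .pp ⟨⟨116332075, 0, 0, 0, 0, 0, 0, 0, 0, ⟨0, 0⟩, 0⟩, 0, 0⟩ 0 0)) (.pos 27 .pp ⟨⟨70852544, 0, 0, 0, 0, 0, 0, 0, 0, ⟨0, 0⟩, 0⟩, 0, 51318⟩ 0 0)) (.pos 27 .pp ⟨⟨0, 0, 0, 0, 0, 0, 0, 0, 0, ⟨0, 0⟩, 0⟩, 0, 692678⟩ 0 0)) (.cut .d 694511 (.cut .v 23068672 (.pos 63 .pp ⟨⟨134457880, 0, 0, 0, 0, 0, 0, 0, 0, ⟨0, 0⟩, 0⟩, 0, 0⟩ 0 0) (.pos 64 .pp ⟨⟨0, 0, 0, 0, 0, 0, 0, 0, 0, ⟨0, 0⟩, 0⟩, 17493722, 0⟩ 0 0)) (.pos 28 .pp ⟨⟨0, 0, 0, 0, 0, 0, 190982, 0, 0, ⟨0, 0⟩, 0⟩, 10419596, 0⟩ 0 0))) (.pos 25 .pp ⟨⟨0, 0, 0, 0, 0, 0, 0, 0, 0,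 ⟨0, 0⟩, 0⟩, 0, 748092⟩ 0 0)) (.cut .d 1389023 (.cut .d 694511 (.void 26 ⟨⟨0, 0, 0, 0, 0, 0, 0, 0, 0, ⟨0, 0⟩, 0⟩, 100000, 0⟩ 0 0) (.cut .v 29360128 (.pos 97 .pp ⟨⟨0, 0, 0, 0, 0, 0, 0, 0, 0, ⟨0, 0⟩, 0⟩, 15401464, 0⟩ 0 0) (.void 98 ⟨⟨0, 0, 0, 0, 0, 0, 0, 0, 0, ⟨0, 0⟩, 0⟩, 100000, 0⟩ 0 0))) (.pos 26 .pp ⟨⟨0, 0, 0, 0, 0, 0, 0, 0, 0, ⟨0, 0⟩, 0⟩, 12074412, 0⟩ 0 0))) (.pos 24 .pp ⟨⟨0, 0, 0, 0, 0, 0, 0, 0, 0, ⟨0, 0⟩, 0⟩, 0, 831214⟩ 0 0)) (.cut .v 50331648 (.cut .d 2778046 (.cut .d 1389023 (.void 128 ⟨⟨0, 0, 0, 0, 0, 0, 0, 0, 0, ⟨0, 0⟩, 0⟩, 100000, 0⟩ 0 0) (.pos 128 .pp ⟨⟨0, 0, 0, 0, 0, 0, 0, 0, 0, ⟨0, 0⟩, 0⟩, 25229623, 0⟩ 0 0)) (.pos 128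 .pp ⟨⟨0, 0, 0, 0, 0, 0, 80718548, 0, 0, ⟨0, 0⟩, 0⟩, 12011829, 0⟩ 0 0)) (.pos 129 .pp ⟨⟨0, 0, 0, 0, 0, 0, 276740244, 0, 0, ⟨0, 0⟩, 0⟩, 46410242, 0⟩ 0 0))) (.pos 126 .pp ⟨⟨0, 0, 0, 0, 0, 0, 210424362, 0, 0, ⟨0, 0⟩, 0⟩, 0, 129901963⟩ 0 0)))),
    by decide +kernel⟩

def covers14 : cell.Covers Vale.Agent.P237.Petty.Cor.Grid.N14.table row14.1 :=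
  ⟨(.cut .d 0 (.cut .v 16777216 (.cut .d (-8388608) (.void 1 ⟨⟨0, 0, 0, 0, 0, 100000, 0, 0, 0, ⟨0, 0⟩, 0⟩, 0, 0⟩ 0 0) (.cut .d (-4194304) (.void 1 ⟨⟨0, 0, 0, 0, 0, 100000, 0, 0, 0, ⟨0, 0⟩, 0⟩, 0, 0⟩ 0 0) (.cut .d (-2097152) (.void 1 ⟨⟨0, 0, 0, 0, 0, 100000, 0, 0, 0, ⟨0, 0⟩, 0⟩, 0, 0⟩ 0 0) (.cut .d (-1048576) (.void 1 ⟨⟨0, 0, 0, 0, 0, 100000, 0, 0, 0, ⟨0, 0⟩, 0⟩, 0, 0⟩ 0 0) (.cut .d (-524288) (.void 1 ⟨⟨0, 0, 0, 0, 0, 100000, 0, 0, 0, ⟨0, 0⟩, 0⟩, 0, 0⟩ 0 0) (.cut .d (-262144) (.void 1 ⟨⟨0, 0, 0, 0, 0, 100000, 0, 0, 0, ⟨0, 0⟩, 0⟩, 0, 0⟩ 0 0) (.cut .d (-131072) (.void 1 ⟨⟨0, 0, 0, 0, 0, 100000, 0, 0, 0, ⟨0, 0⟩, 0⟩, 0, 0⟩ 0 0) (.cut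 .d (-65536) (.void 1 ⟨⟨0, 0, 0, 0, 0, 100000, 0, 0, 0, ⟨0, 0⟩, 0⟩, 0, 0⟩ 0 0) (.cut .d (-32768) (.void 1 ⟨⟨0, 0, 0, 0, 0, 100000, 0, 0, 0, ⟨0, 0⟩, 0⟩, 0, 0⟩ 0 0) (.cut .v 8388608 (.cut .v 4194304 (.void 4 ⟨⟨0, 0, 100000, 0, 0, 0, 0, 0, 0, ⟨0, 0⟩, 0⟩, 0, 0⟩ 0 0) (.pos 5 .mm ⟨⟨0, 0, 1798084, 0, 0, 58046000, 0, 0, 0, ⟨0, 0⟩, 0⟩, 0, 0⟩ 0 0)) (.cut .s 10682368 (.pos 3 .mm ⟨⟨0, 0, 0, 0, 0, 150065753, 0, 0, 0, ⟨0, 0⟩, 0⟩, 0, 0⟩ 0 0) (.pos 3 .mm ⟨⟨0, 0, 0, 0, 0, 171127167, 0, 0, 0, ⟨0, 0⟩, 0⟩, 0, 0⟩ 0 0)))))))))))) (.cut .v 67108864 (.cut .v 33554432 (.cut .v 25165824 (.cut .d (-8388608) (.void 25 ⟨⟨0, 0, 0, 0, 0, 100000, 0, 0, 0, ⟨0, 0⟩,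 0⟩, 0, 0⟩ 0 0) (.cut .v 20971520 (.cut .d (-4194304) (.void 27 ⟨⟨100000, 0, 0, 0, 0, 0, 0, 0, 0, ⟨0, 0⟩, 0⟩, 0, 0⟩ 0 0) (.cut .v 18874368 (.cut .d (-2097152) (.void 29 ⟨⟨100000, 0, 0, 0, 0, 0, 0, 0, 0, ⟨0, 0⟩, 0⟩, 0, 0⟩ 0 0) (.cut .v 17825792 (.cut .d (-1048576) (.void 31 ⟨⟨100000, 0, 0, 0, 0, 0, 0, 0, 0, ⟨0, 0⟩, 0⟩, 0, 0⟩ 0 0) (.cut .v 17301504 (.cut .d (-524288) (.void 33 ⟨⟨100000, 0, 0, 0, 0, 0, 0, 0, 0, ⟨0, 0⟩, 0⟩, 0, 0⟩ 0 0) (.cut .v 17039360 (.cut .d (-262144) (.void 35 ⟨⟨100000, 0, 0, 0, 0, 0, 0, 0, 0, ⟨0, 0⟩, 0⟩, 0, 0⟩ 0 0) (.cut .d (-131072) (.void 35 ⟨⟨100000, 0, 0, 0, 0, 0, 0, 0, 0, ⟨0, 0⟩, 0⟩, 0, 0⟩ 0 0) (.cut .d (-65536)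 (.void 35 ⟨⟨100000, 0, 0, 0, 0, 0, 0, 0, 0, ⟨0, 0⟩, 0⟩, 0, 0⟩ 0 0) (.cut .d (-32768) (.void 35 ⟨⟨0, 0, 0, 0, 0, 100000, 0, 0, 0, ⟨0, 0⟩, 0⟩, 0, 0⟩ 0 0) (.cut .v 16908288 (.cut .s 10682368 (.cut .s 10584064 (.cut .v 16842752 (.cut .s 10534912 (.cut .d (-16384) (.cut .d (-24576) (.pos 39 .mp ⟨⟨68454254, 0, 0, 0, 0, 50430469, 0, 0, 0, ⟨0, 0⟩, 0⟩, 0, 0⟩ 0 0) (.cut .d (-20480) (.pos 39 .mp ⟨⟨67671739, 0, 0, 0, 0, 51198194, 0, 0, 0, ⟨0, 0⟩, 0⟩, 0, 0⟩ 0 0) (.cut .l 131821 (.void 39 ⟨⟨0, 0, 0, 0, 0, 100000, 0, 0, 0, ⟨0, 0⟩, 0⟩, 0, 0⟩ 0 0) (.cut .s 10510336 (.pos 39 .mp ⟨⟨67678926, 0, 0, 0, 0, 48083397, 0, 0, 0, ⟨0, 0⟩, 0⟩, 0, 0⟩ 0 0) (.pos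 39 .mp ⟨⟨68677879, 0, 0, 0, 0, 48867474, 0, 0, 0, ⟨0, 0⟩, 0⟩, 0, 0⟩ 0 0))))) (.cut .l 131821 (.cut .v 16809984 (.cut .s 10510336 (.cut .d (-8192) (.pos 51 .mp ⟨⟨67441042, 0, 0, 0, 0, 48852769, 0, 0, 0, ⟨0, 0⟩, 0⟩, 0, 0⟩ 0 0) (.cut .v 16793600 (.cut .s 10498048 (.pos 57 .mp ⟨⟨68701827, 0, 0, 0, 0, 44870443, 0, 0, 0, ⟨0, 0⟩, 0⟩, 0, 0⟩ 0 0) (.cut .s 10504192 (.pos 57 .mp ⟨⟨69824715, 0, 0, 0, 0, 44147915, 0, 0, 0, ⟨0, 0⟩, 0⟩, 0, 0⟩ 0 0) (.pos 57 .mp ⟨⟨70056628, 0, 0, 0, 0, 44345728, 0, 0, 0, ⟨0, 0⟩, 0⟩, 0, 0⟩ 0 0))) (.pos 58 .mp ⟨⟨98743865, 0, 0, 0, 0, 0, 0, 0, 0, ⟨0, 0⟩, 0⟩, 0, 0⟩ 0 0))) (.cut .d (-8192) (.pos 51 .mp ⟨⟨68538617, 0,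 0, 0, 0, 49415922, 0, 0, 0, ⟨0, 0⟩, 0⟩, 0, 0⟩ 0 0) (.cut .v 16793600 (.cut .l 65910 (.cut .d (-4096) (.pos 57 .mp ⟨⟨68554816, 0, 0, 0, 0, 49222308, 0, 0, 0, ⟨0, 0⟩, 0⟩, 0, 0⟩ 0 0) (.cut .s 10522624 (.pos 57 .mp ⟨⟨69543355, 0, 0, 0, 0, 45775408, 0, 0, 0, ⟨0, 0⟩, 0⟩, 0, 0⟩ 0 0) (.cut .s 10528768 (.pos 57 .mp ⟨⟨70342965, 0, 0, 0, 0, 45563979, 0, 0, 0, ⟨0, 0⟩, 0⟩, 0, 0⟩ 0 0) (.pos 57 .mp ⟨⟨70596694, 0, 0, 0, 0, 45742490, 0, 0, 0, ⟨0, 0⟩, 0⟩, 0, 0⟩ 0 0)))) (.pos 57 .mp ⟨⟨68283508, 0, 0, 0, 0, 47133879, 0, 0, 0, ⟨0, 0⟩, 0⟩, 0, 0⟩ 0 0)) (.pos 58 .mp ⟨⟨77988911, 0, 0, 0, 0, 34372406, 0, 0, 0, ⟨0, 0⟩, 0⟩, 0, 0⟩ 0 0)))) (.pos 52 .mp ⟨⟨105045343,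 0, 0, 0, 0, 0, 0, 0, 0, ⟨0, 0⟩, 0⟩, 0, 0⟩ 0 0)) (.cut .s 10510336 (.pos 39 .mp ⟨⟨69370537, 0, 0, 0, 0, 43382205, 0, 0, 0, ⟨0, 0⟩, 0⟩, 0, 0⟩ 0 0) (.pos 39 .mp ⟨⟨70501725, 0, 0, 0, 0, 43949396, 0, 0, 0, ⟨0, 0⟩, 0⟩, 0, 0⟩ 0 0)))) (.cut .d (-16384) (.cut .d (-24576) (.pos 39 .mp ⟨⟨70720793, 0, 0, 0, 0, 51652669, 0, 0, 0, ⟨0, 0⟩, 0⟩, 0, 0⟩ 0 0) (.cut .l 131821 (.void 39 ⟨⟨0, 0, 0, 0, 0, 100000, 0, 0, 0, ⟨0, 0⟩, 0⟩, 0, 0⟩ 0 0) (.cut .s 10559488 (.pos 39 .mp ⟨⟨69662818, 0, 0, 0, 0, 49751964, 0, 0, 0, ⟨0, 0⟩, 0⟩, 0, 0⟩ 0 0) (.pos 39 .mp ⟨⟨70762237, 0, 0, 0, 0, 50457549, 0, 0, 0, ⟨0, 0⟩, 0⟩, 0, 0⟩ 0 0)))) (.cut .l 131821 (.cut .v 16809984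 (.cut .s 10559488 (.cut .d (-8192) (.pos 51 .mp ⟨⟨69653113, 0, 0, 0, 0, 50007266, 0, 0, 0, ⟨0, 0⟩, 0⟩, 0, 0⟩ 0 0) (.cut .v 16793600 (.cut .l 65910 (.cut .d (-4096) (.pos 57 .mp ⟨⟨69667197, 0, 0, 0, 0, 49814121, 0, 0, 0, ⟨0, 0⟩, 0⟩, 0, 0⟩ 0 0) (.cut .v 16785408 (.cut .l 32955 (.cut .d (-2048) (.pos 75 .mp ⟨⟨69674391, 0, 0, 0, 0, 49717296, 0, 0, 0, ⟨0, 0⟩, 0⟩, 0, 0⟩ 0 0) (.cut .s 10547200 (.pos 75 .mp ⟨⟨70456755, 0, 0, 0, 0, 46634231, 0, 0, 0, ⟨0, 0⟩, 0⟩, 0, 0⟩ 0 0) (.cut .s 10553344 (.pos 75 .mp ⟨⟨71358230, 0, 0, 0, 0, 46296590, 0, 0, 0, ⟨0, 0⟩, 0⟩, 0, 0⟩ 0 0) (.pos 75 .mp ⟨⟨71620205, 0, 0, 0, 0, 46475622, 0, 0, 0, ⟨0, 0⟩, 0⟩, 0,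 0⟩ 0 0)))) (.pos 75 .mp ⟨⟨69535654, 0, 0, 0, 0, 47468908, 0, 0, 0, ⟨0, 0⟩, 0⟩, 0, 0⟩ 0 0)) (.pos 76 .mp ⟨⟨79113915, 0, 0, 0, 0, 34827262, 0, 0, 0, ⟨0, 0⟩, 0⟩, 0, 0⟩ 0 0))) (.pos 57 .mp ⟨⟨69389659, 0, 0, 0, 0, 47780426, 0, 0, 0, ⟨0, 0⟩, 0⟩, 0, 0⟩ 0 0)) (.pos 58 .mp ⟨⟨78974317, 0, 0, 0, 0, 35131214, 0, 0, 0, ⟨0, 0⟩, 0⟩, 0, 0⟩ 0 0))) (.cut .d (-8192) (.pos 51 .mp ⟨⟨70784710, 0, 0, 0, 0, 50627194, 0, 0, 0, ⟨0, 0⟩, 0⟩, 0, 0⟩ 0 0) (.cut .v 16793600 (.cut .l 65910 (.cut .d (-4096) (.pos 57 .mp ⟨⟨70796634, 0, 0, 0, 0, 50434535, 0, 0, 0, ⟨0, 0⟩, 0⟩, 0, 0⟩ 0 0) (.cut .v 16785408 (.cut .l 32955 (.cut .d (-2048) (.pos 75 .mp ⟨⟨70802749, 0,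 0, 0, 0, 50337951, 0, 0, 0, ⟨0, 0⟩, 0⟩, 0, 0⟩ 0 0) (.cut .l 16477 (.cut .d (-1024) (.pos 75 .mp ⟨⟨72100866, 0, 0, 0, 0, 47788302, 0, 0, 0, ⟨0, 0⟩, 0⟩, 0, 0⟩ 0 0) (.cut .v 16781312 (.cut .l 8238 (.cut .d (-512) (.pos 77 .mp ⟨⟨72027116, 0, 0, 0, 0, 47903247, 0, 0, 0, ⟨0, 0⟩, 0⟩, 0, 0⟩ 0 0) (.cut .s 10571776 (.pos 77 .mp ⟨⟨71452039, 0, 0, 0, 0, 47425894, 0, 0, 0, ⟨0, 0⟩, 0⟩, 0, 0⟩ 0 0) (.cut .s 10577920 (.pos 77 .mp ⟨⟨72125871, 0, 0, 0, 0, 47447952, 0, 0, 0, ⟨0, 0⟩, 0⟩, 0, 0⟩ 0 0) (.pos 77 .mp ⟨⟨72403233, 0, 0, 0, 0, 47617131, 0, 0, 0, ⟨0, 0⟩, 0⟩, 0, 0⟩ 0 0)))) (.pos 77 .mp ⟨⟨72007134, 0, 0, 0, 0, 45974895, 0, 0, 0, ⟨0, 0⟩, 0⟩, 0,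 0⟩ 0 0)) (.pos 78 .mp ⟨⟨103108900, 0, 0, 0, 0, 0, 0, 0, 0, ⟨0, 0⟩, 0⟩, 0, 0⟩ 0 0))) (.pos 75 .mp ⟨⟨72060894, 0, 0, 0, 0, 45918459, 0, 0, 0, ⟨0, 0⟩, 0⟩, 0, 0⟩ 0 0))) (.pos 75 .mp ⟨⟨70660817, 0, 0, 0, 0, 48125257, 0, 0, 0, ⟨0, 0⟩, 0⟩, 0, 0⟩ 0 0)) (.pos 76 .mp ⟨⟨80163551, 0, 0, 0, 0, 35540057, 0, 0, 0, ⟨0, 0⟩, 0⟩, 0, 0⟩ 0 0))) (.pos 57 .mp ⟨⟨70512704, 0, 0, 0, 0, 48441898, 0, 0, 0, ⟨0, 0⟩, 0⟩, 0, 0⟩ 0 0)) (.pos 58 .mp ⟨⟨80022014, 0, 0, 0, 0, 35848845, 0, 0, 0, ⟨0, 0⟩, 0⟩, 0, 0⟩ 0 0)))) (.pos 52 .mp ⟨⟨108103234, 0, 0, 0, 0, 0, 0, 0, 0, ⟨0, 0⟩, 0⟩, 0, 0⟩ 0 0)) (.cut .s 10559488 (.pos 39 .mp ⟨⟨71650394, 0, 0, 0, 0, 44530964, 0, 0, 0,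 ⟨0, 0⟩, 0⟩, 0, 0⟩ 0 0) (.pos 39 .mp ⟨⟨72816729, 0, 0, 0, 0, 45126221, 0, 0, 0, ⟨0, 0⟩, 0⟩, 0, 0⟩ 0 0))))) (.pos 40 .mp ⟨⟨106430894, 0, 0, 0, 0, 0, 0, 0, 0, ⟨0, 0⟩, 0⟩, 0, 0⟩ 0 0)) (.cut .v 16842752 (.cut .s 10633216 (.cut .d (-16384) (.cut .d (-24576) (.pos 39 .mp ⟨⟨73049081, 0, 0, 0, 0, 53004630, 0, 0, 0, ⟨0, 0⟩, 0⟩, 0, 0⟩ 0 0) (.cut .l 131821 (.void 39 ⟨⟨0, 0, 0, 0, 0, 100000, 0, 0, 0, ⟨0, 0⟩, 0⟩, 0, 0⟩ 0 0) (.cut .v 16809984 (.pos 51 .mp ⟨⟨0, 0, 0, 0, 0, 163087404, 0, 0, 0, ⟨0, 0⟩, 0⟩, 0, 0⟩ 0 0) (.cut .s 10608640 (.pos 52 .mp ⟨⟨74903465, 0, 0, 0, 0, 46190437, 0, 0, 0, ⟨0, 0⟩, 0⟩, 0, 0⟩ 0 0) (.pos 52 .mp ⟨⟨76123989, 0, 0, 0,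 0, 46784143, 0, 0, 0, ⟨0, 0⟩, 0⟩, 0, 0⟩ 0 0))))) (.cut .l 131821 (.cut .v 16809984 (.cut .s 10608640 (.cut .d (-8192) (.cut .s 10596352 (.pos 51 .mp ⟨⟨71933588, 0, 0, 0, 0, 50341025, 0, 0, 0, ⟨0, 0⟩, 0⟩, 0, 0⟩ 0 0) (.pos 51 .mp ⟨⟨72514565, 0, 0, 0, 0, 50665593, 0, 0, 0, ⟨0, 0⟩, 0⟩, 0, 0⟩ 0 0)) (.cut .v 16793600 (.cut .l 65910 (.cut .d (-4096) (.pos 57 .mp ⟨⟨71943305, 0, 0, 0, 0, 51083952, 0, 0, 0, ⟨0, 0⟩, 0⟩, 0, 0⟩ 0 0) (.cut .v 16785408 (.cut .l 32955 (.cut .d (-2048) (.pos 75 .mp ⟨⟨71948320, 0, 0, 0, 0, 50987617, 0, 0, 0, ⟨0, 0⟩, 0⟩, 0, 0⟩ 0 0) (.cut .l 16477 (.cut .d (-1024) (.pos 75 .mp ⟨⟨73223640, 0, 0, 0, 0, 48493172, 0, 0,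 0, ⟨0, 0⟩, 0⟩, 0, 0⟩ 0 0) (.cut .v 16781312 (.cut .l 8238 (.cut .d (-512) (.pos 77 .mp ⟨⟨73190344, 0, 0, 0, 0, 48512943, 0, 0, 0, ⟨0, 0⟩, 0⟩, 0, 0⟩ 0 0) (.cut .v 16779264 (.cut .l 4119 (.cut .v 16778240 (.cut .s 10596352 (.cut .s 10590208 (.pos 81 .mp ⟨⟨73174423, 0, 0, 0, 0, 47010750, 0, 0, 0, ⟨0, 0⟩, 0⟩, 0, 0⟩ 0 0) (.pos 81 .mp ⟨⟨73444682, 0, 0, 0, 0, 47197555, 0, 0, 0, ⟨0, 0⟩, 0⟩, 0, 0⟩ 0 0)) (.cut .s 10602496 (.pos 81 .mp ⟨⟨73717614, 0, 0, 0, 0, 47383540, 0, 0, 0, ⟨0, 0⟩, 0⟩, 0, 0⟩ 0 0) (.pos 81 .mp ⟨⟨73993251, 0, 0, 0, 0, 47568657, 0, 0, 0, ⟨0, 0⟩, 0⟩, 0, 0⟩ 0 0))) (.pos 82 .mp ⟨⟨110350253, 0, 0, 0, 0, 0, 0, 0, 0, ⟨0, 0⟩, 0⟩,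 0, 0⟩ 0 0)) (.pos 79 .mp ⟨⟨73142803, 0, 0, 0, 0, 46638797, 0, 0, 0, ⟨0, 0⟩, 0⟩, 0, 0⟩ 0 0)) (.pos 80 .mp ⟨⟨104595499, 0, 0, 0, 0, 0, 0, 0, 0, ⟨0, 0⟩, 0⟩, 0, 0⟩ 0 0))) (.pos 77 .mp ⟨⟨73170370, 0, 0, 0, 0, 46609761, 0, 0, 0, ⟨0, 0⟩, 0⟩, 0, 0⟩ 0 0)) (.pos 78 .mp ⟨⟨104611894, 0, 0, 0, 0, 0, 0, 0, 0, ⟨0, 0⟩, 0⟩, 0, 0⟩ 0 0))) (.pos 75 .mp ⟨⟨73225523, 0, 0, 0, 0, 46551553, 0, 0, 0, ⟨0, 0⟩, 0⟩, 0, 0⟩ 0 0))) (.pos 75 .mp ⟨⟨71803112, 0, 0, 0, 0, 48795723, 0, 0, 0, ⟨0, 0⟩, 0⟩, 0, 0⟩ 0 0)) (.pos 76 .mp ⟨⟨81279382, 0, 0, 0, 0, 36205832, 0, 0, 0, ⟨0, 0⟩, 0⟩, 0, 0⟩ 0 0))) (.pos 57 .mp ⟨⟨71652825, 0, 0, 0, 0, 49117625, 0, 0, 0, ⟨0, 0⟩, 0⟩, 0, 0⟩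 0 0)) (.pos 58 .mp ⟨⟨81135835, 0, 0, 0, 0, 36519618, 0, 0, 0, ⟨0, 0⟩, 0⟩, 0, 0⟩ 0 0))) (.cut .d (-8192) (.cut .s 10620928 (.pos 51 .mp ⟨⟨73099931, 0, 0, 0, 0, 50997523, 0, 0, 0, ⟨0, 0⟩, 0⟩, 0, 0⟩ 0 0) (.pos 51 .mp ⟨⟨73689711, 0, 0, 0, 0, 51336865, 0, 0, 0, ⟨0, 0⟩, 0⟩, 0, 0⟩ 0 0)) (.cut .v 16793600 (.cut .l 65910 (.cut .d (-4096) (.pos 57 .mp ⟨⟨73107396, 0, 0, 0, 0, 51762778, 0, 0, 0, ⟨0, 0⟩, 0⟩, 0, 0⟩ 0 0) (.cut .l 32955 (.cut .v 16785408 (.cut .d (-2048) (.pos 75 .mp ⟨⟨73111286, 0, 0, 0, 0, 51666700, 0, 0, 0, ⟨0, 0⟩, 0⟩, 0, 0⟩ 0 0) (.cut .l 16477 (.cut .d (-1024) (.pos 75 .mp ⟨⟨74365318, 0, 0, 0, 0, 49224219, 0, 0, 0, ⟨0, 0⟩, 0⟩,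 0, 0⟩ 0 0) (.cut .v 16781312 (.cut .l 8238 (.cut .d (-512) (.pos 77 .mp ⟨⟨74367939, 0, 0, 0, 0, 49159049, 0, 0, 0, ⟨0, 0⟩, 0⟩, 0, 0⟩ 0 0) (.cut .v 16779264 (.cut .l 4119 (.cut .v 16778240 (.cut .s 10620928 (.cut .s 10614784 (.pos 81 .mp ⟨⟨74271624, 0, 0, 0, 0, 47752860, 0, 0, 0, ⟨0, 0⟩, 0⟩, 0, 0⟩ 0 0) (.pos 81 .mp ⟨⟨74552767, 0, 0, 0, 0, 47936101, 0, 0, 0, ⟨0, 0⟩, 0⟩, 0, 0⟩ 0 0)) (.cut .s 10627072 (.pos 81 .mp ⟨⟨74836712, 0, 0, 0, 0, 48118333, 0, 0, 0, ⟨0, 0⟩, 0⟩, 0, 0⟩ 0 0) (.pos 81 .mp ⟨⟨75123492, 0, 0, 0, 0, 48299509, 0, 0, 0, ⟨0, 0⟩, 0⟩, 0, 0⟩ 0 0))) (.pos 82 .mp ⟨⟨111959162, 0, 0, 0, 0, 0, 0, 0, 0, ⟨0, 0⟩, 0⟩, 0, 0⟩ 0 0)) (.pos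 79 .mp ⟨⟨74322917, 0, 0, 0, 0, 47287489, 0, 0, 0, ⟨0, 0⟩, 0⟩, 0, 0⟩ 0 0)) (.pos 80 .mp ⟨⟨106133136, 0, 0, 0, 0, 0, 0, 0, 0, ⟨0, 0⟩, 0⟩, 0, 0⟩ 0 0))) (.pos 77 .mp ⟨⟨74351195, 0, 0, 0, 0, 47257548, 0, 0, 0, ⟨0, 0⟩, 0⟩, 0, 0⟩ 0 0)) (.pos 78 .mp ⟨⟨106149784, 0, 0, 0, 0, 0, 0, 0, 0, ⟨0, 0⟩, 0⟩, 0, 0⟩ 0 0))) (.pos 75 .mp ⟨⟨74407772, 0, 0, 0, 0, 47197528, 0, 0, 0, ⟨0, 0⟩, 0⟩, 0, 0⟩ 0 0))) (.pos 76 .mp ⟨⟨112061046, 0, 0, 0, 0, 0, 0, 0, 0, ⟨0, 0⟩, 0⟩, 0, 0⟩ 0 0)) (.pos 57 .mp ⟨⟨74520983, 0, 0, 0, 0, 47077601, 0, 0, 0, ⟨0, 0⟩, 0⟩, 0, 0⟩ 0 0))) (.pos 57 .mp ⟨⟨72810201, 0, 0, 0, 0, 49806936, 0, 0, 0, ⟨0, 0⟩, 0⟩, 0, 0⟩ 0 0)) (.pos 58 .mp ⟨⟨82319651,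 0, 0, 0, 0, 37137761, 0, 0, 0, ⟨0, 0⟩, 0⟩, 0, 0⟩ 0 0)))) (.pos 52 .mp ⟨⟨111267251, 0, 0, 0, 0, 0, 0, 0, 0, ⟨0, 0⟩, 0⟩, 0, 0⟩ 0 0)) (.cut .s 10608640 (.pos 39 .mp ⟨⟨74000917, 0, 0, 0, 0, 45734482, 0, 0, 0, ⟨0, 0⟩, 0⟩, 0, 0⟩ 0 0) (.pos 39 .mp ⟨⟨75203150, 0, 0, 0, 0, 46355054, 0, 0, 0, ⟨0, 0⟩, 0⟩, 0, 0⟩ 0 0)))) (.cut .d (-16384) (.cut .d (-24576) (.void 39 ⟨⟨0, 0, 0, 0, 0, 100000, 0, 0, 0, ⟨0, 0⟩, 0⟩, 0, 0⟩ 0 0) (.cut .l 131821 (.void 39 ⟨⟨0, 0, 0, 0, 0, 100000, 0, 0, 0, ⟨0, 0⟩, 0⟩, 0, 0⟩ 0 0) (.cut .v 16809984 (.pos 51 .mp ⟨⟨0, 0, 0, 0, 0, 168547221, 0, 0, 0, ⟨0, 0⟩, 0⟩, 0, 0⟩ 0 0) (.cut .s 10657792 (.pos 52 .mp ⟨⟨77363149, 0, 0,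 0, 0, 47399028, 0, 0, 0, ⟨0, 0⟩, 0⟩, 0, 0⟩ 0 0) (.pos 52 .mp ⟨⟨78621148, 0, 0, 0, 0, 48034952, 0, 0, 0, ⟨0, 0⟩, 0⟩, 0, 0⟩ 0 0))))) (.cut .l 131821 (.cut .v 16809984 (.cut .s 10657792 (.cut .d (-8192) (.cut .s 10645504 (.pos 51 .mp ⟨⟨74283927, 0, 0, 0, 0, 51683674, 0, 0, 0, ⟨0, 0⟩, 0⟩, 0, 0⟩ 0 0) (.pos 51 .mp ⟨⟨74882604, 0, 0, 0, 0, 52038000, 0, 0, 0, ⟨0, 0⟩, 0⟩, 0, 0⟩ 0 0)) (.cut .l 65910 (.cut .v 16793600 (.cut .d (-4096) (.pos 57 .mp ⟨⟨74289092, 0, 0, 0, 0, 52471426, 0, 0, 0, ⟨0, 0⟩, 0⟩, 0, 0⟩ 0 0) (.cut .l 32955 (.cut .v 16785408 (.cut .d (-2048) (.pos 75 .mp ⟨⟨74291835, 0, 0, 0, 0, 52375614, 0, 0, 0, ⟨0, 0⟩, 0⟩, 0, 0⟩ 0 0) (.cut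 .l 16477 (.cut .v 16781312 (.cut .d (-1024) (.pos 77 .mp ⟨⟨74293229, 0, 0, 0, 0, 52327730, 0, 0, 0, ⟨0, 0⟩, 0⟩, 0, 0⟩ 0 0) (.cut .l 8238 (.cut .d (-512) (.pos 77 .mp ⟨⟨75543259, 0, 0, 0, 0, 49881395, 0, 0, 0, ⟨0, 0⟩, 0⟩, 0, 0⟩ 0 0) (.cut .v 16779264 (.cut .l 4119 (.cut .v 16778240 (.cut .s 10645504 (.cut .s 10639360 (.pos 81 .mp ⟨⟨75413138, 0, 0, 0, 0, 48479579, 0, 0, 0, ⟨0, 0⟩, 0⟩, 0, 0⟩ 0 0) (.pos 81 .mp ⟨⟨75705685, 0, 0, 0, 0, 48658497, 0, 0, 0, ⟨0, 0⟩, 0⟩, 0, 0⟩ 0 0)) (.cut .s 10651648 (.pos 81 .mp ⟨⟨76001166, 0, 0, 0, 0, 48836214, 0, 0, 0, ⟨0, 0⟩, 0⟩, 0, 0⟩ 0 0) (.pos 81 .mp ⟨⟨76299612, 0, 0, 0, 0, 49012682, 0, 0, 0, ⟨0, 0⟩,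 0⟩, 0, 0⟩ 0 0))) (.pos 82 .mp ⟨⟨113593516, 0, 0, 0, 0, 0, 0, 0, 0, ⟨0, 0⟩, 0⟩, 0, 0⟩ 0 0)) (.pos 79 .mp ⟨⟨75520794, 0, 0, 0, 0, 47948439, 0, 0, 0, ⟨0, 0⟩, 0⟩, 0, 0⟩ 0 0)) (.pos 80 .mp ⟨⟨107706020, 0, 0, 0, 0, 0, 0, 0, 0, ⟨0, 0⟩, 0⟩, 0, 0⟩ 0 0))) (.pos 77 .mp ⟨⟨75549799, 0, 0, 0, 0, 47917573, 0, 0, 0, ⟨0, 0⟩, 0⟩, 0, 0⟩ 0 0))) (.pos 78 .mp ⟨⟨113640089, 0, 0, 0, 0, 0, 0, 0, 0, ⟨0, 0⟩, 0⟩, 0, 0⟩ 0 0)) (.pos 75 .mp ⟨⟨75607831, 0, 0, 0, 0, 47855700, 0, 0, 0, ⟨0, 0⟩, 0⟩, 0, 0⟩ 0 0))) (.pos 76 .mp ⟨⟨113696803, 0, 0, 0, 0, 0, 0, 0, 0, ⟨0, 0⟩, 0⟩, 0, 0⟩ 0 0)) (.pos 57 .mp ⟨⟨75723952, 0, 0, 0, 0, 47732068, 0, 0, 0, ⟨0, 0⟩, 0⟩, 0, 0⟩ 0 0)))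 (.pos 58 .mp ⟨⟨113809559, 0, 0, 0, 0, 0, 0, 0, 0, ⟨0, 0⟩, 0⟩, 0, 0⟩ 0 0)) (.pos 51 .mp ⟨⟨75956602, 0, 0, 0, 0, 47484454, 0, 0, 0, ⟨0, 0⟩, 0⟩, 0, 0⟩ 0 0))) (.cut .d (-8192) (.cut .s 10670080 (.pos 51 .mp ⟨⟨75485766, 0, 0, 0, 0, 52399896, 0, 0, 0, ⟨0, 0⟩, 0⟩, 0, 0⟩ 0 0) (.pos 51 .mp ⟨⟨76093436, 0, 0, 0, 0, 52769416, 0, 0, 0, ⟨0, 0⟩, 0⟩, 0, 0⟩ 0 0)) (.cut .l 65910 (.cut .v 16793600 (.cut .d (-4096) (.pos 57 .mp ⟨⟨75488585, 0, 0, 0, 0, 53210315, 0, 0, 0, ⟨0, 0⟩, 0⟩, 0, 0⟩ 0 0) (.cut .l 32955 (.cut .v 16785408 (.cut .d (-2048) (.pos 75 .mp ⟨⟨75490156, 0, 0, 0, 0, 53114778, 0, 0, 0, ⟨0, 0⟩, 0⟩, 0, 0⟩ 0 0) (.cut .l 16477 (.cut .v 16781312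 (.cut .d (-1024) (.pos 77 .mp ⟨⟨75490965, 0, 0, 0, 0, 53067032, 0, 0, 0, ⟨0, 0⟩, 0⟩, 0, 0⟩ 0 0) (.cut .l 8238 (.cut .d (-512) (.pos 77 .mp ⟨⟨76753566, 0, 0, 0, 0, 50593747, 0, 0, 0, ⟨0, 0⟩, 0⟩, 0, 0⟩ 0 0) (.cut .v 16779264 (.cut .l 4119 (.cut .v 16778240 (.cut .s 10670080 (.cut .s 10663936 (.pos 81 .mp ⟨⟨76601058, 0, 0, 0, 0, 49187851, 0, 0, 0, ⟨0, 0⟩, 0⟩, 0, 0⟩ 0 0) (.pos 81 .mp ⟨⟨76905536, 0, 0, 0, 0, 49361672, 0, 0, 0, ⟨0, 0⟩, 0⟩, 0, 0⟩ 0 0)) (.cut .s 10676224 (.pos 81 .mp ⟨⟨77213081, 0, 0, 0, 0, 49534096, 0, 0, 0, ⟨0, 0⟩, 0⟩, 0, 0⟩ 0 0) (.pos 81 .mp ⟨⟨77523725, 0, 0, 0, 0, 49705074, 0, 0, 0, ⟨0, 0⟩, 0⟩, 0, 0⟩ 0 0))) (.pos 82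 .mp ⟨⟨115252915, 0, 0, 0, 0, 0, 0, 0, 0, ⟨0, 0⟩, 0⟩, 0, 0⟩ 0 0)) (.pos 79 .mp ⟨⟨76736628, 0, 0, 0, 0, 48620960, 0, 0, 0, ⟨0, 0⟩, 0⟩, 0, 0⟩ 0 0)) (.pos 80 .mp ⟨⟨109314511, 0, 0, 0, 0, 0, 0, 0, 0, ⟨0, 0⟩, 0⟩, 0, 0⟩ 0 0))) (.pos 77 .mp ⟨⟨76766376, 0, 0, 0, 0, 48589147, 0, 0, 0, ⟨0, 0⟩, 0⟩, 0, 0⟩ 0 0))) (.pos 78 .mp ⟨⟨115300132, 0, 0, 0, 0, 0, 0, 0, 0, ⟨0, 0⟩, 0⟩, 0, 0⟩ 0 0)) (.pos 75 .mp ⟨⟨76825893, 0, 0, 0, 0, 48525379, 0, 0, 0, ⟨0, 0⟩, 0⟩, 0, 0⟩ 0 0))) (.pos 76 .mp ⟨⟨115357635, 0, 0, 0, 0, 0, 0, 0, 0, ⟨0, 0⟩, 0⟩, 0, 0⟩ 0 0)) (.pos 57 .mp ⟨⟨76944984, 0, 0, 0, 0, 48397959, 0, 0, 0, ⟨0, 0⟩, 0⟩, 0, 0⟩ 0 0))) (.pos 58 .mp ⟨⟨115471962,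 0, 0, 0, 0, 0, 0, 0, 0, ⟨0, 0⟩, 0⟩, 0, 0⟩ 0 0)) (.pos 51 .mp ⟨⟨77183584, 0, 0, 0, 0, 48142762, 0, 0, 0, ⟨0, 0⟩, 0⟩, 0, 0⟩ 0 0)))) (.pos 52 .mp ⟨⟨114534092, 0, 0, 0, 0, 0, 0, 0, 0, ⟨0, 0⟩, 0⟩, 0, 0⟩ 0 0)) (.cut .s 10657792 (.pos 39 .mp ⟨⟨76423623, 0, 0, 0, 0, 46987243, 0, 0, 0, ⟨0, 0⟩, 0⟩, 0, 0⟩ 0 0) (.cut .s 10670080 (.pos 39 .mp ⟨⟨77040760, 0, 0, 0, 0, 48262305, 0, 0, 0, ⟨0, 0⟩, 0⟩, 0, 0⟩ 0 0) (.pos 39 .mp ⟨⟨77662531, 0, 0, 0, 0, 48593145, 0, 0, 0, ⟨0, 0⟩, 0⟩, 0, 0⟩ 0 0)))))) (.pos 40 .mp ⟨⟨112728001, 0, 0, 0, 0, 0, 0, 0, 0, ⟨0, 0⟩, 0⟩, 0, 0⟩ 0 0))) (.cut .s 10780672 (.cut .v 16842752 (.cut .s 10731520 (.cut .d (-16384) (.cut .d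 (-24576) (.void 39 ⟨⟨0, 0, 0, 0, 0, 100000, 0, 0, 0, ⟨0, 0⟩, 0⟩, 0, 0⟩ 0 0) (.cut .l 131821 (.void 39 ⟨⟨0, 0, 0, 0, 0, 100000, 0, 0, 0, ⟨0, 0⟩, 0⟩, 0, 0⟩ 0 0) (.cut .v 16809984 (.pos 51 .mp ⟨⟨0, 0, 0, 0, 0, 174263424, 0, 0, 0, ⟨0, 0⟩, 0⟩, 0, 0⟩ 0 0) (.cut .s 10706944 (.pos 52 .mp ⟨⟨79898190, 0, 0, 0, 0, 48691769, 0, 0, 0, ⟨0, 0⟩, 0⟩, 0, 0⟩ 0 0) (.pos 52 .mp ⟨⟨81194484, 0, 0, 0, 0, 49369325, 0, 0, 0, ⟨0, 0⟩, 0⟩, 0, 0⟩ 0 0))))) (.cut .s 10706944 (.cut .l 131821 (.cut .v 16809984 (.cut .d (-8192) (.cut .s 10694656 (.pos 51 .mp ⟨⟨76705640, 0, 0, 0, 0, 53146614, 0, 0, 0, ⟨0, 0⟩, 0⟩, 0, 0⟩ 0 0) (.pos 51 .mp ⟨⟨77322402, 0, 0, 0, 0, 53531543,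 0, 0, 0, ⟨0, 0⟩, 0⟩, 0, 0⟩ 0 0)) (.cut .l 65910 (.cut .v 16793600 (.cut .d (-4096) (.pos 57 .mp ⟨⟨76706065, 0, 0, 0, 0, 53979870, 0, 0, 0, ⟨0, 0⟩, 0⟩, 0, 0⟩ 0 0) (.cut .l 32955 (.cut .v 16785408 (.cut .d (-2048) (.pos 75 .mp ⟨⟨76706442, 0, 0, 0, 0, 53884618, 0, 0, 0, ⟨0, 0⟩, 0⟩, 0, 0⟩ 0 0) (.cut .l 16477 (.cut .v 16781312 (.cut .d (-1024) (.pos 77 .mp ⟨⟨76706653, 0, 0, 0, 0, 53837015, 0, 0, 0, ⟨0, 0⟩, 0⟩, 0, 0⟩ 0 0) (.cut .l 8238 (.cut .d (-512) (.pos 77 .mp ⟨⟨78000031, 0, 0, 0, 0, 51294019, 0, 0, 0, ⟨0, 0⟩, 0⟩, 0, 0⟩ 0 0) (.cut .v 16779264 (.cut .l 4119 (.cut .v 16778240 (.cut .s 10694656 (.cut .s 10688512 (.pos 81 .mp ⟨⟨77837503,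 0, 0, 0, 0, 49874555, 0, 0, 0, ⟨0, 0⟩, 0⟩, 0, 0⟩ 0 0) (.pos 81 .mp ⟨⟨78154448, 0, 0, 0, 0, 50042490, 0, 0, 0, ⟨0, 0⟩, 0⟩, 0, 0⟩ 0 0)) (.cut .s 10700800 (.pos 81 .mp ⟨⟨78474594, 0, 0, 0, 0, 50208828, 0, 0, 0, ⟨0, 0⟩, 0⟩, 0, 0⟩ 0 0) (.pos 81 .mp ⟨⟨78797975, 0, 0, 0, 0, 50373519, 0, 0, 0, ⟨0, 0⟩, 0⟩, 0, 0⟩ 0 0))) (.pos 82 .mp ⟨⟨116936962, 0, 0, 0, 0, 0, 0, 0, 0, ⟨0, 0⟩, 0⟩, 0, 0⟩ 0 0)) (.pos 79 .mp ⟨⟨77970614, 0, 0, 0, 0, 49304359, 0, 0, 0, ⟨0, 0⟩, 0⟩, 0, 0⟩ 0 0)) (.pos 80 .mp ⟨⟨110958976, 0, 0, 0, 0, 0, 0, 0, 0, ⟨0, 0⟩, 0⟩, 0, 0⟩ 0 0))) (.pos 77 .mp ⟨⟨78001119, 0, 0, 0, 0, 49271579, 0, 0, 0, ⟨0, 0⟩, 0⟩, 0, 0⟩ 0 0))) (.pos 78 .mp ⟨⟨116984837,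 0, 0, 0, 0, 0, 0, 0, 0, ⟨0, 0⟩, 0⟩, 0, 0⟩ 0 0)) (.pos 75 .mp ⟨⟨78062153, 0, 0, 0, 0, 49205873, 0, 0, 0, ⟨0, 0⟩, 0⟩, 0, 0⟩ 0 0))) (.pos 76 .mp ⟨⟨117043146, 0, 0, 0, 0, 0, 0, 0, 0, ⟨0, 0⟩, 0⟩, 0, 0⟩ 0 0)) (.pos 57 .mp ⟨⟨78184278, 0, 0, 0, 0, 49074579, 0, 0, 0, ⟨0, 0⟩, 0⟩, 0, 0⟩ 0 0))) (.pos 58 .mp ⟨⟨117159077, 0, 0, 0, 0, 0, 0, 0, 0, ⟨0, 0⟩, 0⟩, 0, 0⟩ 0 0)) (.pos 51 .mp ⟨⟨78428952, 0, 0, 0, 0, 48811628, 0, 0, 0, ⟨0, 0⟩, 0⟩, 0, 0⟩ 0 0))) (.pos 52 .mp ⟨⟨117390678, 0, 0, 0, 0, 0, 0, 0, 0, ⟨0, 0⟩, 0⟩, 0, 0⟩ 0 0)) (.cut .s 10694656 (.pos 39 .mp ⟨⟨78288962, 0, 0, 0, 0, 48926534, 0, 0, 0, ⟨0, 0⟩, 0⟩, 0, 0⟩ 0 0) (.pos 39 .mp ⟨⟨78920077, 0,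 0, 0, 0, 49262386, 0, 0, 0, ⟨0, 0⟩, 0⟩, 0, 0⟩ 0 0))) (.cut .l 131821 (.cut .v 16809984 (.cut .d (-8192) (.cut .s 10719232 (.pos 51 .mp ⟨⟨77943748, 0, 0, 0, 0, 53924259, 0, 0, 0, ⟨0, 0⟩, 0⟩, 0, 0⟩ 0 0) (.pos 51 .mp ⟨⟨78569701, 0, 0, 0, 0, 54324815, 0, 0, 0, ⟨0, 0⟩, 0⟩, 0, 0⟩ 0 0)) (.cut .l 65910 (.cut .v 16793600 (.cut .d (-4096) (.pos 57 .mp ⟨⟨77941730, 0, 0, 0, 0, 54780524, 0, 0, 0, ⟨0, 0⟩, 0⟩, 0, 0⟩ 0 0) (.cut .l 32955 (.cut .v 16785408 (.cut .d (-2048) (.pos 75 .mp ⟨⟨77940888, 0, 0, 0, 0, 54685565, 0, 0, 0, ⟨0, 0⟩, 0⟩, 0, 0⟩ 0 0) (.cut .l 16477 (.cut .d (-1024) (.pos 75 .mp ⟨⟨79281992, 0, 0, 0, 0, 52048524, 0, 0, 0, ⟨0, 0⟩, 0⟩,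 0, 0⟩ 0 0) (.cut .v 16781312 (.cut .l 8238 (.cut .d (-512) (.pos 77 .mp ⟨⟨79274136, 0, 0, 0, 0, 52002911, 0, 0, 0, ⟨0, 0⟩, 0⟩, 0, 0⟩ 0 0) (.cut .v 16779264 (.cut .l 4119 (.cut .v 16778240 (.cut .s 10719232 (.cut .s 10713088 (.pos 81 .mp ⟨⟨79124625, 0, 0, 0, 0, 50536511, 0, 0, 0, ⟨0, 0⟩, 0⟩, 0, 0⟩ 0 0) (.pos 81 .mp ⟨⟨79454579, 0, 0, 0, 0, 50697754, 0, 0, 0, ⟨0, 0⟩, 0⟩, 0, 0⟩ 0 0)) (.cut .s 10725376 (.pos 81 .mp ⟨⟨79787871, 0, 0, 0, 0, 50857197, 0, 0, 0, ⟨0, 0⟩, 0⟩, 0, 0⟩ 0 0) (.pos 81 .mp ⟨⟨80124535, 0, 0, 0, 0, 51014787, 0, 0, 0, ⟨0, 0⟩, 0⟩, 0, 0⟩ 0 0))) (.pos 82 .mp ⟨⟨118645268, 0, 0, 0, 0, 0, 0, 0, 0, ⟨0, 0⟩, 0⟩, 0, 0⟩ 0 0)) (.pos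 79 .mp ⟨⟨79222951, 0, 0, 0, 0, 49997942, 0, 0, 0, ⟨0, 0⟩, 0⟩, 0, 0⟩ 0 0)) (.pos 80 .mp ⟨⟨112639791, 0, 0, 0, 0, 0, 0, 0, 0, ⟨0, 0⟩, 0⟩, 0, 0⟩ 0 0))) (.pos 77 .mp ⟨⟨79254230, 0, 0, 0, 0, 49964172, 0, 0, 0, ⟨0, 0⟩, 0⟩, 0, 0⟩ 0 0)) (.pos 78 .mp ⟨⟨112657506, 0, 0, 0, 0, 0, 0, 0, 0, ⟨0, 0⟩, 0⟩, 0, 0⟩ 0 0))) (.pos 75 .mp ⟨⟨79316811, 0, 0, 0, 0, 49896485, 0, 0, 0, ⟨0, 0⟩, 0⟩, 0, 0⟩ 0 0))) (.pos 76 .mp ⟨⟨118752946, 0, 0, 0, 0, 0, 0, 0, 0, ⟨0, 0⟩, 0⟩, 0, 0⟩ 0 0)) (.pos 57 .mp ⟨⟨79442033, 0, 0, 0, 0, 49761231, 0, 0, 0, ⟨0, 0⟩, 0⟩, 0, 0⟩ 0 0))) (.pos 58 .mp ⟨⟨118870514, 0, 0, 0, 0, 0, 0, 0, 0, ⟨0, 0⟩, 0⟩, 0, 0⟩ 0 0)) (.pos 51 .mp ⟨⟨79692908,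 0, 0, 0, 0, 49490352, 0, 0, 0, ⟨0, 0⟩, 0⟩, 0, 0⟩ 0 0))) (.pos 52 .mp ⟨⟨119105387, 0, 0, 0, 0, 0, 0, 0, 0, ⟨0, 0⟩, 0⟩, 0, 0⟩ 0 0)) (.pos 39 .mp ⟨⟨80196464, 0, 0, 0, 0, 48946505, 0, 0, 0, ⟨0, 0⟩, 0⟩, 0, 0⟩ 0 0)))) (.cut .d (-16384) (.cut .d (-24576) (.void 39 ⟨⟨0, 0, 0, 0, 0, 100000, 0, 0, 0, ⟨0, 0⟩, 0⟩, 0, 0⟩ 0 0) (.cut .v 16809984 (.pos 51 .mp ⟨⟨0, 0, 0, 0, 0, 182423870, 0, 0, 0, ⟨0, 0⟩, 0⟩, 0, 0⟩ 0 0) (.cut .v 16826368 (.cut .s 10756096 (.cut .s 10743808 (.pos 117 .mp ⟨⟨80742359, 0, 0, 0, 0, 52301681, 0, 0, 0, ⟨0, 0⟩, 0⟩, 0, 0⟩ 0 0) (.pos 117 .mp ⟨⟨81469845, 0, 0, 0, 0, 52562786, 0, 0, 0, ⟨0, 0⟩, 0⟩, 0, 0⟩ 0 0)) (.pos 117 .mp ⟨⟨81754555,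 0, 0, 0, 0, 54611196, 0, 0, 0, ⟨0, 0⟩, 0⟩, 0, 0⟩ 0 0)) (.pos 118 .mp ⟨⟨100507072, 0, 0, 0, 0, 25911234, 0, 0, 0, ⟨0, 0⟩, 0⟩, 0, 0⟩ 0 0)))) (.cut .s 10756096 (.cut .l 131821 (.cut .v 16809984 (.cut .d (-8192) (.pos 51 .mp ⟨⟨79200288, 0, 0, 0, 0, 55801465, 0, 0, 0, ⟨0, 0⟩, 0⟩, 0, 0⟩ 0 0) (.cut .v 16793600 (.cut .l 65910 (.cut .d (-4096) (.pos 57 .mp ⟨⟨79195779, 0, 0, 0, 0, 55612714, 0, 0, 0, ⟨0, 0⟩, 0⟩, 0, 0⟩ 0 0) (.cut .l 32955 (.cut .d (-2048) (.pos 57 .mp ⟨⟨80601347, 0, 0, 0, 0, 52857625, 0, 0, 0, ⟨0, 0⟩, 0⟩, 0, 0⟩ 0 0) (.cut .v 16785408 (.cut .l 16477 (.cut .d (-1024) (.pos 75 .mp ⟨⟨80604523, 0, 0, 0, 0, 52719143, 0, 0, 0, ⟨0,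 0⟩, 0⟩, 0, 0⟩ 0 0) (.cut .v 16781312 (.cut .l 8238 (.cut .d (-512) (.pos 77 .mp ⟨⟨80545797, 0, 0, 0, 0, 52792121, 0, 0, 0, ⟨0, 0⟩, 0⟩, 0, 0⟩ 0 0) (.cut .v 16779264 (.cut .l 4119 (.cut .v 16778240 (.cut .s 10743808 (.cut .s 10737664 (.pos 81 .mp ⟨⟨80464606, 0, 0, 0, 0, 51170473, 0, 0, 0, ⟨0, 0⟩, 0⟩, 0, 0⟩ 0 0) (.pos 81 .mp ⟨⟨80808119, 0, 0, 0, 0, 51324203, 0, 0, 0, ⟨0, 0⟩, 0⟩, 0, 0⟩ 0 0)) (.cut .s 10749952 (.pos 81 .mp ⟨⟨81155109, 0, 0, 0, 0, 51475924, 0, 0, 0, ⟨0, 0⟩, 0⟩, 0, 0⟩ 0 0) (.pos 81 .mp ⟨⟨81505610, 0, 0, 0, 0, 51625584, 0, 0, 0, ⟨0, 0⟩, 0⟩, 0, 0⟩ 0 0))) (.pos 82 .mp ⟨⟨120377448, 0, 0, 0, 0, 0, 0, 0, 0, ⟨0, 0⟩, 0⟩, 0, 0⟩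 0 0)) (.pos 79 .mp ⟨⟨80493841, 0, 0, 0, 0, 50701009, 0, 0, 0, ⟨0, 0⟩, 0⟩, 0, 0⟩ 0 0)) (.pos 80 .mp ⟨⟨114357335, 0, 0, 0, 0, 0, 0, 0, 0, ⟨0, 0⟩, 0⟩, 0, 0⟩ 0 0))) (.pos 77 .mp ⟨⟨80525910, 0, 0, 0, 0, 50666227, 0, 0, 0, ⟨0, 0⟩, 0⟩, 0, 0⟩ 0 0)) (.pos 78 .mp ⟨⟨114375332, 0, 0, 0, 0, 0, 0, 0, 0, ⟨0, 0⟩, 0⟩, 0, 0⟩ 0 0))) (.pos 75 .mp ⟨⟨80590071, 0, 0, 0, 0, 50596515, 0, 0, 0, ⟨0, 0⟩, 0⟩, 0, 0⟩ 0 0)) (.pos 76 .mp ⟨⟨114408304, 0, 0, 0, 0, 0, 0, 0, 0, ⟨0, 0⟩, 0⟩, 0, 0⟩ 0 0))) (.pos 57 .mp ⟨⟨80718454, 0, 0, 0, 0, 50457212, 0, 0, 0, ⟨0, 0⟩, 0⟩, 0, 0⟩ 0 0))) (.pos 57 .mp ⟨⟨78862514, 0, 0, 0, 0, 53433440, 0, 0, 0, ⟨0, 0⟩, 0⟩, 0, 0⟩ 0 0)) (.pos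 58 .mp ⟨⟨89426861, 0, 0, 0, 0, 39230542, 0, 0, 0, ⟨0, 0⟩, 0⟩, 0, 0⟩ 0 0))) (.pos 52 .mp ⟨⟨120844097, 0, 0, 0, 0, 0, 0, 0, 0, ⟨0, 0⟩, 0⟩, 0, 0⟩ 0 0)) (.pos 39 .mp ⟨⟨81491901, 0, 0, 0, 0, 49618134, 0, 0, 0, ⟨0, 0⟩, 0⟩, 0, 0⟩ 0 0)) (.cut .v 16809984 (.cut .l 131821 (.cut .d (-8192) (.pos 51 .mp ⟨⟨80475464, 0, 0, 0, 0, 56665006, 0, 0, 0, ⟨0, 0⟩, 0⟩, 0, 0⟩ 0 0) (.cut .v 16793600 (.cut .l 65910 (.cut .d (-4096) (.pos 57 .mp ⟨⟨80468415, 0, 0, 0, 0, 56476888, 0, 0, 0, ⟨0, 0⟩, 0⟩, 0, 0⟩ 0 0) (.cut .v 16785408 (.cut .l 32955 (.cut .d (-2048) (.pos 75 .mp ⟨⟨80465061, 0, 0, 0, 0, 56382545, 0, 0, 0, ⟨0, 0⟩, 0⟩, 0, 0⟩ 0 0) (.cut .l 16477 (.cut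 .d (-1024) (.pos 75 .mp ⟨⟨81921876, 0, 0, 0, 0, 53477314, 0, 0, 0, ⟨0, 0⟩, 0⟩, 0, 0⟩ 0 0) (.cut .v 16781312 (.cut .l 8238 (.cut .d (-512) (.pos 77 .mp ⟨⟨81836230, 0, 0, 0, 0, 53612739, 0, 0, 0, ⟨0, 0⟩, 0⟩, 0, 0⟩ 0 0) (.cut .v 16779264 (.cut .l 4119 (.cut .v 16778240 (.cut .s 10768384 (.cut .s 10762240 (.pos 81 .mp ⟨⟨81859659, 0, 0, 0, 0, 51773130, 0, 0, 0, ⟨0, 0⟩, 0⟩, 0, 0⟩ 0 0) (.pos 81 .mp ⟨⟨82217289, 0, 0, 0, 0, 51918508, 0, 0, 0, ⟨0, 0⟩, 0⟩, 0, 0⟩ 0 0)) (.cut .s 10774528 (.pos 81 .mp ⟨⟨82578537, 0, 0, 0, 0, 52061666, 0, 0, 0, ⟨0, 0⟩, 0⟩, 0, 0⟩ 0 0) (.pos 81 .mp ⟨⟨82943438, 0, 0, 0, 0, 52202549, 0, 0, 0, ⟨0, 0⟩, 0⟩, 0, 0⟩ 0 0)))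 (.pos 82 .mp ⟨⟨122133123, 0, 0, 0, 0, 0, 0, 0, 0, ⟨0, 0⟩, 0⟩, 0, 0⟩ 0 0)) (.pos 79 .mp ⟨⟨81783491, 0, 0, 0, 0, 51412856, 0, 0, 0, ⟨0, 0⟩, 0⟩, 0, 0⟩ 0 0)) (.pos 80 .mp ⟨⟨116111994, 0, 0, 0, 0, 0, 0, 0, 0, ⟨0, 0⟩, 0⟩, 0, 0⟩ 0 0))) (.pos 77 .mp ⟨⟨81816366, 0, 0, 0, 0, 51377041, 0, 0, 0, ⟨0, 0⟩, 0⟩, 0, 0⟩ 0 0)) (.pos 78 .mp ⟨⟨116130280, 0, 0, 0, 0, 0, 0, 0, 0, ⟨0, 0⟩, 0⟩, 0, 0⟩ 0 0))) (.pos 75 .mp ⟨⟨81882139, 0, 0, 0, 0, 51305258, 0, 0, 0, ⟨0, 0⟩, 0⟩, 0, 0⟩ 0 0))) (.pos 75 .mp ⟨⟨80294603, 0, 0, 0, 0, 53827262, 0, 0, 0, ⟨0, 0⟩, 0⟩, 0, 0⟩ 0 0)) (.pos 76 .mp ⟨⟨91273582, 0, 0, 0, 0, 39053327, 0, 0, 0, ⟨0, 0⟩, 0⟩, 0, 0⟩ 0 0))) (.pos 57 .mp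 ⟨⟨80127423, 0, 0, 0, 0, 54189923, 0, 0, 0, ⟨0, 0⟩, 0⟩, 0, 0⟩ 0 0)) (.pos 58 .mp ⟨⟨91114143, 0, 0, 0, 0, 39406470, 0, 0, 0, ⟨0, 0⟩, 0⟩, 0, 0⟩ 0 0))) (.pos 51 .mp ⟨⟨79793179, 0, 0, 0, 0, 54915128, 0, 0, 0, ⟨0, 0⟩, 0⟩, 0, 0⟩ 0 0)) (.pos 52 .mp ⟨⟨90793643, 0, 0, 0, 0, 40114887, 0, 0, 0, ⟨0, 0⟩, 0⟩, 0, 0⟩ 0 0))))) (.pos 40 .mp ⟨⟨119429710, 0, 0, 0, 0, 0, 0, 0, 0, ⟨0, 0⟩, 0⟩, 0, 0⟩ 0 0)) (.cut .v 16842752 (.cut .s 10829824 (.cut .d (-16384) (.cut .s 10805248 (.cut .s 10792960 (.pos 39 .mp ⟨⟨81790313, 0, 0, 0, 0, 56816268, 0, 0, 0, ⟨0, 0⟩, 0⟩, 0, 0⟩ 0 0) (.pos 39 .mp ⟨⟨82447092, 0, 0, 0, 0, 57264323, 0, 0, 0, ⟨0, 0⟩, 0⟩, 0, 0⟩ 0 0)) (.pos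 39 .mp ⟨⟨83108687, 0, 0, 0, 0, 58860875, 0, 0, 0, ⟨0, 0⟩, 0⟩, 0, 0⟩ 0 0)) (.cut .s 10805248 (.cut .v 16809984 (.cut .l 131821 (.cut .d (-8192) (.pos 51 .mp ⟨⟨81769482, 0, 0, 0, 0, 57560962, 0, 0, 0, ⟨0, 0⟩, 0⟩, 0, 0⟩ 0 0) (.cut .v 16793600 (.cut .l 65910 (.cut .d (-4096) (.pos 57 .mp ⟨⟨81759843, 0, 0, 0, 0, 57373498, 0, 0, 0, ⟨0, 0⟩, 0⟩, 0, 0⟩ 0 0) (.cut .v 16785408 (.cut .l 32955 (.cut .d (-2048) (.pos 75 .mp ⟨⟨81755197, 0, 0, 0, 0, 57279477, 0, 0, 0, ⟨0, 0⟩, 0⟩, 0, 0⟩ 0 0) (.cut .s 10792960 (.cut .s 10786816 (.pos 75 .mp ⟨⟨83035973, 0, 0, 0, 0, 52816450, 0, 0, 0, ⟨0, 0⟩, 0⟩, 0, 0⟩ 0 0) (.pos 75 .mp ⟨⟨83397835, 0, 0, 0, 0, 52970757,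 0, 0, 0, ⟨0, 0⟩, 0⟩, 0, 0⟩ 0 0)) (.pos 75 .mp ⟨⟨83322168, 0, 0, 0, 0, 53952908, 0, 0, 0, ⟨0, 0⟩, 0⟩, 0, 0⟩ 0 0))) (.pos 75 .mp ⟨⟨81580789, 0, 0, 0, 0, 54586120, 0, 0, 0, ⟨0, 0⟩, 0⟩, 0, 0⟩ 0 0)) (.pos 76 .mp ⟨⟨93061589, 0, 0, 0, 0, 39127338, 0, 0, 0, ⟨0, 0⟩, 0⟩, 0, 0⟩ 0 0))) (.pos 57 .mp ⟨⟨81410950, 0, 0, 0, 0, 54955179, 0, 0, 0, ⟨0, 0⟩, 0⟩, 0, 0⟩ 0 0)) (.pos 58 .mp ⟨⟨92899642, 0, 0, 0, 0, 39486711, 0, 0, 0, ⟨0, 0⟩, 0⟩, 0, 0⟩ 0 0))) (.pos 51 .mp ⟨⟨81071389, 0, 0, 0, 0, 55693176, 0, 0, 0, ⟨0, 0⟩, 0⟩, 0, 0⟩ 0 0)) (.pos 52 .mp ⟨⟨92574089, 0, 0, 0, 0, 40207640, 0, 0, 0, ⟨0, 0⟩, 0⟩, 0, 0⟩ 0 0)) (.cut .v 16809984 (.cut .l 131821 (.cut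 .d (-8192) (.pos 51 .mp ⟨⟨83082553, 0, 0, 0, 0, 58489794, 0, 0, 0, ⟨0, 0⟩, 0⟩, 0, 0⟩ 0 0) (.cut .v 16793600 (.cut .l 65910 (.cut .d (-4096) (.pos 57 .mp ⟨⟨83070273, 0, 0, 0, 0, 58303002, 0, 0, 0, ⟨0, 0⟩, 0⟩, 0, 0⟩ 0 0) (.cut .s 10817536 (.cut .s 10811392 (.pos 57 .mp ⟨⟨84516591, 0, 0, 0, 0, 53403886, 0, 0, 0, ⟨0, 0⟩, 0⟩, 0, 0⟩ 0 0) (.pos 57 .mp ⟨⟨84891404, 0, 0, 0, 0, 53552147, 0, 0, 0, ⟨0, 0⟩, 0⟩, 0, 0⟩ 0 0)) (.pos 57 .mp ⟨⟨84923824, 0, 0, 0, 0, 54393612, 0, 0, 0, ⟨0, 0⟩, 0⟩, 0, 0⟩ 0 0))) (.pos 57 .mp ⟨⟨82713303, 0, 0, 0, 0, 55728504, 0, 0, 0, ⟨0, 0⟩, 0⟩, 0, 0⟩ 0 0)) (.pos 58 .mp ⟨⟨94787566, 0, 0, 0, 0, 39464708, 0, 0, 0, ⟨0, 0⟩,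 0⟩, 0, 0⟩ 0 0))) (.pos 51 .mp ⟨⟨82368298, 0, 0, 0, 0, 56479588, 0, 0, 0, ⟨0, 0⟩, 0⟩, 0, 0⟩ 0 0)) (.pos 52 .mp ⟨⟨94456851, 0, 0, 0, 0, 40198447, 0, 0, 0, ⟨0, 0⟩, 0⟩, 0, 0⟩ 0 0)))) (.cut .d (-16384) (.cut .s 10854400 (.pos 39 .mp ⟨⟨84446430, 0, 0, 0, 0, 59821626, 0, 0, 0, ⟨0, 0⟩, 0⟩, 0, 0⟩ 0 0) (.pos 39 .mp ⟨⟨85803759, 0, 0, 0, 0, 60816150, 0, 0, 0, ⟨0, 0⟩, 0⟩, 0, 0⟩ 0 0)) (.cut .s 10854400 (.cut .v 16809984 (.cut .l 131821 (.cut .d (-8192) (.pos 51 .mp ⟨⟨84414889, 0, 0, 0, 0, 59451968, 0, 0, 0, ⟨0, 0⟩, 0⟩, 0, 0⟩ 0 0) (.cut .v 16793600 (.cut .s 10842112 (.cut .s 10835968 (.pos 57 .mp ⟨⟨86618592, 0, 0, 0, 0, 53106973, 0, 0, 0, ⟨0,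 0⟩, 0⟩, 0, 0⟩ 0 0) (.pos 57 .mp ⟨⟨87030376, 0, 0, 0, 0, 53212581, 0, 0, 0, ⟨0, 0⟩, 0⟩, 0, 0⟩ 0 0)) (.pos 57 .mp ⟨⟨85935133, 0, 0, 0, 0, 55843093, 0, 0, 0, ⟨0, 0⟩, 0⟩, 0, 0⟩ 0 0)) (.pos 58 .mp ⟨⟨96782168, 0, 0, 0, 0, 39333797, 0, 0, 0, ⟨0, 0⟩, 0⟩, 0, 0⟩ 0 0))) (.pos 51 .mp ⟨⟨83684116, 0, 0, 0, 0, 57273657, 0, 0, 0, ⟨0, 0⟩, 0⟩, 0, 0⟩ 0 0)) (.pos 52 .mp ⟨⟨96446185, 0, 0, 0, 0, 40080640, 0, 0, 0, ⟨0, 0⟩, 0⟩, 0, 0⟩ 0 0)) (.cut .v 16809984 (.cut .l 131821 (.cut .d (-8192) (.pos 51 .mp ⟨⟨85766710, 0, 0, 0, 0, 60447958, 0, 0, 0, ⟨0, 0⟩, 0⟩, 0, 0⟩ 0 0) (.cut .s 10866688 (.pos 51 .mp ⟨⟨87523156, 0, 0, 0, 0, 54863883, 0, 0, 0, ⟨0, 0⟩, 0⟩,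 0, 0⟩ 0 0) (.pos 51 .mp ⟨⟨88219825, 0, 0, 0, 0, 55286889, 0, 0, 0, ⟨0, 0⟩, 0⟩, 0, 0⟩ 0 0))) (.pos 51 .mp ⟨⟨85019055, 0, 0, 0, 0, 58074673, 0, 0, 0, ⟨0, 0⟩, 0⟩, 0, 0⟩ 0 0)) (.pos 52 .mp ⟨⟨98546399, 0, 0, 0, 0, 39847442, 0, 0, 0, ⟨0, 0⟩, 0⟩, 0, 0⟩ 0 0))))) (.pos 40 .mp ⟨⟨126511215, 0, 0, 0, 0, 0, 0, 0, 0, ⟨0, 0⟩, 0⟩, 0, 0⟩ 0 0)))) (.pos 38 .mp ⟨⟨121436404, 0, 0, 0, 0, 0, 0, 0, 0, ⟨0, 0⟩, 0⟩, 0, 0⟩ 0 0)))))) (.pos 36 .mp ⟨⟨139636900, 0, 0, 0, 0, 0, 0, 0, 0, ⟨0, 0⟩, 0⟩, 0, 0⟩ 0 0))) (.void 34 ⟨⟨100000, 0, 0, 0, 0, 0, 0, 0, 0, ⟨0, 0⟩, 0⟩, 0, 0⟩ 0 0))) (.void 32 ⟨⟨100000, 0, 0, 0, 0, 0, 0, 0, 0, ⟨0, 0⟩, 0⟩, 0, 0⟩ 0 0))) (.void 30 ⟨⟨100000,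 0, 0, 0, 0, 0, 0, 0, 0, ⟨0, 0⟩, 0⟩, 0, 0⟩ 0 0))) (.void 28 ⟨⟨100000, 0, 0, 0, 0, 0, 0, 0, 0, ⟨0, 0⟩, 0⟩, 0, 0⟩ 0 0))) (.void 26 ⟨⟨100000, 0, 0, 0, 0, 0, 0, 0, 0, ⟨0, 0⟩, 0⟩, 0, 0⟩ 0 0)) (.void 127 ⟨⟨100000, 0, 0, 0, 0, 0, 0, 0, 0, ⟨0, 0⟩, 0⟩, 0, 0⟩ 0 0)) (.void 134 ⟨⟨100000, 0, 0, 0, 0, 0, 0, 0, 0, ⟨0, 0⟩, 0⟩, 0, 0⟩ 0 0))) (.cut .v 16777216 (.cut .v 8388608 (.cut .v 4194304 (.void 4 ⟨⟨0, 0, 66667, 0, 0, 0, 0, 0, 0, ⟨0, 0⟩, 0⟩, 0, 33333⟩ 0 0) (.pos 5 .pm ⟨⟨0, 0, 1746268, 0, 0, 0, 0, 0, 0, ⟨0, 0⟩, 0⟩, 0, 0⟩ 0 0)) (.pos 3 .pm ⟨⟨0, 0, 0, 0, 0, 0, 0, 0, 0, ⟨0, 0⟩, 0⟩, 0, 0⟩ 0 0)) (.cut .v 67108864 (.cut .d 5033166 (.cut .v 33554432 (.cut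 .d 2516583 (.cut .v 25165824 (.cut .d 1258291 (.cut .v 20971520 (.cut .d 629145 (.cut .d 314572 (.cut .v 18874368 (.cut .v 17825792 (.cut .s 10682368 (.pos 31 .pp ⟨⟨52526982, 0, 0, 0, 0, 0, 0, 0, 0, ⟨0, 0⟩, 0⟩, 5417622, 0⟩ 0 0) (.pos 31 .pp ⟨⟨60551605, 0, 0, 0, 0, 0, 0, 0, 0, ⟨0, 0⟩, 0⟩, 5960088, 0⟩ 0 0)) (.pos 32 .pp ⟨⟨118379316, 0, 0, 0, 0, 0, 0, 0, 0, ⟨0, 0⟩, 0⟩, 0, 0⟩ 0 0)) (.pos 30 .pp ⟨⟨147272157, 0, 0, 0, 0, 0, 0, 0, 0, ⟨0, 0⟩, 0⟩, 0, 0⟩ 0 0)) (.pos 27 .pp ⟨⟨89024367, 0, 0, 0, 0, 0, 0, 0, 0, ⟨0, 0⟩, 0⟩, 0, 49378⟩ 0 0)) (.pos 27 .pp ⟨⟨0, 0, 0, 0, 0, 0, 0, 0, 0, ⟨0, 0⟩, 0⟩, 0, 618127⟩ 0 0)) (.cut .d 629145 (.cut .d 314572 (.void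 28 ⟨⟨0, 0, 0, 0, 0, 0, 0, 0, 0, ⟨0, 0⟩, 0⟩, 100000, 0⟩ 0 0) (.pos 28 .pp ⟨⟨0, 0, 0, 0, 0, 0, 0, 0, 0, ⟨0, 0⟩, 0⟩, 17427136, 0⟩ 0 0)) (.pos 28 .pp ⟨⟨0, 0, 0, 0, 0, 0, 204855, 0, 0, ⟨0, 0⟩, 0⟩, 12815464, 0⟩ 0 0))) (.pos 25 .pp ⟨⟨0, 0, 0, 0, 0, 0, 0, 0, 0, ⟨0, 0⟩, 0⟩, 0, 667578⟩ 0 0)) (.cut .d 1258291 (.cut .d 629145 (.void 26 ⟨⟨0, 0, 0, 0, 0, 0, 0, 0, 0, ⟨0, 0⟩, 0⟩, 100000, 0⟩ 0 0) (.pos 26 .pp ⟨⟨0, 0, 0, 0, 0, 0, 0, 0, 0, ⟨0, 0⟩, 0⟩, 22156981, 0⟩ 0 0)) (.pos 26 .pp ⟨⟨0, 0, 0, 0, 0, 0, 0, 0, 0, ⟨0, 0⟩, 0⟩, 15216899, 0⟩ 0 0))) (.pos 24 .pp ⟨⟨0, 0, 0, 0, 0, 0, 0, 0, 0, ⟨0, 0⟩, 0⟩, 0, 741753⟩ 0 0)) (.cut .v 50331648 (.cut .d 2516583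 (.pos 128 .pp ⟨⟨0, 0, 0, 0, 0, 0, 0, 0, 0, ⟨0, 0⟩, 0⟩, 41427409, 0⟩ 0 0) (.pos 128 .pp ⟨⟨0, 0, 0, 0, 0, 0, 0, 0, 0, ⟨0, 0⟩, 0⟩, 18372320, 0⟩ 0 0)) (.pos 129 .pp ⟨⟨0, 0, 0, 0, 0, 0, 0, 0, 0, ⟨0, 0⟩, 0⟩, 61857244, 0⟩ 0 0))) (.pos 126 .pp ⟨⟨0, 0, 0, 0, 0, 0, 0, 0, 0, ⟨0, 0⟩, 0⟩, 0, 2349448⟩ 0 0)) (.void 134 ⟨⟨0, 0, 0, 42728, 0, 0, 0, 0, 0, ⟨0, 0⟩, 0⟩, 57272, 0⟩ 0 0)))),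
    by decide +kernel⟩

def covers15 : cell.Covers Vale.Agent.P237.Petty.Cor.Grid.N14.table row15.1 :=
  ⟨(.cut .d 0 (.cut .v 16777216 (.cut .d (-8388608) (.void 1 ⟨⟨0, 0, 0, 0, 0, 100000, 0, 0, 0, ⟨0, 0⟩, 0⟩, 0, 0⟩ 0 0) (.cut .d (-4194304) (.void 1 ⟨⟨0, 0, 0, 0, 0, 100000, 0, 0, 0, ⟨0, 0⟩, 0⟩, 0, 0⟩ 0 0) (.cut .d (-2097152) (.void 1 ⟨⟨0, 0, 0, 0, 0, 100000, 0, 0, 0, ⟨0, 0⟩, 0⟩, 0, 0⟩ 0 0) (.cut .d (-1048576) (.void 1 ⟨⟨0, 0, 0, 0, 0, 100000, 0, 0, 0, ⟨0, 0⟩, 0⟩, 0, 0⟩ 0 0) (.cut .d (-524288) (.void 1 ⟨⟨0, 0, 0, 0, 0, 100000, 0, 0, 0, ⟨0, 0⟩, 0⟩, 0, 0⟩ 0 0) (.cut .d (-262144) (.void 1 ⟨⟨0, 0, 0, 0, 0, 100000, 0, 0, 0, ⟨0, 0⟩, 0⟩,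 0, 0⟩ 0 0) (.cut .d (-131072) (.void 1 ⟨⟨0, 0, 0, 0, 0, 100000, 0, 0, 0, ⟨0, 0⟩, 0⟩, 0, 0⟩ 0 0) (.cut .d (-65536) (.void 1 ⟨⟨0, 0, 0, 0, 0, 100000, 0, 0, 0, ⟨0, 0⟩, 0⟩, 0, 0⟩ 0 0) (.cut .d (-32768) (.void 1 ⟨⟨0, 0, 0, 0, 0, 100000, 0, 0, 0, ⟨0, 0⟩, 0⟩, 0, 0⟩ 0 0) (.cut .v 8388608 (.cut .v 4194304 (.void 4 ⟨⟨0, 0, 100000, 0, 0, 0, 0, 0, 0, ⟨0, 0⟩, 0⟩, 0, 0⟩ 0 0) (.pos 5 .mm ⟨⟨0, 0, 2677356, 0, 0, 74157069, 0, 0, 0, ⟨0, 0⟩, 0⟩, 0, 0⟩ 0 0)) (.cut .d (-16384) (.pos 3 .mm ⟨⟨0, 0, 0, 0, 0, 241895283, 0, 0, 0, ⟨0, 0⟩, 0⟩, 0, 0⟩ 0 0) (.cut .l 131821 (.cut .d (-8192) (.pos 3 .mm ⟨⟨0, 0, 0, 0, 0, 241867749, 0, 0, 0, ⟨0, 0⟩, 0⟩, 0, 0⟩ 0 0)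 (.cut .l 65910 (.cut .d (-4096) (.pos 3 .mm ⟨⟨0, 0, 0, 0, 0, 241854308, 0, 0, 0, ⟨0, 0⟩, 0⟩, 0, 0⟩ 0 0) (.cut .l 32955 (.cut .d (-2048) (.pos 3 .mm ⟨⟨0, 0, 0, 0, 0, 241847424, 0, 0, 0, ⟨0, 0⟩, 0⟩, 0, 0⟩ 0 0) (.cut .v 12582912 (.pos 10 .mm ⟨⟨0, 0, 0, 0, 0, 119456147, 0, 0, 0, ⟨0, 0⟩, 0⟩, 0, 0⟩ 0 0) (.cut .v 14680064 (.pos 14 .mm ⟨⟨0, 0, 0, 0, 0, 143598113, 0, 0, 0, ⟨0, 0⟩, 0⟩, 0, 0⟩ 0 0) (.cut .v 15728640 (.pos 22 .mm ⟨⟨0, 0, 0, 0, 0, 156359753, 0, 0, 0, ⟨0, 0⟩, 0⟩, 0, 0⟩ 0 0) (.cut .v 16252928 (.pos 41 .mm ⟨⟨0, 0, 0, 0, 0, 162913237, 0, 0, 0, ⟨0, 0⟩, 0⟩, 0, 0⟩ 0 0) (.cut .v 16515072 (.pos 43 .mm ⟨⟨0, 0, 0, 0, 0, 166233144, 0, 0,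 0, ⟨0, 0⟩, 0⟩, 0, 0⟩ 0 0) (.cut .v 16646144 (.pos 49 .mm ⟨⟨0, 0, 0, 0, 0, 167903890, 0, 0, 0, ⟨0, 0⟩, 0⟩, 0, 0⟩ 0 0) (.cut .v 16711680 (.pos 55 .mm ⟨⟨0, 0, 0, 0, 0, 168741960, 0, 0, 0, ⟨0, 0⟩, 0⟩, 0, 0⟩ 0 0) (.cut .v 16744448 (.pos 61 .mm ⟨⟨0, 0, 0, 0, 0, 184044614, 0, 0, 0, ⟨0, 0⟩, 0⟩, 0, 0⟩ 0 0) (.cut .v 16760832 (.pos 65 .mm ⟨⟨0, 0, 0, 0, 0, 201805278, 0, 0, 0, ⟨0, 0⟩, 0⟩, 0, 0⟩ 0 0) (.cut .v 16769024 (.pos 67 .mm ⟨⟨0, 0, 0, 0, 0, 206969233, 0, 0, 0, ⟨0, 0⟩, 0⟩, 0, 0⟩ 0 0) (.cut .v 16773120 (.pos 69 .mm ⟨⟨0, 0, 0, 0, 0, 209553562, 0, 0, 0, ⟨0, 0⟩, 0⟩, 0, 0⟩ 0 0) (.cut .l 16477 (.cut .d (-1024) (.pos 70 .mm ⟨⟨0, 0, 0, 0, 0, 241845289,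 0, 0, 0, ⟨0, 0⟩, 0⟩, 0, 0⟩ 0 0) (.cut .v 16775168 (.pos 71 .mm ⟨⟨0, 0, 0, 0, 0, 209577564, 0, 0, 0, ⟨0, 0⟩, 0⟩, 0, 0⟩ 0 0) (.cut .l 8238 (.cut .d (-512) (.pos 72 .mm ⟨⟨0, 0, 0, 0, 0, 241846182, 0, 0, 0, ⟨0, 0⟩, 0⟩, 0, 0⟩ 0 0) (.cut .v 16776192 (.pos 73 .mm ⟨⟨0, 0, 0, 0, 0, 209591505, 0, 0, 0, ⟨0, 0⟩, 0⟩, 0, 0⟩ 0 0) (.cut .l 4119 (.cut .s 11108352 (.cut .s 10993664 (.pos 74 .mm ⟨⟨0, 0, 0, 0, 0, 191485648, 0, 0, 0, ⟨0, 0⟩, 0⟩, 0, 0⟩ 0 0) (.pos 74 .mm ⟨⟨0, 0, 0, 0, 0, 206363805, 0, 0, 0, ⟨0, 0⟩, 0⟩, 0, 0⟩ 0 0)) (.cut .s 11223040 (.pos 74 .mm ⟨⟨0, 0, 0, 0, 0, 222810387, 0, 0, 0, ⟨0, 0⟩, 0⟩, 0, 0⟩ 0 0) (.pos 74 .mm ⟨⟨0, 0, 0, 0, 0, 240863146,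 0, 0, 0, ⟨0, 0⟩, 0⟩, 0, 0⟩ 0 0))) (.pos 74 .mm ⟨⟨0, 0, 0, 0, 0, 188785834, 0, 0, 0, ⟨0, 0⟩, 0⟩, 0, 0⟩ 0 0)))) (.pos 72 .mm ⟨⟨0, 0, 0, 0, 0, 188792684, 0, 0, 0, ⟨0, 0⟩, 0⟩, 0, 0⟩ 0 0)))) (.pos 70 .mm ⟨⟨0, 0, 0, 0, 0, 188803931, 0, 0, 0, ⟨0, 0⟩, 0⟩, 0, 0⟩ 0 0)))))))))))))) (.pos 3 .mm ⟨⟨0, 0, 0, 0, 0, 188830104, 0, 0, 0, ⟨0, 0⟩, 0⟩, 0, 0⟩ 0 0))) (.pos 3 .mm ⟨⟨0, 0, 0, 0, 0, 188884902, 0, 0, 0, ⟨0, 0⟩, 0⟩, 0, 0⟩ 0 0))) (.pos 3 .mm ⟨⟨0, 0, 0, 0, 0, 188994192, 0, 0, 0, ⟨0, 0⟩, 0⟩, 0, 0⟩ 0 0))))))))))))) (.cut .v 67108864 (.cut .v 33554432 (.cut .v 25165824 (.cut .d (-8388608) (.void 25 ⟨⟨0, 0, 0, 0, 0, 100000, 0, 0, 0, ⟨0, 0⟩, 0⟩, 0,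 0⟩ 0 0) (.cut .v 20971520 (.cut .d (-4194304) (.void 27 ⟨⟨100000, 0, 0, 0, 0, 0, 0, 0, 0, ⟨0, 0⟩, 0⟩, 0, 0⟩ 0 0) (.cut .v 18874368 (.cut .d (-2097152) (.void 29 ⟨⟨100000, 0, 0, 0, 0, 0, 0, 0, 0, ⟨0, 0⟩, 0⟩, 0, 0⟩ 0 0) (.cut .v 17825792 (.cut .d (-1048576) (.void 31 ⟨⟨100000, 0, 0, 0, 0, 0, 0, 0, 0, ⟨0, 0⟩, 0⟩, 0, 0⟩ 0 0) (.cut .v 17301504 (.cut .d (-524288) (.void 33 ⟨⟨100000, 0, 0, 0, 0, 0, 0, 0, 0, ⟨0, 0⟩, 0⟩, 0, 0⟩ 0 0) (.cut .v 17039360 (.cut .d (-262144) (.void 35 ⟨⟨100000, 0, 0, 0, 0, 0, 0, 0, 0, ⟨0, 0⟩, 0⟩, 0, 0⟩ 0 0) (.cut .d (-131072) (.void 35 ⟨⟨100000, 0, 0, 0, 0, 0, 0, 0, 0, ⟨0, 0⟩, 0⟩, 0, 0⟩ 0 0) (.cut .d (-65536) (.void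 35 ⟨⟨100000, 0, 0, 0, 0, 0, 0, 0, 0, ⟨0, 0⟩, 0⟩, 0, 0⟩ 0 0) (.cut .d (-32768) (.void 35 ⟨⟨0, 0, 0, 0, 0, 100000, 0, 0, 0, ⟨0, 0⟩, 0⟩, 0, 0⟩ 0 0) (.cut .v 16908288 (.cut .s 11108352 (.cut .s 10993664 (.cut .v 16842752 (.cut .d (-16384) (.cut .d (-24576) (.void 39 ⟨⟨0, 0, 0, 0, 0, 100000, 0, 0, 0, ⟨0, 0⟩, 0⟩, 0, 0⟩ 0 0) (.cut .d (-20480) (.pos 39 .mp ⟨⟨87566982, 0, 0, 0, 0, 72688588, 0, 0, 0, ⟨0, 0⟩, 0⟩, 0, 0⟩ 0 0) (.cut .l 131821 (.void 39 ⟨⟨0, 0, 0, 0, 0, 100000, 0, 0, 0, ⟨0, 0⟩, 0⟩, 0, 0⟩ 0 0) (.cut .l 197731 (.pos 39 .mp ⟨⟨90769100, 0, 0, 0, 0, 67593611, 0, 0, 0, ⟨0, 0⟩, 0⟩, 0, 0⟩ 0 0) (.cut .s 10936320 (.pos 39 .mp ⟨⟨91449505,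 0, 0, 0, 0, 52827106, 0, 0, 0, ⟨0, 0⟩, 0⟩, 0, 0⟩ 0 0) (.cut .s 10964992 (.pos 39 .mp ⟨⟨90486797, 0, 0, 0, 0, 62520638, 0, 0, 0, ⟨0, 0⟩, 0⟩, 0, 0⟩ 0 0) (.pos 39 .mp ⟨⟨92183451, 0, 0, 0, 0, 63444358, 0, 0, 0, ⟨0, 0⟩, 0⟩, 0, 0⟩ 0 0))))))) (.cut .s 10936320 (.cut .s 10907648 (.cut .v 16809984 (.cut .l 131821 (.cut .d (-8192) (.pos 51 .mp ⟨⟨87140757, 0, 0, 0, 0, 61855397, 0, 0, 0, ⟨0, 0⟩, 0⟩, 0, 0⟩ 0 0) (.cut .v 16793600 (.cut .l 65910 (.cut .d (-4096) (.pos 57 .mp ⟨⟨87120107, 0, 0, 0, 0, 61670386, 0, 0, 0, ⟨0, 0⟩, 0⟩, 0, 0⟩ 0 0) (.cut .s 10893312 (.pos 57 .mp ⟨⟨88443391, 0, 0, 0, 0, 56495377, 0, 0, 0, ⟨0, 0⟩, 0⟩, 0, 0⟩ 0 0) (.pos 57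 .mp ⟨⟨89292562, 0, 0, 0, 0, 56822994, 0, 0, 0, ⟨0, 0⟩, 0⟩, 0, 0⟩ 0 0))) (.pos 57 .mp ⟨⟨86737731, 0, 0, 0, 0, 58572448, 0, 0, 0, ⟨0, 0⟩, 0⟩, 0, 0⟩ 0 0)) (.pos 58 .mp ⟨⟨102084395, 0, 0, 0, 0, 37495185, 0, 0, 0, ⟨0, 0⟩, 0⟩, 0, 0⟩ 0 0))) (.pos 51 .mp ⟨⟨86375671, 0, 0, 0, 0, 59365444, 0, 0, 0, ⟨0, 0⟩, 0⟩, 0, 0⟩ 0 0)) (.pos 52 .mp ⟨⟨101739273, 0, 0, 0, 0, 38267352, 0, 0, 0, ⟨0, 0⟩, 0⟩, 0, 0⟩ 0 0)) (.cut .v 16809984 (.cut .l 131821 (.cut .d (-8192) (.pos 51 .mp ⟨⟨88768408, 0, 0, 0, 0, 62654354, 0, 0, 0, ⟨0, 0⟩, 0⟩, 0, 0⟩ 0 0) (.cut .v 16793600 (.cut .l 65910 (.cut .d (-4096) (.pos 57 .mp ⟨⟨88743277, 0, 0, 0, 0, 62472472, 0, 0, 0, ⟨0, 0⟩,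 0⟩, 0, 0⟩ 0 0) (.cut .v 16785408 (.cut .l 32955 (.cut .d (-2048) (.pos 75 .mp ⟨⟨88730899, 0, 0, 0, 0, 62381218, 0, 0, 0, ⟨0, 0⟩, 0⟩, 0, 0⟩ 0 0) (.cut .s 10921984 (.pos 75 .mp ⟨⟨89829191, 0, 0, 0, 0, 57627400, 0, 0, 0, ⟨0, 0⟩, 0⟩, 0, 0⟩ 0 0) (.cut .s 10929152 (.pos 75 .mp ⟨⟨91136082, 0, 0, 0, 0, 57080258, 0, 0, 0, ⟨0, 0⟩, 0⟩, 0, 0⟩ 0 0) (.pos 75 .mp ⟨⟨91495180, 0, 0, 0, 0, 57366924, 0, 0, 0, ⟨0, 0⟩, 0⟩, 0, 0⟩ 0 0)))) (.pos 75 .mp ⟨⟨88534614, 0, 0, 0, 0, 59112100, 0, 0, 0, ⟨0, 0⟩, 0⟩, 0, 0⟩ 0 0)) (.pos 76 .mp ⟨⟨103528611, 0, 0, 0, 0, 38413802, 0, 0, 0, ⟨0, 0⟩, 0⟩, 0, 0⟩ 0 0))) (.pos 57 .mp ⟨⟨88350622, 0, 0, 0, 0, 59516281, 0, 0, 0,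 ⟨0, 0⟩, 0⟩, 0, 0⟩ 0 0)) (.pos 58 .mp ⟨⟨103353429, 0, 0, 0, 0, 38806956, 0, 0, 0, ⟨0, 0⟩, 0⟩, 0, 0⟩ 0 0))) (.pos 51 .mp ⟨⟨87982756, 0, 0, 0, 0, 60324518, 0, 0, 0, ⟨0, 0⟩, 0⟩, 0, 0⟩ 0 0)) (.pos 52 .mp ⟨⟨103000984, 0, 0, 0, 0, 39596025, 0, 0, 0, ⟨0, 0⟩, 0⟩, 0, 0⟩ 0 0))) (.cut .s 10964992 (.cut .v 16809984 (.cut .l 131821 (.cut .d (-8192) (.pos 51 .mp ⟨⟨90425638, 0, 0, 0, 0, 63506208, 0, 0, 0, ⟨0, 0⟩, 0⟩, 0, 0⟩ 0 0) (.cut .v 16793600 (.cut .l 65910 (.cut .d (-4096) (.pos 57 .mp ⟨⟨90395912, 0, 0, 0, 0, 63327549, 0, 0, 0, ⟨0, 0⟩, 0⟩, 0, 0⟩ 0 0) (.cut .v 16785408 (.cut .l 32955 (.cut .d (-2048) (.pos 75 .mp ⟨⟨90381239, 0, 0, 0, 0, 63237901,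 0, 0, 0, ⟨0, 0⟩, 0⟩, 0, 0⟩ 0 0) (.cut .l 16477 (.cut .d (-1024) (.pos 75 .mp ⟨⟨90569271, 0, 0, 0, 0, 63481774, 0, 0, 0, ⟨0, 0⟩, 0⟩, 0, 0⟩ 0 0) (.cut .v 16781312 (.cut .l 8238 (.cut .d (-512) (.pos 77 .mp ⟨⟨90542394, 0, 0, 0, 0, 63468491, 0, 0, 0, ⟨0, 0⟩, 0⟩, 0, 0⟩ 0 0) (.cut .v 16779264 (.cut .l 4119 (.cut .v 16778240 (.cut .s 10950656 (.cut .s 10943488 (.pos 81 .mp ⟨⟨92159011, 0, 0, 0, 0, 57129527, 0, 0, 0, ⟨0, 0⟩, 0⟩, 0, 0⟩ 0 0) (.pos 81 .mp ⟨⟨92509603, 0, 0, 0, 0, 57443921, 0, 0, 0, ⟨0, 0⟩, 0⟩, 0, 0⟩ 0 0)) (.cut .s 10957824 (.pos 81 .mp ⟨⟨92864568, 0, 0, 0, 0, 57757427, 0, 0, 0, ⟨0, 0⟩, 0⟩, 0, 0⟩ 0 0) (.pos 81 .mp ⟨⟨93223977,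 0, 0, 0, 0, 58069943, 0, 0, 0, ⟨0, 0⟩, 0⟩, 0, 0⟩ 0 0))) (.pos 82 .mp ⟨⟨136096120, 0, 0, 0, 0, 0, 0, 0, 0, ⟨0, 0⟩, 0⟩, 0, 0⟩ 0 0)) (.pos 79 .mp ⟨⟨92084128, 0, 0, 0, 0, 56979981, 0, 0, 0, ⟨0, 0⟩, 0⟩, 0, 0⟩ 0 0)) (.pos 80 .mp ⟨⟨129839354, 0, 0, 0, 0, 0, 0, 0, 0, ⟨0, 0⟩, 0⟩, 0, 0⟩ 0 0))) (.pos 77 .mp ⟨⟨92123826, 0, 0, 0, 0, 56935346, 0, 0, 0, ⟨0, 0⟩, 0⟩, 0, 0⟩ 0 0)) (.pos 78 .mp ⟨⟨129860282, 0, 0, 0, 0, 0, 0, 0, 0, ⟨0, 0⟩, 0⟩, 0, 0⟩ 0 0))) (.pos 75 .mp ⟨⟨92203251, 0, 0, 0, 0, 56845901, 0, 0, 0, ⟨0, 0⟩, 0⟩, 0, 0⟩ 0 0))) (.pos 75 .mp ⟨⟨90179657, 0, 0, 0, 0, 60078412, 0, 0, 0, ⟨0, 0⟩, 0⟩, 0, 0⟩ 0 0)) (.pos 76 .mp ⟨⟨104905596, 0, 0, 0,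 0, 39652452, 0, 0, 0, ⟨0, 0⟩, 0⟩, 0, 0⟩ 0 0))) (.pos 57 .mp ⟨⟨89992660, 0, 0, 0, 0, 60490472, 0, 0, 0, ⟨0, 0⟩, 0⟩, 0, 0⟩ 0 0)) (.pos 58 .mp ⟨⟨104726602, 0, 0, 0, 0, 40054395, 0, 0, 0, ⟨0, 0⟩, 0⟩, 0, 0⟩ 0 0))) (.pos 51 .mp ⟨⟨89618785, 0, 0, 0, 0, 61314469, 0, 0, 0, ⟨0, 0⟩, 0⟩, 0, 0⟩ 0 0)) (.pos 52 .mp ⟨⟨104366488, 0, 0, 0, 0, 40861104, 0, 0, 0, ⟨0, 0⟩, 0⟩, 0, 0⟩ 0 0)) (.cut .s 10979328 (.cut .v 16809984 (.cut .l 131821 (.cut .d (-8192) (.pos 51 .mp ⟨⟨92112840, 0, 0, 0, 0, 62870734, 0, 0, 0, ⟨0, 0⟩, 0⟩, 0, 0⟩ 0 0) (.cut .s 10972160 (.pos 51 .mp ⟨⟨93679176, 0, 0, 0, 0, 58296332, 0, 0, 0, ⟨0, 0⟩, 0⟩, 0, 0⟩ 0 0) (.pos 51 .mp ⟨⟨94113393,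 0, 0, 0, 0, 58509421, 0, 0, 0, ⟨0, 0⟩, 0⟩, 0, 0⟩ 0 0))) (.pos 51 .mp ⟨⟨91284144, 0, 0, 0, 0, 61698781, 0, 0, 0, ⟨0, 0⟩, 0⟩, 0, 0⟩ 0 0)) (.pos 52 .mp ⟨⟨101249240, 0, 0, 0, 0, 48053174, 0, 0, 0, ⟨0, 0⟩, 0⟩, 0, 0⟩ 0 0)) (.cut .v 16809984 (.cut .l 131821 (.cut .d (-8192) (.pos 51 .mp ⟨⟨92967808, 0, 0, 0, 0, 63322011, 0, 0, 0, ⟨0, 0⟩, 0⟩, 0, 0⟩ 0 0) (.cut .s 10986496 (.pos 51 .mp ⟨⟨94548562, 0, 0, 0, 0, 58726825, 0, 0, 0, ⟨0, 0⟩, 0⟩, 0, 0⟩ 0 0) (.pos 51 .mp ⟨⟨94985682, 0, 0, 0, 0, 58946846, 0, 0, 0, ⟨0, 0⟩, 0⟩, 0, 0⟩ 0 0))) (.pos 51 .mp ⟨⟨92127946, 0, 0, 0, 0, 62212891, 0, 0, 0, ⟨0, 0⟩, 0⟩, 0, 0⟩ 0 0)) (.pos 52 .mp ⟨⟨101963462, 0, 0,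 0, 0, 48713533, 0, 0, 0, ⟨0, 0⟩, 0⟩, 0, 0⟩ 0 0)))))) (.pos 40 .mp ⟨⟨135416097, 0, 0, 0, 0, 0, 0, 0, 0, ⟨0, 0⟩, 0⟩, 0, 0⟩ 0 0)) (.cut .v 16842752 (.cut .d (-16384) (.cut .d (-24576) (.void 39 ⟨⟨0, 0, 0, 0, 0, 100000, 0, 0, 0, ⟨0, 0⟩, 0⟩, 0, 0⟩ 0 0) (.cut .l 131821 (.void 39 ⟨⟨0, 0, 0, 0, 0, 100000, 0, 0, 0, ⟨0, 0⟩, 0⟩, 0, 0⟩ 0 0) (.cut .v 16809984 (.pos 51 .mp ⟨⟨0, 0, 0, 0, 0, 220432901, 0, 0, 0, ⟨0, 0⟩, 0⟩, 0, 0⟩ 0 0) (.cut .l 197731 (.pos 52 .mp ⟨⟨101428473, 0, 0, 0, 0, 66089543, 0, 0, 0, ⟨0, 0⟩, 0⟩, 0, 0⟩ 0 0) (.cut .s 11051008 (.cut .s 11022336 (.pos 52 .mp ⟨⟨97522533, 0, 0, 0, 0, 58425002, 0, 0, 0, ⟨0, 0⟩, 0⟩, 0, 0⟩ 0 0) (.pos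 52 .mp ⟨⟨99352951, 0, 0, 0, 0, 59327984, 0, 0, 0, ⟨0, 0⟩, 0⟩, 0, 0⟩ 0 0)) (.cut .s 11079680 (.pos 52 .mp ⟨⟨101216315, 0, 0, 0, 0, 60264647, 0, 0, 0, ⟨0, 0⟩, 0⟩, 0, 0⟩ 0 0) (.pos 52 .mp ⟨⟨103113079, 0, 0, 0, 0, 61234228, 0, 0, 0, ⟨0, 0⟩, 0⟩, 0, 0⟩ 0 0))))))) (.cut .s 11051008 (.cut .s 11022336 (.cut .s 11008000 (.cut .v 16809984 (.cut .l 131821 (.cut .d (-8192) (.pos 51 .mp ⟨⟨93830420, 0, 0, 0, 0, 63786994, 0, 0, 0, ⟨0, 0⟩, 0⟩, 0, 0⟩ 0 0) (.cut .s 11000832 (.pos 51 .mp ⟨⟨95424760, 0, 0, 0, 0, 59169479, 0, 0, 0, ⟨0, 0⟩, 0⟩, 0, 0⟩ 0 0) (.pos 51 .mp ⟨⟨95865801, 0, 0, 0, 0, 59394720, 0, 0, 0, ⟨0, 0⟩, 0⟩, 0, 0⟩ 0 0))) (.pos 51 .mp ⟨⟨92979229,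 0, 0, 0, 0, 62733912, 0, 0, 0, ⟨0, 0⟩, 0⟩, 0, 0⟩ 0 0)) (.pos 52 .mp ⟨⟨102708687, 0, 0, 0, 0, 49350521, 0, 0, 0, ⟨0, 0⟩, 0⟩, 0, 0⟩ 0 0)) (.cut .v 16809984 (.cut .l 131821 (.cut .d (-8192) (.pos 51 .mp ⟨⟨94700729, 0, 0, 0, 0, 64265802, 0, 0, 0, ⟨0, 0⟩, 0⟩, 0, 0⟩ 0 0) (.cut .s 11015168 (.pos 51 .mp ⟨⟨96308814, 0, 0, 0, 0, 59622565, 0, 0, 0, ⟨0, 0⟩, 0⟩, 0, 0⟩ 0 0) (.cut .s 11018752 (.pos 51 .mp ⟨⟨96547311, 0, 0, 0, 0, 60018599, 0, 0, 0, ⟨0, 0⟩, 0⟩, 0, 0⟩ 0 0) (.pos 51 .mp ⟨⟨96753789, 0, 0, 0, 0, 60157974, 0, 0, 0, ⟨0, 0⟩, 0⟩, 0, 0⟩ 0 0)))) (.pos 51 .mp ⟨⟨93838045, 0, 0, 0, 0, 63261662, 0, 0, 0, ⟨0, 0⟩, 0⟩, 0, 0⟩ 0 0)) (.pos 52 .mp ⟨⟨103485997,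 0, 0, 0, 0, 49962481, 0, 0, 0, ⟨0, 0⟩, 0⟩, 0, 0⟩ 0 0))) (.cut .s 11036672 (.cut .v 16809984 (.cut .l 131821 (.cut .d (-8192) (.pos 51 .mp ⟨⟨95578787, 0, 0, 0, 0, 64758554, 0, 0, 0, ⟨0, 0⟩, 0⟩, 0, 0⟩ 0 0) (.cut .v 16793600 (.cut .s 11029504 (.pos 57 .mp ⟨⟨96194184, 0, 0, 0, 0, 61671428, 0, 0, 0, ⟨0, 0⟩, 0⟩, 0, 0⟩ 0 0) (.pos 57 .mp ⟨⟨96590744, 0, 0, 0, 0, 61991342, 0, 0, 0, ⟨0, 0⟩, 0⟩, 0, 0⟩ 0 0)) (.pos 58 .mp ⟨⟨104690933, 0, 0, 0, 0, 49673034, 0, 0, 0, ⟨0, 0⟩, 0⟩, 0, 0⟩ 0 0))) (.pos 51 .mp ⟨⟨94704443, 0, 0, 0, 0, 63795960, 0, 0, 0, ⟨0, 0⟩, 0⟩, 0, 0⟩ 0 0)) (.pos 52 .mp ⟨⟨104296481, 0, 0, 0, 0, 50547742, 0, 0, 0, ⟨0, 0⟩, 0⟩, 0, 0⟩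 0 0)) (.cut .v 16809984 (.cut .l 131821 (.cut .d (-8192) (.pos 51 .mp ⟨⟨96464648, 0, 0, 0, 0, 65265371, 0, 0, 0, ⟨0, 0⟩, 0⟩, 0, 0⟩ 0 0) (.cut .v 16793600 (.cut .l 65910 (.cut .d (-4096) (.pos 57 .mp ⟨⟨96417922, 0, 0, 0, 0, 65101318, 0, 0, 0, ⟨0, 0⟩, 0⟩, 0, 0⟩ 0 0) (.cut .s 11043840 (.pos 57 .mp ⟨⟨97414860, 0, 0, 0, 0, 61561305, 0, 0, 0, ⟨0, 0⟩, 0⟩, 0, 0⟩ 0 0) (.pos 57 .mp ⟨⟨97879934, 0, 0, 0, 0, 61780776, 0, 0, 0, ⟨0, 0⟩, 0⟩, 0, 0⟩ 0 0))) (.pos 57 .mp ⟨⟨95975028, 0, 0, 0, 0, 63455633, 0, 0, 0, ⟨0, 0⟩, 0⟩, 0, 0⟩ 0 0)) (.pos 58 .mp ⟨⟨105540299, 0, 0, 0, 0, 50219521, 0, 0, 0, ⟨0, 0⟩, 0⟩, 0, 0⟩ 0 0))) (.pos 51 .mp ⟨⟨95578477, 0, 0,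 0, 0, 64336623, 0, 0, 0, ⟨0, 0⟩, 0⟩, 0, 0⟩ 0 0)) (.pos 52 .mp ⟨⟨105141237, 0, 0, 0, 0, 51104616, 0, 0, 0, ⟨0, 0⟩, 0⟩, 0, 0⟩ 0 0)))) (.cut .s 11079680 (.cut .s 11065344 (.cut .v 16809984 (.cut .l 131821 (.cut .d (-8192) (.pos 51 .mp ⟨⟨97358363, 0, 0, 0, 0, 65786375, 0, 0, 0, ⟨0, 0⟩, 0⟩, 0, 0⟩ 0 0) (.cut .v 16793600 (.cut .l 65910 (.cut .d (-4096) (.pos 57 .mp ⟨⟨97309091, 0, 0, 0, 0, 65624182, 0, 0, 0, ⟨0, 0⟩, 0⟩, 0, 0⟩ 0 0) (.cut .s 11058176 (.pos 57 .mp ⟨⟨98345255, 0, 0, 0, 0, 62005825, 0, 0, 0, ⟨0, 0⟩, 0⟩, 0, 0⟩ 0 0) (.pos 57 .mp ⟨⟨98810626, 0, 0, 0, 0, 62236800, 0, 0, 0, ⟨0, 0⟩, 0⟩, 0, 0⟩ 0 0))) (.pos 57 .mp ⟨⟨96860201, 0, 0,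 0, 0, 63993511, 0, 0, 0, ⟨0, 0⟩, 0⟩, 0, 0⟩ 0 0)) (.pos 58 .mp ⟨⟨106425119, 0, 0, 0, 0, 50735736, 0, 0, 0, ⟨0, 0⟩, 0⟩, 0, 0⟩ 0 0))) (.pos 51 .mp ⟨⟨96460198, 0, 0, 0, 0, 64883469, 0, 0, 0, ⟨0, 0⟩, 0⟩, 0, 0⟩ 0 0)) (.pos 52 .mp ⟨⟨106021369, 0, 0, 0, 0, 51631396, 0, 0, 0, ⟨0, 0⟩, 0⟩, 0, 0⟩ 0 0)) (.cut .v 16809984 (.cut .l 131821 (.cut .d (-8192) (.pos 51 .mp ⟨⟨98259988, 0, 0, 0, 0, 66321689, 0, 0, 0, ⟨0, 0⟩, 0⟩, 0, 0⟩ 0 0) (.cut .v 16793600 (.cut .l 65910 (.cut .d (-4096) (.pos 57 .mp ⟨⟨98208138, 0, 0, 0, 0, 66161381, 0, 0, 0, ⟨0, 0⟩, 0⟩, 0, 0⟩ 0 0) (.cut .s 11072512 (.pos 57 .mp ⟨⟨99265732, 0, 0, 0, 0, 62491397, 0, 0, 0, ⟨0, 0⟩, 0⟩,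 0, 0⟩ 0 0) (.pos 57 .mp ⟨⟨99722846, 0, 0, 0, 0, 62748594, 0, 0, 0, ⟨0, 0⟩, 0⟩, 0, 0⟩ 0 0))) (.pos 57 .mp ⟨⟨97753169, 0, 0, 0, 0, 64537253, 0, 0, 0, ⟨0, 0⟩, 0⟩, 0, 0⟩ 0 0)) (.pos 58 .mp ⟨⟨107346503, 0, 0, 0, 0, 51219957, 0, 0, 0, ⟨0, 0⟩, 0⟩, 0, 0⟩ 0 0))) (.pos 51 .mp ⟨⟨97349659, 0, 0, 0, 0, 65436313, 0, 0, 0, ⟨0, 0⟩, 0⟩, 0, 0⟩ 0 0)) (.pos 52 .mp ⟨⟨106937988, 0, 0, 0, 0, 52126360, 0, 0, 0, ⟨0, 0⟩, 0⟩, 0, 0⟩ 0 0))) (.cut .s 11094016 (.cut .v 16809984 (.cut .l 131821 (.cut .d (-8192) (.pos 51 .mp ⟨⟨99169576, 0, 0, 0, 0, 66871438, 0, 0, 0, ⟨0, 0⟩, 0⟩, 0, 0⟩ 0 0) (.cut .v 16793600 (.cut .l 65910 (.cut .d (-4096) (.pos 57 .mp ⟨⟨99115117,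 0, 0, 0, 0, 66713041, 0, 0, 0, ⟨0, 0⟩, 0⟩, 0, 0⟩ 0 0) (.cut .s 11086848 (.pos 57 .mp ⟨⟨100181973, 0, 0, 0, 0, 63008387, 0, 0, 0, ⟨0, 0⟩, 0⟩, 0, 0⟩ 0 0) (.pos 57 .mp ⟨⟨100643122, 0, 0, 0, 0, 63270771, 0, 0, 0, ⟨0, 0⟩, 0⟩, 0, 0⟩ 0 0))) (.pos 57 .mp ⟨⟨98653984, 0, 0, 0, 0, 65086673, 0, 0, 0, ⟨0, 0⟩, 0⟩, 0, 0⟩ 0 0)) (.pos 58 .mp ⟨⟨108305568, 0, 0, 0, 0, 51670446, 0, 0, 0, ⟨0, 0⟩, 0⟩, 0, 0⟩ 0 0))) (.pos 51 .mp ⟨⟨98246913, 0, 0, 0, 0, 65994972, 0, 0, 0, ⟨0, 0⟩, 0⟩, 0, 0⟩ 0 0)) (.pos 52 .mp ⟨⟨107892213, 0, 0, 0, 0, 52587770, 0, 0, 0, ⟨0, 0⟩, 0⟩, 0, 0⟩ 0 0)) (.cut .v 16809984 (.cut .l 131821 (.cut .d (-8192) (.pos 51 .mp ⟨⟨100087182, 0,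 0, 0, 0, 67435747, 0, 0, 0, ⟨0, 0⟩, 0⟩, 0, 0⟩ 0 0) (.cut .v 16793600 (.cut .l 65910 (.cut .d (-4096) (.pos 57 .mp ⟨⟨100030085, 0, 0, 0, 0, 67279287, 0, 0, 0, ⟨0, 0⟩, 0⟩, 0, 0⟩ 0 0) (.cut .s 11101184 (.pos 57 .mp ⟨⟨101106299, 0, 0, 0, 0, 63535742, 0, 0, 0, ⟨0, 0⟩, 0⟩, 0, 0⟩ 0 0) (.pos 57 .mp ⟨⟨101571511, 0, 0, 0, 0, 63803293, 0, 0, 0, ⟨0, 0⟩, 0⟩, 0, 0⟩ 0 0))) (.pos 57 .mp ⟨⟨99562702, 0, 0, 0, 0, 65641586, 0, 0, 0, ⟨0, 0⟩, 0⟩, 0, 0⟩ 0 0)) (.pos 58 .mp ⟨⟨109303441, 0, 0, 0, 0, 52085448, 0, 0, 0, ⟨0, 0⟩, 0⟩, 0, 0⟩ 0 0))) (.pos 51 .mp ⟨⟨99152014, 0, 0, 0, 0, 66559259, 0, 0, 0, ⟨0, 0⟩, 0⟩, 0, 0⟩ 0 0)) (.pos 52 .mp ⟨⟨108885171, 0, 0, 0,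 0, 53013870, 0, 0, 0, ⟨0, 0⟩, 0⟩, 0, 0⟩ 0 0)))))) (.pos 40 .mp ⟨⟨144828406, 0, 0, 0, 0, 0, 0, 0, 0, ⟨0, 0⟩, 0⟩, 0, 0⟩ 0 0))) (.cut .s 11223040 (.cut .v 16842752 (.cut .d (-16384) (.cut .d (-24576) (.void 39 ⟨⟨0, 0, 0, 0, 0, 100000, 0, 0, 0, ⟨0, 0⟩, 0⟩, 0, 0⟩ 0 0) (.cut .d (-20480) (.pos 39 .mp ⟨⟨101609131, 0, 0, 0, 0, 83132812, 0, 0, 0, ⟨0, 0⟩, 0⟩, 0, 0⟩ 0 0) (.cut .v 16809984 (.pos 51 .mp ⟨⟨0, 0, 0, 0, 0, 243299785, 0, 0, 0, ⟨0, 0⟩, 0⟩, 0, 0⟩ 0 0) (.cut .v 16826368 (.cut .l 131821 (.void 117 ⟨⟨100000, 0, 0, 0, 0, 0, 0, 0, 0, ⟨0, 0⟩, 0⟩, 0, 0⟩ 0 0) (.cut .l 197731 (.void 117 ⟨⟨0, 0, 0, 0, 0, 100000, 0, 0, 0, ⟨0, 0⟩, 0⟩, 0, 0⟩ 0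 0) (.cut .s 11165696 (.cut .s 11137024 (.pos 117 .mp ⟨⟨101337392, 0, 0, 0, 0, 67715299, 0, 0, 0, ⟨0, 0⟩, 0⟩, 0, 0⟩ 0 0) (.pos 117 .mp ⟨⟨103227567, 0, 0, 0, 0, 68869511, 0, 0, 0, ⟨0, 0⟩, 0⟩, 0, 0⟩ 0 0)) (.cut .s 11194368 (.pos 117 .mp ⟨⟨105151031, 0, 0, 0, 0, 70063592, 0, 0, 0, ⟨0, 0⟩, 0⟩, 0, 0⟩ 0 0) (.pos 117 .mp ⟨⟨107108253, 0, 0, 0, 0, 71297164, 0, 0, 0, ⟨0, 0⟩, 0⟩, 0, 0⟩ 0 0))))) (.pos 118 .mp ⟨⟨151959335, 0, 0, 0, 0, 0, 0, 0, 0, ⟨0, 0⟩, 0⟩, 0, 0⟩ 0 0))))) (.cut .s 11165696 (.cut .s 11137024 (.cut .s 11122688 (.cut .v 16809984 (.cut .l 131821 (.cut .d (-8192) (.pos 51 .mp ⟨⟨101012863, 0, 0, 0, 0, 68014743, 0, 0, 0, ⟨0, 0⟩, 0⟩,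 0, 0⟩ 0 0) (.cut .v 16793600 (.cut .l 65910 (.cut .d (-4096) (.pos 57 .mp ⟨⟨100953096, 0, 0, 0, 0, 67860247, 0, 0, 0, ⟨0, 0⟩, 0⟩, 0, 0⟩ 0 0) (.cut .s 11115520 (.pos 57 .mp ⟨⟨102038766, 0, 0, 0, 0, 64073419, 0, 0, 0, ⟨0, 0⟩, 0⟩, 0, 0⟩ 0 0) (.pos 57 .mp ⟨⟨102508069, 0, 0, 0, 0, 64346116, 0, 0, 0, ⟨0, 0⟩, 0⟩, 0, 0⟩ 0 0))) (.pos 57 .mp ⟨⟨100479376, 0, 0, 0, 0, 66201805, 0, 0, 0, ⟨0, 0⟩, 0⟩, 0, 0⟩ 0 0)) (.pos 58 .mp ⟨⟨110341254, 0, 0, 0, 0, 52463189, 0, 0, 0, ⟨0, 0⟩, 0⟩, 0, 0⟩ 0 0))) (.pos 51 .mp ⟨⟨100065016, 0, 0, 0, 0, 67128990, 0, 0, 0, ⟨0, 0⟩, 0⟩, 0, 0⟩ 0 0)) (.pos 52 .mp ⟨⟨109917997, 0, 0, 0, 0, 53402884, 0, 0, 0, ⟨0, 0⟩, 0⟩, 0,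 0⟩ 0 0)) (.cut .v 16809984 (.cut .l 131821 (.cut .d (-8192) (.pos 51 .mp ⟨⟨101946673, 0, 0, 0, 0, 68608555, 0, 0, 0, ⟨0, 0⟩, 0⟩, 0, 0⟩ 0 0) (.cut .v 16793600 (.cut .l 65910 (.cut .d (-4096) (.pos 57 .mp ⟨⟨101884205, 0, 0, 0, 0, 68456048, 0, 0, 0, ⟨0, 0⟩, 0⟩, 0, 0⟩ 0 0) (.cut .s 11129856 (.pos 57 .mp ⟨⟨102979429, 0, 0, 0, 0, 64621378, 0, 0, 0, ⟨0, 0⟩, 0⟩, 0, 0⟩ 0 0) (.pos 57 .mp ⟨⟨103452853, 0, 0, 0, 0, 64899199, 0, 0, 0, ⟨0, 0⟩, 0⟩, 0, 0⟩ 0 0))) (.pos 57 .mp ⟨⟨101404062, 0, 0, 0, 0, 66767144, 0, 0, 0, ⟨0, 0⟩, 0⟩, 0, 0⟩ 0 0)) (.pos 58 .mp ⟨⟨111420149, 0, 0, 0, 0, 52801879, 0, 0, 0, ⟨0, 0⟩, 0⟩, 0, 0⟩ 0 0))) (.pos 51 .mp ⟨⟨100985975,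 0, 0, 0, 0, 67703978, 0, 0, 0, ⟨0, 0⟩, 0⟩, 0, 0⟩ 0 0)) (.pos 52 .mp ⟨⟨110991832, 0, 0, 0, 0, 53753022, 0, 0, 0, ⟨0, 0⟩, 0⟩, 0, 0⟩ 0 0))) (.cut .s 11151360 (.cut .v 16809984 (.cut .l 131821 (.cut .d (-8192) (.pos 51 .mp ⟨⟨102888671, 0, 0, 0, 0, 69217310, 0, 0, 0, ⟨0, 0⟩, 0⟩, 0, 0⟩ 0 0) (.cut .v 16793600 (.cut .l 65910 (.cut .d (-4096) (.pos 57 .mp ⟨⟨102823470, 0, 0, 0, 0, 69066820, 0, 0, 0, ⟨0, 0⟩, 0⟩, 0, 0⟩ 0 0) (.cut .s 11144192 (.pos 57 .mp ⟨⟨103928348, 0, 0, 0, 0, 65179574, 0, 0, 0, ⟨0, 0⟩, 0⟩, 0, 0⟩ 0 0) (.pos 57 .mp ⟨⟨104401380, 0, 0, 0, 0, 65470313, 0, 0, 0, ⟨0, 0⟩, 0⟩, 0, 0⟩ 0 0))) (.pos 57 .mp ⟨⟨102336817, 0, 0, 0, 0, 67337413,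 0, 0, 0, ⟨0, 0⟩, 0⟩, 0, 0⟩ 0 0)) (.pos 58 .mp ⟨⟨112541275, 0, 0, 0, 0, 53099708, 0, 0, 0, ⟨0, 0⟩, 0⟩, 0, 0⟩ 0 0))) (.pos 51 .mp ⟨⟨101914946, 0, 0, 0, 0, 68284035, 0, 0, 0, ⟨0, 0⟩, 0⟩, 0, 0⟩ 0 0)) (.pos 52 .mp ⟨⟨112107826, 0, 0, 0, 0, 54062473, 0, 0, 0, ⟨0, 0⟩, 0⟩, 0, 0⟩ 0 0)) (.cut .v 16809984 (.cut .l 131821 (.cut .d (-8192) (.pos 51 .mp ⟨⟨103838912, 0, 0, 0, 0, 69841141, 0, 0, 0, ⟨0, 0⟩, 0⟩, 0, 0⟩ 0 0) (.cut .v 16793600 (.cut .l 65910 (.cut .d (-4096) (.pos 57 .mp ⟨⟨103770948, 0, 0, 0, 0, 69692694, 0, 0, 0, ⟨0, 0⟩, 0⟩, 0, 0⟩ 0 0) (.cut .s 11158528 (.pos 57 .mp ⟨⟨104866538, 0, 0, 0, 0, 65780747, 0, 0, 0, ⟨0, 0⟩, 0⟩, 0, 0⟩ 0 0)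 (.pos 57 .mp ⟨⟨105331414, 0, 0, 0, 0, 66097825, 0, 0, 0, ⟨0, 0⟩, 0⟩, 0, 0⟩ 0 0))) (.pos 57 .mp ⟨⟨103277696, 0, 0, 0, 0, 67912426, 0, 0, 0, ⟨0, 0⟩, 0⟩, 0, 0⟩ 0 0)) (.pos 58 .mp ⟨⟨113705789, 0, 0, 0, 0, 53354850, 0, 0, 0, ⟨0, 0⟩, 0⟩, 0, 0⟩ 0 0))) (.pos 51 .mp ⟨⟨102851985, 0, 0, 0, 0, 68868974, 0, 0, 0, ⟨0, 0⟩, 0⟩, 0, 0⟩ 0 0)) (.pos 52 .mp ⟨⟨113267138, 0, 0, 0, 0, 54329411, 0, 0, 0, ⟨0, 0⟩, 0⟩, 0, 0⟩ 0 0)))) (.cut .s 11194368 (.cut .s 11180032 (.cut .v 16809984 (.cut .l 131821 (.cut .d (-8192) (.pos 51 .mp ⟨⟨104797455, 0, 0, 0, 0, 70480178, 0, 0, 0, ⟨0, 0⟩, 0⟩, 0, 0⟩ 0 0) (.cut .v 16793600 (.cut .s 11172864 (.pos 57 .mp ⟨⟨105358768,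 0, 0, 0, 0, 67205937, 0, 0, 0, ⟨0, 0⟩, 0⟩, 0, 0⟩ 0 0) (.pos 57 .mp ⟨⟨105891066, 0, 0, 0, 0, 67425248, 0, 0, 0, ⟨0, 0⟩, 0⟩, 0, 0⟩ 0 0)) (.pos 58 .mp ⟨⟨114914855, 0, 0, 0, 0, 53565459, 0, 0, 0, ⟨0, 0⟩, 0⟩, 0, 0⟩ 0 0))) (.pos 51 .mp ⟨⟨103797149, 0, 0, 0, 0, 69458605, 0, 0, 0, ⟨0, 0⟩, 0⟩, 0, 0⟩ 0 0)) (.pos 52 .mp ⟨⟨114470934, 0, 0, 0, 0, 54551988, 0, 0, 0, ⟨0, 0⟩, 0⟩, 0, 0⟩ 0 0)) (.cut .v 16809984 (.cut .l 131821 (.cut .d (-8192) (.pos 51 .mp ⟨⟨105764359, 0, 0, 0, 0, 71134556, 0, 0, 0, ⟨0, 0⟩, 0⟩, 0, 0⟩ 0 0) (.cut .v 16793600 (.cut .s 11187200 (.pos 57 .mp ⟨⟨106490958, 0, 0, 0, 0, 67541530, 0, 0, 0, ⟨0, 0⟩, 0⟩, 0, 0⟩ 0 0) (.pos 57 .mp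 ⟨⟨107135146, 0, 0, 0, 0, 67592218, 0, 0, 0, ⟨0, 0⟩, 0⟩, 0, 0⟩ 0 0)) (.pos 58 .mp ⟨⟨116169648, 0, 0, 0, 0, 53729671, 0, 0, 0, ⟨0, 0⟩, 0⟩, 0, 0⟩ 0 0))) (.pos 51 .mp ⟨⟨104750495, 0, 0, 0, 0, 70052739, 0, 0, 0, ⟨0, 0⟩, 0⟩, 0, 0⟩ 0 0)) (.pos 52 .mp ⟨⟨115720389, 0, 0, 0, 0, 54728339, 0, 0, 0, ⟨0, 0⟩, 0⟩, 0, 0⟩ 0 0))) (.cut .s 11208704 (.cut .v 16809984 (.cut .l 131821 (.cut .d (-8192) (.pos 51 .mp ⟨⟨106739682, 0, 0, 0, 0, 71804408, 0, 0, 0, ⟨0, 0⟩, 0⟩, 0, 0⟩ 0 0) (.cut .s 11201536 (.pos 51 .mp ⟨⟨108541494, 0, 0, 0, 0, 66444171, 0, 0, 0, ⟨0, 0⟩, 0⟩, 0, 0⟩ 0 0) (.pos 51 .mp ⟨⟨109040361, 0, 0, 0, 0, 66740382, 0, 0, 0, ⟨0, 0⟩, 0⟩, 0, 0⟩ 0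 0))) (.pos 51 .mp ⟨⟨105712081, 0, 0, 0, 0, 70651185, 0, 0, 0, ⟨0, 0⟩, 0⟩, 0, 0⟩ 0 0)) (.pos 52 .mp ⟨⟨117016685, 0, 0, 0, 0, 54856581, 0, 0, 0, ⟨0, 0⟩, 0⟩, 0, 0⟩ 0 0)) (.cut .v 16809984 (.cut .l 131821 (.cut .d (-8192) (.pos 51 .mp ⟨⟨107723484, 0, 0, 0, 0, 72489870, 0, 0, 0, ⟨0, 0⟩, 0⟩, 0, 0⟩ 0 0) (.cut .s 11215872 (.pos 51 .mp ⟨⟨109541399, 0, 0, 0, 0, 67039045, 0, 0, 0, ⟨0, 0⟩, 0⟩, 0, 0⟩ 0 0) (.pos 51 .mp ⟨⟨110044616, 0, 0, 0, 0, 67340152, 0, 0, 0, ⟨0, 0⟩, 0⟩, 0, 0⟩ 0 0))) (.pos 51 .mp ⟨⟨106681965, 0, 0, 0, 0, 71253752, 0, 0, 0, ⟨0, 0⟩, 0⟩, 0, 0⟩ 0 0)) (.pos 52 .mp ⟨⟨118361015, 0, 0, 0, 0, 54934811, 0, 0, 0, ⟨0, 0⟩, 0⟩, 0, 0⟩ 0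 0)))))) (.pos 40 .mp ⟨⟨154965640, 0, 0, 0, 0, 0, 0, 0, 0, ⟨0, 0⟩, 0⟩, 0, 0⟩ 0 0)) (.cut .v 16842752 (.cut .d (-16384) (.cut .d (-24576) (.void 39 ⟨⟨0, 0, 0, 0, 0, 100000, 0, 0, 0, ⟨0, 0⟩, 0⟩, 0, 0⟩ 0 0) (.cut .d (-20480) (.pos 39 .mp ⟨⟨109411241, 0, 0, 0, 0, 89804430, 0, 0, 0, ⟨0, 0⟩, 0⟩, 0, 0⟩ 0 0) (.cut .v 16809984 (.pos 51 .mp ⟨⟨0, 0, 0, 0, 0, 263643329, 0, 0, 0, ⟨0, 0⟩, 0⟩, 0, 0⟩ 0 0) (.cut .v 16826368 (.cut .s 11280384 (.cut .s 11251712 (.pos 117 .mp ⟨⟨109099713, 0, 0, 0, 0, 74590826, 0, 0, 0, ⟨0, 0⟩, 0⟩, 0, 0⟩ 0 0) (.pos 117 .mp ⟨⟨111125901, 0, 0, 0, 0, 76063655, 0, 0, 0, ⟨0, 0⟩, 0⟩, 0, 0⟩ 0 0)) (.pos 117 .mp ⟨⟨113187316,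 0, 0, 0, 0, 81543346, 0, 0, 0, ⟨0, 0⟩, 0⟩, 0, 0⟩ 0 0)) (.pos 118 .mp ⟨⟨163252500, 0, 0, 0, 0, 0, 0, 0, 0, ⟨0, 0⟩, 0⟩, 0, 0⟩ 0 0))))) (.cut .s 11280384 (.cut .s 11251712 (.cut .s 11237376 (.cut .v 16809984 (.cut .l 131821 (.cut .d (-8192) (.pos 51 .mp ⟨⟨108715826, 0, 0, 0, 0, 73191080, 0, 0, 0, ⟨0, 0⟩, 0⟩, 0, 0⟩ 0 0) (.cut .s 11230208 (.pos 51 .mp ⟨⟨110550021, 0, 0, 0, 0, 67643698, 0, 0, 0, ⟨0, 0⟩, 0⟩, 0, 0⟩ 0 0) (.pos 51 .mp ⟨⟨111057620, 0, 0, 0, 0, 67949676, 0, 0, 0, ⟨0, 0⟩, 0⟩, 0, 0⟩ 0 0))) (.pos 51 .mp ⟨⟨107660207, 0, 0, 0, 0, 71860248, 0, 0, 0, ⟨0, 0⟩, 0⟩, 0, 0⟩ 0 0)) (.pos 52 .mp ⟨⟨119754579, 0, 0, 0, 0, 54961105, 0, 0, 0,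 ⟨0, 0⟩, 0⟩, 0, 0⟩ 0 0)) (.cut .v 16809984 (.cut .l 131821 (.cut .d (-8192) (.pos 51 .mp ⟨⟨109716768, 0, 0, 0, 0, 73908176, 0, 0, 0, ⟨0, 0⟩, 0⟩, 0, 0⟩ 0 0) (.cut .s 11244544 (.pos 51 .mp ⟨⟨111555940, 0, 0, 0, 0, 68277925, 0, 0, 0, ⟨0, 0⟩, 0⟩, 0, 0⟩ 0 0) (.pos 51 .mp ⟨⟨112021792, 0, 0, 0, 0, 68668566, 0, 0, 0, ⟨0, 0⟩, 0⟩, 0, 0⟩ 0 0))) (.pos 51 .mp ⟨⟨108646866, 0, 0, 0, 0, 72470479, 0, 0, 0, ⟨0, 0⟩, 0⟩, 0, 0⟩ 0 0)) (.pos 52 .mp ⟨⟨121198587, 0, 0, 0, 0, 54933521, 0, 0, 0, ⟨0, 0⟩, 0⟩, 0, 0⟩ 0 0))) (.cut .s 11266048 (.cut .v 16809984 (.cut .s 11258880 (.pos 51 .mp ⟨⟨111517623, 0, 0, 0, 0, 70810095, 0, 0, 0, ⟨0, 0⟩, 0⟩, 0, 0⟩ 0 0) (.pos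 51 .mp ⟨⟨112143906, 0, 0, 0, 0, 70949964, 0, 0, 0, ⟨0, 0⟩, 0⟩, 0, 0⟩ 0 0)) (.pos 52 .mp ⟨⟨122694256, 0, 0, 0, 0, 54850097, 0, 0, 0, ⟨0, 0⟩, 0⟩, 0, 0⟩ 0 0)) (.cut .v 16809984 (.cut .s 11273216 (.pos 51 .mp ⟨⟨112921973, 0, 0, 0, 0, 70850063, 0, 0, 0, ⟨0, 0⟩, 0⟩, 0, 0⟩ 0 0) (.pos 51 .mp ⟨⟨113765885, 0, 0, 0, 0, 70649260, 0, 0, 0, ⟨0, 0⟩, 0⟩, 0, 0⟩ 0 0)) (.pos 52 .mp ⟨⟨124242816, 0, 0, 0, 0, 54708849, 0, 0, 0, ⟨0, 0⟩, 0⟩, 0, 0⟩ 0 0)))) (.cut .s 11309056 (.cut .v 16809984 (.cut .l 131821 (.cut .d (-8192) (.pos 51 .mp ⟨⟨112771817, 0, 0, 0, 0, 78204502, 0, 0, 0, ⟨0, 0⟩, 0⟩, 0, 0⟩ 0 0) (.cut .v 16793600 (.cut .l 65910 (.cut .d (-4096) (.pos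 57 .mp ⟨⟨112677523, 0, 0, 0, 0, 78072426, 0, 0, 0, ⟨0, 0⟩, 0⟩, 0, 0⟩ 0 0) (.cut .v 16785408 (.cut .s 11294720 (.cut .s 11287552 (.pos 75 .mp ⟨⟨115482070, 0, 0, 0, 0, 68960137, 0, 0, 0, ⟨0, 0⟩, 0⟩, 0, 0⟩ 0 0) (.pos 75 .mp ⟨⟨116144640, 0, 0, 0, 0, 69082858, 0, 0, 0, ⟨0, 0⟩, 0⟩, 0, 0⟩ 0 0)) (.pos 75 .mp ⟨⟨114777746, 0, 0, 0, 0, 72721657, 0, 0, 0, ⟨0, 0⟩, 0⟩, 0, 0⟩ 0 0)) (.pos 76 .mp ⟨⟨132732707, 0, 0, 0, 0, 44600057, 0, 0, 0, ⟨0, 0⟩, 0⟩, 0, 0⟩ 0 0))) (.pos 57 .mp ⟨⟨112120830, 0, 0, 0, 0, 74019055, 0, 0, 0, ⟨0, 0⟩, 0⟩, 0, 0⟩ 0 0)) (.pos 58 .mp ⟨⟨132496238, 0, 0, 0, 0, 45134815, 0, 0, 0, ⟨0, 0⟩, 0⟩, 0, 0⟩ 0 0))) (.pos 51 .mp ⟨⟨111657954,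 0, 0, 0, 0, 75074209, 0, 0, 0, ⟨0, 0⟩, 0⟩, 0, 0⟩ 0 0)) (.pos 52 .mp ⟨⟨132020383, 0, 0, 0, 0, 46208303, 0, 0, 0, ⟨0, 0⟩, 0⟩, 0, 0⟩ 0 0)) (.cut .v 16809984 (.cut .l 131821 (.cut .d (-8192) (.pos 51 .mp ⟨⟨114852666, 0, 0, 0, 0, 79833741, 0, 0, 0, ⟨0, 0⟩, 0⟩, 0, 0⟩ 0 0) (.cut .v 16793600 (.cut .s 11323392 (.cut .s 11316224 (.pos 57 .mp ⟨⟨118200070, 0, 0, 0, 0, 69383196, 0, 0, 0, ⟨0, 0⟩, 0⟩, 0, 0⟩ 0 0) (.pos 57 .mp ⟨⟨118899028, 0, 0, 0, 0, 69474329, 0, 0, 0, ⟨0, 0⟩, 0⟩, 0, 0⟩ 0 0)) (.pos 57 .mp ⟨⟨117271000, 0, 0, 0, 0, 73594666, 0, 0, 0, ⟨0, 0⟩, 0⟩, 0, 0⟩ 0 0)) (.pos 58 .mp ⟨⟨136029122, 0, 0, 0, 0, 44296880, 0, 0, 0, ⟨0, 0⟩, 0⟩, 0, 0⟩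 0 0))) (.pos 51 .mp ⟨⟨113708556, 0, 0, 0, 0, 76332242, 0, 0, 0, ⟨0, 0⟩, 0⟩, 0, 0⟩ 0 0)) (.pos 52 .mp ⟨⟨135541908, 0, 0, 0, 0, 45396989, 0, 0, 0, ⟨0, 0⟩, 0⟩, 0, 0⟩ 0 0))))) (.pos 40 .mp ⟨⟨165778501, 0, 0, 0, 0, 0, 0, 0, 0, ⟨0, 0⟩, 0⟩, 0, 0⟩ 0 0)))) (.pos 38 .mp ⟨⟨159372465, 0, 0, 0, 0, 0, 0, 0, 0, ⟨0, 0⟩, 0⟩, 0, 0⟩ 0 0)))))) (.pos 36 .mp ⟨⟨183939269, 0, 0, 0, 0, 0, 0, 0, 0, ⟨0, 0⟩, 0⟩, 0, 0⟩ 0 0))) (.void 34 ⟨⟨100000, 0, 0, 0, 0, 0, 0, 0, 0, ⟨0, 0⟩, 0⟩, 0, 0⟩ 0 0))) (.void 32 ⟨⟨100000, 0, 0, 0, 0, 0, 0, 0, 0, ⟨0, 0⟩, 0⟩, 0, 0⟩ 0 0))) (.void 30 ⟨⟨100000, 0, 0, 0, 0, 0, 0, 0, 0, ⟨0, 0⟩, 0⟩, 0, 0⟩ 0 0))) (.void 28 ⟨⟨100000, 0, 0, 0,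 0, 0, 0, 0, 0, ⟨0, 0⟩, 0⟩, 0, 0⟩ 0 0))) (.void 26 ⟨⟨100001, 0, 0, 0, 0, 0, 0, 0, 0, ⟨0, 0⟩, 0⟩, 0, 0⟩ 0 0)) (.void 127 ⟨⟨100000, 0, 0, 0, 0, 0, 0, 0, 0, ⟨0, 0⟩, 0⟩, 0, 0⟩ 0 0)) (.void 134 ⟨⟨100000, 0, 0, 0, 0, 0, 0, 0, 0, ⟨0, 0⟩, 0⟩, 0, 0⟩ 0 0))) (.cut .v 16777216 (.cut .v 8388608 (.cut .v 4194304 (.pos 4 .pm ⟨⟨0, 0, 257269273, 0, 0, 0, 0, 0, 0, ⟨0, 0⟩, 0⟩, 0, 114303170⟩ 0 0) (.pos 5 .pm ⟨⟨0, 0, 2620782, 0, 0, 0, 0, 0, 0, ⟨0, 0⟩, 0⟩, 0, 0⟩ 0 0)) (.pos 3 .pm ⟨⟨0, 0, 0, 0, 0, 0, 0, 0, 0, ⟨0, 0⟩, 0⟩, 0, 0⟩ 0 0)) (.cut .v 67108864 (.cut .d 4548041 (.cut .v 33554432 (.cut .d 2274020 (.cut .v 25165824 (.cut .d 1137010 (.cut .d 568505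 (.cut .v 20971520 (.cut .d 284252 (.cut .v 18874368 (.cut .v 17825792 (.cut .s 11108352 (.pos 31 .pp ⟨⟨78560409, 0, 0, 0, 0, 0, 0, 0, 0, ⟨0, 0⟩, 0⟩, 5555997, 0⟩ 0 0) (.pos 31 .pp ⟨⟨92391830, 0, 0, 0, 0, 0, 0, 0, 0, ⟨0, 0⟩, 0⟩, 6132071, 0⟩ 0 0)) (.pos 32 .pp ⟨⟨152927118, 0, 0, 0, 0, 0, 0, 0, 0, ⟨0, 0⟩, 0⟩, 0, 0⟩ 0 0)) (.pos 30 .pp ⟨⟨191833589, 0, 0, 0, 0, 0, 0, 0, 0, ⟨0, 0⟩, 0⟩, 0, 0⟩ 0 0)) (.pos 27 .pp ⟨⟨111661995, 0, 0, 0, 0, 0, 0, 0, 0, ⟨0, 0⟩, 0⟩, 0, 47792⟩ 0 0)) (.cut .d 284252 (.void 28 ⟨⟨0, 0, 0, 0, 0, 0, 0, 0, 0, ⟨0, 0⟩, 0⟩, 100000, 0⟩ 0 0) (.pos 28 .pp ⟨⟨0, 0, 0, 0, 0, 0, 0, 0, 0, ⟨0, 0⟩, 0⟩, 22331613, 0⟩ 0 0))) (.cut .v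 20971520 (.pos 27 .pp ⟨⟨0, 0, 0, 0, 0, 0, 0, 0, 0, ⟨0, 0⟩, 0⟩, 0, 536319⟩ 0 0) (.pos 28 .pp ⟨⟨0, 0, 0, 0, 0, 0, 205073, 0, 0, ⟨0, 0⟩, 0⟩, 15829641, 0⟩ 0 0))) (.pos 25 .pp ⟨⟨0, 0, 0, 0, 0, 0, 0, 0, 0, ⟨0, 0⟩, 0⟩, 0, 579225⟩ 0 0)) (.cut .d 1137010 (.cut .d 568505 (.void 26 ⟨⟨0, 0, 0, 0, 0, 0, 0, 0, 0, ⟨0, 0⟩, 0⟩, 100000, 0⟩ 0 0) (.pos 26 .pp ⟨⟨0, 0, 0, 0, 0, 0, 0, 0, 0, ⟨0, 0⟩, 0⟩, 27917224, 0⟩ 0 0)) (.pos 26 .pp ⟨⟨0, 0, 0, 0, 0, 0, 76210, 0, 0, ⟨0, 0⟩, 0⟩, 18080087, 0⟩ 0 0))) (.pos 24 .pp ⟨⟨0, 0, 0, 0, 0, 0, 0, 0, 0, ⟨0, 0⟩, 0⟩, 0, 643583⟩ 0 0)) (.cut .d 2274020 (.cut .v 50331648 (.pos 128 .pp ⟨⟨0, 0, 0, 0, 0, 0, 0, 0, 0, ⟨0, 0⟩,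 0⟩, 53311601, 0⟩ 0 0) (.void 129 ⟨⟨0, 0, 0, 0, 0, 0, 0, 0, 0, ⟨0, 0⟩, 0⟩, 100000, 0⟩ 0 0)) (.pos 127 .pp ⟨⟨0, 0, 0, 0, 0, 0, 0, 0, 0, ⟨0, 0⟩, 0⟩, 29277435, 0⟩ 0 0))) (.pos 126 .pp ⟨⟨0, 0, 0, 0, 0, 0, 0, 0, 0, ⟨0, 0⟩, 0⟩, 0, 482687⟩ 0 0)) (.void 134 ⟨⟨0, 0, 0, 43466, 0, 0, 0, 0, 0, ⟨0, 0⟩, 0⟩, 56534, 0⟩ 0 0)))),
    by decide +kernel⟩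

def covers16 : cell.Covers Vale.Agent.P237.Petty.Cor.Grid.N14.table row16.1 :=
  ⟨(.cut .d 0 (.cut .v 16777216 (.cut .d (-8388608) (.void 1 ⟨⟨0, 0, 0, 0, 0, 100000, 0, 0, 0, ⟨0, 0⟩, 0⟩, 0, 0⟩ 0 0) (.cut .d (-4194304) (.void 1 ⟨⟨0, 0, 0, 0, 0, 100000, 0, 0, 0, ⟨0, 0⟩, 0⟩, 0, 0⟩ 0 0) (.cut .d (-2097152) (.void 1 ⟨⟨0, 0, 0, 0, 0, 100000, 0, 0, 0, ⟨0, 0⟩, 0⟩, 0, 0⟩ 0 0) (.cut .d (-1048576) (.void 1 ⟨⟨0, 0, 0, 0, 0, 100000, 0, 0, 0, ⟨0, 0⟩, 0⟩, 0, 0⟩ 0 0) (.cut .d (-524288) (.void 1 ⟨⟨0, 0, 0, 0, 0, 100000, 0, 0, 0, ⟨0, 0⟩, 0⟩, 0, 0⟩ 0 0) (.cut .d (-262144) (.void 1 ⟨⟨0, 0, 0, 0, 0, 100000, 0, 0, 0, ⟨0, 0⟩, 0⟩, 0, 0⟩ 0 0) (.cut .d (-131072)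 (.void 1 ⟨⟨0, 0, 0, 0, 0, 100000, 0, 0, 0, ⟨0, 0⟩, 0⟩, 0, 0⟩ 0 0) (.cut .d (-65536) (.void 1 ⟨⟨0, 0, 0, 0, 0, 100000, 0, 0, 0, ⟨0, 0⟩, 0⟩, 0, 0⟩ 0 0) (.cut .d (-32768) (.void 1 ⟨⟨0, 0, 0, 0, 0, 100000, 0, 0, 0, ⟨0, 0⟩, 0⟩, 0, 0⟩ 0 0) (.cut .v 8388608 (.cut .v 4194304 (.void 4 ⟨⟨0, 0, 100000, 0, 0, 0, 0, 0, 0, ⟨0, 0⟩, 0⟩, 0, 0⟩ 0 0) (.pos 5 .mm ⟨⟨0, 0, 3995267, 0, 0, 99089587, 0, 0, 0, ⟨0, 0⟩, 0⟩, 0, 0⟩ 0 0)) (.cut .s 11534336 (.pos 3 .mm ⟨⟨0, 0, 0, 0, 0, 267259731, 0, 0, 0, ⟨0, 0⟩, 0⟩, 0, 0⟩ 0 0) (.pos 3 .mm ⟨⟨0, 0, 0, 0, 0, 304334735, 0, 0, 0, ⟨0, 0⟩, 0⟩, 0, 0⟩ 0 0)))))))))))) (.cut .v 67108864 (.cut .v 33554432 (.cut .v 25165824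 (.cut .d (-8388608) (.void 25 ⟨⟨100000, 0, 0, 0, 0, 0, 0, 0, 0, ⟨0, 0⟩, 0⟩, 0, 0⟩ 0 0) (.cut .v 20971520 (.cut .d (-4194304) (.void 27 ⟨⟨100000, 0, 0, 0, 0, 0, 0, 0, 0, ⟨0, 0⟩, 0⟩, 0, 0⟩ 0 0) (.cut .v 18874368 (.cut .d (-2097152) (.void 29 ⟨⟨100000, 0, 0, 0, 0, 0, 0, 0, 0, ⟨0, 0⟩, 0⟩, 0, 0⟩ 0 0) (.cut .v 17825792 (.cut .d (-1048576) (.void 31 ⟨⟨100000, 0, 0, 0, 0, 0, 0, 0, 0, ⟨0, 0⟩, 0⟩, 0, 0⟩ 0 0) (.cut .v 17301504 (.cut .d (-524288) (.void 33 ⟨⟨100000, 0, 0, 0, 0, 0, 0, 0, 0, ⟨0, 0⟩, 0⟩, 0, 0⟩ 0 0) (.cut .v 17039360 (.cut .d (-262144) (.void 35 ⟨⟨100000, 0, 0, 0, 0, 0, 0, 0, 0, ⟨0, 0⟩, 0⟩, 0, 0⟩ 0 0) (.cut .d (-131072) (.void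 35 ⟨⟨100000, 0, 0, 0, 0, 0, 0, 0, 0, ⟨0, 0⟩, 0⟩, 0, 0⟩ 0 0) (.cut .d (-65536) (.void 35 ⟨⟨100000, 0, 0, 0, 0, 0, 0, 0, 0, ⟨0, 0⟩, 0⟩, 0, 0⟩ 0 0) (.cut .d (-32768) (.void 35 ⟨⟨0, 0, 0, 0, 0, 100000, 0, 0, 0, ⟨0, 0⟩, 0⟩, 0, 0⟩ 0 0) (.cut .v 16908288 (.cut .d (-16384) (.cut .v 16842752 (.cut .l 131821 (.void 39 ⟨⟨0, 0, 0, 0, 0, 100000, 0, 0, 0, ⟨0, 0⟩, 0⟩, 0, 0⟩ 0 0) (.cut .d (-24576) (.void 39 ⟨⟨0, 0, 0, 0, 0, 100000, 0, 0, 0, ⟨0, 0⟩, 0⟩, 0, 0⟩ 0 0) (.cut .d (-20480) (.void 39 ⟨⟨0, 0, 0, 0, 0, 100000, 0, 0, 0, ⟨0, 0⟩, 0⟩, 0, 0⟩ 0 0) (.cut .l 197731 (.void 39 ⟨⟨0, 0, 0, 0, 0, 100000, 0, 0, 0, ⟨0, 0⟩, 0⟩, 0, 0⟩ 0 0) (.cut .v 16809984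 (.pos 51 .mp ⟨⟨0, 0, 0, 0, 0, 300293324, 0, 0, 0, ⟨0, 0⟩, 0⟩, 0, 0⟩ 0 0) (.cut .s 11534336 (.cut .v 16826368 (.cut .s 11436032 (.pos 117 .mp ⟨⟨117416209, 0, 0, 0, 0, 88036083, 0, 0, 0, ⟨0, 0⟩, 0⟩, 0, 0⟩ 0 0) (.cut .s 11485184 (.pos 117 .mp ⟨⟨125056760, 0, 0, 0, 0, 86091752, 0, 0, 0, ⟨0, 0⟩, 0⟩, 0, 0⟩ 0 0) (.pos 117 .mp ⟨⟨129058492, 0, 0, 0, 0, 88451632, 0, 0, 0, ⟨0, 0⟩, 0⟩, 0, 0⟩ 0 0))) (.pos 118 .mp ⟨⟨184212403, 0, 0, 0, 0, 0, 0, 0, 0, ⟨0, 0⟩, 0⟩, 0, 0⟩ 0 0)) (.cut .d (-18432) (.pos 52 .mp ⟨⟨133802687, 0, 0, 0, 0, 128790526, 0, 0, 0, ⟨0, 0⟩, 0⟩, 0, 0⟩ 0 0) (.cut .v 16826368 (.cut .l 230686 (.void 117 ⟨⟨0, 0, 0, 0, 0, 100000, 0,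 0, 0, ⟨0, 0⟩, 0⟩, 0, 0⟩ 0 0) (.cut .s 11632640 (.cut .s 11583488 (.pos 117 .mp ⟨⟨133185382, 0, 0, 0, 0, 89101452, 0, 0, 0, ⟨0, 0⟩, 0⟩, 0, 0⟩ 0 0) (.pos 117 .mp ⟨⟨137440719, 0, 0, 0, 0, 91617468, 0, 0, 0, ⟨0, 0⟩, 0⟩, 0, 0⟩ 0 0)) (.pos 117 .mp ⟨⟨141827922, 0, 0, 0, 0, 99485117, 0, 0, 0, ⟨0, 0⟩, 0⟩, 0, 0⟩ 0 0))) (.pos 118 .mp ⟨⟨203564963, 0, 0, 0, 0, 0, 0, 0, 0, ⟨0, 0⟩, 0⟩, 0, 0⟩ 0 0))))))))) (.pos 40 .mp ⟨⟨213853684, 0, 0, 0, 0, 0, 0, 0, 0, ⟨0, 0⟩, 0⟩, 0, 0⟩ 0 0)) (.cut .s 11534336 (.cut .v 16842752 (.cut .s 11436032 (.cut .s 11386880 (.cut .s 11362304 (.cut .v 16809984 (.cut .s 11350016 (.pos 51 .mp ⟨⟨118366516, 0, 0, 0, 0, 74339200,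 0, 0, 0, ⟨0, 0⟩, 0⟩, 0, 0⟩ 0 0) (.cut .s 11356160 (.pos 51 .mp ⟨⟨121956660, 0, 0, 0, 0, 70094200, 0, 0, 0, ⟨0, 0⟩, 0⟩, 0, 0⟩ 0 0) (.pos 51 .mp ⟨⟨122250725, 0, 0, 0, 0, 70570677, 0, 0, 0, ⟨0, 0⟩, 0⟩, 0, 0⟩ 0 0))) (.pos 52 .mp ⟨⟨137536130, 0, 0, 0, 0, 46689287, 0, 0, 0, ⟨0, 0⟩, 0⟩, 0, 0⟩ 0 0)) (.cut .v 16809984 (.cut .l 131821 (.cut .d (-8192) (.pos 51 .mp ⟨⟨118815823, 0, 0, 0, 0, 81797063, 0, 0, 0, ⟨0, 0⟩, 0⟩, 0, 0⟩ 0 0) (.cut .s 11374592 (.pos 51 .mp ⟨⟨121210024, 0, 0, 0, 0, 73411217, 0, 0, 0, ⟨0, 0⟩, 0⟩, 0, 0⟩ 0 0) (.pos 51 .mp ⟨⟨122162358, 0, 0, 0, 0, 73845981, 0, 0, 0, ⟨0, 0⟩, 0⟩, 0, 0⟩ 0 0))) (.pos 51 .mp ⟨⟨117613475, 0, 0,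 0, 0, 78900783, 0, 0, 0, ⟨0, 0⟩, 0⟩, 0, 0⟩ 0 0)) (.pos 52 .mp ⟨⟨138728733, 0, 0, 0, 0, 48564259, 0, 0, 0, ⟨0, 0⟩, 0⟩, 0, 0⟩ 0 0))) (.cut .s 11411456 (.cut .v 16809984 (.cut .l 131821 (.cut .d (-8192) (.pos 51 .mp ⟨⟨120692805, 0, 0, 0, 0, 82711100, 0, 0, 0, ⟨0, 0⟩, 0⟩, 0, 0⟩ 0 0) (.cut .v 16793600 (.cut .l 65910 (.cut .d (-4096) (.pos 57 .mp ⟨⟨120571514, 0, 0, 0, 0, 82604153, 0, 0, 0, ⟨0, 0⟩, 0⟩, 0, 0⟩ 0 0) (.cut .s 11399168 (.pos 57 .mp ⟨⟨122217436, 0, 0, 0, 0, 75636301, 0, 0, 0, ⟨0, 0⟩, 0⟩, 0, 0⟩ 0 0) (.pos 57 .mp ⟨⟨123215109, 0, 0, 0, 0, 76037989, 0, 0, 0, ⟨0, 0⟩, 0⟩, 0, 0⟩ 0 0))) (.pos 57 .mp ⟨⟨119956610, 0, 0, 0, 0, 78910984,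 0, 0, 0, ⟨0, 0⟩, 0⟩, 0, 0⟩ 0 0)) (.pos 58 .mp ⟨⟨140562706, 0, 0, 0, 0, 49172410, 0, 0, 0, ⟨0, 0⟩, 0⟩, 0, 0⟩ 0 0))) (.pos 51 .mp ⟨⟨119462468, 0, 0, 0, 0, 80049889, 0, 0, 0, ⟨0, 0⟩, 0⟩, 0, 0⟩ 0 0)) (.pos 52 .mp ⟨⟨140036538, 0, 0, 0, 0, 50355618, 0, 0, 0, ⟨0, 0⟩, 0⟩, 0, 0⟩ 0 0)) (.cut .v 16809984 (.cut .s 11423744 (.cut .s 11417600 (.pos 51 .mp ⟨⟨124290242, 0, 0, 0, 0, 76211111, 0, 0, 0, ⟨0, 0⟩, 0⟩, 0, 0⟩ 0 0) (.pos 51 .mp ⟨⟨124466273, 0, 0, 0, 0, 76960035, 0, 0, 0, ⟨0, 0⟩, 0⟩, 0, 0⟩ 0 0)) (.cut .s 11429888 (.pos 51 .mp ⟨⟨124654107, 0, 0, 0, 0, 77695779, 0, 0, 0, ⟨0, 0⟩, 0⟩, 0, 0⟩ 0 0) (.pos 51 .mp ⟨⟨124904209, 0, 0, 0, 0, 78335940,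 0, 0, 0, ⟨0, 0⟩, 0⟩, 0, 0⟩ 0 0))) (.pos 52 .mp ⟨⟨141467204, 0, 0, 0, 0, 52051422, 0, 0, 0, ⟨0, 0⟩, 0⟩, 0, 0⟩ 0 0)))) (.cut .s 11485184 (.cut .s 11460608 (.cut .v 16809984 (.cut .s 11448320 (.cut .s 11442176 (.pos 51 .mp ⟨⟨125280003, 0, 0, 0, 0, 78776837, 0, 0, 0, ⟨0, 0⟩, 0⟩, 0, 0⟩ 0 0) (.cut .s 11445248 (.pos 51 .mp ⟨⟨127765608, 0, 0, 0, 0, 75529002, 0, 0, 0, ⟨0, 0⟩, 0⟩, 0, 0⟩ 0 0) (.pos 51 .mp ⟨⟨127886546, 0, 0, 0, 0, 75862772, 0, 0, 0, ⟨0, 0⟩, 0⟩, 0, 0⟩ 0 0))) (.cut .d (-8192) (.pos 51 .mp ⟨⟨123995773, 0, 0, 0, 0, 84670481, 0, 0, 0, ⟨0, 0⟩, 0⟩, 0, 0⟩ 0 0) (.cut .s 11454464 (.pos 51 .mp ⟨⟨127438113, 0, 0, 0, 0, 77213940, 0, 0,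 0, ⟨0, 0⟩, 0⟩, 0, 0⟩ 0 0) (.pos 51 .mp ⟨⟨127994656, 0, 0, 0, 0, 77362710, 0, 0, 0, ⟨0, 0⟩, 0⟩, 0, 0⟩ 0 0)))) (.pos 52 .mp ⟨⟨143028487, 0, 0, 0, 0, 53639516, 0, 0, 0, ⟨0, 0⟩, 0⟩, 0, 0⟩ 0 0)) (.cut .s 11472896 (.cut .v 16809984 (.cut .d (-8192) (.pos 51 .mp ⟨⟨124971719, 0, 0, 0, 0, 85202835, 0, 0, 0, ⟨0, 0⟩, 0⟩, 0, 0⟩ 0 0) (.cut .s 11466752 (.pos 51 .mp ⟨⟨128536798, 0, 0, 0, 0, 77542395, 0, 0, 0, ⟨0, 0⟩, 0⟩, 0, 0⟩ 0 0) (.pos 51 .mp ⟨⟨129040595, 0, 0, 0, 0, 77794145, 0, 0, 0, ⟨0, 0⟩, 0⟩, 0, 0⟩ 0 0))) (.pos 52 .mp ⟨⟨138360480, 0, 0, 0, 0, 63802976, 0, 0, 0, ⟨0, 0⟩, 0⟩, 0, 0⟩ 0 0)) (.cut .v 16809984 (.cut .l 131821 (.cut .d (-8192) (.pos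 51 .mp ⟨⟨127496012, 0, 0, 0, 0, 84239331, 0, 0, 0, ⟨0, 0⟩, 0⟩, 0, 0⟩ 0 0) (.cut .s 11479040 (.pos 51 .mp ⟨⟨129546346, 0, 0, 0, 0, 78024452, 0, 0, 0, ⟨0, 0⟩, 0⟩, 0, 0⟩ 0 0) (.pos 51 .mp ⟨⟨130054056, 0, 0, 0, 0, 78288453, 0, 0, 0, ⟨0, 0⟩, 0⟩, 0, 0⟩ 0 0))) (.pos 51 .mp ⟨⟨126161982, 0, 0, 0, 0, 83345162, 0, 0, 0, ⟨0, 0⟩, 0⟩, 0, 0⟩ 0 0)) (.pos 52 .mp ⟨⟨139184055, 0, 0, 0, 0, 64607670, 0, 0, 0, ⟨0, 0⟩, 0⟩, 0, 0⟩ 0 0)))) (.cut .s 11509760 (.cut .s 11497472 (.cut .v 16809984 (.cut .l 131821 (.cut .d (-8192) (.pos 51 .mp ⟨⟨128498220, 0, 0, 0, 0, 84793234, 0, 0, 0, ⟨0, 0⟩, 0⟩, 0, 0⟩ 0 0) (.cut .s 11491328 (.pos 51 .mp ⟨⟨130563731, 0, 0, 0,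 0, 78555042, 0, 0, 0, ⟨0, 0⟩, 0⟩, 0, 0⟩ 0 0) (.pos 51 .mp ⟨⟨131075378, 0, 0, 0, 0, 78824212, 0, 0, 0, ⟨0, 0⟩, 0⟩, 0, 0⟩ 0 0))) (.pos 51 .mp ⟨⟨127148633, 0, 0, 0, 0, 83969649, 0, 0, 0, ⟨0, 0⟩, 0⟩, 0, 0⟩ 0 0)) (.pos 52 .mp ⟨⟨140044978, 0, 0, 0, 0, 65378190, 0, 0, 0, ⟨0, 0⟩, 0⟩, 0, 0⟩ 0 0)) (.cut .v 16809984 (.cut .l 131821 (.cut .d (-8192) (.pos 51 .mp ⟨⟨129508156, 0, 0, 0, 0, 85361967, 0, 0, 0, ⟨0, 0⟩, 0⟩, 0, 0⟩ 0 0) (.cut .s 11503616 (.pos 51 .mp ⟨⟨131589004, 0, 0, 0, 0, 79095960, 0, 0, 0, ⟨0, 0⟩, 0⟩, 0, 0⟩ 0 0) (.cut .s 11506688 (.pos 51 .mp ⟨⟨131757732, 0, 0, 0, 0, 79707219, 0, 0, 0, ⟨0, 0⟩, 0⟩, 0, 0⟩ 0 0) (.pos 51 .mp ⟨⟨131996573,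 0, 0, 0, 0, 79873577, 0, 0, 0, ⟨0, 0⟩, 0⟩, 0, 0⟩ 0 0)))) (.pos 51 .mp ⟨⟨128142822, 0, 0, 0, 0, 84600136, 0, 0, 0, ⟨0, 0⟩, 0⟩, 0, 0⟩ 0 0)) (.pos 52 .mp ⟨⟨140944261, 0, 0, 0, 0, 66112923, 0, 0, 0, ⟨0, 0⟩, 0⟩, 0, 0⟩ 0 0))) (.cut .s 11522048 (.cut .v 16809984 (.cut .l 131821 (.cut .d (-8192) (.pos 51 .mp ⟨⟨130525868, 0, 0, 0, 0, 85945650, 0, 0, 0, ⟨0, 0⟩, 0⟩, 0, 0⟩ 0 0) (.cut .v 16793600 (.cut .s 11515904 (.pos 57 .mp ⟨⟨131339719, 0, 0, 0, 0, 81721581, 0, 0, 0, ⟨0, 0⟩, 0⟩, 0, 0⟩ 0 0) (.pos 57 .mp ⟨⟨131729933, 0, 0, 0, 0, 82213861, 0, 0, 0, ⟨0, 0⟩, 0⟩, 0, 0⟩ 0 0)) (.pos 58 .mp ⟨⟨142489404, 0, 0, 0, 0, 65465942, 0, 0, 0, ⟨0, 0⟩, 0⟩, 0,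 0⟩ 0 0))) (.pos 51 .mp ⟨⟨129144598, 0, 0, 0, 0, 85236460, 0, 0, 0, ⟨0, 0⟩, 0⟩, 0, 0⟩ 0 0)) (.pos 52 .mp ⟨⟨141882922, 0, 0, 0, 0, 66810243, 0, 0, 0, ⟨0, 0⟩, 0⟩, 0, 0⟩ 0 0)) (.cut .v 16809984 (.cut .l 131821 (.cut .d (-8192) (.pos 51 .mp ⟨⟨131551408, 0, 0, 0, 0, 86544401, 0, 0, 0, ⟨0, 0⟩, 0⟩, 0, 0⟩ 0 0) (.cut .v 16793600 (.cut .s 11528192 (.pos 57 .mp ⟨⟨132134210, 0, 0, 0, 0, 82689047, 0, 0, 0, ⟨0, 0⟩, 0⟩, 0, 0⟩ 0 0) (.pos 57 .mp ⟨⟨132584029, 0, 0, 0, 0, 83095452, 0, 0, 0, ⟨0, 0⟩, 0⟩, 0, 0⟩ 0 0)) (.pos 58 .mp ⟨⟨143475771, 0, 0, 0, 0, 66108411, 0, 0, 0, ⟨0, 0⟩, 0⟩, 0, 0⟩ 0 0))) (.pos 51 .mp ⟨⟨130154010, 0, 0, 0, 0, 85878461, 0, 0,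 0, ⟨0, 0⟩, 0⟩, 0, 0⟩ 0 0)) (.pos 52 .mp ⟨⟨142861988, 0, 0, 0, 0, 67468509, 0, 0, 0, ⟨0, 0⟩, 0⟩, 0, 0⟩ 0 0)))))) (.pos 40 .mp ⟨⟨178968991, 0, 0, 0, 0, 0, 0, 0, 0, ⟨0, 0⟩, 0⟩, 0, 0⟩ 0 0)) (.cut .s 11632640 (.cut .v 16842752 (.cut .s 11583488 (.cut .s 11558912 (.cut .s 11546624 (.cut .v 16809984 (.cut .l 131821 (.cut .d (-8192) (.pos 51 .mp ⟨⟨132584826, 0, 0, 0, 0, 87158341, 0, 0, 0, ⟨0, 0⟩, 0⟩, 0, 0⟩ 0 0) (.cut .v 16793600 (.cut .s 11540480 (.pos 57 .mp ⟨⟨133066277, 0, 0, 0, 0, 83454545, 0, 0, 0, ⟨0, 0⟩, 0⟩, 0, 0⟩ 0 0) (.pos 57 .mp ⟨⟨133555569, 0, 0, 0, 0, 83807979, 0, 0, 0, ⟨0, 0⟩, 0⟩, 0, 0⟩ 0 0)) (.pos 58 .mp ⟨⟨144503661, 0, 0,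 0, 0, 66709959, 0, 0, 0, ⟨0, 0⟩, 0⟩, 0, 0⟩ 0 0))) (.pos 51 .mp ⟨⟨131171108, 0, 0, 0, 0, 86525975, 0, 0, 0, ⟨0, 0⟩, 0⟩, 0, 0⟩ 0 0)) (.pos 52 .mp ⟨⟨143882488, 0, 0, 0, 0, 68086062, 0, 0, 0, ⟨0, 0⟩, 0⟩, 0, 0⟩ 0 0)) (.cut .v 16809984 (.cut .l 131821 (.cut .d (-8192) (.pos 51 .mp ⟨⟨133626175, 0, 0, 0, 0, 87787592, 0, 0, 0, ⟨0, 0⟩, 0⟩, 0, 0⟩ 0 0) (.cut .v 16793600 (.cut .d (-4096) (.pos 57 .mp ⟨⟨132647950, 0, 0, 0, 0, 87958732, 0, 0, 0, ⟨0, 0⟩, 0⟩, 0, 0⟩ 0 0) (.cut .s 11552768 (.pos 57 .mp ⟨⟨134723539, 0, 0, 0, 0, 82972108, 0, 0, 0, ⟨0, 0⟩, 0⟩, 0, 0⟩ 0 0) (.pos 57 .mp ⟨⟨135235925, 0, 0, 0, 0, 83295413, 0, 0, 0, ⟨0, 0⟩, 0⟩, 0, 0⟩ 0 0)))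 (.pos 58 .mp ⟨⟨145574113, 0, 0, 0, 0, 67268915, 0, 0, 0, ⟨0, 0⟩, 0⟩, 0, 0⟩ 0 0))) (.pos 51 .mp ⟨⟨132195942, 0, 0, 0, 0, 87178838, 0, 0, 0, ⟨0, 0⟩, 0⟩, 0, 0⟩ 0 0)) (.pos 52 .mp ⟨⟨144945463, 0, 0, 0, 0, 68661232, 0, 0, 0, ⟨0, 0⟩, 0⟩, 0, 0⟩ 0 0))) (.cut .s 11571200 (.cut .v 16809984 (.cut .l 131821 (.cut .d (-8192) (.pos 51 .mp ⟨⟨134675506, 0, 0, 0, 0, 88432275, 0, 0, 0, ⟨0, 0⟩, 0⟩, 0, 0⟩ 0 0) (.cut .v 16793600 (.cut .d (-4096) (.pos 57 .mp ⟨⟨133687020, 0, 0, 0, 0, 88606144, 0, 0, 0, ⟨0, 0⟩, 0⟩, 0, 0⟩ 0 0) (.cut .s 11565056 (.pos 57 .mp ⟨⟨135766604, 0, 0, 0, 0, 83595713, 0, 0, 0, ⟨0, 0⟩, 0⟩, 0, 0⟩ 0 0) (.pos 57 .mp ⟨⟨136302008, 0,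 0, 0, 0, 83894967, 0, 0, 0, ⟨0, 0⟩, 0⟩, 0, 0⟩ 0 0))) (.pos 58 .mp ⟨⟨146688170, 0, 0, 0, 0, 67783592, 0, 0, 0, ⟨0, 0⟩, 0⟩, 0, 0⟩ 0 0))) (.pos 51 .mp ⟨⟨133228564, 0, 0, 0, 0, 87836886, 0, 0, 0, ⟨0, 0⟩, 0⟩, 0, 0⟩ 0 0)) (.pos 52 .mp ⟨⟨146051958, 0, 0, 0, 0, 69192330, 0, 0, 0, ⟨0, 0⟩, 0⟩, 0, 0⟩ 0 0)) (.cut .v 16809984 (.cut .l 131821 (.cut .d (-8192) (.pos 51 .mp ⟨⟨135732872, 0, 0, 0, 0, 89092514, 0, 0, 0, ⟨0, 0⟩, 0⟩, 0, 0⟩ 0 0) (.cut .v 16793600 (.cut .d (-4096) (.pos 57 .mp ⟨⟨134734013, 0, 0, 0, 0, 89269244, 0, 0, 0, ⟨0, 0⟩, 0⟩, 0, 0⟩ 0 0) (.cut .s 11577344 (.pos 57 .mp ⟨⟨136836254, 0, 0, 0, 0, 84202718, 0, 0, 0, ⟨0, 0⟩, 0⟩, 0, 0⟩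 0 0) (.pos 57 .mp ⟨⟨137369293, 0, 0, 0, 0, 84519071, 0, 0, 0, ⟨0, 0⟩, 0⟩, 0, 0⟩ 0 0))) (.pos 58 .mp ⟨⟨147846885, 0, 0, 0, 0, 68252287, 0, 0, 0, ⟨0, 0⟩, 0⟩, 0, 0⟩ 0 0))) (.pos 51 .mp ⟨⟨134269023, 0, 0, 0, 0, 88499955, 0, 0, 0, ⟨0, 0⟩, 0⟩, 0, 0⟩ 0 0)) (.pos 52 .mp ⟨⟨147203026, 0, 0, 0, 0, 69677653, 0, 0, 0, ⟨0, 0⟩, 0⟩, 0, 0⟩ 0 0)))) (.cut .s 11608064 (.cut .s 11595776 (.cut .v 16809984 (.cut .l 131821 (.cut .d (-8192) (.pos 51 .mp ⟨⟨136798325, 0, 0, 0, 0, 89768434, 0, 0, 0, ⟨0, 0⟩, 0⟩, 0, 0⟩ 0 0) (.cut .v 16793600 (.cut .d (-4096) (.pos 57 .mp ⟨⟨135788981, 0, 0, 0, 0, 89948156, 0, 0, 0, ⟨0, 0⟩, 0⟩, 0, 0⟩ 0 0) (.cut .s 11589632 (.pos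 57 .mp ⟨⟨137901072, 0, 0, 0, 0, 84844133, 0, 0, 0, ⟨0, 0⟩, 0⟩, 0, 0⟩ 0 0) (.pos 57 .mp ⟨⟨138436863, 0, 0, 0, 0, 85169379, 0, 0, 0, ⟨0, 0⟩, 0⟩, 0, 0⟩ 0 0))) (.pos 58 .mp ⟨⟨149051316, 0, 0, 0, 0, 68673282, 0, 0, 0, ⟨0, 0⟩, 0⟩, 0, 0⟩ 0 0))) (.pos 51 .mp ⟨⟨135317373, 0, 0, 0, 0, 89167878, 0, 0, 0, ⟨0, 0⟩, 0⟩, 0, 0⟩ 0 0)) (.pos 52 .mp ⟨⟨148399727, 0, 0, 0, 0, 70115482, 0, 0, 0, ⟨0, 0⟩, 0⟩, 0, 0⟩ 0 0)) (.cut .v 16809984 (.cut .l 131821 (.cut .d (-8192) (.pos 51 .mp ⟨⟨137871920, 0, 0, 0, 0, 90460161, 0, 0, 0, ⟨0, 0⟩, 0⟩, 0, 0⟩ 0 0) (.cut .v 16793600 (.cut .s 11601920 (.cut .s 11598848 (.pos 57 .mp ⟨⟨140133392, 0, 0, 0, 0, 83458830, 0,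 0, 0, ⟨0, 0⟩, 0⟩, 0, 0⟩ 0 0) (.pos 57 .mp ⟨⟨140420148, 0, 0, 0, 0, 83595417, 0, 0, 0, ⟨0, 0⟩, 0⟩, 0, 0⟩ 0 0)) (.pos 57 .mp ⟨⟨138852717, 0, 0, 0, 0, 87002682, 0, 0, 0, ⟨0, 0⟩, 0⟩, 0, 0⟩ 0 0)) (.pos 58 .mp ⟨⟨150302532, 0, 0, 0, 0, 69044843, 0, 0, 0, ⟨0, 0⟩, 0⟩, 0, 0⟩ 0 0))) (.pos 51 .mp ⟨⟨136373665, 0, 0, 0, 0, 89840488, 0, 0, 0, ⟨0, 0⟩, 0⟩, 0, 0⟩ 0 0)) (.pos 52 .mp ⟨⟨149643129, 0, 0, 0, 0, 70504082, 0, 0, 0, ⟨0, 0⟩, 0⟩, 0, 0⟩ 0 0))) (.cut .s 11620352 (.cut .v 16809984 (.cut .l 131821 (.cut .d (-8192) (.pos 51 .mp ⟨⟨138953711, 0, 0, 0, 0, 91167822, 0, 0, 0, ⟨0, 0⟩, 0⟩, 0, 0⟩ 0 0) (.cut .v 16793600 (.cut .s 11614208 (.pos 57 .mp ⟨⟨139424560,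 0, 0, 0, 0, 87285309, 0, 0, 0, ⟨0, 0⟩, 0⟩, 0, 0⟩ 0 0) (.pos 57 .mp ⟨⟨140004375, 0, 0, 0, 0, 87560708, 0, 0, 0, ⟨0, 0⟩, 0⟩, 0, 0⟩ 0 0)) (.pos 58 .mp ⟨⟨151601604, 0, 0, 0, 0, 69365218, 0, 0, 0, ⟨0, 0⟩, 0⟩, 0, 0⟩ 0 0))) (.pos 51 .mp ⟨⟨137437952, 0, 0, 0, 0, 90517620, 0, 0, 0, ⟨0, 0⟩, 0⟩, 0, 0⟩ 0 0)) (.pos 52 .mp ⟨⟨150934306, 0, 0, 0, 0, 70841701, 0, 0, 0, ⟨0, 0⟩, 0⟩, 0, 0⟩ 0 0)) (.cut .v 16809984 (.cut .l 131821 (.cut .d (-8192) (.pos 51 .mp ⟨⟨140043751, 0, 0, 0, 0, 91891544, 0, 0, 0, ⟨0, 0⟩, 0⟩, 0, 0⟩ 0 0) (.cut .v 16793600 (.cut .s 11626496 (.pos 57 .mp ⟨⟨140626511, 0, 0, 0, 0, 87772219, 0, 0, 0, ⟨0, 0⟩, 0⟩, 0, 0⟩ 0 0) (.pos 57 .mp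 ⟨⟨141290738, 0, 0, 0, 0, 87920165, 0, 0, 0, ⟨0, 0⟩, 0⟩, 0, 0⟩ 0 0)) (.pos 58 .mp ⟨⟨152949616, 0, 0, 0, 0, 69632640, 0, 0, 0, ⟨0, 0⟩, 0⟩, 0, 0⟩ 0 0))) (.pos 51 .mp ⟨⟨138510287, 0, 0, 0, 0, 91199104, 0, 0, 0, ⟨0, 0⟩, 0⟩, 0, 0⟩ 0 0)) (.pos 52 .mp ⟨⟨152274342, 0, 0, 0, 0, 71126571, 0, 0, 0, ⟨0, 0⟩, 0⟩, 0, 0⟩ 0 0))))) (.pos 40 .mp ⟨⟨194455895, 0, 0, 0, 0, 0, 0, 0, 0, ⟨0, 0⟩, 0⟩, 0, 0⟩ 0 0)) (.cut .v 16842752 (.cut .s 11681792 (.cut .s 11657216 (.cut .s 11644928 (.cut .v 16809984 (.cut .l 131821 (.cut .d (-8192) (.pos 51 .mp ⟨⟨141142096, 0, 0, 0, 0, 92631458, 0, 0, 0, ⟨0, 0⟩, 0⟩, 0, 0⟩ 0 0) (.cut .v 16793600 (.cut .s 11638784 (.pos 57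 .mp ⟨⟨141971487, 0, 0, 0, 0, 88046688, 0, 0, 0, ⟨0, 0⟩, 0⟩, 0, 0⟩ 0 0) (.pos 57 .mp ⟨⟨142668896, 0, 0, 0, 0, 88151542, 0, 0, 0, ⟨0, 0⟩, 0⟩, 0, 0⟩ 0 0)) (.pos 58 .mp ⟨⟨154347656, 0, 0, 0, 0, 69845326, 0, 0, 0, ⟨0, 0⟩, 0⟩, 0, 0⟩ 0 0))) (.pos 51 .mp ⟨⟨139590725, 0, 0, 0, 0, 91884772, 0, 0, 0, ⟨0, 0⟩, 0⟩, 0, 0⟩ 0 0)) (.pos 52 .mp ⟨⟨153664325, 0, 0, 0, 0, 71356907, 0, 0, 0, ⟨0, 0⟩, 0⟩, 0, 0⟩ 0 0)) (.cut .v 16809984 (.cut .l 131821 (.cut .d (-8192) (.pos 51 .mp ⟨⟨142248802, 0, 0, 0, 0, 93387694, 0, 0, 0, ⟨0, 0⟩, 0⟩, 0, 0⟩ 0 0) (.cut .s 11651072 (.cut .s 11648000 (.pos 51 .mp ⟨⟨144177954, 0, 0, 0, 0, 86694871, 0, 0, 0, ⟨0, 0⟩, 0⟩, 0, 0⟩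 0 0) (.pos 51 .mp ⟨⟨144483326, 0, 0, 0, 0, 86827431, 0, 0, 0, ⟨0, 0⟩, 0⟩, 0, 0⟩ 0 0)) (.pos 51 .mp ⟨⟨145091945, 0, 0, 0, 0, 86710908, 0, 0, 0, ⟨0, 0⟩, 0⟩, 0, 0⟩ 0 0))) (.pos 51 .mp ⟨⟨140679319, 0, 0, 0, 0, 92574454, 0, 0, 0, ⟨0, 0⟩, 0⟩, 0, 0⟩ 0 0)) (.pos 52 .mp ⟨⟨155105355, 0, 0, 0, 0, 71530908, 0, 0, 0, ⟨0, 0⟩, 0⟩, 0, 0⟩ 0 0))) (.cut .s 11669504 (.cut .v 16809984 (.cut .d (-8192) (.pos 51 .mp ⟨⟨141640076, 0, 0, 0, 0, 95816120, 0, 0, 0, ⟨0, 0⟩, 0⟩, 0, 0⟩ 0 0) (.cut .s 11663360 (.pos 51 .mp ⟨⟨145659353, 0, 0, 0, 0, 87059383, 0, 0, 0, ⟨0, 0⟩, 0⟩, 0, 0⟩ 0 0) (.pos 51 .mp ⟨⟨146228923, 0, 0, 0, 0, 87405502, 0, 0, 0, ⟨0, 0⟩, 0⟩, 0, 0⟩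 0 0))) (.pos 52 .mp ⟨⟨156598536, 0, 0, 0, 0, 71646754, 0, 0, 0, ⟨0, 0⟩, 0⟩, 0, 0⟩ 0 0)) (.cut .v 16809984 (.cut .d (-8192) (.pos 51 .mp ⟨⟨142750322, 0, 0, 0, 0, 96616857, 0, 0, 0, ⟨0, 0⟩, 0⟩, 0, 0⟩ 0 0) (.cut .s 11675648 (.pos 51 .mp ⟨⟨146800663, 0, 0, 0, 0, 87754577, 0, 0, 0, ⟨0, 0⟩, 0⟩, 0, 0⟩ 0 0) (.pos 51 .mp ⟨⟨147374581, 0, 0, 0, 0, 88106609, 0, 0, 0, ⟨0, 0⟩, 0⟩, 0, 0⟩ 0 0))) (.pos 52 .mp ⟨⟨158144983, 0, 0, 0, 0, 71702611, 0, 0, 0, ⟨0, 0⟩, 0⟩, 0, 0⟩ 0 0)))) (.cut .s 11706368 (.cut .s 11694080 (.cut .v 16809984 (.cut .d (-8192) (.pos 51 .mp ⟨⟨143868950, 0, 0, 0, 0, 97434550, 0, 0, 0, ⟨0, 0⟩, 0⟩, 0, 0⟩ 0 0) (.cut .s 11687936 (.pos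 51 .mp ⟨⟨147950683, 0, 0, 0, 0, 88461596, 0, 0, 0, ⟨0, 0⟩, 0⟩, 0, 0⟩ 0 0) (.pos 51 .mp ⟨⟨148524930, 0, 0, 0, 0, 88826574, 0, 0, 0, ⟨0, 0⟩, 0⟩, 0, 0⟩ 0 0))) (.pos 52 .mp ⟨⟨159745817, 0, 0, 0, 0, 71696623, 0, 0, 0, ⟨0, 0⟩, 0⟩, 0, 0⟩ 0 0)) (.cut .v 16809984 (.cut .d (-8192) (.pos 51 .mp ⟨⟨144996017, 0, 0, 0, 0, 98269336, 0, 0, 0, ⟨0, 0⟩, 0⟩, 0, 0⟩ 0 0) (.cut .s 11700224 (.pos 51 .mp ⟨⟨149035597, 0, 0, 0, 0, 89308845, 0, 0, 0, ⟨0, 0⟩, 0⟩, 0, 0⟩ 0 0) (.pos 51 .mp ⟨⟨149544001, 0, 0, 0, 0, 89801925, 0, 0, 0, ⟨0, 0⟩, 0⟩, 0, 0⟩ 0 0))) (.pos 52 .mp ⟨⟨161402169, 0, 0, 0, 0, 71626920, 0, 0, 0, ⟨0, 0⟩, 0⟩, 0, 0⟩ 0 0))) (.cut .v 16809984 (.cut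 .s 11718656 (.cut .s 11712512 (.pos 51 .mp ⟨⟨148647209, 0, 0, 0, 0, 92815106, 0, 0, 0, ⟨0, 0⟩, 0⟩, 0, 0⟩ 0 0) (.pos 51 .mp ⟨⟨149360321, 0, 0, 0, 0, 92967133, 0, 0, 0, ⟨0, 0⟩, 0⟩, 0, 0⟩ 0 0)) (.cut .s 11724800 (.pos 51 .mp ⟨⟨150231340, 0, 0, 0, 0, 92863340, 0, 0, 0, ⟨0, 0⟩, 0⟩, 0, 0⟩ 0 0) (.pos 51 .mp ⟨⟨151165140, 0, 0, 0, 0, 92661216, 0, 0, 0, ⟨0, 0⟩, 0⟩, 0, 0⟩ 0 0))) (.pos 52 .mp ⟨⟨171144002, 0, 0, 0, 0, 60292795, 0, 0, 0, ⟨0, 0⟩, 0⟩, 0, 0⟩ 0 0)))) (.pos 40 .mp ⟨⟨206511895, 0, 0, 0, 0, 0, 0, 0, 0, ⟨0, 0⟩, 0⟩, 0, 0⟩ 0 0))))) (.pos 38 .mp ⟨⟨204684257, 0, 0, 0, 0, 0, 0, 0, 0, ⟨0, 0⟩, 0⟩, 0, 0⟩ 0 0)))))) (.pos 36 .mp ⟨⟨233966242, 0,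 0, 0, 0, 0, 0, 0, 0, ⟨0, 0⟩, 0⟩, 0, 0⟩ 0 0))) (.void 34 ⟨⟨100000, 0, 0, 0, 0, 0, 0, 0, 0, ⟨0, 0⟩, 0⟩, 0, 0⟩ 0 0))) (.void 32 ⟨⟨100000, 0, 0, 0, 0, 0, 0, 0, 0, ⟨0, 0⟩, 0⟩, 0, 0⟩ 0 0))) (.void 30 ⟨⟨100000, 0, 0, 0, 0, 0, 0, 0, 0, ⟨0, 0⟩, 0⟩, 0, 0⟩ 0 0))) (.void 28 ⟨⟨100000, 0, 0, 0, 0, 0, 0, 0, 0, ⟨0, 0⟩, 0⟩, 0, 0⟩ 0 0))) (.void 26 ⟨⟨100000, 0, 0, 0, 0, 0, 0, 0, 0, ⟨0, 0⟩, 0⟩, 0, 0⟩ 0 0)) (.void 127 ⟨⟨100000, 0, 0, 0, 0, 0, 0, 0, 0, ⟨0, 0⟩, 0⟩, 0, 0⟩ 0 0)) (.void 134 ⟨⟨100000, 0, 0, 0, 0, 0, 0, 0, 0, ⟨0, 0⟩, 0⟩, 0, 0⟩ 0 0))) (.cut .v 16777216 (.cut .v 8388608 (.cut .v 4194304 (.cut .v 2097152 (.pos 6 .pm ⟨⟨0, 0, 243575076, 0, 0, 0,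 0, 0, 0, ⟨0, 0⟩, 0⟩, 0, 108625433⟩ 0 0) (.pos 7 .pm ⟨⟨0, 0, 32200540, 0, 0, 0, 0, 0, 0, ⟨0, 0⟩, 0⟩, 0, 156774⟩ 0 0)) (.pos 5 .pm ⟨⟨0, 0, 3931892, 0, 0, 0, 0, 0, 0, ⟨0, 0⟩, 0⟩, 0, 0⟩ 0 0)) (.pos 3 .pm ⟨⟨0, 0, 0, 0, 0, 0, 0, 0, 0, ⟨0, 0⟩, 0⟩, 0, 0⟩ 0 0)) (.cut .v 67108864 (.cut .d 4024593 (.cut .v 33554432 (.cut .d 2012296 (.cut .v 25165824 (.cut .d 1006148 (.cut .d 503074 (.cut .v 20971520 (.cut .d 251537 (.cut .v 18874368 (.cut .v 17825792 (.cut .s 11534336 (.pos 31 .pp ⟨⟨98299016, 0, 0, 0, 0, 0, 0, 0, 0, ⟨0, 0⟩, 0⟩, 7946855, 0⟩ 0 0) (.pos 31 .pp ⟨⟨112290473, 0, 0, 0, 0, 0, 0, 0, 0, ⟨0, 0⟩, 0⟩, 8766398, 0⟩ 0 0)) (.pos 32 .pp ⟨⟨197602115,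 0, 0, 0, 0, 0, 0, 0, 0, ⟨0, 0⟩, 0⟩, 0, 0⟩ 0 0)) (.pos 30 .pp ⟨⟨244662236, 0, 0, 0, 0, 0, 0, 0, 0, ⟨0, 0⟩, 0⟩, 0, 0⟩ 0 0)) (.pos 27 .pp ⟨⟨145704119, 0, 0, 0, 0, 0, 0, 0, 0, ⟨0, 0⟩, 0⟩, 0, 42750⟩ 0 0)) (.cut .d 251537 (.void 28 ⟨⟨0, 0, 0, 0, 0, 0, 0, 0, 0, ⟨0, 0⟩, 0⟩, 100000, 0⟩ 0 0) (.pos 28 .pp ⟨⟨0, 0, 0, 0, 0, 0, 0, 0, 0, ⟨0, 0⟩, 0⟩, 28565296, 0⟩ 0 0))) (.pos 25 .pp ⟨⟨0, 0, 0, 0, 0, 0, 0, 0, 0, ⟨0, 0⟩, 0⟩, 18460904, 104708⟩ 0 0)) (.pos 25 .pp ⟨⟨0, 0, 0, 0, 0, 0, 0, 0, 0, ⟨0, 0⟩, 0⟩, 0, 470323⟩ 0 0)) (.cut .d 1006148 (.cut .d 503074 (.void 26 ⟨⟨0, 0, 0, 0, 0, 0, 0, 0, 0, ⟨0, 0⟩, 0⟩, 100000, 0⟩ 0 0) (.pos 26 .pp ⟨⟨0, 0, 0, 0, 0,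 0, 0, 0, 0, ⟨0, 0⟩, 0⟩, 35274481, 0⟩ 0 0)) (.pos 26 .pp ⟨⟨0, 0, 0, 0, 0, 0, 139883, 0, 0, ⟨0, 0⟩, 0⟩, 22185174, 0⟩ 0 0))) (.pos 24 .pp ⟨⟨0, 0, 0, 0, 0, 0, 0, 0, 0, ⟨0, 0⟩, 0⟩, 0, 522581⟩ 0 0)) (.cut .d 2012296 (.cut .v 50331648 (.pos 128 .pp ⟨⟨0, 0, 0, 0, 0, 0, 0, 0, 0, ⟨0, 0⟩, 0⟩, 67033438, 0⟩ 0 0) (.void 129 ⟨⟨0, 0, 0, 0, 0, 0, 0, 0, 0, ⟨0, 0⟩, 0⟩, 100000, 0⟩ 0 0)) (.pos 127 .pp ⟨⟨0, 0, 0, 0, 0, 0, 0, 0, 0, ⟨0, 0⟩, 0⟩, 35019525, 0⟩ 0 0))) (.pos 126 .pp ⟨⟨0, 0, 0, 0, 0, 0, 0, 0, 0, ⟨0, 0⟩, 0⟩, 0, 391936⟩ 0 0)) (.void 134 ⟨⟨0, 0, 0, 44142, 0, 0, 0, 0, 0, ⟨0, 0⟩, 0⟩, 55858, 0⟩ 0 0)))),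
    by decide +kernel⟩

def covers17 : cell.Covers Vale.Agent.P237.Petty.Cor.Grid.N14.table row17.1 :=
  ⟨(.cut .d 0 (.cut .v 16777216 (.cut .d (-8388608) (.void 1 ⟨⟨0, 0, 0, 0, 0, 100000, 0, 0, 0, ⟨0, 0⟩, 0⟩, 0, 0⟩ 0 0) (.cut .d (-4194304) (.void 1 ⟨⟨0, 0, 0, 0, 0, 100000, 0, 0, 0, ⟨0, 0⟩, 0⟩, 0, 0⟩ 0 0) (.cut .d (-2097152) (.void 1 ⟨⟨0, 0, 0, 0, 0, 100000, 0, 0, 0, ⟨0, 0⟩, 0⟩, 0, 0⟩ 0 0) (.cut .d (-1048576) (.void 1 ⟨⟨0, 0, 0, 0, 0, 100000, 0, 0, 0, ⟨0, 0⟩, 0⟩, 0, 0⟩ 0 0) (.cut .d (-524288) (.void 1 ⟨⟨0, 0, 0, 0, 0, 100000, 0, 0, 0, ⟨0, 0⟩, 0⟩, 0, 0⟩ 0 0) (.cut .d (-262144) (.void 1 ⟨⟨0, 0, 0, 0, 0, 100000, 0, 0, 0, ⟨0, 0⟩, 0⟩,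 0, 0⟩ 0 0) (.cut .d (-131072) (.void 1 ⟨⟨0, 0, 0, 0, 0, 100000, 0, 0, 0, ⟨0, 0⟩, 0⟩, 0, 0⟩ 0 0) (.cut .d (-65536) (.void 1 ⟨⟨0, 0, 0, 0, 0, 100000, 0, 0, 0, ⟨0, 0⟩, 0⟩, 0, 0⟩ 0 0) (.cut .d (-32768) (.void 1 ⟨⟨0, 0, 0, 0, 0, 100000, 0, 0, 0, ⟨0, 0⟩, 0⟩, 0, 0⟩ 0 0) (.cut .v 8388608 (.cut .v 4194304 (.void 4 ⟨⟨0, 0, 100000, 0, 0, 0, 0, 0, 0, ⟨0, 0⟩, 0⟩, 0, 0⟩ 0 0) (.pos 5 .mm ⟨⟨0, 0, 5458063, 0, 0, 127720137, 0, 0, 0, ⟨0, 0⟩, 0⟩, 0, 0⟩ 0 0)) (.cut .s 11862016 (.pos 3 .mm ⟨⟨0, 0, 0, 0, 0, 340920539, 0, 0, 0, ⟨0, 0⟩, 0⟩, 0, 0⟩ 0 0) (.pos 3 .mm ⟨⟨0, 0, 0, 0, 0, 371995289, 0, 0, 0, ⟨0, 0⟩, 0⟩, 0, 0⟩ 0 0)))))))))))) (.cut .v 67108864 (.cut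 .v 33554432 (.cut .v 25165824 (.cut .d (-8388608) (.void 25 ⟨⟨100000, 0, 0, 0, 0, 0, 0, 0, 0, ⟨0, 0⟩, 0⟩, 0, 0⟩ 0 0) (.cut .v 20971520 (.cut .d (-4194304) (.void 27 ⟨⟨100000, 0, 0, 0, 0, 0, 0, 0, 0, ⟨0, 0⟩, 0⟩, 0, 0⟩ 0 0) (.cut .v 18874368 (.cut .d (-2097152) (.void 29 ⟨⟨100000, 0, 0, 0, 0, 0, 0, 0, 0, ⟨0, 0⟩, 0⟩, 0, 0⟩ 0 0) (.cut .v 17825792 (.cut .d (-1048576) (.void 31 ⟨⟨100000, 0, 0, 0, 0, 0, 0, 0, 0, ⟨0, 0⟩, 0⟩, 0, 0⟩ 0 0) (.cut .v 17301504 (.cut .d (-524288) (.void 33 ⟨⟨100000, 0, 0, 0, 0, 0, 0, 0, 0, ⟨0, 0⟩, 0⟩, 0, 0⟩ 0 0) (.cut .v 17039360 (.cut .d (-262144) (.void 35 ⟨⟨100000, 0, 0, 0, 0, 0, 0, 0, 0, ⟨0, 0⟩, 0⟩, 0, 0⟩ 0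 0) (.cut .d (-131072) (.void 35 ⟨⟨100000, 0, 0, 0, 0, 0, 0, 0, 0, ⟨0, 0⟩, 0⟩, 0, 0⟩ 0 0) (.cut .d (-65536) (.void 35 ⟨⟨100000, 0, 0, 0, 0, 0, 0, 0, 0, ⟨0, 0⟩, 0⟩, 0, 0⟩ 0 0) (.cut .d (-32768) (.void 35 ⟨⟨100000, 0, 0, 0, 0, 0, 0, 0, 0, ⟨0, 0⟩, 0⟩, 0, 0⟩ 0 0) (.cut .v 16908288 (.cut .d (-16384) (.cut .v 16842752 (.cut .s 11862016 (.cut .s 11796480 (.pos 39 .mp ⟨⟨152038108, 0, 0, 0, 0, 108237758, 0, 0, 0, ⟨0, 0⟩, 0⟩, 0, 0⟩ 0 0) (.pos 39 .mp ⟨⟨158330749, 0, 0, 0, 0, 112628991, 0, 0, 0, ⟨0, 0⟩, 0⟩, 0, 0⟩ 0 0)) (.pos 39 .mp ⟨⟨163899201, 0, 0, 0, 0, 143095985, 0, 0, 0, ⟨0, 0⟩, 0⟩, 0, 0⟩ 0 0)) (.void 40 ⟨⟨100000, 0, 0, 0, 0, 0, 0, 0, 0,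 ⟨0, 0⟩, 0⟩, 0, 0⟩ 0 0)) (.cut .s 11862016 (.cut .v 16842752 (.cut .s 11796480 (.cut .s 11763712 (.cut .s 11747328 (.cut .v 16809984 (.cut .d (-8192) (.pos 51 .mp ⟨⟨148425237, 0, 0, 0, 0, 101360618, 0, 0, 0, ⟨0, 0⟩, 0⟩, 0, 0⟩ 0 0) (.cut .s 11739136 (.pos 51 .mp ⟨⟨152723612, 0, 0, 0, 0, 91417158, 0, 0, 0, ⟨0, 0⟩, 0⟩, 0, 0⟩ 0 0) (.pos 51 .mp ⟨⟨153632153, 0, 0, 0, 0, 91591687, 0, 0, 0, ⟨0, 0⟩, 0⟩, 0, 0⟩ 0 0))) (.pos 52 .mp ⟨⟨169720312, 0, 0, 0, 0, 66777117, 0, 0, 0, ⟨0, 0⟩, 0⟩, 0, 0⟩ 0 0)) (.cut .v 16809984 (.cut .d (-8192) (.pos 51 .mp ⟨⟨149980893, 0, 0, 0, 0, 102157431, 0, 0, 0, ⟨0, 0⟩, 0⟩, 0, 0⟩ 0 0) (.cut .s 11755520 (.pos 51 .mp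 ⟨⟨154433456, 0, 0, 0, 0, 91967111, 0, 0, 0, ⟨0, 0⟩, 0⟩, 0, 0⟩ 0 0) (.pos 51 .mp ⟨⟨155239008, 0, 0, 0, 0, 92349304, 0, 0, 0, ⟨0, 0⟩, 0⟩, 0, 0⟩ 0 0))) (.pos 52 .mp ⟨⟨170856777, 0, 0, 0, 0, 68270765, 0, 0, 0, ⟨0, 0⟩, 0⟩, 0, 0⟩ 0 0))) (.cut .s 11780096 (.cut .v 16809984 (.cut .l 131821 (.cut .d (-8192) (.pos 51 .mp ⟨⟨153778745, 0, 0, 0, 0, 100894879, 0, 0, 0, ⟨0, 0⟩, 0⟩, 0, 0⟩ 0 0) (.cut .s 11771904 (.pos 51 .mp ⟨⟨156048830, 0, 0, 0, 0, 92735873, 0, 0, 0, ⟨0, 0⟩, 0⟩, 0, 0⟩ 0 0) (.cut .s 11776000 (.pos 51 .mp ⟨⟨156605051, 0, 0, 0, 0, 93215471, 0, 0, 0, ⟨0, 0⟩, 0⟩, 0, 0⟩ 0 0) (.pos 51 .mp ⟨⟨156955010, 0, 0, 0, 0, 93508687, 0, 0, 0, ⟨0,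 0⟩, 0⟩, 0, 0⟩ 0 0)))) (.pos 51 .mp ⟨⟨151638313, 0, 0, 0, 0, 100038740, 0, 0, 0, ⟨0, 0⟩, 0⟩, 0, 0⟩ 0 0)) (.pos 52 .mp ⟨⟨172072222, 0, 0, 0, 0, 69693909, 0, 0, 0, ⟨0, 0⟩, 0⟩, 0, 0⟩ 0 0)) (.cut .v 16809984 (.cut .l 131821 (.cut .d (-8192) (.pos 51 .mp ⟨⟨155376915, 0, 0, 0, 0, 101773941, 0, 0, 0, ⟨0, 0⟩, 0⟩, 0, 0⟩ 0 0) (.cut .v 16793600 (.cut .s 11788288 (.pos 57 .mp ⟨⟨155698730, 0, 0, 0, 0, 96827294, 0, 0, 0, ⟨0, 0⟩, 0⟩, 0, 0⟩ 0 0) (.cut .s 11792384 (.pos 57 .mp ⟨⟨158906961, 0, 0, 0, 0, 92963245, 0, 0, 0, ⟨0, 0⟩, 0⟩, 0, 0⟩ 0 0) (.pos 57 .mp ⟨⟨159236249, 0, 0, 0, 0, 93305331, 0, 0, 0, ⟨0, 0⟩, 0⟩, 0, 0⟩ 0 0))) (.pos 58 .mp ⟨⟨174151932,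 0, 0, 0, 0, 69308035, 0, 0, 0, ⟨0, 0⟩, 0⟩, 0, 0⟩ 0 0))) (.pos 51 .mp ⟨⟨153217040, 0, 0, 0, 0, 101049803, 0, 0, 0, ⟨0, 0⟩, 0⟩, 0, 0⟩ 0 0)) (.pos 52 .mp ⟨⟨173369789, 0, 0, 0, 0, 71041493, 0, 0, 0, ⟨0, 0⟩, 0⟩, 0, 0⟩ 0 0)))) (.cut .s 11829248 (.cut .s 11812864 (.cut .v 16809984 (.cut .s 11804672 (.cut .s 11800576 (.pos 51 .mp ⟨⟨157335389, 0, 0, 0, 0, 97604639, 0, 0, 0, ⟨0, 0⟩, 0⟩, 0, 0⟩ 0 0) (.pos 51 .mp ⟨⟨157666991, 0, 0, 0, 0, 97960536, 0, 0, 0, ⟨0, 0⟩, 0⟩, 0, 0⟩ 0 0)) (.cut .s 11808768 (.pos 51 .mp ⟨⟨158010725, 0, 0, 0, 0, 98299602, 0, 0, 0, ⟨0, 0⟩, 0⟩, 0, 0⟩ 0 0) (.pos 51 .mp ⟨⟨158358154, 0, 0, 0, 0, 98635880, 0, 0, 0, ⟨0, 0⟩, 0⟩,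 0, 0⟩ 0 0))) (.pos 52 .mp ⟨⟨174752647, 0, 0, 0, 0, 72308395, 0, 0, 0, ⟨0, 0⟩, 0⟩, 0, 0⟩ 0 0)) (.cut .v 16809984 (.cut .s 11821056 (.cut .d (-8192) (.pos 51 .mp ⟨⟨156368273, 0, 0, 0, 0, 104715849, 0, 0, 0, ⟨0, 0⟩, 0⟩, 0, 0⟩ 0 0) (.cut .s 11816960 (.pos 51 .mp ⟨⟨160438073, 0, 0, 0, 0, 95871234, 0, 0, 0, ⟨0, 0⟩, 0⟩, 0, 0⟩ 0 0) (.pos 51 .mp ⟨⟨160854538, 0, 0, 0, 0, 96089096, 0, 0, 0, ⟨0, 0⟩, 0⟩, 0, 0⟩ 0 0))) (.cut .d (-8192) (.pos 51 .mp ⟨⟨157185546, 0, 0, 0, 0, 105188847, 0, 0, 0, ⟨0, 0⟩, 0⟩, 0, 0⟩ 0 0) (.cut .s 11825152 (.pos 51 .mp ⟨⟨161308523, 0, 0, 0, 0, 96248895, 0, 0, 0, ⟨0, 0⟩, 0⟩, 0, 0⟩ 0 0) (.pos 51 .mp ⟨⟨161761961, 0, 0,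 0, 0, 96413265, 0, 0, 0, ⟨0, 0⟩, 0⟩, 0, 0⟩ 0 0)))) (.pos 52 .mp ⟨⟨176223999, 0, 0, 0, 0, 73489425, 0, 0, 0, ⟨0, 0⟩, 0⟩, 0, 0⟩ 0 0))) (.cut .s 11845632 (.cut .v 16809984 (.cut .s 11837440 (.cut .d (-8192) (.pos 51 .mp ⟨⟨158007072, 0, 0, 0, 0, 105670770, 0, 0, 0, ⟨0, 0⟩, 0⟩, 0, 0⟩ 0 0) (.cut .s 11833344 (.pos 51 .mp ⟨⟨162214830, 0, 0, 0, 0, 96582246, 0, 0, 0, ⟨0, 0⟩, 0⟩, 0, 0⟩ 0 0) (.pos 51 .mp ⟨⟨162667109, 0, 0, 0, 0, 96755883, 0, 0, 0, ⟨0, 0⟩, 0⟩, 0, 0⟩ 0 0))) (.cut .d (-8192) (.pos 51 .mp ⟨⟨158832872, 0, 0, 0, 0, 106161668, 0, 0, 0, ⟨0, 0⟩, 0⟩, 0, 0⟩ 0 0) (.cut .s 11841536 (.pos 51 .mp ⟨⟨163107476, 0, 0, 0, 0, 96954012, 0, 0, 0,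 ⟨0, 0⟩, 0⟩, 0, 0⟩ 0 0) (.pos 51 .mp ⟨⟨163532603, 0, 0, 0, 0, 97182481, 0, 0, 0, ⟨0, 0⟩, 0⟩, 0, 0⟩ 0 0)))) (.pos 52 .mp ⟨⟨177787074, 0, 0, 0, 0, 74579328, 0, 0, 0, ⟨0, 0⟩, 0⟩, 0, 0⟩ 0 0)) (.cut .v 16809984 (.cut .s 11853824 (.cut .d (-8192) (.pos 51 .mp ⟨⟨159662966, 0, 0, 0, 0, 106661592, 0, 0, 0, ⟨0, 0⟩, 0⟩, 0, 0⟩ 0 0) (.cut .s 11849728 (.pos 51 .mp ⟨⟨163958849, 0, 0, 0, 0, 97412654, 0, 0, 0, ⟨0, 0⟩, 0⟩, 0, 0⟩ 0 0) (.pos 51 .mp ⟨⟨164386214, 0, 0, 0, 0, 97644530, 0, 0, 0, ⟨0, 0⟩, 0⟩, 0, 0⟩ 0 0))) (.cut .d (-8192) (.pos 51 .mp ⟨⟨160497373, 0, 0, 0, 0, 107170593, 0, 0, 0, ⟨0, 0⟩, 0⟩, 0, 0⟩ 0 0) (.cut .s 11857920 (.pos 51 .mp ⟨⟨164814702,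 0, 0, 0, 0, 97878111, 0, 0, 0, ⟨0, 0⟩, 0⟩, 0, 0⟩ 0 0) (.pos 51 .mp ⟨⟨165244316, 0, 0, 0, 0, 98113396, 0, 0, 0, ⟨0, 0⟩, 0⟩, 0, 0⟩ 0 0)))) (.pos 52 .mp ⟨⟨179445136, 0, 0, 0, 0, 75572781, 0, 0, 0, ⟨0, 0⟩, 0⟩, 0, 0⟩ 0 0))))) (.pos 40 .mp ⟨⟨222147106, 0, 0, 0, 0, 0, 0, 0, 0, ⟨0, 0⟩, 0⟩, 0, 0⟩ 0 0)) (.cut .v 16842752 (.cut .s 11927552 (.cut .s 11894784 (.cut .s 11878400 (.cut .v 16809984 (.cut .s 11870208 (.cut .d (-8192) (.pos 51 .mp ⟨⟨161336115, 0, 0, 0, 0, 107688721, 0, 0, 0, ⟨0, 0⟩, 0⟩, 0, 0⟩ 0 0) (.cut .s 11866112 (.pos 51 .mp ⟨⟨165675059, 0, 0, 0, 0, 98350385, 0, 0, 0, ⟨0, 0⟩, 0⟩, 0, 0⟩ 0 0) (.pos 51 .mp ⟨⟨166106932, 0, 0, 0, 0,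 98589078, 0, 0, 0, ⟨0, 0⟩, 0⟩, 0, 0⟩ 0 0))) (.cut .d (-8192) (.pos 51 .mp ⟨⟨162179211, 0, 0, 0, 0, 108216028, 0, 0, 0, ⟨0, 0⟩, 0⟩, 0, 0⟩ 0 0) (.cut .s 11874304 (.pos 51 .mp ⟨⟨166539938, 0, 0, 0, 0, 98829476, 0, 0, 0, ⟨0, 0⟩, 0⟩, 0, 0⟩ 0 0) (.pos 51 .mp ⟨⟨166974081, 0, 0, 0, 0, 99071579, 0, 0, 0, ⟨0, 0⟩, 0⟩, 0, 0⟩ 0 0)))) (.cut .s 11870208 (.pos 52 .mp ⟨⟨174892346, 0, 0, 0, 0, 85381540, 0, 0, 0, ⟨0, 0⟩, 0⟩, 0, 0⟩ 0 0) (.pos 52 .mp ⟨⟨175756456, 0, 0, 0, 0, 85867088, 0, 0, 0, ⟨0, 0⟩, 0⟩, 0, 0⟩ 0 0))) (.cut .v 16809984 (.cut .s 11886592 (.cut .d (-8192) (.pos 51 .mp ⟨⟨163026681, 0, 0, 0, 0, 108752566, 0, 0, 0, ⟨0, 0⟩, 0⟩, 0, 0⟩ 0 0)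 (.cut .s 11882496 (.pos 51 .mp ⟨⟨167409363, 0, 0, 0, 0, 99315387, 0, 0, 0, ⟨0, 0⟩, 0⟩, 0, 0⟩ 0 0) (.pos 51 .mp ⟨⟨167845786, 0, 0, 0, 0, 99560900, 0, 0, 0, ⟨0, 0⟩, 0⟩, 0, 0⟩ 0 0))) (.cut .d (-8192) (.pos 51 .mp ⟨⟨163878547, 0, 0, 0, 0, 109298386, 0, 0, 0, ⟨0, 0⟩, 0⟩, 0, 0⟩ 0 0) (.cut .s 11890688 (.pos 51 .mp ⟨⟨168283353, 0, 0, 0, 0, 99808117, 0, 0, 0, ⟨0, 0⟩, 0⟩, 0, 0⟩ 0 0) (.pos 51 .mp ⟨⟨168722068, 0, 0, 0, 0, 100057041, 0, 0, 0, ⟨0, 0⟩, 0⟩, 0, 0⟩ 0 0)))) (.cut .s 11886592 (.pos 52 .mp ⟨⟨176646274, 0, 0, 0, 0, 86325381, 0, 0, 0, ⟨0, 0⟩, 0⟩, 0, 0⟩ 0 0) (.pos 52 .mp ⟨⟨177562221, 0, 0, 0, 0, 86755724, 0, 0, 0, ⟨0, 0⟩, 0⟩, 0, 0⟩ 0 0))))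 (.cut .s 11911168 (.cut .v 16809984 (.cut .s 11902976 (.cut .d (-8192) (.pos 51 .mp ⟨⟨164734830, 0, 0, 0, 0, 109853541, 0, 0, 0, ⟨0, 0⟩, 0⟩, 0, 0⟩ 0 0) (.cut .s 11898880 (.pos 51 .mp ⟨⟨169161932, 0, 0, 0, 0, 100307669, 0, 0, 0, ⟨0, 0⟩, 0⟩, 0, 0⟩ 0 0) (.pos 51 .mp ⟨⟨169602948, 0, 0, 0, 0, 100560003, 0, 0, 0, ⟨0, 0⟩, 0⟩, 0, 0⟩ 0 0))) (.cut .d (-8192) (.pos 51 .mp ⟨⟨165595549, 0, 0, 0, 0, 110418084, 0, 0, 0, ⟨0, 0⟩, 0⟩, 0, 0⟩ 0 0) (.cut .s 11907072 (.pos 51 .mp ⟨⟨170045119, 0, 0, 0, 0, 100814042, 0, 0, 0, ⟨0, 0⟩, 0⟩, 0, 0⟩ 0 0) (.pos 51 .mp ⟨⟨170488449, 0, 0, 0, 0, 101069787, 0, 0, 0, ⟨0, 0⟩, 0⟩, 0, 0⟩ 0 0)))) (.cut .s 11902976 (.pos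 52 .mp ⟨⟨178504720, 0, 0, 0, 0, 87157418, 0, 0, 0, ⟨0, 0⟩, 0⟩, 0, 0⟩ 0 0) (.pos 52 .mp ⟨⟨179474199, 0, 0, 0, 0, 87529759, 0, 0, 0, ⟨0, 0⟩, 0⟩, 0, 0⟩ 0 0))) (.cut .v 16809984 (.cut .s 11919360 (.cut .d (-8192) (.pos 51 .mp ⟨⟨166460727, 0, 0, 0, 0, 110992068, 0, 0, 0, ⟨0, 0⟩, 0⟩, 0, 0⟩ 0 0) (.cut .s 11915264 (.pos 51 .mp ⟨⟨170932939, 0, 0, 0, 0, 101327237, 0, 0, 0, ⟨0, 0⟩, 0⟩, 0, 0⟩ 0 0) (.pos 51 .mp ⟨⟨171378592, 0, 0, 0, 0, 101586393, 0, 0, 0, ⟨0, 0⟩, 0⟩, 0, 0⟩ 0 0))) (.cut .d (-8192) (.pos 51 .mp ⟨⟨167330384, 0, 0, 0, 0, 111575545, 0, 0, 0, ⟨0, 0⟩, 0⟩, 0, 0⟩ 0 0) (.cut .s 11923456 (.pos 51 .mp ⟨⟨171825412, 0, 0, 0, 0, 101847255,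 0, 0, 0, ⟨0, 0⟩, 0⟩, 0, 0⟩ 0 0) (.pos 51 .mp ⟨⟨172273400, 0, 0, 0, 0, 102109822, 0, 0, 0, ⟨0, 0⟩, 0⟩, 0, 0⟩ 0 0)))) (.cut .s 11919360 (.pos 52 .mp ⟨⟨180471084, 0, 0, 0, 0, 87872039, 0, 0, 0, ⟨0, 0⟩, 0⟩, 0, 0⟩ 0 0) (.pos 52 .mp ⟨⟨181495806, 0, 0, 0, 0, 88183544, 0, 0, 0, ⟨0, 0⟩, 0⟩, 0, 0⟩ 0 0))))) (.cut .s 11960320 (.cut .s 11943936 (.cut .v 16809984 (.cut .s 11935744 (.cut .d (-8192) (.pos 51 .mp ⟨⟨168204543, 0, 0, 0, 0, 112168571, 0, 0, 0, ⟨0, 0⟩, 0⟩, 0, 0⟩ 0 0) (.cut .s 11931648 (.pos 51 .mp ⟨⟨172722560, 0, 0, 0, 0, 102374095, 0, 0, 0, ⟨0, 0⟩, 0⟩, 0, 0⟩ 0 0) (.pos 51 .mp ⟨⟨173172894, 0, 0, 0, 0, 102640074, 0, 0, 0, ⟨0, 0⟩, 0⟩,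 0, 0⟩ 0 0))) (.cut .d (-8192) (.pos 51 .mp ⟨⟨169083223, 0, 0, 0, 0, 112771199, 0, 0, 0, ⟨0, 0⟩, 0⟩, 0, 0⟩ 0 0) (.cut .s 11939840 (.pos 51 .mp ⟨⟨173624406, 0, 0, 0, 0, 102907758, 0, 0, 0, ⟨0, 0⟩, 0⟩, 0, 0⟩ 0 0) (.pos 51 .mp ⟨⟨174077098, 0, 0, 0, 0, 103177148, 0, 0, 0, ⟨0, 0⟩, 0⟩, 0, 0⟩ 0 0)))) (.pos 52 .mp ⟨⟨189276690, 0, 0, 0, 0, 78902006, 0, 0, 0, ⟨0, 0⟩, 0⟩, 0, 0⟩ 0 0)) (.cut .v 16809984 (.cut .s 11952128 (.cut .d (-8192) (.pos 51 .mp ⟨⟨169966448, 0, 0, 0, 0, 113383483, 0, 0, 0, ⟨0, 0⟩, 0⟩, 0, 0⟩ 0 0) (.cut .s 11948032 (.pos 51 .mp ⟨⟨174530973, 0, 0, 0, 0, 103448243, 0, 0, 0, ⟨0, 0⟩, 0⟩, 0, 0⟩ 0 0) (.pos 51 .mp ⟨⟨174986034, 0,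 0, 0, 0, 103721044, 0, 0, 0, ⟨0, 0⟩, 0⟩, 0, 0⟩ 0 0))) (.cut .d (-8192) (.pos 51 .mp ⟨⟨170854238, 0, 0, 0, 0, 114005478, 0, 0, 0, ⟨0, 0⟩, 0⟩, 0, 0⟩ 0 0) (.cut .s 11956224 (.pos 51 .mp ⟨⟨175429836, 0, 0, 0, 0, 104017480, 0, 0, 0, ⟨0, 0⟩, 0⟩, 0, 0⟩ 0 0) (.pos 51 .mp ⟨⟨175854234, 0, 0, 0, 0, 104351923, 0, 0, 0, ⟨0, 0⟩, 0⟩, 0, 0⟩ 0 0)))) (.pos 52 .mp ⟨⟨191575011, 0, 0, 0, 0, 79200969, 0, 0, 0, ⟨0, 0⟩, 0⟩, 0, 0⟩ 0 0))) (.cut .s 11976704 (.cut .v 16809984 (.cut .s 11968512 (.cut .d (-8192) (.pos 51 .mp ⟨⟨171746616, 0, 0, 0, 0, 114637240, 0, 0, 0, ⟨0, 0⟩, 0⟩, 0, 0⟩ 0 0) (.cut .s 11964416 (.pos 51 .mp ⟨⟨176277340, 0, 0, 0, 0, 104692479,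 0, 0, 0, ⟨0, 0⟩, 0⟩, 0, 0⟩ 0 0) (.pos 51 .mp ⟨⟨176699129, 0, 0, 0, 0, 105039198, 0, 0, 0, ⟨0, 0⟩, 0⟩, 0, 0⟩ 0 0))) (.cut .s 11972608 (.cut .s 11970560 (.pos 51 .mp ⟨⟨176897434, 0, 0, 0, 0, 105774218, 0, 0, 0, ⟨0, 0⟩, 0⟩, 0, 0⟩ 0 0) (.pos 51 .mp ⟨⟨177199776, 0, 0, 0, 0, 105793224, 0, 0, 0, ⟨0, 0⟩, 0⟩, 0, 0⟩ 0 0)) (.pos 51 .mp ⟨⟨175629035, 0, 0, 0, 0, 109214291, 0, 0, 0, ⟨0, 0⟩, 0⟩, 0, 0⟩ 0 0))) (.pos 52 .mp ⟨⟨193992083, 0, 0, 0, 0, 79364197, 0, 0, 0, ⟨0, 0⟩, 0⟩, 0, 0⟩ 0 0)) (.cut .v 16809984 (.cut .s 11984896 (.cut .s 11980800 (.pos 51 .mp ⟨⟨176153970, 0, 0, 0, 0, 109391818, 0, 0, 0, ⟨0, 0⟩, 0⟩, 0, 0⟩ 0 0) (.pos 51 .mp ⟨⟨176683890,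 0, 0, 0, 0, 109564344, 0, 0, 0, ⟨0, 0⟩, 0⟩, 0, 0⟩ 0 0)) (.cut .s 11988992 (.pos 51 .mp ⟨⟨177233530, 0, 0, 0, 0, 109707113, 0, 0, 0, ⟨0, 0⟩, 0⟩, 0, 0⟩ 0 0) (.pos 51 .mp ⟨⟨177875328, 0, 0, 0, 0, 109698379, 0, 0, 0, ⟨0, 0⟩, 0⟩, 0, 0⟩ 0 0))) (.pos 52 .mp ⟨⟨196531445, 0, 0, 0, 0, 79385774, 0, 0, 0, ⟨0, 0⟩, 0⟩, 0, 0⟩ 0 0))))) (.pos 40 .mp ⟨⟨240442811, 0, 0, 0, 0, 0, 0, 0, 0, ⟨0, 0⟩, 0⟩, 0, 0⟩ 0 0)))) (.pos 38 .mp ⟨⟨244255219, 0, 0, 0, 0, 0, 0, 0, 0, ⟨0, 0⟩, 0⟩, 0, 0⟩ 0 0)))))) (.pos 36 .mp ⟨⟨275342343, 0, 0, 0, 0, 0, 0, 0, 0, ⟨0, 0⟩, 0⟩, 0, 0⟩ 0 0))) (.void 34 ⟨⟨100000, 0, 0, 0, 0, 0, 0, 0, 0, ⟨0, 0⟩, 0⟩, 0, 0⟩ 0 0))) (.void 32 ⟨⟨100000,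 0, 0, 0, 0, 0, 0, 0, 0, ⟨0, 0⟩, 0⟩, 0, 0⟩ 0 0))) (.void 30 ⟨⟨100000, 0, 0, 0, 0, 0, 0, 0, 0, ⟨0, 0⟩, 0⟩, 0, 0⟩ 0 0))) (.void 28 ⟨⟨100000, 0, 0, 0, 0, 0, 0, 0, 0, ⟨0, 0⟩, 0⟩, 0, 0⟩ 0 0))) (.void 26 ⟨⟨100000, 0, 0, 0, 0, 0, 0, 0, 0, ⟨0, 0⟩, 0⟩, 0, 0⟩ 0 0)) (.void 127 ⟨⟨100000, 0, 0, 0, 0, 0, 0, 0, 0, ⟨0, 0⟩, 0⟩, 0, 0⟩ 0 0)) (.void 134 ⟨⟨100000, 0, 0, 0, 0, 0, 0, 0, 0, ⟨0, 0⟩, 0⟩, 0, 0⟩ 0 0))) (.cut .v 16777216 (.cut .v 8388608 (.cut .v 4194304 (.cut .v 2097152 (.cut .v 1048576 (.pos 137 .pm ⟨⟨0, 0, 36359404, 0, 0, 0, 0, 0, 48860683, ⟨0, 0⟩, 1983364⟩, 0, 0⟩ 0 0) (.pos 138 .pm ⟨⟨0, 0, 27503086, 0, 0, 0, 0, 0, 0, ⟨0, 0⟩, 0⟩, 0, 58502⟩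 0 0)) (.pos 7 .pm ⟨⟨0, 0, 34283666, 0, 0, 0, 0, 0, 0, ⟨0, 0⟩, 0⟩, 0, 75217⟩ 0 0)) (.pos 5 .pm ⟨⟨0, 0, 5382964, 0, 0, 0, 0, 0, 0, ⟨0, 0⟩, 0⟩, 0, 0⟩ 0 0)) (.pos 3 .pm ⟨⟨0, 0, 0, 0, 0, 0, 0, 0, 0, ⟨0, 0⟩, 0⟩, 0, 0⟩ 0 0)) (.cut .v 67108864 (.cut .d 3608508 (.cut .v 33554432 (.cut .d 1804254 (.cut .v 25165824 (.cut .d 902127 (.cut .d 451063 (.cut .v 20971520 (.cut .d 225531 (.cut .v 18874368 (.cut .v 17825792 (.pos 31 .pp ⟨⟨159456330, 0, 0, 0, 0, 0, 0, 0, 0, ⟨0, 0⟩, 0⟩, 6092470, 0⟩ 0 0) (.pos 32 .pp ⟨⟨241274693, 0, 0, 0, 0, 0, 0, 0, 0, ⟨0, 0⟩, 0⟩, 0, 0⟩ 0 0)) (.pos 30 .pp ⟨⟨291894168, 0, 0, 0, 0, 0, 0, 0, 0, ⟨0, 0⟩, 0⟩, 0, 0⟩ 0 0)) (.pos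 27 .pp ⟨⟨183283409, 0, 0, 0, 0, 0, 0, 0, 0, ⟨0, 0⟩, 0⟩, 0, 35653⟩ 0 0)) (.cut .d 225531 (.void 28 ⟨⟨0, 0, 0, 0, 0, 0, 0, 0, 0, ⟨0, 0⟩, 0⟩, 100000, 0⟩ 0 0) (.pos 28 .pp ⟨⟨0, 0, 0, 0, 0, 0, 0, 0, 0, ⟨0, 0⟩, 0⟩, 34587264, 0⟩ 0 0))) (.pos 25 .pp ⟨⟨0, 0, 0, 0, 0, 0, 0, 0, 0, ⟨0, 0⟩, 0⟩, 22908231, 87993⟩ 0 0)) (.pos 25 .pp ⟨⟨0, 0, 0, 0, 0, 0, 0, 0, 0, ⟨0, 0⟩, 0⟩, 0, 375877⟩ 0 0)) (.cut .d 902127 (.pos 26 .pp ⟨⟨0, 0, 0, 0, 0, 0, 0, 0, 0, ⟨0, 0⟩, 0⟩, 52314312, 0⟩ 0 0) (.pos 26 .pp ⟨⟨0, 0, 0, 0, 0, 0, 154739, 0, 0, ⟨0, 0⟩, 0⟩, 26602317, 0⟩ 0 0))) (.pos 24 .pp ⟨⟨0, 0, 0, 0, 0, 0, 0, 0, 0, ⟨0, 0⟩, 0⟩, 0, 417641⟩ 0 0)) (.cut .d 1804254 (.cut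 .v 50331648 (.pos 128 .pp ⟨⟨0, 0, 0, 0, 0, 0, 0, 0, 0, ⟨0, 0⟩, 0⟩, 78874519, 0⟩ 0 0) (.void 129 ⟨⟨0, 0, 0, 0, 0, 0, 0, 0, 0, ⟨0, 0⟩, 0⟩, 100000, 0⟩ 0 0)) (.pos 127 .pp ⟨⟨0, 0, 0, 0, 0, 0, 0, 0, 0, ⟨0, 0⟩, 0⟩, 39775246, 0⟩ 0 0))) (.pos 126 .pp ⟨⟨0, 0, 0, 0, 0, 0, 0, 0, 0, ⟨0, 0⟩, 0⟩, 0, 313231⟩ 0 0)) (.void 134 ⟨⟨0, 0, 0, 44615, 0, 0, 0, 0, 0, ⟨0, 0⟩, 0⟩, 55385, 0⟩ 0 0)))),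
    by decide +kernel⟩

def covers18 : cell.Covers Vale.Agent.P237.Petty.Cor.Grid.N14.table row18.1 :=
  ⟨(.cut .d 0 (.cut .v 16777216 (.cut .d (-8388608) (.void 1 ⟨⟨0, 0, 0, 0, 0, 100000, 0, 0, 0, ⟨0, 0⟩, 0⟩, 0, 0⟩ 0 0) (.cut .d (-4194304) (.void 1 ⟨⟨0, 0, 0, 0, 0, 100000, 0, 0, 0, ⟨0, 0⟩, 0⟩, 0, 0⟩ 0 0) (.cut .d (-2097152) (.void 1 ⟨⟨0, 0, 0, 0, 0, 100000, 0, 0, 0, ⟨0, 0⟩, 0⟩, 0, 0⟩ 0 0) (.cut .d (-1048576) (.void 1 ⟨⟨0, 0, 0, 0, 0, 100000, 0, 0, 0, ⟨0, 0⟩, 0⟩, 0, 0⟩ 0 0) (.cut .d (-524288) (.void 1 ⟨⟨0, 0, 0, 0, 0, 100000, 0, 0, 0, ⟨0, 0⟩, 0⟩, 0, 0⟩ 0 0) (.cut .d (-262144) (.void 1 ⟨⟨0, 0, 0, 0, 0, 100000, 0, 0, 0, ⟨0, 0⟩, 0⟩,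 0, 0⟩ 0 0) (.cut .d (-131072) (.void 1 ⟨⟨0, 0, 0, 0, 0, 100000, 0, 0, 0, ⟨0, 0⟩, 0⟩, 0, 0⟩ 0 0) (.cut .d (-65536) (.void 1 ⟨⟨0, 0, 0, 0, 0, 100000, 0, 0, 0, ⟨0, 0⟩, 0⟩, 0, 0⟩ 0 0) (.cut .d (-32768) (.void 1 ⟨⟨0, 0, 0, 0, 0, 100000, 0, 0, 0, ⟨0, 0⟩, 0⟩, 0, 0⟩ 0 0) (.cut .d (-16384) (.void 1 ⟨⟨0, 0, 0, 0, 0, 100000, 0, 0, 0, ⟨0, 0⟩, 0⟩, 0, 0⟩ 0 0) (.cut .v 8388608 (.cut .v 4194304 (.void 4 ⟨⟨0, 0, 100000, 0, 0, 0, 0, 0, 0, ⟨0, 0⟩, 0⟩, 0, 0⟩ 0 0) (.pos 5 .mm ⟨⟨0, 0, 6651650, 0, 0, 151613293, 0, 0, 0, ⟨0, 0⟩, 0⟩, 0, 0⟩ 0 0)) (.cut .s 12124160 (.pos 3 .mm ⟨⟨0, 0, 0, 0, 0, 410340759, 0, 0, 0, ⟨0, 0⟩, 0⟩, 0, 0⟩ 0 0) (.pos 3 .mm ⟨⟨0, 0,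 0, 0, 0, 448258271, 0, 0, 0, ⟨0, 0⟩, 0⟩, 0, 0⟩ 0 0))))))))))))) (.cut .v 268435456 (.cut .v 67108864 (.cut .v 33554432 (.cut .v 25165824 (.cut .d (-8388608) (.void 25 ⟨⟨100000, 0, 0, 0, 0, 0, 0, 0, 0, ⟨0, 0⟩, 0⟩, 0, 0⟩ 0 0) (.cut .v 20971520 (.cut .d (-4194304) (.void 27 ⟨⟨100000, 0, 0, 0, 0, 0, 0, 0, 0, ⟨0, 0⟩, 0⟩, 0, 0⟩ 0 0) (.cut .v 18874368 (.cut .d (-2097152) (.void 29 ⟨⟨100000, 0, 0, 0, 0, 0, 0, 0, 0, ⟨0, 0⟩, 0⟩, 0, 0⟩ 0 0) (.cut .d (-1048576) (.void 29 ⟨⟨100000, 0, 0, 0, 0, 0, 0, 0, 0, ⟨0, 0⟩, 0⟩, 0, 0⟩ 0 0) (.cut .v 17825792 (.cut .d (-524288) (.void 31 ⟨⟨100000, 0, 0, 0, 0, 0, 0, 0, 0, ⟨0, 0⟩, 0⟩, 0, 0⟩ 0 0) (.cut .v 17301504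 (.cut .v 17039360 (.cut .d (-262144) (.void 35 ⟨⟨100000, 0, 0, 0, 0, 0, 0, 0, 0, ⟨0, 0⟩, 0⟩, 0, 0⟩ 0 0) (.cut .d (-131072) (.void 35 ⟨⟨100000, 0, 0, 0, 0, 0, 0, 0, 0, ⟨0, 0⟩, 0⟩, 0, 0⟩ 0 0) (.cut .d (-65536) (.void 35 ⟨⟨100000, 0, 0, 0, 0, 0, 0, 0, 0, ⟨0, 0⟩, 0⟩, 0, 0⟩ 0 0) (.cut .d (-32768) (.void 35 ⟨⟨100000, 0, 0, 0, 0, 0, 0, 0, 0, ⟨0, 0⟩, 0⟩, 0, 0⟩ 0 0) (.cut .d (-16384) (.void 35 ⟨⟨0, 0, 0, 0, 0, 100000, 0, 0, 0, ⟨0, 0⟩, 0⟩, 0, 0⟩ 0 0) (.cut .v 16908288 (.cut .s 12124160 (.cut .v 16842752 (.cut .s 12058624 (.cut .s 12025856 (.cut .s 12009472 (.cut .v 16809984 (.cut .s 12001280 (.cut .s 11997184 (.pos 51 .mp ⟨⟨178482725, 0,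 0, 0, 0, 109752542, 0, 0, 0, ⟨0, 0⟩, 0⟩, 0, 0⟩ 0 0) (.pos 51 .mp ⟨⟨178746792, 0, 0, 0, 0, 110341638, 0, 0, 0, ⟨0, 0⟩, 0⟩, 0, 0⟩ 0 0)) (.cut .s 12005376 (.pos 51 .mp ⟨⟨179037036, 0, 0, 0, 0, 110890893, 0, 0, 0, ⟨0, 0⟩, 0⟩, 0, 0⟩ 0 0) (.pos 51 .mp ⟨⟨179419461, 0, 0, 0, 0, 111289284, 0, 0, 0, ⟨0, 0⟩, 0⟩, 0, 0⟩ 0 0))) (.pos 52 .mp ⟨⟨198690324, 0, 0, 0, 0, 80060792, 0, 0, 0, ⟨0, 0⟩, 0⟩, 0, 0⟩ 0 0)) (.cut .v 16809984 (.cut .s 12017664 (.cut .s 12013568 (.pos 51 .mp ⟨⟨179806065, 0, 0, 0, 0, 111684745, 0, 0, 0, ⟨0, 0⟩, 0⟩, 0, 0⟩ 0 0) (.pos 51 .mp ⟨⟨180196886, 0, 0, 0, 0, 112077215, 0, 0, 0, ⟨0, 0⟩, 0⟩, 0, 0⟩ 0 0)) (.cut .d (-8192) (.pos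 51 .mp ⟨⟨178129645, 0, 0, 0, 0, 118799635, 0, 0, 0, ⟨0, 0⟩, 0⟩, 0, 0⟩ 0 0) (.cut .s 12021760 (.pos 51 .mp ⟨⟨182785505, 0, 0, 0, 0, 108488625, 0, 0, 0, ⟨0, 0⟩, 0⟩, 0, 0⟩ 0 0) (.pos 51 .mp ⟨⟨183309984, 0, 0, 0, 0, 108652400, 0, 0, 0, ⟨0, 0⟩, 0⟩, 0, 0⟩ 0 0)))) (.pos 52 .mp ⟨⟨200343594, 0, 0, 0, 0, 81414483, 0, 0, 0, ⟨0, 0⟩, 0⟩, 0, 0⟩ 0 0))) (.cut .s 12042240 (.cut .v 16809984 (.cut .s 12034048 (.cut .d (-8192) (.pos 51 .mp ⟨⟨179061739, 0, 0, 0, 0, 119335093, 0, 0, 0, ⟨0, 0⟩, 0⟩, 0, 0⟩ 0 0) (.cut .s 12029952 (.pos 51 .mp ⟨⟨183833807, 0, 0, 0, 0, 108821712, 0, 0, 0, ⟨0, 0⟩, 0⟩, 0, 0⟩ 0 0) (.pos 51 .mp ⟨⟨184343359, 0, 0, 0, 0, 109020654,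 0, 0, 0, ⟨0, 0⟩, 0⟩, 0, 0⟩ 0 0))) (.cut .d (-8192) (.pos 51 .mp ⟨⟨179998807, 0, 0, 0, 0, 119881603, 0, 0, 0, ⟨0, 0⟩, 0⟩, 0, 0⟩ 0 0) (.cut .s 12038144 (.pos 51 .mp ⟨⟨184824475, 0, 0, 0, 0, 109274307, 0, 0, 0, ⟨0, 0⟩, 0⟩, 0, 0⟩ 0 0) (.pos 51 .mp ⟨⟨185306890, 0, 0, 0, 0, 109530092, 0, 0, 0, ⟨0, 0⟩, 0⟩, 0, 0⟩ 0 0)))) (.pos 52 .mp ⟨⟨202102629, 0, 0, 0, 0, 82664666, 0, 0, 0, ⟨0, 0⟩, 0⟩, 0, 0⟩ 0 0)) (.cut .v 16809984 (.cut .s 12050432 (.cut .d (-8192) (.pos 51 .mp ⟨⟨180940873, 0, 0, 0, 0, 120439229, 0, 0, 0, ⟨0, 0⟩, 0⟩, 0, 0⟩ 0 0) (.cut .s 12046336 (.pos 51 .mp ⟨⟨185790608, 0, 0, 0, 0, 109788010, 0, 0, 0, ⟨0, 0⟩, 0⟩, 0, 0⟩ 0 0) (.pos 51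 .mp ⟨⟨186275632, 0, 0, 0, 0, 110048060, 0, 0, 0, ⟨0, 0⟩, 0⟩, 0, 0⟩ 0 0))) (.cut .d (-8192) (.pos 51 .mp ⟨⟨181887963, 0, 0, 0, 0, 121008037, 0, 0, 0, ⟨0, 0⟩, 0⟩, 0, 0⟩ 0 0) (.cut .s 12054528 (.pos 51 .mp ⟨⟨186761965, 0, 0, 0, 0, 110310243, 0, 0, 0, ⟨0, 0⟩, 0⟩, 0, 0⟩ 0 0) (.pos 51 .mp ⟨⟨187249610, 0, 0, 0, 0, 110574560, 0, 0, 0, ⟨0, 0⟩, 0⟩, 0, 0⟩ 0 0)))) (.pos 52 .mp ⟨⟨203971522, 0, 0, 0, 0, 83804624, 0, 0, 0, ⟨0, 0⟩, 0⟩, 0, 0⟩ 0 0)))) (.cut .s 12091392 (.cut .s 12075008 (.cut .v 16809984 (.cut .s 12066816 (.cut .d (-8192) (.pos 51 .mp ⟨⟨182840099, 0, 0, 0, 0, 121588092, 0, 0, 0, ⟨0, 0⟩, 0⟩, 0, 0⟩ 0 0) (.cut .s 12062720 (.pos 51 .mp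 ⟨⟨187738571, 0, 0, 0, 0, 110841010, 0, 0, 0, ⟨0, 0⟩, 0⟩, 0, 0⟩ 0 0) (.pos 51 .mp ⟨⟨188228850, 0, 0, 0, 0, 111109594, 0, 0, 0, ⟨0, 0⟩, 0⟩, 0, 0⟩ 0 0))) (.cut .d (-8192) (.pos 51 .mp ⟨⟨183797309, 0, 0, 0, 0, 122179458, 0, 0, 0, ⟨0, 0⟩, 0⟩, 0, 0⟩ 0 0) (.cut .s 12070912 (.pos 51 .mp ⟨⟨188720451, 0, 0, 0, 0, 111380311, 0, 0, 0, ⟨0, 0⟩, 0⟩, 0, 0⟩ 0 0) (.pos 51 .mp ⟨⟨189213377, 0, 0, 0, 0, 111653163, 0, 0, 0, ⟨0, 0⟩, 0⟩, 0, 0⟩ 0 0)))) (.cut .s 12066816 (.pos 52 .mp ⟨⟨198429535, 0, 0, 0, 0, 95613635, 0, 0, 0, ⟨0, 0⟩, 0⟩, 0, 0⟩ 0 0) (.pos 52 .mp ⟨⟨199387932, 0, 0, 0, 0, 96198619, 0, 0, 0, ⟨0, 0⟩, 0⟩, 0, 0⟩ 0 0))) (.cut .v 16809984 (.cut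 .s 12083200 (.cut .d (-8192) (.pos 51 .mp ⟨⟨184759615, 0, 0, 0, 0, 122782203, 0, 0, 0, ⟨0, 0⟩, 0⟩, 0, 0⟩ 0 0) (.cut .s 12079104 (.pos 51 .mp ⟨⟨189707632, 0, 0, 0, 0, 111928150, 0, 0, 0, ⟨0, 0⟩, 0⟩, 0, 0⟩ 0 0) (.pos 51 .mp ⟨⟨190203218, 0, 0, 0, 0, 112205271, 0, 0, 0, ⟨0, 0⟩, 0⟩, 0, 0⟩ 0 0))) (.cut .d (-8192) (.pos 51 .mp ⟨⟨185727044, 0, 0, 0, 0, 123396393, 0, 0, 0, ⟨0, 0⟩, 0⟩, 0, 0⟩ 0 0) (.cut .s 12087296 (.pos 51 .mp ⟨⟨190700140, 0, 0, 0, 0, 112484527, 0, 0, 0, ⟨0, 0⟩, 0⟩, 0, 0⟩ 0 0) (.pos 51 .mp ⟨⟨191198399, 0, 0, 0, 0, 112765918, 0, 0, 0, ⟨0, 0⟩, 0⟩, 0, 0⟩ 0 0)))) (.cut .s 12083200 (.pos 52 .mp ⟨⟨200375915, 0, 0, 0, 0, 96752637,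 0, 0, 0, ⟨0, 0⟩, 0⟩, 0, 0⟩ 0 0) (.pos 52 .mp ⟨⟨201394009, 0, 0, 0, 0, 97274817, 0, 0, 0, ⟨0, 0⟩, 0⟩, 0, 0⟩ 0 0)))) (.cut .s 12107776 (.cut .v 16809984 (.cut .s 12099584 (.cut .d (-8192) (.pos 51 .mp ⟨⟨186699621, 0, 0, 0, 0, 124022095, 0, 0, 0, ⟨0, 0⟩, 0⟩, 0, 0⟩ 0 0) (.cut .s 12095488 (.pos 51 .mp ⟨⟨191698000, 0, 0, 0, 0, 113049444, 0, 0, 0, ⟨0, 0⟩, 0⟩, 0, 0⟩ 0 0) (.pos 51 .mp ⟨⟨192198946, 0, 0, 0, 0, 113335106, 0, 0, 0, ⟨0, 0⟩, 0⟩, 0, 0⟩ 0 0))) (.cut .d (-8192) (.pos 51 .mp ⟨⟨187677371, 0, 0, 0, 0, 124659377, 0, 0, 0, ⟨0, 0⟩, 0⟩, 0, 0⟩ 0 0) (.cut .s 12103680 (.pos 51 .mp ⟨⟨192701241, 0, 0, 0, 0, 113622903, 0, 0, 0, ⟨0, 0⟩, 0⟩, 0,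 0⟩ 0 0) (.pos 51 .mp ⟨⟨193204887, 0, 0, 0, 0, 113912835, 0, 0, 0, ⟨0, 0⟩, 0⟩, 0, 0⟩ 0 0)))) (.cut .s 12099584 (.pos 52 .mp ⟨⟨202442746, 0, 0, 0, 0, 97764277, 0, 0, 0, ⟨0, 0⟩, 0⟩, 0, 0⟩ 0 0) (.pos 52 .mp ⟨⟨203522659, 0, 0, 0, 0, 98220133, 0, 0, 0, ⟨0, 0⟩, 0⟩, 0, 0⟩ 0 0))) (.cut .v 16809984 (.cut .s 12115968 (.cut .d (-8192) (.pos 51 .mp ⟨⟨188660321, 0, 0, 0, 0, 125308306, 0, 0, 0, ⟨0, 0⟩, 0⟩, 0, 0⟩ 0 0) (.cut .s 12111872 (.pos 51 .mp ⟨⟨193709887, 0, 0, 0, 0, 114204903, 0, 0, 0, ⟨0, 0⟩, 0⟩, 0, 0⟩ 0 0) (.pos 51 .mp ⟨⟨194216247, 0, 0, 0, 0, 114499107, 0, 0, 0, ⟨0, 0⟩, 0⟩, 0, 0⟩ 0 0))) (.cut .d (-8192) (.pos 51 .mp ⟨⟨189648496, 0, 0,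 0, 0, 125968951, 0, 0, 0, ⟨0, 0⟩, 0⟩, 0, 0⟩ 0 0) (.cut .s 12120064 (.pos 51 .mp ⟨⟨194723968, 0, 0, 0, 0, 114795447, 0, 0, 0, ⟨0, 0⟩, 0⟩, 0, 0⟩ 0 0) (.pos 51 .mp ⟨⟨195233054, 0, 0, 0, 0, 115093923, 0, 0, 0, ⟨0, 0⟩, 0⟩, 0, 0⟩ 0 0)))) (.cut .s 12115968 (.pos 52 .mp ⟨⟨204634283, 0, 0, 0, 0, 98641493, 0, 0, 0, ⟨0, 0⟩, 0⟩, 0, 0⟩ 0 0) (.pos 52 .mp ⟨⟨205778159, 0, 0, 0, 0, 99027457, 0, 0, 0, ⟨0, 0⟩, 0⟩, 0, 0⟩ 0 0)))))) (.pos 40 .mp ⟨⟨260909720, 0, 0, 0, 0, 0, 0, 0, 0, ⟨0, 0⟩, 0⟩, 0, 0⟩ 0 0)) (.cut .v 16842752 (.cut .s 12189696 (.cut .s 12156928 (.cut .s 12140544 (.cut .v 16809984 (.cut .s 12132352 (.cut .d (-8192) (.pos 51 .mp ⟨⟨190641921,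 0, 0, 0, 0, 126641381, 0, 0, 0, ⟨0, 0⟩, 0⟩, 0, 0⟩ 0 0) (.cut .s 12128256 (.pos 51 .mp ⟨⟨195743508, 0, 0, 0, 0, 115394534, 0, 0, 0, ⟨0, 0⟩, 0⟩, 0, 0⟩ 0 0) (.pos 51 .mp ⟨⟨196255335, 0, 0, 0, 0, 115697282, 0, 0, 0, ⟨0, 0⟩, 0⟩, 0, 0⟩ 0 0))) (.cut .d (-8192) (.pos 51 .mp ⟨⟨191640625, 0, 0, 0, 0, 127325665, 0, 0, 0, ⟨0, 0⟩, 0⟩, 0, 0⟩ 0 0) (.cut .s 12136448 (.pos 51 .mp ⟨⟨196768536, 0, 0, 0, 0, 116002165, 0, 0, 0, ⟨0, 0⟩, 0⟩, 0, 0⟩ 0 0) (.pos 51 .mp ⟨⟨197283117, 0, 0, 0, 0, 116309185, 0, 0, 0, ⟨0, 0⟩, 0⟩, 0, 0⟩ 0 0)))) (.cut .s 12132352 (.pos 52 .mp ⟨⟨206954827, 0, 0, 0, 0, 99377121, 0, 0, 0, ⟨0, 0⟩, 0⟩, 0, 0⟩ 0 0) (.pos 52 .mp ⟨⟨208164833,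 0, 0, 0, 0, 99689574, 0, 0, 0, ⟨0, 0⟩, 0⟩, 0, 0⟩ 0 0))) (.cut .v 16809984 (.cut .s 12148736 (.cut .d (-8192) (.pos 51 .mp ⟨⟨192644632, 0, 0, 0, 0, 128021873, 0, 0, 0, ⟨0, 0⟩, 0⟩, 0, 0⟩ 0 0) (.cut .s 12144640 (.pos 51 .mp ⟨⟨197799080, 0, 0, 0, 0, 116618341, 0, 0, 0, ⟨0, 0⟩, 0⟩, 0, 0⟩ 0 0) (.pos 51 .mp ⟨⟨198316429, 0, 0, 0, 0, 116929633, 0, 0, 0, ⟨0, 0⟩, 0⟩, 0, 0⟩ 0 0))) (.cut .d (-8192) (.pos 51 .mp ⟨⟨193653970, 0, 0, 0, 0, 128730075, 0, 0, 0, ⟨0, 0⟩, 0⟩, 0, 0⟩ 0 0) (.cut .s 12152832 (.pos 51 .mp ⟨⟨198835166, 0, 0, 0, 0, 117243060, 0, 0, 0, ⟨0, 0⟩, 0⟩, 0, 0⟩ 0 0) (.pos 51 .mp ⟨⟨199355297, 0, 0, 0, 0, 117558624, 0, 0, 0, ⟨0, 0⟩, 0⟩,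 0, 0⟩ 0 0)))) (.cut .s 12148736 (.pos 52 .mp ⟨⟨209408725, 0, 0, 0, 0, 99963899, 0, 0, 0, ⟨0, 0⟩, 0⟩, 0, 0⟩ 0 0) (.pos 52 .mp ⟨⟨210687053, 0, 0, 0, 0, 100199173, 0, 0, 0, ⟨0, 0⟩, 0⟩, 0, 0⟩ 0 0)))) (.cut .s 12173312 (.cut .v 16809984 (.cut .s 12165120 (.cut .d (-8192) (.pos 51 .mp ⟨⟨194668665, 0, 0, 0, 0, 129450343, 0, 0, 0, ⟨0, 0⟩, 0⟩, 0, 0⟩ 0 0) (.cut .s 12161024 (.pos 51 .mp ⟨⟨199876824, 0, 0, 0, 0, 117876323, 0, 0, 0, ⟨0, 0⟩, 0⟩, 0, 0⟩ 0 0) (.pos 51 .mp ⟨⟨200399750, 0, 0, 0, 0, 118196158, 0, 0, 0, ⟨0, 0⟩, 0⟩, 0, 0⟩ 0 0))) (.cut .d (-8192) (.pos 51 .mp ⟨⟨195688744, 0, 0, 0, 0, 130182747, 0, 0, 0, ⟨0, 0⟩, 0⟩, 0, 0⟩ 0 0) (.cut .s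 12169216 (.pos 51 .mp ⟨⟨200924080, 0, 0, 0, 0, 118518129, 0, 0, 0, ⟨0, 0⟩, 0⟩, 0, 0⟩ 0 0) (.pos 51 .mp ⟨⟨201449817, 0, 0, 0, 0, 118842235, 0, 0, 0, ⟨0, 0⟩, 0⟩, 0, 0⟩ 0 0)))) (.pos 52 .mp ⟨⟨220482760, 0, 0, 0, 0, 88113942, 0, 0, 0, ⟨0, 0⟩, 0⟩, 0, 0⟩ 0 0)) (.cut .v 16809984 (.cut .s 12181504 (.cut .d (-8192) (.pos 51 .mp ⟨⟨196714235, 0, 0, 0, 0, 130927360, 0, 0, 0, ⟨0, 0⟩, 0⟩, 0, 0⟩ 0 0) (.cut .s 12177408 (.pos 51 .mp ⟨⟨201976964, 0, 0, 0, 0, 119168477, 0, 0, 0, ⟨0, 0⟩, 0⟩, 0, 0⟩ 0 0) (.pos 51 .mp ⟨⟨202496731, 0, 0, 0, 0, 119512524, 0, 0, 0, ⟨0, 0⟩, 0⟩, 0, 0⟩ 0 0))) (.cut .d (-8192) (.pos 51 .mp ⟨⟨197745166, 0, 0, 0, 0, 131684254,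 0, 0, 0, ⟨0, 0⟩, 0⟩, 0, 0⟩ 0 0) (.cut .s 12185600 (.pos 51 .mp ⟨⟨202974308, 0, 0, 0, 0, 119936439, 0, 0, 0, ⟨0, 0⟩, 0⟩, 0, 0⟩ 0 0) (.pos 51 .mp ⟨⟨203450057, 0, 0, 0, 0, 120368318, 0, 0, 0, ⟨0, 0⟩, 0⟩, 0, 0⟩ 0 0)))) (.pos 52 .mp ⟨⟨223383177, 0, 0, 0, 0, 88118815, 0, 0, 0, ⟨0, 0⟩, 0⟩, 0, 0⟩ 0 0)))) (.cut .s 12222464 (.cut .s 12206080 (.cut .v 16809984 (.cut .d (-8192) (.pos 51 .mp ⟨⟨198781563, 0, 0, 0, 0, 133864415, 0, 0, 0, ⟨0, 0⟩, 0⟩, 0, 0⟩ 0 0) (.cut .l 131821 (.cut .v 16793600 (.cut .d (-4096) (.pos 57 .mp ⟨⟨199468894, 0, 0, 0, 0, 132141621, 0, 0, 0, ⟨0, 0⟩, 0⟩, 0, 0⟩ 0 0) (.cut .s 12197888 (.pos 57 .mp ⟨⟨202915939, 0, 0, 0, 0,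 122758040, 0, 0, 0, ⟨0, 0⟩, 0⟩, 0, 0⟩ 0 0) (.pos 57 .mp ⟨⟨203976327, 0, 0, 0, 0, 123452758, 0, 0, 0, ⟨0, 0⟩, 0⟩, 0, 0⟩ 0 0))) (.pos 58 .mp ⟨⟨227618182, 0, 0, 0, 0, 85338072, 0, 0, 0, ⟨0, 0⟩, 0⟩, 0, 0⟩ 0 0)) (.pos 51 .mp ⟨⟨202262194, 0, 0, 0, 0, 121647710, 0, 0, 0, ⟨0, 0⟩, 0⟩, 0, 0⟩ 0 0))) (.pos 52 .mp ⟨⟨226425592, 0, 0, 0, 0, 87959359, 0, 0, 0, ⟨0, 0⟩, 0⟩, 0, 0⟩ 0 0)) (.cut .v 16809984 (.cut .d (-8192) (.pos 51 .mp ⟨⟨200870868, 0, 0, 0, 0, 135462390, 0, 0, 0, ⟨0, 0⟩, 0⟩, 0, 0⟩ 0 0) (.cut .l 131821 (.cut .v 16793600 (.cut .s 12214272 (.cut .s 12210176 (.pos 57 .mp ⟨⟨207199811, 0, 0, 0, 0, 120184835, 0, 0, 0, ⟨0, 0⟩, 0⟩, 0, 0⟩ 0 0)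 (.pos 57 .mp ⟨⟨207868243, 0, 0, 0, 0, 120315409, 0, 0, 0, ⟨0, 0⟩, 0⟩, 0, 0⟩ 0 0)) (.pos 57 .mp ⟨⟨205030961, 0, 0, 0, 0, 126872835, 0, 0, 0, ⟨0, 0⟩, 0⟩, 0, 0⟩ 0 0)) (.pos 58 .mp ⟨⟨230782325, 0, 0, 0, 0, 85034219, 0, 0, 0, ⟨0, 0⟩, 0⟩, 0, 0⟩ 0 0)) (.pos 51 .mp ⟨⟨204369605, 0, 0, 0, 0, 122924588, 0, 0, 0, ⟨0, 0⟩, 0⟩, 0, 0⟩ 0 0))) (.pos 52 .mp ⟨⟨229569491, 0, 0, 0, 0, 87699782, 0, 0, 0, ⟨0, 0⟩, 0⟩, 0, 0⟩ 0 0))) (.cut .s 12238848 (.cut .v 16809984 (.cut .d (-8192) (.pos 51 .mp ⟨⟨202982377, 0, 0, 0, 0, 137110803, 0, 0, 0, ⟨0, 0⟩, 0⟩, 0, 0⟩ 0 0) (.cut .l 131821 (.cut .d (-4096) (.pos 51 .mp ⟨⟨207103420, 0, 0, 0, 0, 129045669, 0, 0, 0, ⟨0,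 0⟩, 0⟩, 0, 0⟩ 0 0) (.cut .s 12230656 (.pos 51 .mp ⟨⟨207499048, 0, 0, 0, 0, 125107523, 0, 0, 0, ⟨0, 0⟩, 0⟩, 0, 0⟩ 0 0) (.pos 51 .mp ⟨⟨208507929, 0, 0, 0, 0, 125980450, 0, 0, 0, ⟨0, 0⟩, 0⟩, 0, 0⟩ 0 0))) (.pos 51 .mp ⟨⟨206498943, 0, 0, 0, 0, 124213293, 0, 0, 0, ⟨0, 0⟩, 0⟩, 0, 0⟩ 0 0))) (.pos 52 .mp ⟨⟨232868353, 0, 0, 0, 0, 87254477, 0, 0, 0, ⟨0, 0⟩, 0⟩, 0, 0⟩ 0 0)) (.cut .v 16809984 (.cut .d (-8192) (.pos 51 .mp ⟨⟨205116317, 0, 0, 0, 0, 138810255, 0, 0, 0, ⟨0, 0⟩, 0⟩, 0, 0⟩ 0 0) (.cut .s 12247040 (.pos 51 .mp ⟨⟨211157759, 0, 0, 0, 0, 124167087, 0, 0, 0, ⟨0, 0⟩, 0⟩, 0, 0⟩ 0 0) (.pos 51 .mp ⟨⟨212265553, 0, 0, 0, 0, 124891721, 0, 0, 0,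 ⟨0, 0⟩, 0⟩, 0, 0⟩ 0 0))) (.pos 52 .mp ⟨⟨236326796, 0, 0, 0, 0, 86615593, 0, 0, 0, ⟨0, 0⟩, 0⟩, 0, 0⟩ 0 0))))) (.pos 40 .mp ⟨⟨282878922, 0, 0, 0, 0, 0, 0, 0, 0, ⟨0, 0⟩, 0⟩, 0, 0⟩ 0 0))) (.pos 38 .mp ⟨⟨280256785, 0, 0, 0, 0, 0, 0, 0, 0, ⟨0, 0⟩, 0⟩, 0, 0⟩ 0 0))))))) (.pos 36 .mp ⟨⟨324670121, 0, 0, 0, 0, 0, 0, 0, 0, ⟨0, 0⟩, 0⟩, 0, 0⟩ 0 0)) (.void 34 ⟨⟨100000, 0, 0, 0, 0, 0, 0, 0, 0, ⟨0, 0⟩, 0⟩, 0, 0⟩ 0 0))) (.void 32 ⟨⟨100000, 0, 0, 0, 0, 0, 0, 0, 0, ⟨0, 0⟩, 0⟩, 0, 0⟩ 0 0)))) (.void 30 ⟨⟨100000, 0, 0, 0, 0, 0, 0, 0, 0, ⟨0, 0⟩, 0⟩, 0, 0⟩ 0 0))) (.void 28 ⟨⟨100000, 0, 0, 0, 0, 0, 0, 0, 0, ⟨0, 0⟩, 0⟩, 0, 0⟩ 0 0))) (.void 26 ⟨⟨100000, 0,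 0, 0, 0, 0, 0, 0, 0, ⟨0, 0⟩, 0⟩, 0, 0⟩ 0 0)) (.void 127 ⟨⟨100000, 0, 0, 0, 0, 0, 0, 0, 0, ⟨0, 0⟩, 0⟩, 0, 0⟩ 0 0)) (.void 134 ⟨⟨100000, 0, 0, 0, 0, 0, 0, 0, 0, ⟨0, 0⟩, 0⟩, 0, 0⟩ 0 0)) (.void 141 ⟨⟨95356, 0, 0, 4644, 0, 0, 0, 0, 0, ⟨0, 0⟩, 0⟩, 0, 0⟩ 0 0))) (.cut .v 16777216 (.cut .v 8388608 (.cut .v 4194304 (.cut .v 2097152 (.cut .v 1048576 (.pos 137 .pm ⟨⟨0, 0, 33873883, 0, 0, 0, 0, 0, 41475815, ⟨0, 0⟩, 1983364⟩, 0, 0⟩ 0 0) (.pos 138 .pm ⟨⟨0, 0, 27883282, 0, 0, 0, 0, 0, 0, ⟨0, 0⟩, 0⟩, 0, 48277⟩ 0 0)) (.pos 7 .pm ⟨⟨0, 0, 34522120, 0, 0, 0, 0, 0, 0, ⟨0, 0⟩, 0⟩, 0, 62070⟩ 0 0)) (.pos 5 .pm ⟨⟨0, 0, 6566697, 0, 0, 0, 0, 0, 0, ⟨0, 0⟩,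 0⟩, 0, 0⟩ 0 0)) (.pos 3 .pm ⟨⟨0, 0, 0, 0, 0, 0, 0, 0, 0, ⟨0, 0⟩, 0⟩, 0, 0⟩ 0 0)) (.cut .v 268435456 (.cut .v 67108864 (.cut .d 3346276 (.cut .v 33554432 (.cut .d 1673138 (.cut .v 25165824 (.cut .d 836569 (.cut .d 418284 (.cut .v 20971520 (.cut .d 209142 (.cut .v 18874368 (.cut .v 17825792 (.pos 31 .pp ⟨⟨191786774, 0, 0, 0, 0, 0, 0, 0, 0, ⟨0, 0⟩, 0⟩, 6580370, 0⟩ 0 0) (.pos 32 .pp ⟨⟨282849010, 0, 0, 0, 0, 0, 0, 0, 0, ⟨0, 0⟩, 0⟩, 0, 0⟩ 0 0)) (.pos 30 .pp ⟨⟨341906088, 0, 0, 0, 0, 0, 0, 0, 0, ⟨0, 0⟩, 0⟩, 0, 0⟩ 0 0)) (.pos 27 .pp ⟨⟨213848032, 0, 0, 0, 0, 0, 0, 0, 0, ⟨0, 0⟩, 0⟩, 0, 30849⟩ 0 0)) (.cut .d 209142 (.void 28 ⟨⟨0, 0, 0, 0, 0,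 0, 0, 0, 0, ⟨0, 0⟩, 0⟩, 100000, 0⟩ 0 0) (.pos 28 .pp ⟨⟨0, 0, 0, 0, 0, 0, 0, 0, 0, ⟨0, 0⟩, 0⟩, 40369619, 0⟩ 0 0))) (.pos 25 .pp ⟨⟨0, 0, 0, 0, 0, 0, 0, 0, 0, ⟨0, 0⟩, 0⟩, 26299728, 77686⟩ 0 0)) (.pos 25 .pp ⟨⟨0, 0, 0, 0, 0, 0, 0, 0, 0, ⟨0, 0⟩, 0⟩, 0, 315846⟩ 0 0)) (.cut .d 836569 (.pos 26 .pp ⟨⟨0, 0, 0, 0, 0, 0, 0, 0, 0, ⟨0, 0⟩, 0⟩, 61070431, 0⟩ 0 0) (.pos 26 .pp ⟨⟨0, 0, 0, 0, 0, 0, 150988, 0, 0, ⟨0, 0⟩, 0⟩, 30168889, 0⟩ 0 0))) (.pos 24 .pp ⟨⟨0, 0, 0, 0, 0, 0, 0, 0, 0, ⟨0, 0⟩, 0⟩, 0, 350940⟩ 0 0)) (.cut .d 1673138 (.cut .v 50331648 (.pos 128 .pp ⟨⟨0, 0, 0, 0, 0, 0, 0, 0, 0, ⟨0, 0⟩, 0⟩, 91627251, 0⟩ 0 0) (.void 129 ⟨⟨0, 0, 0, 0, 0,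 0, 0, 0, 0, ⟨0, 0⟩, 0⟩, 100000, 0⟩ 0 0)) (.pos 127 .pp ⟨⟨0, 0, 0, 0, 0, 0, 0, 0, 0, ⟨0, 0⟩, 0⟩, 43617444, 0⟩ 0 0))) (.pos 126 .pp ⟨⟨0, 0, 0, 0, 0, 0, 0, 0, 0, ⟨0, 0⟩, 0⟩, 0, 263205⟩ 0 0)) (.void 134 ⟨⟨0, 0, 0, 45038, 0, 0, 0, 0, 0, ⟨0, 0⟩, 0⟩, 54962, 0⟩ 0 0)) (.void 141 ⟨⟨0, 0, 0, 0, 0, 0, 0, 0, 0, ⟨0, 0⟩, 0⟩, 100000, 0⟩ 0 0)))),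
    by decide +kernel⟩

def covers19 : cell.Covers Vale.Agent.P237.Petty.Cor.Grid.N14.table row19.1 :=
  ⟨(.cut .d 0 (.cut .v 16777216 (.cut .d (-8388608) (.void 1 ⟨⟨0, 0, 0, 0, 0, 100000, 0, 0, 0, ⟨0, 0⟩, 0⟩, 0, 0⟩ 0 0) (.cut .d (-4194304) (.void 1 ⟨⟨0, 0, 0, 0, 0, 100000, 0, 0, 0, ⟨0, 0⟩, 0⟩, 0, 0⟩ 0 0) (.cut .d (-2097152) (.void 1 ⟨⟨0, 0, 0, 0, 0, 100000, 0, 0, 0, ⟨0, 0⟩, 0⟩, 0, 0⟩ 0 0) (.cut .d (-1048576) (.void 1 ⟨⟨0, 0, 0, 0, 0, 100000, 0, 0, 0, ⟨0, 0⟩, 0⟩, 0, 0⟩ 0 0) (.cut .d (-524288) (.void 1 ⟨⟨0, 0, 0, 0, 0, 100000, 0, 0, 0, ⟨0, 0⟩, 0⟩, 0, 0⟩ 0 0) (.cut .d (-262144) (.void 1 ⟨⟨0, 0, 0, 0, 0, 100000, 0, 0, 0, ⟨0, 0⟩, 0⟩,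 0, 0⟩ 0 0) (.cut .d (-131072) (.void 1 ⟨⟨0, 0, 0, 0, 0, 100000, 0, 0, 0, ⟨0, 0⟩, 0⟩, 0, 0⟩ 0 0) (.cut .d (-65536) (.void 1 ⟨⟨0, 0, 0, 0, 0, 100000, 0, 0, 0, ⟨0, 0⟩, 0⟩, 0, 0⟩ 0 0) (.cut .d (-32768) (.void 1 ⟨⟨0, 0, 0, 0, 0, 100000, 0, 0, 0, ⟨0, 0⟩, 0⟩, 0, 0⟩ 0 0) (.cut .d (-16384) (.void 1 ⟨⟨0, 0, 0, 0, 0, 100000, 0, 0, 0, ⟨0, 0⟩, 0⟩, 0, 0⟩ 0 0) (.cut .v 8388608 (.cut .v 4194304 (.void 4 ⟨⟨0, 0, 100000, 0, 0, 0, 0, 0, 0, ⟨0, 0⟩, 0⟩, 0, 0⟩ 0 0) (.pos 5 .mm ⟨⟨0, 0, 8062648, 0, 0, 180792573, 0, 0, 0, ⟨0, 0⟩, 0⟩, 0, 0⟩ 0 0)) (.cut .s 12386304 (.pos 3 .mm ⟨⟨0, 0, 0, 0, 0, 491264865, 0, 0, 0, ⟨0, 0⟩, 0⟩, 0, 0⟩ 0 0) (.pos 3 .mm ⟨⟨0, 0,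 0, 0, 0, 536471303, 0, 0, 0, ⟨0, 0⟩, 0⟩, 0, 0⟩ 0 0))))))))))))) (.cut .v 268435456 (.cut .v 67108864 (.cut .v 33554432 (.cut .v 25165824 (.cut .d (-8388608) (.void 25 ⟨⟨100000, 0, 0, 0, 0, 0, 0, 0, 0, ⟨0, 0⟩, 0⟩, 0, 0⟩ 0 0) (.cut .v 20971520 (.cut .d (-4194304) (.void 27 ⟨⟨100000, 0, 0, 0, 0, 0, 0, 0, 0, ⟨0, 0⟩, 0⟩, 0, 0⟩ 0 0) (.cut .d (-2097152) (.void 27 ⟨⟨100000, 0, 0, 0, 0, 0, 0, 0, 0, ⟨0, 0⟩, 0⟩, 0, 0⟩ 0 0) (.cut .v 18874368 (.cut .d (-1048576) (.void 29 ⟨⟨100000, 0, 0, 0, 0, 0, 0, 0, 0, ⟨0, 0⟩, 0⟩, 0, 0⟩ 0 0) (.cut .v 17825792 (.cut .d (-524288) (.void 31 ⟨⟨100000, 0, 0, 0, 0, 0, 0, 0, 0, ⟨0, 0⟩, 0⟩, 0, 0⟩ 0 0) (.cut .v 17301504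 (.cut .d (-262144) (.void 33 ⟨⟨100000, 0, 0, 0, 0, 0, 0, 0, 0, ⟨0, 0⟩, 0⟩, 0, 0⟩ 0 0) (.cut .d (-131072) (.void 33 ⟨⟨100000, 0, 0, 0, 0, 0, 0, 0, 0, ⟨0, 0⟩, 0⟩, 0, 0⟩ 0 0) (.cut .d (-65536) (.void 33 ⟨⟨100000, 0, 0, 0, 0, 0, 0, 0, 0, ⟨0, 0⟩, 0⟩, 0, 0⟩ 0 0) (.cut .d (-32768) (.void 33 ⟨⟨100000, 0, 0, 0, 0, 0, 0, 0, 0, ⟨0, 0⟩, 0⟩, 0, 0⟩ 0 0) (.cut .d (-16384) (.void 33 ⟨⟨0, 0, 0, 0, 0, 100000, 0, 0, 0, ⟨0, 0⟩, 0⟩, 0, 0⟩ 0 0) (.cut .v 17039360 (.cut .v 16908288 (.cut .s 12386304 (.cut .v 16842752 (.cut .s 12320768 (.cut .s 12288000 (.cut .s 12271616 (.cut .v 16809984 (.cut .d (-8192) (.pos 51 .mp ⟨⟨207273590, 0, 0, 0, 0, 140558366,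 0, 0, 0, ⟨0, 0⟩, 0⟩, 0, 0⟩ 0 0) (.cut .s 12263424 (.pos 51 .mp ⟨⟨213379965, 0, 0, 0, 0, 125624363, 0, 0, 0, ⟨0, 0⟩, 0⟩, 0, 0⟩ 0 0) (.pos 51 .mp ⟨⟨214499942, 0, 0, 0, 0, 126149920, 0, 0, 0, ⟨0, 0⟩, 0⟩, 0, 0⟩ 0 0))) (.pos 52 .mp ⟨⟨235790605, 0, 0, 0, 0, 92432802, 0, 0, 0, ⟨0, 0⟩, 0⟩, 0, 0⟩ 0 0)) (.cut .v 16809984 (.cut .d (-8192) (.pos 51 .mp ⟨⟨209459456, 0, 0, 0, 0, 141684669, 0, 0, 0, ⟨0, 0⟩, 0⟩, 0, 0⟩ 0 0) (.cut .s 12279808 (.pos 51 .mp ⟨⟨215626149, 0, 0, 0, 0, 126686053, 0, 0, 0, ⟨0, 0⟩, 0⟩, 0, 0⟩ 0 0) (.cut .s 12283904 (.pos 51 .mp ⟨⟨216954238, 0, 0, 0, 0, 126553632, 0, 0, 0, ⟨0, 0⟩, 0⟩, 0, 0⟩ 0 0) (.pos 51 .mp ⟨⟨217404963, 0,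 0, 0, 0, 127018226, 0, 0, 0, ⟨0, 0⟩, 0⟩, 0, 0⟩ 0 0)))) (.pos 52 .mp ⟨⟨237324087, 0, 0, 0, 0, 94696262, 0, 0, 0, ⟨0, 0⟩, 0⟩, 0, 0⟩ 0 0))) (.cut .s 12304384 (.cut .v 16809984 (.cut .d (-8192) (.pos 51 .mp ⟨⟨211669334, 0, 0, 0, 0, 142865983, 0, 0, 0, ⟨0, 0⟩, 0⟩, 0, 0⟩ 0 0) (.cut .l 131821 (.cut .d (-4096) (.pos 51 .mp ⟨⟨215913015, 0, 0, 0, 0, 134522444, 0, 0, 0, ⟨0, 0⟩, 0⟩, 0, 0⟩ 0 0) (.cut .s 12296192 (.pos 51 .mp ⟨⟨216382887, 0, 0, 0, 0, 130236444, 0, 0, 0, ⟨0, 0⟩, 0⟩, 0, 0⟩ 0 0) (.pos 51 .mp ⟨⟨217568938, 0, 0, 0, 0, 130722385, 0, 0, 0, ⟨0, 0⟩, 0⟩, 0, 0⟩ 0 0))) (.pos 51 .mp ⟨⟨216469868, 0, 0, 0, 0, 127855656, 0, 0, 0, ⟨0, 0⟩, 0⟩,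 0, 0⟩ 0 0))) (.pos 52 .mp ⟨⟨238990356, 0, 0, 0, 0, 96826789, 0, 0, 0, ⟨0, 0⟩, 0⟩, 0, 0⟩ 0 0)) (.cut .v 16809984 (.cut .d (-8192) (.pos 51 .mp ⟨⟨213903475, 0, 0, 0, 0, 144102985, 0, 0, 0, ⟨0, 0⟩, 0⟩, 0, 0⟩ 0 0) (.cut .l 131821 (.cut .v 16793600 (.cut .d (-4096) (.pos 57 .mp ⟨⟨214586359, 0, 0, 0, 0, 142335523, 0, 0, 0, ⟨0, 0⟩, 0⟩, 0, 0⟩ 0 0) (.cut .s 12312576 (.pos 57 .mp ⟨⟨218293092, 0, 0, 0, 0, 132007977, 0, 0, 0, ⟨0, 0⟩, 0⟩, 0, 0⟩ 0 0) (.pos 57 .mp ⟨⟨219437082, 0, 0, 0, 0, 132620663, 0, 0, 0, ⟨0, 0⟩, 0⟩, 0, 0⟩ 0 0))) (.pos 58 .mp ⟨⟨242194573, 0, 0, 0, 0, 95777818, 0, 0, 0, ⟨0, 0⟩, 0⟩, 0, 0⟩ 0 0)) (.pos 51 .mp ⟨⟨218753813, 0, 0,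 0, 0, 129162351, 0, 0, 0, ⟨0, 0⟩, 0⟩, 0, 0⟩ 0 0))) (.pos 52 .mp ⟨⟨240794705, 0, 0, 0, 0, 98815568, 0, 0, 0, ⟨0, 0⟩, 0⟩, 0, 0⟩ 0 0)))) (.cut .s 12353536 (.cut .s 12337152 (.cut .v 16809984 (.cut .d (-8192) (.pos 51 .mp ⟨⟨216162133, 0, 0, 0, 0, 145396358, 0, 0, 0, ⟨0, 0⟩, 0⟩, 0, 0⟩ 0 0) (.cut .l 131821 (.cut .v 16793600 (.cut .d (-4096) (.pos 57 .mp ⟨⟨216842754, 0, 0, 0, 0, 143625314, 0, 0, 0, ⟨0, 0⟩, 0⟩, 0, 0⟩ 0 0) (.cut .s 12328960 (.pos 57 .mp ⟨⟨220587385, 0, 0, 0, 0, 133244132, 0, 0, 0, ⟨0, 0⟩, 0⟩, 0, 0⟩ 0 0) (.cut .s 12333056 (.pos 57 .mp ⟨⟨222615495, 0, 0, 0, 0, 132077333, 0, 0, 0, ⟨0, 0⟩, 0⟩, 0, 0⟩ 0 0) (.pos 57 .mp ⟨⟨223124469,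 0, 0, 0, 0, 132511855, 0, 0, 0, ⟨0, 0⟩, 0⟩, 0, 0⟩ 0 0)))) (.pos 58 .mp ⟨⟨244167513, 0, 0, 0, 0, 97562716, 0, 0, 0, ⟨0, 0⟩, 0⟩, 0, 0⟩ 0 0)) (.pos 51 .mp ⟨⟨221063000, 0, 0, 0, 0, 130489767, 0, 0, 0, ⟨0, 0⟩, 0⟩, 0, 0⟩ 0 0))) (.cut .s 12328960 (.pos 52 .mp ⟨⟨234688912, 0, 0, 0, 0, 112191651, 0, 0, 0, ⟨0, 0⟩, 0⟩, 0, 0⟩ 0 0) (.pos 52 .mp ⟨⟨235625248, 0, 0, 0, 0, 113196437, 0, 0, 0, ⟨0, 0⟩, 0⟩, 0, 0⟩ 0 0))) (.cut .v 16809984 (.cut .d (-8192) (.pos 51 .mp ⟨⟨218445566, 0, 0, 0, 0, 146746796, 0, 0, 0, ⟨0, 0⟩, 0⟩, 0, 0⟩ 0 0) (.cut .l 131821 (.cut .v 16793600 (.cut .d (-4096) (.pos 57 .mp ⟨⟨219123939, 0, 0, 0, 0, 144972036, 0, 0, 0, ⟨0, 0⟩,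 0⟩, 0, 0⟩ 0 0) (.cut .l 65910 (.cut .d (-2048) (.pos 57 .mp ⟨⟨222406779, 0, 0, 0, 0, 138493348, 0, 0, 0, ⟨0, 0⟩, 0⟩, 0, 0⟩ 0 0) (.cut .s 12345344 (.pos 57 .mp ⟨⟨222141480, 0, 0, 0, 0, 135754454, 0, 0, 0, ⟨0, 0⟩, 0⟩, 0, 0⟩ 0 0) (.pos 57 .mp ⟨⟨223304827, 0, 0, 0, 0, 136420591, 0, 0, 0, ⟨0, 0⟩, 0⟩, 0, 0⟩ 0 0))) (.pos 57 .mp ⟨⟨222752555, 0, 0, 0, 0, 132578360, 0, 0, 0, ⟨0, 0⟩, 0⟩, 0, 0⟩ 0 0))) (.pos 58 .mp ⟨⟨246289710, 0, 0, 0, 0, 99186890, 0, 0, 0, ⟨0, 0⟩, 0⟩, 0, 0⟩ 0 0)) (.pos 51 .mp ⟨⟨223397693, 0, 0, 0, 0, 131837100, 0, 0, 0, ⟨0, 0⟩, 0⟩, 0, 0⟩ 0 0))) (.cut .s 12345344 (.pos 52 .mp ⟨⟨236598844, 0, 0, 0, 0, 114161307, 0, 0, 0, ⟨0,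 0⟩, 0⟩, 0, 0⟩ 0 0) (.pos 52 .mp ⟨⟨237610384, 0, 0, 0, 0, 115085112, 0, 0, 0, ⟨0, 0⟩, 0⟩, 0, 0⟩ 0 0)))) (.cut .s 12369920 (.cut .v 16809984 (.cut .d (-8192) (.cut .s 12361728 (.pos 51 .mp ⟨⟨220754034, 0, 0, 0, 0, 146484034, 0, 0, 0, ⟨0, 0⟩, 0⟩, 0, 0⟩ 0 0) (.pos 51 .mp ⟨⟨221917740, 0, 0, 0, 0, 147195688, 0, 0, 0, ⟨0, 0⟩, 0⟩, 0, 0⟩ 0 0)) (.cut .l 131821 (.cut .s 12361728 (.cut .s 12357632 (.pos 51 .mp ⟨⟨226642088, 0, 0, 0, 0, 133123924, 0, 0, 0, ⟨0, 0⟩, 0⟩, 0, 0⟩ 0 0) (.pos 51 .mp ⟨⟨227238070, 0, 0, 0, 0, 133455505, 0, 0, 0, ⟨0, 0⟩, 0⟩, 0, 0⟩ 0 0)) (.cut .s 12365824 (.pos 51 .mp ⟨⟨227835701, 0, 0, 0, 0, 133789337, 0, 0, 0, ⟨0, 0⟩,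 0⟩, 0, 0⟩ 0 0) (.pos 51 .mp ⟨⟨228434987, 0, 0, 0, 0, 134125415, 0, 0, 0, ⟨0, 0⟩, 0⟩, 0, 0⟩ 0 0))) (.pos 51 .mp ⟨⟨225758164, 0, 0, 0, 0, 133203539, 0, 0, 0, ⟨0, 0⟩, 0⟩, 0, 0⟩ 0 0))) (.cut .s 12361728 (.pos 52 .mp ⟨⟨238660556, 0, 0, 0, 0, 115966696, 0, 0, 0, ⟨0, 0⟩, 0⟩, 0, 0⟩ 0 0) (.pos 52 .mp ⟨⟨239750052, 0, 0, 0, 0, 116804891, 0, 0, 0, ⟨0, 0⟩, 0⟩, 0, 0⟩ 0 0))) (.cut .d (-8192) (.cut .d (-12288) (.pos 39 .mp ⟨⟨225514692, 0, 0, 0, 0, 148473704, 0, 0, 0, ⟨0, 0⟩, 0⟩, 0, 0⟩ 0 0) (.cut .v 16809984 (.cut .s 12378112 (.pos 51 .mp ⟨⟨223087804, 0, 0, 0, 0, 147922006, 0, 0, 0, ⟨0, 0⟩, 0⟩, 0, 0⟩ 0 0) (.pos 51 .mp ⟨⟨224264261, 0, 0, 0, 0, 148663079,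 0, 0, 0, ⟨0, 0⟩, 0⟩, 0, 0⟩ 0 0)) (.pos 52 .mp ⟨⟨248022332, 0, 0, 0, 0, 107005199, 0, 0, 0, ⟨0, 0⟩, 0⟩, 0, 0⟩ 0 0))) (.cut .v 16809984 (.cut .l 131821 (.cut .s 12378112 (.cut .s 12374016 (.pos 51 .mp ⟨⟨229035931, 0, 0, 0, 0, 134463735, 0, 0, 0, ⟨0, 0⟩, 0⟩, 0, 0⟩ 0 0) (.pos 51 .mp ⟨⟨229638537, 0, 0, 0, 0, 134804292, 0, 0, 0, ⟨0, 0⟩, 0⟩, 0, 0⟩ 0 0)) (.cut .s 12382208 (.pos 51 .mp ⟨⟨230242811, 0, 0, 0, 0, 135147081, 0, 0, 0, ⟨0, 0⟩, 0⟩, 0, 0⟩ 0 0) (.pos 51 .mp ⟨⟨230848756, 0, 0, 0, 0, 135492100, 0, 0, 0, ⟨0, 0⟩, 0⟩, 0, 0⟩ 0 0))) (.pos 51 .mp ⟨⟨228144686, 0, 0, 0, 0, 134588267, 0, 0, 0, ⟨0, 0⟩, 0⟩, 0, 0⟩ 0 0)) (.pos 52 .mp ⟨⟨307793985,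 0, 0, 0, 0, 0, 0, 0, 0, ⟨0, 0⟩, 0⟩, 0, 0⟩ 0 0)))))) (.pos 40 .mp ⟨⟨307496614, 0, 0, 0, 0, 0, 0, 0, 0, ⟨0, 0⟩, 0⟩, 0, 0⟩ 0 0)) (.cut .v 16842752 (.cut .s 12451840 (.cut .s 12419072 (.cut .s 12402688 (.cut .d (-8192) (.cut .d (-12288) (.pos 39 .mp ⟨⟨227907706, 0, 0, 0, 0, 149980896, 0, 0, 0, ⟨0, 0⟩, 0⟩, 0, 0⟩ 0 0) (.cut .v 16809984 (.cut .s 12394496 (.pos 51 .mp ⟨⟨225447145, 0, 0, 0, 0, 149418999, 0, 0, 0, ⟨0, 0⟩, 0⟩, 0, 0⟩ 0 0) (.pos 51 .mp ⟨⟨226636490, 0, 0, 0, 0, 150189857, 0, 0, 0, ⟨0, 0⟩, 0⟩, 0, 0⟩ 0 0)) (.pos 52 .mp ⟨⟨250484966, 0, 0, 0, 0, 108326327, 0, 0, 0, ⟨0, 0⟩, 0⟩, 0, 0⟩ 0 0))) (.cut .v 16809984 (.cut .l 131821 (.cut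 .s 12394496 (.cut .s 12390400 (.pos 51 .mp ⟨⟨231456377, 0, 0, 0, 0, 135839341, 0, 0, 0, ⟨0, 0⟩, 0⟩, 0, 0⟩ 0 0) (.pos 51 .mp ⟨⟨232065679, 0, 0, 0, 0, 136188802, 0, 0, 0, ⟨0, 0⟩, 0⟩, 0, 0⟩ 0 0)) (.cut .s 12398592 (.pos 51 .mp ⟨⟨232676665, 0, 0, 0, 0, 136540478, 0, 0, 0, ⟨0, 0⟩, 0⟩, 0, 0⟩ 0 0) (.pos 51 .mp ⟨⟨233289341, 0, 0, 0, 0, 136894364, 0, 0, 0, ⟨0, 0⟩, 0⟩, 0, 0⟩ 0 0))) (.pos 51 .mp ⟨⟨230557538, 0, 0, 0, 0, 135990460, 0, 0, 0, ⟨0, 0⟩, 0⟩, 0, 0⟩ 0 0)) (.pos 52 .mp ⟨⟨310924363, 0, 0, 0, 0, 0, 0, 0, 0, ⟨0, 0⟩, 0⟩, 0, 0⟩ 0 0))) (.cut .d (-8192) (.cut .d (-12288) (.pos 39 .mp ⟨⟨230327079, 0, 0, 0, 0, 151547458, 0, 0, 0, ⟨0, 0⟩, 0⟩,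 0, 0⟩ 0 0) (.cut .v 16809984 (.cut .s 12410880 (.pos 51 .mp ⟨⟨227832331, 0, 0, 0, 0, 150975746, 0, 0, 0, ⟨0, 0⟩, 0⟩, 0, 0⟩ 0 0) (.pos 51 .mp ⟨⟨229034701, 0, 0, 0, 0, 151776760, 0, 0, 0, ⟨0, 0⟩, 0⟩, 0, 0⟩ 0 0)) (.pos 52 .mp ⟨⟨253114748, 0, 0, 0, 0, 109456950, 0, 0, 0, ⟨0, 0⟩, 0⟩, 0, 0⟩ 0 0))) (.cut .v 16809984 (.cut .l 131821 (.cut .s 12410880 (.cut .s 12406784 (.pos 51 .mp ⟨⟨233903712, 0, 0, 0, 0, 137250456, 0, 0, 0, ⟨0, 0⟩, 0⟩, 0, 0⟩ 0 0) (.pos 51 .mp ⟨⟨234519780, 0, 0, 0, 0, 137608748, 0, 0, 0, ⟨0, 0⟩, 0⟩, 0, 0⟩ 0 0)) (.cut .s 12414976 (.pos 51 .mp ⟨⟨235137552, 0, 0, 0, 0, 137969236, 0, 0, 0, ⟨0, 0⟩, 0⟩, 0, 0⟩ 0 0) (.pos 51 .mp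 ⟨⟨235757031, 0, 0, 0, 0, 138331915, 0, 0, 0, ⟨0, 0⟩, 0⟩, 0, 0⟩ 0 0))) (.pos 51 .mp ⟨⟨232997002, 0, 0, 0, 0, 137409286, 0, 0, 0, ⟨0, 0⟩, 0⟩, 0, 0⟩ 0 0)) (.pos 52 .mp ⟨⟨314112762, 0, 0, 0, 0, 0, 0, 0, 0, ⟨0, 0⟩, 0⟩, 0, 0⟩ 0 0)))) (.cut .s 12435456 (.cut .d (-8192) (.cut .d (-12288) (.pos 39 .mp ⟨⟨232773096, 0, 0, 0, 0, 153174129, 0, 0, 0, ⟨0, 0⟩, 0⟩, 0, 0⟩ 0 0) (.cut .v 16809984 (.cut .s 12427264 (.pos 51 .mp ⟨⟨230243638, 0, 0, 0, 0, 152592993, 0, 0, 0, ⟨0, 0⟩, 0⟩, 0, 0⟩ 0 0) (.pos 51 .mp ⟨⟨231459175, 0, 0, 0, 0, 153424540, 0, 0, 0, ⟨0, 0⟩, 0⟩, 0, 0⟩ 0 0)) (.pos 52 .mp ⟨⟨255917364, 0, 0, 0, 0, 110387413, 0, 0, 0, ⟨0, 0⟩, 0⟩, 0, 0⟩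 0 0))) (.cut .v 16809984 (.cut .l 131821 (.cut .s 12427264 (.cut .s 12423168 (.pos 51 .mp ⟨⟨236378223, 0, 0, 0, 0, 138696782, 0, 0, 0, ⟨0, 0⟩, 0⟩, 0, 0⟩ 0 0) (.pos 51 .mp ⟨⟨237001132, 0, 0, 0, 0, 139063829, 0, 0, 0, ⟨0, 0⟩, 0⟩, 0, 0⟩ 0 0)) (.cut .s 12431360 (.pos 51 .mp ⟨⟨237625762, 0, 0, 0, 0, 139433054, 0, 0, 0, ⟨0, 0⟩, 0⟩, 0, 0⟩ 0 0) (.pos 51 .mp ⟨⟨238252118, 0, 0, 0, 0, 139804451, 0, 0, 0, ⟨0, 0⟩, 0⟩, 0, 0⟩ 0 0))) (.pos 51 .mp ⟨⟨235463367, 0, 0, 0, 0, 138843906, 0, 0, 0, ⟨0, 0⟩, 0⟩, 0, 0⟩ 0 0)) (.pos 52 .mp ⟨⟨317359780, 0, 0, 0, 0, 0, 0, 0, 0, ⟨0, 0⟩, 0⟩, 0, 0⟩ 0 0))) (.cut .d (-8192) (.cut .d (-12288) (.pos 39 .mp ⟨⟨235246044,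 0, 0, 0, 0, 154861659, 0, 0, 0, ⟨0, 0⟩, 0⟩, 0, 0⟩ 0 0) (.cut .v 16809984 (.cut .s 12443648 (.pos 51 .mp ⟨⟨232681349, 0, 0, 0, 0, 154271497, 0, 0, 0, ⟨0, 0⟩, 0⟩, 0, 0⟩ 0 0) (.pos 51 .mp ⟨⟨233910196, 0, 0, 0, 0, 155133959, 0, 0, 0, ⟨0, 0⟩, 0⟩, 0, 0⟩ 0 0)) (.pos 52 .mp ⟨⟨258898567, 0, 0, 0, 0, 111107923, 0, 0, 0, ⟨0, 0⟩, 0⟩, 0, 0⟩ 0 0))) (.cut .v 16809984 (.cut .l 131821 (.cut .s 12443648 (.cut .s 12439552 (.pos 51 .mp ⟨⟨238880205, 0, 0, 0, 0, 140178015, 0, 0, 0, ⟨0, 0⟩, 0⟩, 0, 0⟩ 0 0) (.pos 51 .mp ⟨⟨239510027, 0, 0, 0, 0, 140553741, 0, 0, 0, ⟨0, 0⟩, 0⟩, 0, 0⟩ 0 0)) (.cut .s 12447744 (.pos 51 .mp ⟨⟨240141589, 0, 0, 0, 0, 140931625,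 0, 0, 0, ⟨0, 0⟩, 0⟩, 0, 0⟩ 0 0) (.pos 51 .mp ⟨⟨240774897, 0, 0, 0, 0, 141311660, 0, 0, 0, ⟨0, 0⟩, 0⟩, 0, 0⟩ 0 0))) (.pos 51 .mp ⟨⟨237956922, 0, 0, 0, 0, 140293476, 0, 0, 0, ⟨0, 0⟩, 0⟩, 0, 0⟩ 0 0)) (.pos 52 .mp ⟨⟨320666019, 0, 0, 0, 0, 0, 0, 0, 0, ⟨0, 0⟩, 0⟩, 0, 0⟩ 0 0))))) (.cut .s 12484608 (.cut .s 12468224 (.cut .d (-8192) (.cut .s 12460032 (.cut .s 12455936 (.pos 39 .mp ⟨⟨238563185, 0, 0, 0, 0, 149295343, 0, 0, 0, ⟨0, 0⟩, 0⟩, 0, 0⟩ 0 0) (.pos 39 .mp ⟨⟨239234098, 0, 0, 0, 0, 149627404, 0, 0, 0, ⟨0, 0⟩, 0⟩, 0, 0⟩ 0 0)) (.pos 39 .mp ⟨⟨239543973, 0, 0, 0, 0, 151834467, 0, 0, 0, ⟨0, 0⟩, 0⟩, 0, 0⟩ 0 0)) (.cut .v 16809984 (.cut .l 131821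 (.cut .s 12460032 (.cut .s 12455936 (.pos 51 .mp ⟨⟨241409954, 0, 0, 0, 0, 141693843, 0, 0, 0, ⟨0, 0⟩, 0⟩, 0, 0⟩ 0 0) (.pos 51 .mp ⟨⟨242046765, 0, 0, 0, 0, 142078168, 0, 0, 0, ⟨0, 0⟩, 0⟩, 0, 0⟩ 0 0)) (.cut .s 12464128 (.pos 51 .mp ⟨⟨242685336, 0, 0, 0, 0, 142464630, 0, 0, 0, ⟨0, 0⟩, 0⟩, 0, 0⟩ 0 0) (.pos 51 .mp ⟨⟨243325670, 0, 0, 0, 0, 142853224, 0, 0, 0, ⟨0, 0⟩, 0⟩, 0, 0⟩ 0 0))) (.pos 51 .mp ⟨⟨240477963, 0, 0, 0, 0, 141757141, 0, 0, 0, ⟨0, 0⟩, 0⟩, 0, 0⟩ 0 0)) (.pos 52 .mp ⟨⟨324032093, 0, 0, 0, 0, 0, 0, 0, 0, ⟨0, 0⟩, 0⟩, 0, 0⟩ 0 0))) (.cut .d (-8192) (.cut .s 12476416 (.pos 39 .mp ⟨⟨240916110, 0, 0, 0, 0, 152478428, 0, 0, 0, ⟨0, 0⟩,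 0⟩, 0, 0⟩ 0 0) (.pos 39 .mp ⟨⟨242311846, 0, 0, 0, 0, 153100836, 0, 0, 0, ⟨0, 0⟩, 0⟩, 0, 0⟩ 0 0)) (.cut .v 16809984 (.cut .l 131821 (.cut .v 16793600 (.cut .d (-4096) (.pos 57 .mp ⟨⟨238298107, 0, 0, 0, 0, 157881844, 0, 0, 0, ⟨0, 0⟩, 0⟩, 0, 0⟩ 0 0) (.cut .l 65910 (.cut .d (-2048) (.pos 57 .mp ⟨⟨241902682, 0, 0, 0, 0, 150682891, 0, 0, 0, ⟨0, 0⟩, 0⟩, 0, 0⟩ 0 0) (.cut .s 12476416 (.pos 57 .mp ⟨⟨241542057, 0, 0, 0, 0, 147717852, 0, 0, 0, ⟨0, 0⟩, 0⟩, 0, 0⟩ 0 0) (.pos 57 .mp ⟨⟨242811962, 0, 0, 0, 0, 148557953, 0, 0, 0, ⟨0, 0⟩, 0⟩, 0, 0⟩ 0 0))) (.pos 57 .mp ⟨⟨242250717, 0, 0, 0, 0, 144148916, 0, 0, 0, ⟨0, 0⟩, 0⟩, 0, 0⟩ 0 0))) (.pos 58 .mp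 ⟨⟨269311243, 0, 0, 0, 0, 105260544, 0, 0, 0, ⟨0, 0⟩, 0⟩, 0, 0⟩ 0 0)) (.pos 51 .mp ⟨⟨243026792, 0, 0, 0, 0, 143234041, 0, 0, 0, ⟨0, 0⟩, 0⟩, 0, 0⟩ 0 0)) (.pos 52 .mp ⟨⟨327458627, 0, 0, 0, 0, 0, 0, 0, 0, ⟨0, 0⟩, 0⟩, 0, 0⟩ 0 0)))) (.cut .s 12500992 (.cut .v 16809984 (.cut .d (-8192) (.pos 51 .mp ⟨⟨240155791, 0, 0, 0, 0, 161588366, 0, 0, 0, ⟨0, 0⟩, 0⟩, 0, 0⟩ 0 0) (.cut .l 131821 (.cut .v 16793600 (.cut .d (-4096) (.pos 57 .mp ⟨⟨240814665, 0, 0, 0, 0, 159773834, 0, 0, 0, ⟨0, 0⟩, 0⟩, 0, 0⟩ 0 0) (.cut .s 12492800 (.cut .s 12488704 (.pos 57 .mp ⟨⟨245993657, 0, 0, 0, 0, 145849754, 0, 0, 0, ⟨0, 0⟩, 0⟩, 0, 0⟩ 0 0) (.pos 57 .mp ⟨⟨246733294,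 0, 0, 0, 0, 146116521, 0, 0, 0, ⟨0, 0⟩, 0⟩, 0, 0⟩ 0 0)) (.pos 57 .mp ⟨⟨246263341, 0, 0, 0, 0, 148827669, 0, 0, 0, ⟨0, 0⟩, 0⟩, 0, 0⟩ 0 0))) (.pos 58 .mp ⟨⟨273031073, 0, 0, 0, 0, 105007146, 0, 0, 0, ⟨0, 0⟩, 0⟩, 0, 0⟩ 0 0)) (.pos 51 .mp ⟨⟨245603713, 0, 0, 0, 0, 144723305, 0, 0, 0, ⟨0, 0⟩, 0⟩, 0, 0⟩ 0 0))) (.cut .s 12492800 (.pos 52 .mp ⟨⟨261294685, 0, 0, 0, 0, 123351588, 0, 0, 0, ⟨0, 0⟩, 0⟩, 0, 0⟩ 0 0) (.pos 52 .mp ⟨⟨263110911, 0, 0, 0, 0, 123329772, 0, 0, 0, ⟨0, 0⟩, 0⟩, 0, 0⟩ 0 0))) (.cut .v 16809984 (.cut .d (-8192) (.pos 51 .mp ⟨⟨242702025, 0, 0, 0, 0, 163549952, 0, 0, 0, ⟨0, 0⟩, 0⟩, 0, 0⟩ 0 0) (.cut .l 131821 (.cut .d (-4096) (.pos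 51 .mp ⟨⟨243822376, 0, 0, 0, 0, 162118123, 0, 0, 0, ⟨0, 0⟩, 0⟩, 0, 0⟩ 0 0) (.cut .s 12509184 (.pos 51 .mp ⟨⟨248029315, 0, 0, 0, 0, 148905556, 0, 0, 0, ⟨0, 0⟩, 0⟩, 0, 0⟩ 0 0) (.pos 51 .mp ⟨⟨249336854, 0, 0, 0, 0, 149772544, 0, 0, 0, ⟨0, 0⟩, 0⟩, 0, 0⟩ 0 0))) (.pos 51 .mp ⟨⟨248209036, 0, 0, 0, 0, 146224057, 0, 0, 0, ⟨0, 0⟩, 0⟩, 0, 0⟩ 0 0))) (.pos 52 .mp ⟨⟨275230517, 0, 0, 0, 0, 108233256, 0, 0, 0, ⟨0, 0⟩, 0⟩, 0, 0⟩ 0 0))))) (.pos 40 .mp ⟨⟨333447760, 0, 0, 0, 0, 0, 0, 0, 0, ⟨0, 0⟩, 0⟩, 0, 0⟩ 0 0))) (.pos 38 .mp ⟨⟨330808391, 0, 0, 0, 0, 0, 0, 0, 0, ⟨0, 0⟩, 0⟩, 0, 0⟩ 0 0)) (.pos 36 .mp ⟨⟨348821198, 0, 0, 0, 0, 0, 0, 0, 0, ⟨0, 0⟩, 0⟩,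 0, 0⟩ 0 0))))))) (.void 34 ⟨⟨100000, 0, 0, 0, 0, 0, 0, 0, 0, ⟨0, 0⟩, 0⟩, 0, 0⟩ 0 0))) (.void 32 ⟨⟨100000, 0, 0, 0, 0, 0, 0, 0, 0, ⟨0, 0⟩, 0⟩, 0, 0⟩ 0 0))) (.void 30 ⟨⟨100000, 0, 0, 0, 0, 0, 0, 0, 0, ⟨0, 0⟩, 0⟩, 0, 0⟩ 0 0)))) (.void 28 ⟨⟨100000, 0, 0, 0, 0, 0, 0, 0, 0, ⟨0, 0⟩, 0⟩, 0, 0⟩ 0 0))) (.void 26 ⟨⟨100000, 0, 0, 0, 0, 0, 0, 0, 0, ⟨0, 0⟩, 0⟩, 0, 0⟩ 0 0)) (.void 127 ⟨⟨100000, 0, 0, 0, 0, 0, 0, 0, 0, ⟨0, 0⟩, 0⟩, 0, 0⟩ 0 0)) (.void 134 ⟨⟨100000, 0, 0, 0, 0, 0, 0, 0, 0, ⟨0, 0⟩, 0⟩, 0, 0⟩ 0 0)) (.void 141 ⟨⟨95262, 0, 0, 4738, 0, 0, 0, 0, 0, ⟨0, 0⟩, 0⟩, 0, 0⟩ 0 0))) (.cut .v 16777216 (.cut .v 8388608 (.cut .v 4194304 (.cut .v 2097152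 (.cut .v 1048576 (.pos 137 .pm ⟨⟨0, 0, 24002280, 0, 0, 0, 0, 0, 0, ⟨0, 0⟩, 0⟩, 0, 13960⟩ 0 0) (.pos 138 .pm ⟨⟨0, 0, 27919513, 0, 0, 0, 0, 0, 0, ⟨0, 0⟩, 0⟩, 0, 32924⟩ 0 0)) (.pos 7 .pm ⟨⟨0, 0, 34496571, 0, 0, 0, 0, 0, 0, ⟨0, 0⟩, 0⟩, 0, 49856⟩ 0 0)) (.pos 5 .pm ⟨⟨0, 0, 7966498, 0, 0, 0, 0, 0, 0, ⟨0, 0⟩, 0⟩, 0, 0⟩ 0 0)) (.pos 3 .pm ⟨⟨0, 0, 0, 0, 0, 0, 0, 0, 0, ⟨0, 0⟩, 0⟩, 0, 0⟩ 0 0)) (.cut .v 268435456 (.cut .v 67108864 (.cut .d 3095263 (.cut .v 33554432 (.cut .d 1547631 (.cut .v 25165824 (.cut .d 773815 (.cut .d 386907 (.cut .v 20971520 (.cut .d 193453 (.cut .v 18874368 (.cut .v 17825792 (.pos 31 .pp ⟨⟨232233877, 0, 0, 0, 0, 0, 0,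 0, 0, ⟨0, 0⟩, 0⟩, 6886071, 0⟩ 0 0) (.pos 32 .pp ⟨⟨332138423, 0, 0, 0, 0, 0, 0, 0, 0, ⟨0, 0⟩, 0⟩, 0, 0⟩ 0 0)) (.pos 30 .pp ⟨⟨401178373, 0, 0, 0, 0, 0, 0, 0, 0, ⟨0, 0⟩, 0⟩, 0, 0⟩ 0 0)) (.pos 27 .pp ⟨⟨249901510, 0, 0, 0, 0, 0, 0, 0, 0, ⟨0, 0⟩, 0⟩, 0, 26825⟩ 0 0)) (.cut .d 193453 (.void 28 ⟨⟨0, 0, 0, 0, 0, 0, 0, 0, 0, ⟨0, 0⟩, 0⟩, 100000, 0⟩ 0 0) (.pos 28 .pp ⟨⟨0, 0, 0, 0, 0, 0, 0, 0, 0, ⟨0, 0⟩, 0⟩, 47205246, 0⟩ 0 0))) (.pos 25 .pp ⟨⟨0, 0, 0, 0, 0, 0, 0, 0, 0, ⟨0, 0⟩, 0⟩, 30289974, 67393⟩ 0 0)) (.pos 25 .pp ⟨⟨0, 0, 0, 0, 0, 0, 0, 0, 0, ⟨0, 0⟩, 0⟩, 0, 260628⟩ 0 0)) (.cut .d 773815 (.pos 26 .pp ⟨⟨0, 0, 0, 0, 0, 0, 0, 0, 0, ⟨0, 0⟩, 0⟩,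 71411386, 0⟩ 0 0) (.pos 26 .pp ⟨⟨0, 0, 0, 0, 0, 0, 141478, 0, 0, ⟨0, 0⟩, 0⟩, 34372906, 0⟩ 0 0))) (.pos 24 .pp ⟨⟨0, 0, 0, 0, 0, 0, 0, 0, 0, ⟨0, 0⟩, 0⟩, 0, 289587⟩ 0 0)) (.cut .d 1547631 (.cut .v 50331648 (.pos 128 .pp ⟨⟨0, 0, 0, 0, 0, 0, 0, 0, 0, ⟨0, 0⟩, 0⟩, 106625109, 0⟩ 0 0) (.void 129 ⟨⟨0, 0, 0, 0, 0, 0, 0, 0, 0, ⟨0, 0⟩, 0⟩, 100000, 0⟩ 0 0)) (.pos 127 .pp ⟨⟨0, 0, 0, 0, 0, 0, 0, 0, 0, ⟨0, 0⟩, 0⟩, 48204677, 0⟩ 0 0))) (.pos 126 .pp ⟨⟨0, 0, 0, 0, 0, 0, 0, 0, 0, ⟨0, 0⟩, 0⟩, 0, 217190⟩ 0 0)) (.void 134 ⟨⟨0, 0, 0, 45460, 0, 0, 0, 0, 0, ⟨0, 0⟩, 0⟩, 54540, 0⟩ 0 0)) (.void 141 ⟨⟨0, 0, 0, 0, 0, 0, 0, 0, 0, ⟨0, 0⟩, 0⟩, 100000, 0⟩ 0 0)))),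
    by decide +kernel⟩

end Vale.Agent.P237.Petty.Cor.Grid.Tiny.N14
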